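import Mathlib

/-!
Row 74 (S0099): a continuous function on a ball of a normed space which is affine along all lines
whose direction is in a given nonempty open set is affine near the centre.
-/

set_option autoImplicit false

namespace Crest.Agent.R074

open Metric Set Filter Topology

section AffLoc

variable {X Y : Type*} [NormedAddCommGroup X] [NormedSpace ℝ X] [NormedAddCommGroup Y]
  [NormedSpace ℝ Y]

/-- second difference along two admissible directions vanishes -/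
theorem affLoc_para {F : X → Y} {x₁ u₁ : X} {δ ε : ℝ}
    (hline : ∀ ξ ∈ ball x₁ δ, ∀ w ∈ ball u₁ ε, ∃ A : Y, ∀ τ : ℝ, ξ + τ • w ∈ ball x₁ δ →
      F (ξ + τ • w) = F ξ + τ • A)
    {ξ w₁ w₂ : X} {s : ℝ} (hs : 0 < s) (hw₁ : w₁ ∈ ball u₁ ε) (hw₂ : w₂ ∈ ball u₁ ε)
    (hball : ∀ α β : ℝ, 0 ≤ α → α ≤ s → 0 ≤ β → β ≤ s → ξ + α • w₁ + β • w₂ ∈ ball x₁ δ) :
    F (ξ + s • w₁ + s • w₂) = F (ξ + s • w₁) + F (ξ + s • w₂) - F ξ := by
  have hξ : ξ ∈ ball x₁ δ := by
    have := hball 0 0 le_rfl hs.le le_rfl hs.le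
    simpa using this
  have hξ2 : ξ + s • w₂ ∈ ball x₁ δ := by
    have := hball 0 s le_rfl hs.le hs.le le_rfl
    simpa using this
  -- direction w₁ at ξ and at ξ + s w₂
  obtain ⟨A, hA⟩ := hline ξ hξ w₁ hw₁
  obtain ⟨A', hA'⟩ := hline (ξ + s • w₂) hξ2 w₁ hw₁
  have hg0 : ∀ α : ℝ, 0 ≤ α → α ≤ s → F (ξ + α • w₁) = F ξ + α • A := by
    intro α h0 h1
    apply hA
    have := hball α 0 h0 h1 le_rfl hs.le
    simpa using this
  have hg1 : ∀ α : ℝ, 0 ≤ α → α ≤ s → F (ξ + α • w₁ + s • w₂) = F (ξ + s • w₂) + α • A' := by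
    intro α h0 h1
    have e : ξ + α • w₁ + s • w₂ = ξ + s • w₂ + α • w₁ := by abel
    rw [e]
    apply hA'
    rw [← e]
    exact hball α s h0 h1 hs.le le_rfl
  -- direction w₂ at ξ + α w₁: the diagonal value
  have hdiag : ∀ α : ℝ, 0 ≤ α → α ≤ s → F (ξ + α • w₁ + α • w₂)
      = F ξ + α • A + (α / s) • (F (ξ + s • w₂) + α • A' - (F ξ + α • A)) := by
    intro α h0 h1
    have hm : ξ + α • w₁ ∈ ball x₁ δ := by
      have := hball α 0 h0 h1 le_rfl hs.le
      simpa using this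
    obtain ⟨B, hB⟩ := hline _ hm w₂ hw₂
    have h2 := hB s (hball α s h0 h1 hs.le le_rfl)
    have h3 := hB α (hball α α h0 h1 h0 h1)
    rw [hg1 α h0 h1, hg0 α h0 h1] at h2
    rw [h3, hg0 α h0 h1]
    have h4 : s • B = F (ξ + s • w₂) + α • A' - (F ξ + α • A) := by
      rw [h2]; abel
    rw [← h4, smul_smul, div_mul_cancel₀ α hs.ne']
  -- diagonal direction
  have hmid : (1 / 2 : ℝ) • (w₁ + w₂) ∈ ball u₁ ε := by
    rw [mem_ball, dist_eq_norm] at hw₁ hw₂ ⊢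
    have e : (1 / 2 : ℝ) • (w₁ + w₂) - u₁ = (1 / 2 : ℝ) • (w₁ - u₁) + (1 / 2 : ℝ) • (w₂ - u₁) := by
      rw [← smul_add, ← sub_eq_zero]
      have : w₁ - u₁ + (w₂ - u₁) = w₁ + w₂ - (2 : ℝ) • u₁ := by rw [two_smul]; abel
      rw [this, smul_sub, smul_smul]
      norm_num
    rw [e]
    refine (norm_add_le _ _).trans_lt ?_
    rw [norm_smul, norm_smul, Real.norm_of_nonneg (by norm_num)]
    linarith
  obtain ⟨C, hC⟩ := hline ξ hξ _ hmid
  have hdiag2 : ∀ α : ℝ, 0 ≤ α → α ≤ s → F (ξ + α • w₁ + α • w₂) = F ξ + (2 * α) • C := by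
    intro α h0 h1
    have e : ξ + α • w₁ + α • w₂ = ξ + (2 * α) • ((1 / 2 : ℝ) • (w₁ + w₂)) := by
      rw [smul_smul]
      have : 2 * α * (1 / 2) = α := by ring
      rw [this, smul_add]; abel
    rw [e]
    apply hC
    rw [← e]
    exact hball α α h0 h1 h0 h1
  -- compare at s and at s/2
  have h1 := (hdiag s hs.le le_rfl).symm.trans (hdiag2 s hs.le le_rfl)
  have h2 := (hdiag (s / 2) (by positivity) (by linarith)).symm.trans
    (hdiag2 (s / 2) (by positivity) (by linarith))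
  rw [div_self hs.ne', one_smul] at h1
  have h3 : s / 2 / s = 1 / 2 := by field_simp
  rw [h3] at h2
  -- the mixed term vanishes
  have h4 : s • (A' - A) = 0 := by
    have e1 : F ξ + s • A + (F (ξ + s • w₂) + s • A' - (F ξ + s • A)) - F ξ = (2 * s) • C := by
      rw [h1]; abel
    have e2 : (2 : ℝ) • (F ξ + (s / 2) • A + (1 / 2 : ℝ) • (F (ξ + s • w₂) + (s / 2) • A'
        - (F ξ + (s / 2) • A)) - F ξ) = (2 * s) • C := by
      rw [h2]
      have : F ξ + (2 * (s / 2)) • C - F ξ = s • C := by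
        have h5 : 2 * (s / 2) = s := by ring
        rw [h5]; abel
      rw [this, smul_smul]
    have e3 := e1.trans e2.symm
    have e4 : F ξ + s • A + (F (ξ + s • w₂) + s • A' - (F ξ + s • A)) - F ξ
        - (2 : ℝ) • (F ξ + (s / 2) • A + (1 / 2 : ℝ) • (F (ξ + s • w₂) + (s / 2) • A'
        - (F ξ + (s / 2) • A)) - F ξ) = (1 / 2 : ℝ) • (s • (A' - A)) := by
      module
    rw [e3, sub_self] at e4
    have := e4.symm
    rcases smul_eq_zero.mp this with h | h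
    · norm_num at h
    · exact h
  have h5 : A' = A := by
    rcases smul_eq_zero.mp h4 with h | h
    · exact absurd h hs.ne'
    · exact sub_eq_zero.mp h
  rw [hg1 s hs.le le_rfl, hg0 s hs.le le_rfl, h5]
  abel

/-- LEMMA AL. -/
theorem affLoc {F : X → Y} {x₁ u₁ : X} {δ ε : ℝ} (hδ : 0 < δ) (hε : 0 < ε)
    (hc : ContinuousAt F x₁)
    (hline : ∀ ξ ∈ ball x₁ δ, ∀ w ∈ ball u₁ ε, ∃ A : Y, ∀ τ : ℝ, ξ + τ • w ∈ ball x₁ δ →
      F (ξ + τ • w) = F ξ + τ • A) :
    ∃ T : X →L[ℝ] Y, ∃ r : ℝ, 0 < r ∧ r ≤ δ ∧ ∀ ξ, ‖ξ - x₁‖ < r → F ξ = F x₁ + T (ξ - x₁) := by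
  set M : ℝ := ‖u₁‖ + ε with hM
  have hM0 : 0 < M := by have := norm_nonneg u₁; linarith
  have hwM : ∀ w ∈ ball u₁ ε, ‖w‖ < M := by
    intro w hw
    rw [mem_ball, dist_eq_norm] at hw
    have e : w = (w - u₁) + u₁ := by abel
    have := norm_add_le (w - u₁) u₁
    rw [← e] at this
    linarith
  set s : ℝ := δ / (8 * M) with hs
  have hs0 : 0 < s := by positivity
  have hsM : s * M = δ / 8 := by rw [hs]; field_simp
  set r : ℝ := min (s * ε / 2) (δ / 8) with hr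
  have hr0 : 0 < r := by positivity
  have hr1 : r ≤ s * ε / 2 := min_le_left _ _
  have hr2 : r ≤ δ / 8 := min_le_right _ _
  have hu₁ : u₁ ∈ ball u₁ ε := mem_ball_self hε
  -- points needed are in the ball
  have hin : ∀ ξ w₁ w₂ : X, ‖ξ - x₁‖ < 2 * r → w₁ ∈ ball u₁ ε → w₂ ∈ ball u₁ ε → ∀ α β : ℝ,
      |α| ≤ s → |β| ≤ s → ξ + α • w₁ + β • w₂ ∈ ball x₁ δ := by
    intro ξ w₁ w₂ hξ hw₁ hw₂ α β hα hβ
    rw [mem_ball, dist_eq_norm]
    have e : ξ + α • w₁ + β • w₂ - x₁ = (ξ - x₁) + α • w₁ + β • w₂ := by abel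
    rw [e]
    have h1 := norm_add₃_le (a := ξ - x₁) (b := α • w₁) (c := β • w₂)
    rw [norm_smul, norm_smul, Real.norm_eq_abs, Real.norm_eq_abs] at h1
    have h2 : |α| * ‖w₁‖ ≤ s * M := mul_le_mul hα (hwM _ hw₁).le (norm_nonneg _) hs0.le
    have h3 : |β| * ‖w₂‖ ≤ s * M := mul_le_mul hβ (hwM _ hw₂).le (norm_nonneg _) hs0.le
    linarith
  have hin1 : ∀ ξ w₁ : X, ‖ξ - x₁‖ < 2 * r → w₁ ∈ ball u₁ ε → ∀ α : ℝ,
      |α| ≤ s → ξ + α • w₁ ∈ ball x₁ δ := by
    intro ξ w₁ hξ hw₁ α hα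
    have := hin ξ w₁ w₁ hξ hw₁ hw₁ α 0 hα (by rw [abs_zero]; exact hs0.le)
    simpa using this
  have hpara : ∀ ξ w₁ w₂ : X, ‖ξ - x₁‖ < 2 * r → w₁ ∈ ball u₁ ε → w₂ ∈ ball u₁ ε →
      F (ξ + s • w₁ + s • w₂) = F (ξ + s • w₁) + F (ξ + s • w₂) - F ξ := by
    intro ξ w₁ w₂ hξ hw₁ hw₂
    refine affLoc_para hline hs0 hw₁ hw₂ ?_
    intro α β h0 h1 h2 h3
    exact hin ξ w₁ w₂ hξ hw₁ hw₂ α β (by rw [abs_of_nonneg h0]; exact h1)
      (by rw [abs_of_nonneg h2]; exact h3)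
  have hx1 : ‖x₁ - x₁‖ < 2 * r := by rw [sub_self, norm_zero]; positivity
  -- the increment I w
  set I : X → Y := fun w => F (x₁ + s • w) - F x₁ with hI
  have hshift : ∀ h : X, ‖h‖ < r → ∀ w ∈ ball u₁ ε, F (x₁ + h + s • w) - F (x₁ + h) = I w := by
    intro h hh w hw
    set w₁ : X := u₁ + s⁻¹ • h with hw₁def
    have hw₁ : w₁ ∈ ball u₁ ε := by
      rw [mem_ball, dist_eq_norm, hw₁def, add_sub_cancel_left, norm_smul, norm_inv,
        Real.norm_of_nonneg hs0.le, inv_mul_lt_iff₀ hs0]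
      have : 0 < s * ε := mul_pos hs0 hε
      linarith
    have e : x₁ + s • w₁ = x₁ + h + s • u₁ := by
      rw [hw₁def, smul_add, smul_smul, mul_inv_cancel₀ hs0.ne', one_smul]; abel
    have h1 := hpara x₁ w₁ w hx1 hw₁ hw
    have h2 := hpara (x₁ + h) u₁ w (by rw [add_sub_cancel_left]; linarith) hu₁ hw
    rw [e] at h1
    rw [h1] at h2
    -- h2 : F (x₁ + h + s • u₁) + F (x₁ + s • w) - F x₁ = F (x₁+h+s•u₁) + F (x₁+h+s•w) - F (x₁+h)
    have h3 : F (x₁ + s • w) - F x₁ = F (x₁ + h + s • w) - F (x₁ + h) := by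
      have h4 : F (x₁ + h + s • u₁) + (F (x₁ + s • w) - F x₁)
          = F (x₁ + h + s • u₁) + (F (x₁ + h + s • w) - F (x₁ + h)) := by
        rw [← add_sub_assoc, ← add_sub_assoc]; exact h2
      exact add_left_cancel h4
    rw [hI]; exact h3.symm
  have hhom : ∀ h : X, ‖h‖ < r → ∀ w ∈ ball u₁ ε, ∀ τ : ℝ, 0 ≤ τ → τ ≤ 1 →
      F (x₁ + h + (τ * s) • w) = F (x₁ + h) + τ • I w := by
    intro h hh w hw τ h0 h1
    have hb : x₁ + h ∈ ball x₁ δ := by
      rw [mem_ball, dist_eq_norm, add_sub_cancel_left]; linarith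
    obtain ⟨A, hA⟩ := hline _ hb w hw
    have hh2 : ‖x₁ + h - x₁‖ < 2 * r := by rw [add_sub_cancel_left]; linarith
    have h2 := hA s (hin1 _ _ hh2 hw s (by rw [abs_of_pos hs0]))
    have h3 := hA (τ * s) (hin1 _ _ hh2 hw (τ * s) (by
      rw [abs_of_nonneg (by positivity)]; nlinarith))
    have h4 := hshift h hh w hw
    rw [h2, add_sub_cancel_left] at h4
    rw [h3, mul_smul, h4]
  -- D k
  set D : X → Y := fun k => I (u₁ + s⁻¹ • k) - I u₁ with hD
  have hDw : ∀ k : X, ‖k‖ < 2 * r → u₁ + s⁻¹ • k ∈ ball u₁ ε := by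
    intro k hk
    rw [mem_ball, dist_eq_norm, add_sub_cancel_left, norm_smul, norm_inv,
      Real.norm_of_nonneg hs0.le, inv_mul_lt_iff₀ hs0]
    linarith
  have hDk : ∀ h k : X, ‖h‖ < r → ‖k‖ < 2 * r → ∀ τ : ℝ, 0 ≤ τ → τ ≤ 1 → ‖h + τ • k‖ < r →
      F (x₁ + h + τ • k) = F (x₁ + h) + τ • D k := by
    intro h k hh hk τ h0 h1 hhk
    have h2 := hhom h hh _ (hDw k hk) τ h0 h1
    have h3 := hhom (h + τ • k) hhk u₁ hu₁ τ h0 h1
    have e : x₁ + h + (τ * s) • (u₁ + s⁻¹ • k) = x₁ + (h + τ • k) + (τ * s) • u₁ := by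
      rw [smul_add, smul_smul, mul_assoc, mul_inv_cancel₀ hs0.ne', mul_one]; abel
    rw [e, h3] at h2
    have h4 : F (x₁ + (h + τ • k)) = F (x₁ + h) + τ • I (u₁ + s⁻¹ • k) - τ • I u₁ := by
      rw [← h2]; abel
    rw [add_assoc x₁ h, h4, hD]
    simp only [smul_sub]
    abel
  have hD1 : ∀ h k : X, ‖h‖ < r → ‖k‖ < 2 * r → ‖h + k‖ < r →
      F (x₁ + h + k) = F (x₁ + h) + D k := by
    intro h k hh hk hhk
    have := hDk h k hh hk 1 zero_le_one le_rfl (by rwa [one_smul])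
    rwa [one_smul, one_smul] at this
  have hD0 : ∀ k : X, ‖k‖ < r → F (x₁ + k) = F x₁ + D k := by
    intro k hk
    have := hD1 0 k (by rw [norm_zero]; exact hr0) (by linarith) (by rwa [zero_add])
    rwa [add_zero] at this
  have hDhom : ∀ k : X, ‖k‖ < r → ∀ τ : ℝ, 0 ≤ τ → τ ≤ 1 → D (τ • k) = τ • D k := by
    intro k hk τ h0 h1
    have hτk : ‖τ • k‖ < r := by
      rw [norm_smul, Real.norm_of_nonneg h0]
      nlinarith [norm_nonneg k]
    have h2 := hDk 0 k (by rw [norm_zero]; exact hr0) (by linarith) τ h0 h1 (by rwa [zero_add])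
    rw [add_zero, hD0 _ hτk] at h2
    exact add_left_cancel h2
  have hDadd : ∀ h k : X, ‖h‖ < r → ‖k‖ < r → ‖h + k‖ < r → D (h + k) = D h + D k := by
    intro h k hh hk hhk
    have h1 := hD1 h k hh (by linarith) hhk
    rw [hD0 h hh, add_assoc x₁, hD0 (h + k) hhk, add_assoc] at h1
    exact add_left_cancel h1
  have hDneg : ∀ k : X, ‖k‖ < r → D (-k) = -D k := by
    intro k hk
    have h1 := hDadd k (-k) hk (by rwa [norm_neg]) (by rw [add_neg_cancel, norm_zero]; exact hr0)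
    have h2 : D 0 = 0 := by rw [hD]; simp
    rw [add_neg_cancel, h2] at h1
    exact (neg_eq_of_add_eq_zero_right h1.symm).symm
  -- global extension
  set c : X → ℝ := fun h => r / 2 / (1 + ‖h‖) with hc_def
  have hcpos : ∀ h, 0 < c h := fun h => by
    have := norm_nonneg h
    rw [hc_def]; positivity
  have hcs : ∀ (h : X) (a : ℝ), 0 < a → a ≤ c h → ‖a • h‖ < r := by
    intro h a ha hac
    rw [norm_smul, Real.norm_of_nonneg ha.le]
    have h1 : c h * (1 + ‖h‖) = r / 2 := by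
      rw [hc_def]
      have : 1 + ‖h‖ ≠ 0 := by have := norm_nonneg h; positivity
      field_simp
    have h2 := norm_nonneg h
    have h3 : a * ‖h‖ ≤ c h * ‖h‖ := mul_le_mul_of_nonneg_right hac h2
    have h4 := hcpos h
    nlinarith
  set T₀ : X → Y := fun h => (c h)⁻¹ • D (c h • h) with hT₀
  have hTc : ∀ (h : X) (a : ℝ), 0 < a → a ≤ c h → T₀ h = a⁻¹ • D (a • h) := by
    intro h a ha hac
    have h1 := hDhom (c h • h) (hcs h _ (hcpos h) le_rfl) (a / c h) (by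
      have := hcpos h; positivity) ((div_le_one (hcpos h)).mpr hac)
    rw [smul_smul, div_mul_cancel₀ a (hcpos h).ne'] at h1
    rw [h1, smul_smul]
    rw [hT₀]
    have h2 : a⁻¹ * (a / c h) = (c h)⁻¹ := by
      field_simp
    rw [h2]
  have hTadd : ∀ h k, T₀ (h + k) = T₀ h + T₀ k := by
    intro h k
    set a : ℝ := min (c h) (min (c k) (c (h + k))) with ha
    have ha0 : 0 < a := lt_min (hcpos _) (lt_min (hcpos _) (hcpos _))
    have h1 : a ≤ c h := min_le_left _ _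
    have h2 : a ≤ c k := (min_le_right _ _).trans (min_le_left _ _)
    have h3 : a ≤ c (h + k) := (min_le_right _ _).trans (min_le_right _ _)
    rw [hTc h a ha0 h1, hTc k a ha0 h2, hTc _ a ha0 h3, smul_add,
      hDadd _ _ (hcs h a ha0 h1) (hcs k a ha0 h2) (by rw [← smul_add]; exact hcs _ a ha0 h3),
      smul_add]
  have hTneg : ∀ h, T₀ (-h) = -T₀ h := by
    intro h
    have h1 : c (-h) = c h := by simp only [hc_def, norm_neg]
    rw [hTc (-h) (c h) (hcpos h) h1.ge, hTc h (c h) (hcpos h) le_rfl, smul_neg,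
      hDneg _ (hcs h _ (hcpos h) le_rfl), smul_neg]
  have hTsmul_pos : ∀ (b : ℝ) (h : X), 0 < b → T₀ (b • h) = b • T₀ h := by
    intro b h hb
    set a : ℝ := min (c (b • h)) (c h / b) with ha
    have ha0 : 0 < a := lt_min (hcpos _) (div_pos (hcpos _) hb)
    have h1 : a ≤ c (b • h) := min_le_left _ _
    have h2 : a * b ≤ c h := by
      have := min_le_right (c (b • h)) (c h / b)
      rw [← ha] at this
      rwa [le_div_iff₀ hb] at this
    rw [hTc _ a ha0 h1, hTc h (a * b) (mul_pos ha0 hb) h2, smul_smul, smul_smul]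
    congr 1
    field_simp
  have hTsmul : ∀ (b : ℝ) (h : X), T₀ (b • h) = b • T₀ h := by
    intro b h
    rcases lt_trichotomy b 0 with hb | hb | hb
    · have h1 := hTsmul_pos (-b) h (by linarith)
      have h2 : b • h = -((-b) • h) := by rw [neg_smul, neg_neg]
      rw [h2, hTneg, h1, neg_smul, neg_neg]
    · have h1 := hTadd 0 0
      rw [add_zero] at h1
      have h2 : T₀ 0 = 0 := by
        have := h1
        exact (left_eq_add.mp this)
      rw [hb, zero_smul, zero_smul, h2]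
    · exact hTsmul_pos b h hb
  have hTD : ∀ h : X, ‖h‖ < r → T₀ h = D h := by
    intro h hh
    set a : ℝ := min (c h) 1 with ha
    have ha0 : 0 < a := lt_min (hcpos _) one_pos
    rw [hTc h a ha0 (min_le_left _ _), hDhom h hh a ha0.le (min_le_right _ _), smul_smul,
      inv_mul_cancel₀ ha0.ne', one_smul]
  let T₁ : X →ₗ[ℝ] Y := { toFun := T₀, map_add' := hTadd, map_smul' := hTsmul }
  have hT₁0 : ContinuousAt T₁ 0 := by
    have h1 : ContinuousAt (fun h : X => F (x₁ + h) - F x₁) 0 := by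
      have h2 : ContinuousAt (fun h : X => F (x₁ + h)) 0 := by
        have h3 : ContinuousAt F (x₁ + 0) := by rwa [add_zero]
        exact ContinuousAt.comp (f := fun h : X => x₁ + h) h3 (by fun_prop)
      exact h2.sub continuousAt_const
    refine h1.congr ?_
    filter_upwards [ball_mem_nhds (0 : X) hr0] with h hh
    have hh' : ‖h‖ < r := by simpa using hh
    show F (x₁ + h) - F x₁ = T₀ h
    rw [hTD h hh', hD0 h hh', add_sub_cancel_left]
  have hT₁c : Continuous T₁ := continuous_of_continuousAt_zero T₁ hT₁0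
  refine ⟨⟨T₁, hT₁c⟩, r, hr0, by linarith, ?_⟩
  intro ξ hξ
  have e : ξ = x₁ + (ξ - x₁) := by abel
  show F ξ = F x₁ + T₀ (ξ - x₁)
  rw [hTD _ hξ]
  conv_lhs => rw [e]
  exact hD0 _ hξ

end AffLoc

end Crest.Agent.R074
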