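import Crest.Agent.R074.Base

/-!
Row 74 (S0099), base library, part 3: centre lemma, the identity
`‖2w - z‖ = ‖2 f w - f z‖` and flatness.
-/

set_option autoImplicit false

namespace Crest.Agent.R074

open Metric Set Filter Topology

/-- `s` is a central isometric involution of the set `U`. -/
structure Central {α : Type*} [PseudoMetricSpace α] (U : Set α) (s : α → α) : Prop where
  maps : ∀ x ∈ U, s x ∈ U
  iso : ∀ x ∈ U, ∀ y ∈ U, dist (s x) (s y) = dist x y
  invol : ∀ x ∈ U, s (s x) = x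
  central : ∀ x ∈ U, ∀ y ∈ U, 2 * dist x y ≤ dist x (s x) + dist y (s y)

section CentreLemma

variable {α : Type*} [PseudoMetricSpace α] {U : Set α} {s t : α → α}

theorem Central.dist_conj (hs : Central U s) (ht : Central U t) {w : α} (hw : w ∈ U) :
    dist w (s (t (s w))) = dist (s w) (t (s w)) := by
  have h1 := hs.maps w hw
  have h2 := ht.maps _ h1
  have h3 := hs.iso (s w) h1 (t (s w)) h2
  rw [hs.invol w hw] at h3
  exact h3

theorem Central.conj (hs : Central U s) (ht : Central U t) :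
    Central U (fun x => s (t (s x))) where
  maps := fun x hx => hs.maps _ (ht.maps _ (hs.maps _ hx))
  iso := fun x hx y hy => by
    have hx1 := hs.maps x hx
    have hy1 := hs.maps y hy
    show dist (s (t (s x))) (s (t (s y))) = dist x y
    rw [hs.iso _ (ht.maps _ hx1) _ (ht.maps _ hy1), ht.iso _ hx1 _ hy1, hs.iso _ hx _ hy]
  invol := fun x hx => by
    have hx1 := hs.maps x hx
    show s (t (s (s (t (s x))))) = x
    rw [hs.invol _ (ht.maps _ hx1), ht.invol _ hx1, hs.invol _ hx]
  central := fun x hx y hy => by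
    have hx1 := hs.maps x hx
    have hy1 := hs.maps y hy
    show 2 * dist x y ≤ dist x (s (t (s x))) + dist y (s (t (s y)))
    rw [hs.dist_conj ht hx, hs.dist_conj ht hy, ← hs.iso x hx y hy]
    exact ht.central _ hx1 _ hy1

theorem Central.aux {D : ℝ} (hD : ∀ x ∈ U, ∀ y ∈ U, dist x y ≤ D) (ht : Central U t) (n : ℕ) :
    ∀ s : α → α, Central U s → ∀ w ∈ U, (2 : ℝ) ^ n * (dist w (s w) - dist w (t w)) ≤ D := by
  induction n with
  | zero =>
    intro s hs w hw
    have h1 := hD w hw (s w) (hs.maps w hw)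
    have h2 : 0 ≤ dist w (t w) := dist_nonneg
    simp only [pow_zero, one_mul]
    linarith
  | succ n ih =>
    intro s hs w hw
    have h1 := ih _ (hs.conj ht) w hw
    rw [hs.dist_conj ht hw] at h1
    have h2 := ht.central w hw (s w) (hs.maps w hw)
    have h3 : 2 * (dist w (s w) - dist w (t w)) ≤ dist (s w) (t (s w)) - dist w (t w) := by
      linarith
    have h4 : (0 : ℝ) ≤ 2 ^ n := by positivity
    have h5 := mul_le_mul_of_nonneg_left h3 h4
    rw [pow_succ]
    linarith

theorem Central.le {D : ℝ} (hD : ∀ x ∈ U, ∀ y ∈ U, dist x y ≤ D) (hs : Central U s)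
    (ht : Central U t) {w : α} (hw : w ∈ U) : dist w (s w) ≤ dist w (t w) := by
  by_contra hcon
  push Not at hcon
  have hpos : 0 < dist w (s w) - dist w (t w) := by linarith
  obtain ⟨n, hn⟩ := pow_unbounded_of_one_lt (D / (dist w (s w) - dist w (t w)))
    (show (1 : ℝ) < 2 by norm_num)
  have h1 := Central.aux hD ht n s hs w hw
  rw [div_lt_iff₀ hpos] at hn
  linarith

/-- CENTRE LEMMA: two central isometric involutions of a bounded set displace each point by the
same distance. -/
theorem Central.eq {D : ℝ} (hD : ∀ x ∈ U, ∀ y ∈ U, dist x y ≤ D) (hs : Central U s)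
    (ht : Central U t) {w : α} (hw : w ∈ U) : dist w (s w) = dist w (t w) :=
  le_antisymm (hs.le hD ht hw) (ht.le hD hs hw)

end CentreLemma

section SphereCentre

variable {X Y : Type*} [NormedAddCommGroup X] [NormedSpace ℝ X] [NormedAddCommGroup Y]
  [NormedSpace ℝ Y] {f : X → Y} {g : Y → X}

/-- centre identity: `‖2w - z‖ = ‖2 f w - f z‖` whenever `w, z, z - w` are unit vectors. -/
theorem SI.centre (h : SI f g) {z w : X} (hz : ‖z‖ = 1) (hw : ‖w‖ = 1) (hzw : ‖z - w‖ = 1) :
    ‖(2 : ℝ) • w - z‖ = ‖(2 : ℝ) • f w - f z‖ := by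
  set U : Set X := {x | ‖x‖ = 1 ∧ ‖z - x‖ = 1} with hU
  have hfz := h.map z hz
  -- basic facts about `t`
  have hsub : ∀ x ∈ U, ‖f z - f x‖ = 1 := fun x hx => by rw [h.dist z x hz hx.1]; exact hx.2
  have hft : ∀ x ∈ U, f (g (f z - f x)) = f z - f x := fun x hx => h.right _ (hsub x hx)
  have hs : Central U (fun x => z - x) :=
    { maps := fun x hx => ⟨hx.2, by show ‖z - (z - x)‖ = 1; rw [sub_sub_cancel]; exact hx.1⟩
      iso := fun x _ y _ => by
        show Dist.dist (z - x) (z - y) = Dist.dist x y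
        rw [dist_sub_left]
      invol := fun x _ => by show z - (z - x) = x; rw [sub_sub_cancel]
      central := fun x _ y _ => by
        show 2 * Dist.dist x y ≤ Dist.dist x (z - x) + Dist.dist y (z - y)
        rw [dist_eq_norm, dist_eq_norm, dist_eq_norm]
        have e : (2 : ℝ) • (x - y) = (x - (z - x)) - (y - (z - y)) := by
          rw [two_smul]; abel
        have h1 : 2 * ‖x - y‖ = ‖(2 : ℝ) • (x - y)‖ := by
          rw [norm_smul, Real.norm_of_nonneg (by norm_num)]
        rw [h1, e]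
        exact norm_sub_le _ _ }
  have htn : ∀ x ∈ U, ‖g (f z - f x)‖ = 1 := fun x hx => h.imap _ (hsub x hx)
  have htmaps : ∀ x ∈ U, g (f z - f x) ∈ U := fun x hx => by
    refine ⟨htn x hx, ?_⟩
    rw [← h.dist z _ hz (htn x hx), hft x hx, sub_sub_cancel]
    exact h.map x hx.1
  have htd : ∀ x ∈ U, Dist.dist x (g (f z - f x)) = ‖(2 : ℝ) • f x - f z‖ := fun x hx => by
    rw [dist_eq_norm, ← h.dist x _ hx.1 (htn x hx), hft x hx, two_smul]
    congr 1; abel
  have ht : Central U (fun x => g (f z - f x)) :=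
    { maps := htmaps
      iso := fun x hx y hy => by
        show Dist.dist (g (f z - f x)) (g (f z - f y)) = Dist.dist x y
        rw [dist_eq_norm, dist_eq_norm, ← h.dist _ _ (htn x hx) (htn y hy), hft x hx, hft y hy,
          sub_sub_sub_cancel_left, h.dist y x hy.1 hx.1, norm_sub_rev]
      invol := fun x hx => by
        show g (f z - f (g (f z - f x))) = x
        rw [hft x hx, sub_sub_cancel, h.left x hx.1]
      central := fun x hx y hy => by
        show 2 * Dist.dist x y ≤ Dist.dist x (g (f z - f x)) + Dist.dist y (g (f z - f y))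
        rw [htd x hx, htd y hy, dist_eq_norm, ← h.dist x y hx.1 hy.1]
        have e : (2 : ℝ) • (f x - f y) = ((2 : ℝ) • f x - f z) - ((2 : ℝ) • f y - f z) := by
          rw [smul_sub]; abel
        have h1 : 2 * ‖f x - f y‖ = ‖(2 : ℝ) • (f x - f y)‖ := by
          rw [norm_smul, Real.norm_of_nonneg (by norm_num)]
        rw [h1, e]
        exact norm_sub_le _ _ }
  have hD : ∀ x ∈ U, ∀ y ∈ U, Dist.dist x y ≤ 2 := fun x hx y hy => by
    rw [dist_eq_norm]
    refine (norm_sub_le _ _).trans ?_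
    rw [hx.1, hy.1]; norm_num
  have hwU : w ∈ U := ⟨hw, hzw⟩
  have h1 := Central.eq hD hs ht hwU
  rw [htd w hwU, dist_eq_norm] at h1
  rw [← h1]
  congr 1
  rw [two_smul]; abel

/-- `f` odd (on unit vectors) implies its inverse is odd. -/
theorem SI.odd_symm (h : SI f g) (ho : ∀ x, ‖x‖ = 1 → f (-x) = -f x) :
    ∀ y, ‖y‖ = 1 → g (-y) = -g y := by
  intro y hy
  have hgy := h.imap y hy
  have h1 := ho (g y) hgy
  rw [h.right y hy] at h1
  rw [← h1, h.left _ (by rw [norm_neg]; exact hgy)]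

/-- odd isometries preserve norms of sums -/
theorem SI.norm_add (h : SI f g) (ho : ∀ x, ‖x‖ = 1 → f (-x) = -f x) {a b : X}
    (ha : ‖a‖ = 1) (hb : ‖b‖ = 1) : ‖f a + f b‖ = ‖a + b‖ := by
  have h1 := h.dist a (-b) ha (by rw [norm_neg]; exact hb)
  rw [ho b hb, sub_neg_eq_add, sub_neg_eq_add] at h1
  exact h1

/-- FLATNESS (note 5987 (1)): for a unit triangle `a, b, a+b`, the defect
`e = a + b - g (f a + f b)` satisfies `‖a - b ± e‖ = ‖a - b‖`. -/
theorem SI.flat (h : SI f g) (ho : ∀ x, ‖x‖ = 1 → f (-x) = -f x) {a b : X}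
    (ha : ‖a‖ = 1) (hb : ‖b‖ = 1) (hab : ‖a + b‖ = 1) :
    ‖a - b + (a + b - g (f a + f b))‖ = ‖a - b‖ ∧
      ‖a - b - (a + b - g (f a + f b))‖ = ‖a - b‖ := by
  have hfa := h.map a ha
  have hfb := h.map b hb
  have hsum : ‖f a + f b‖ = 1 := by rw [h.norm_add ho ha hb, hab]
  have hkey : ∀ a b : X, ‖a‖ = 1 → ‖b‖ = 1 → ‖f a + f b‖ = 1 →
      ‖(2 : ℝ) • a - g (f a + f b)‖ = ‖a - b‖ := by
    intro a b ha hb hsum
    have h1 := h.symm.centre (z := f a + f b) (w := f a) hsum (h.map a ha)
      (by rw [add_sub_cancel_left]; exact h.map b hb)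
    rw [h.left a ha] at h1
    rw [← h1, ← h.dist a b ha hb]
    congr 1
    rw [two_smul]; abel
  constructor
  · have := hkey a b ha hb hsum
    rw [← this]; congr 1; rw [two_smul]; abel
  · have := hkey b a hb ha (by rw [add_comm]; exact hsum)
    rw [add_comm (f b)] at this
    rw [norm_sub_rev a b, ← this, ← norm_neg]; congr 1; rw [two_smul]; abel

/-- if `‖x + e‖ = ‖x‖ = ‖x - e‖` then the norm is constant on the segment. -/
theorem norm_add_smul_eq_of_flat {x e : X} (h1 : ‖x + e‖ = ‖x‖) (h2 : ‖x - e‖ = ‖x‖) {t : ℝ}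
    (ht : |t| ≤ 1) : ‖x + t • e‖ = ‖x‖ := by
  obtain ⟨ht1, ht2⟩ := _root_.abs_le.mp ht
  have hle : ∀ t : ℝ, -1 ≤ t → t ≤ 1 → ‖x + t • e‖ ≤ ‖x‖ := by
    intro t ht1 ht2
    have e1 : x + t • e = ((1 + t) / 2) • (x + e) + ((1 - t) / 2) • (x - e) := by
      simp only [smul_add, smul_sub]
      have : x = ((1 + t) / 2) • x + ((1 - t) / 2) • x := by
        rw [← add_smul]; ring_nf; rw [one_smul]
      have e3 : t • e = ((1 + t) / 2) • e - ((1 - t) / 2) • e := by
        rw [← sub_smul]; ring_nf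
      conv_lhs => rw [this, e3]
      abel
    rw [e1]
    refine (norm_add_le _ _).trans ?_
    rw [norm_smul, norm_smul, Real.norm_of_nonneg (by linarith), Real.norm_of_nonneg (by linarith),
      h1, h2]
    apply le_of_eq; ring
  refine le_antisymm (hle t ht1 ht2) ?_
  have h3 := hle (-t) (by linarith) (by linarith)
  have h4 : (2 : ℝ) • x = (x + t • e) + (x + (-t) • e) := by
    rw [neg_smul, two_smul]; abel
  have h5 : 2 * ‖x‖ ≤ ‖x + t • e‖ + ‖x + (-t) • e‖ := by
    have h6 : 2 * ‖x‖ = ‖(2 : ℝ) • x‖ := by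
      rw [norm_smul, Real.norm_of_nonneg (by norm_num)]
    rw [h6, h4]
    exact norm_add_le _ _
  linarith

end SphereCentre

end Crest.Agent.R074
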