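import Crest.Agent.R074.FarC

/-!
Row 74 (S0099), `HLin`: in an infinite-dimensional space, a surjective sphere isometry which is
additive on all unit triangles is the restriction of a linear isometry.
-/

set_option autoImplicit false

namespace Crest.Agent.R074

open Metric Set Filter Topology

namespace Far

/-- a bounded function on `[0,1]` which is additive is linear -/
theorem bounded_additive {Y : Type*} [NormedAddCommGroup Y] [NormedSpace ℝ Y] {φ : ℝ → Y}
    {M : ℝ} (hb : ∀ t, 0 ≤ t → t ≤ 1 → ‖φ t‖ ≤ M)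
    (hadd : ∀ s t, 0 ≤ s → 0 ≤ t → s + t ≤ 1 → φ (s + t) = φ s + φ t) {t : ℝ} (ht0 : 0 ≤ t)
    (ht1 : t ≤ 1) : φ t = t • φ 1 := by
  set D : ℝ → Y := fun t => φ t - t • φ 1 with hD
  have hDadd : ∀ s t, 0 ≤ s → 0 ≤ t → s + t ≤ 1 → D (s + t) = D s + D t := by
    intro s t hs ht hst
    simp only [hD]
    rw [hadd s t hs ht hst, add_smul]; abel
  have hD1 : D 1 = 0 := by simp [hD]
  have hDb : ∀ t, 0 ≤ t → t ≤ 1 → ‖D t‖ ≤ 2 * M := by
    intro t h0 h1
    have e1 := hb t h0 h1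
    have e2 := hb 1 zero_le_one le_rfl
    have hM : 0 ≤ M := (norm_nonneg _).trans e1
    refine (norm_sub_le _ _).trans ?_
    rw [norm_smul, Real.norm_of_nonneg h0]
    nlinarith [norm_nonneg (φ 1)]
  have hhalf : ∀ {v : Y} {c : ℝ}, ‖v + v‖ ≤ c → ‖v‖ ≤ c / 2 := by
    intro v c h
    have e : v + v = (2 : ℝ) • v := by rw [two_smul]
    rw [e, norm_smul, Real.norm_of_nonneg (by norm_num : (0:ℝ) ≤ 2)] at h
    linarith
  have hD2 : D (1 / 2) = 0 := by
    have e := hDadd (1 / 2) (1 / 2) (by norm_num) (by norm_num) (by norm_num)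
    rw [show (1 / 2 : ℝ) + 1 / 2 = 1 by norm_num, hD1] at e
    have h1 : ‖D (1 / 2)‖ ≤ 0 / 2 := hhalf (by rw [← e, norm_zero])
    rw [zero_div] at h1
    exact norm_le_zero_iff.mp h1
  have main : ∀ n : ℕ, ∀ t, 0 ≤ t → t ≤ 1 → ‖D t‖ ≤ 2 * M / 2 ^ n := by
    intro n
    induction n with
    | zero => intro t h0 h1; simpa using hDb t h0 h1
    | succ n ih =>
      have small : ∀ t, 0 ≤ t → t ≤ 1 / 2 → ‖D t‖ ≤ 2 * M / 2 ^ (n + 1) := by
        intro t h0 h1
        have e := hDadd t t h0 h0 (by linarith)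
        have h2 := ih (t + t) (by linarith) (by linarith)
        rw [e] at h2
        have h3 := hhalf h2
        rw [pow_succ]
        calc ‖D t‖ ≤ 2 * M / 2 ^ n / 2 := h3
          _ = 2 * M / (2 ^ n * 2) := by rw [div_div]
      intro t h0 h1
      rcases le_total t (1 / 2) with h2 | h2
      · exact small t h0 h2
      · have e := hDadd (t - 1 / 2) (1 / 2) (by linarith) (by norm_num) (by linarith)
        rw [sub_add_cancel, hD2, add_zero] at e
        rw [e]
        exact small _ (by linarith) (by linarith)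
  have hzero : D t = 0 := by
    by_contra hne
    have hpos : 0 < ‖D t‖ := norm_pos_iff.mpr hne
    obtain ⟨n, hn⟩ := pow_unbounded_of_one_lt (2 * M / ‖D t‖) (show (1 : ℝ) < 2 by norm_num)
    have h1 := main n t ht0 ht1
    rw [le_div_iff₀ (by positivity)] at h1
    rw [div_lt_iff₀ hpos] at hn
    linarith
  have : φ t - t • φ 1 = 0 := hzero
  exact sub_eq_zero.mp this

variable {X Y : Type*} [NormedAddCommGroup X] [NormedSpace ℝ X]
  [NormedAddCommGroup Y] [NormedSpace ℝ Y] {f : X → Y} {g : Y → X}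

/-- **HLin**: a surjective sphere isometry, additive on all unit triangles, of an
infinite-dimensional space is the restriction of a linear isometry. -/
theorem hlin (h : SI f g)
    (hH : ∀ z w : X, ‖z‖ = 1 → ‖w‖ = 1 → ‖z + w‖ = 1 → f (z + w) = f z + f w)
    (hX : ¬ FiniteDimensional ℝ X) :
    ∃ T : X ≃ₗᵢ[ℝ] Y, ∀ x, ‖x‖ = 1 → T x = f x := by
  classical
  have hrk : 1 < Module.rank ℝ X := by
    by_contra hcon
    push Not at hcon
    apply hX
    rw [FiniteDimensional, ← Module.rank_lt_aleph0_iff]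
    exact hcon.trans_lt Cardinal.one_lt_aleph0
  have hdec : ∀ v : X, ∃ a b : X, ‖v‖ ≤ 1 → (‖a‖ = 1 ∧ ‖b‖ = 1 ∧ a + b = v) := by
    intro v
    by_cases hv : ‖v‖ ≤ 1
    · obtain ⟨a, b, h1, h2, h3⟩ := exists_unit_decomp hrk hv
      exact ⟨a, b, fun _ => ⟨h1, h2, h3⟩⟩
    · exact ⟨0, 0, fun hv' => absurd hv' hv⟩
  choose A B hAB using hdec
  set Φ : X → Y := fun v => f (A v) + f (B v) with hΦ
  have Φadd : ∀ v v' : X, ‖v‖ ≤ 1 → ‖v'‖ ≤ 1 → ‖v + v'‖ ≤ 1 → Φ (v + v') = Φ v + Φ v' := by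
    intro v v' hv hv' hvv
    obtain ⟨h1, h2, h3⟩ := hAB v hv
    obtain ⟨h1', h2', h3'⟩ := hAB v' hv'
    obtain ⟨h1'', h2'', h3''⟩ := hAB (v + v') hvv
    exact (add_unit h hH hX h1 h2 h1' h2' h1'' h2'' (by rw [h3]; exact hv)
      (by rw [h3']; exact hv') (by rw [h3'']; exact hvv) (by rw [h3, h3', h3''])).symm
  have Φunit : ∀ v : X, ‖v‖ = 1 → Φ v = f v := by
    intro v hv
    obtain ⟨h1, h2, h3⟩ := hAB v hv.le
    have := hH _ _ h1 h2 (by rw [h3]; exact hv)
    rw [h3] at this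
    exact this.symm
  have Φb : ∀ v : X, ‖v‖ ≤ 1 → ‖Φ v‖ ≤ 2 := by
    intro v hv
    obtain ⟨h1, h2, -⟩ := hAB v hv
    refine (norm_add_le _ _).trans ?_
    rw [h.map _ h1, h.map _ h2]; norm_num
  have Φhom : ∀ u : X, ‖u‖ = 1 → ∀ t : ℝ, 0 ≤ t → t ≤ 1 → Φ (t • u) = t • f u := by
    intro u hu t h0 h1
    have hn : ∀ s : ℝ, 0 ≤ s → s ≤ 1 → ‖s • u‖ ≤ 1 := by
      intro s hs0 hs1
      rw [norm_smul, hu, mul_one, Real.norm_of_nonneg hs0]; exact hs1
    have := bounded_additive (φ := fun s => Φ (s • u)) (M := 2)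
      (fun s hs0 hs1 => Φb _ (hn s hs0 hs1))
      (fun s s' hs hs' hss => by
        show Φ ((s + s') • u) = Φ (s • u) + Φ (s' • u)
        rw [add_smul]
        exact Φadd _ _ (hn s hs (by linarith)) (hn s' hs' (by linarith))
          (by rw [← add_smul]; exact hn _ (by linarith) hss)) h0 h1
    have e : Φ (t • u) = t • Φ ((1 : ℝ) • u) := this
    rw [one_smul, Φunit u hu] at e
    exact e
  -- the homogeneous extension
  set T : X → Y := fun x => ‖x‖ • f (nu x) with hT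
  have Tb : ∀ v : X, ‖v‖ ≤ 1 → Φ v = T v := by
    intro v hv
    by_cases h0 : v = 0
    · have e1 := Φadd 0 0 (by simp) (by simp) (by simp)
      rw [add_zero] at e1
      have e2 : Φ 0 = 0 := by
        have := e1.symm
        rwa [add_eq_left] at this
      rw [h0, e2, hT]
      simp
    · have e1 := Φhom (nu v) (norm_nu h0) ‖v‖ (norm_nonneg _) hv
      have e2 : ‖v‖ • nu v = v := by
        unfold nu
        rw [smul_smul, mul_inv_cancel₀ (norm_ne_zero_iff.mpr h0), one_smul]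
      rw [e2] at e1
      exact e1
  have Tsmul : ∀ (c : ℝ) (x : X), 0 < c → T (c • x) = c • T x := by
    intro c x hc
    have e1 : nu (c • x) = nu x := by
      unfold nu
      rw [norm_smul, Real.norm_of_nonneg hc.le, mul_inv, smul_smul, mul_comm c⁻¹, mul_assoc,
        inv_mul_cancel₀ hc.ne', mul_one]
    show ‖c • x‖ • f (nu (c • x)) = c • ‖x‖ • f (nu x)
    rw [e1, norm_smul, Real.norm_of_nonneg hc.le, smul_smul]
  have Tadd : ∀ x y : X, T (x + y) = T x + T y := by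
    intro x y
    set N := ‖x‖ + ‖y‖ + 1 with hN
    have hx0 := norm_nonneg x
    have hy0 := norm_nonneg y
    have hN0 : 0 < N := by linarith
    have hNi : 0 < N⁻¹ := inv_pos.mpr hN0
    have hsm : ∀ z : X, ‖z‖ ≤ N → ‖N⁻¹ • z‖ ≤ 1 := by
      intro z hz
      rw [norm_smul, Real.norm_of_nonneg hNi.le, inv_mul_le_iff₀ hN0, mul_one]
      exact hz
    have e1 := Φadd (N⁻¹ • x) (N⁻¹ • y) (hsm x (by linarith)) (hsm y (by linarith))
      (by rw [← smul_add]; exact hsm _ ((norm_add_le _ _).trans (by linarith)))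
    rw [← smul_add, Tb _ (hsm _ ((norm_add_le _ _).trans (by linarith))),
      Tb _ (hsm x (by linarith)), Tb _ (hsm y (by linarith)), Tsmul _ _ hNi, Tsmul _ _ hNi,
      Tsmul _ _ hNi, ← smul_add] at e1
    exact smul_right_injective Y hNi.ne' e1
  have Tnorm : ∀ x : X, ‖T x‖ = ‖x‖ := by
    intro x
    by_cases h0 : x = 0
    · rw [h0, hT]; simp
    · show ‖‖x‖ • f (nu x)‖ = ‖x‖
      rw [norm_smul, norm_norm, h.map _ (norm_nu h0), mul_one]
  have Tunit : ∀ x : X, ‖x‖ = 1 → T x = f x := by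
    intro x hx
    show ‖x‖ • f (nu x) = f x
    rw [nu_of_norm hx, hx, one_smul]
  let T0 : X →+ Y := AddMonoidHom.mk' T Tadd
  have hiso : Isometry T0 := AddMonoidHomClass.isometry_of_norm T0 Tnorm
  let T1 : X →L[ℝ] Y := T0.toRealLinearMap hiso.continuous
  let T2 : X →ₗᵢ[ℝ] Y := ⟨T1.toLinearMap, Tnorm⟩
  have hsurj : Function.Surjective T2 := by
    intro y
    by_cases h0 : y = 0
    · exact ⟨0, by rw [map_zero, h0]⟩
    · refine ⟨‖y‖ • g (nu y), ?_⟩
      have hy : 0 < ‖y‖ := norm_pos_iff.mpr h0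
      show T (‖y‖ • g (nu y)) = y
      have e1 := h.imap _ (norm_nu h0)
      rw [Tsmul _ _ hy, Tunit _ e1, h.right _ (norm_nu h0)]
      unfold nu
      rw [smul_smul, mul_inv_cancel₀ hy.ne', one_smul]
  exact ⟨LinearIsometryEquiv.ofSurjective T2 hsurj, fun x hx => Tunit x hx⟩

end Far

end Crest.Agent.R074
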