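import Crest.Agent.R074.Est

/-!
Row 74 (S0099): LTA = local Theorem A with a universal radius, from an abstract family of coset
functionals (interface of helper439's note 7980).
-/

set_option autoImplicit false

namespace Crest.Agent.R074

open Metric Set Filter Topology

variable {X Y : Type*} [NormedAddCommGroup X] [NormedSpace ℝ X] [NormedAddCommGroup Y]
  [NormedSpace ℝ Y] {f : X → Y} {g : Y → X}

/-- `p - q ∘ f` is constant `= s` on the slice `S ∩ (m + V)`. -/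
structure CosetFun (f : X → Y) (p : X →L[ℝ] ℝ) (V : Submodule ℝ X) (m : X) (q : Y →L[ℝ] ℝ)
    (s : ℝ) : Prop where
  norm_le : ‖q‖ ≤ 1
  rel : ∀ x, ‖x‖ = 1 → x - m ∈ V → p x - q (f x) = s

theorem CosetFun.qq {p : X →L[ℝ] ℝ} {V : Submodule ℝ X} {m : X} {q : Y →L[ℝ] ℝ} {s : ℝ}
    (h : CosetFun f p V m q s) : Est.QQ f p V m q s := ⟨h.norm_le, h.rel⟩

theorem norm_sub_le_of_tendsto {U : Filter ℕ} [U.NeBot] {q : ℕ → Y →L[ℝ] ℝ} {q0 q1 : Y →L[ℝ] ℝ}
    (hq : ∀ y, Tendsto (fun i => q i y) U (𝓝 (q0 y))) {E : ℝ} (hE : 0 ≤ E)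
    (hb : ∀ i, ‖q1 - q i‖ ≤ E) : ‖q1 - q0‖ ≤ E := by
  refine ContinuousLinearMap.opNorm_le_bound _ hE (fun y => ?_)
  have h1 : ∀ i, ‖q1 y - q i y‖ ≤ E * ‖y‖ := fun i => by
    have := (q1 - q i).le_opNorm y
    rw [_root_.sub_apply] at this
    exact this.trans (mul_le_mul_of_nonneg_right (hb i) (norm_nonneg _))
  have h2 : Tendsto (fun i => ‖q1 y - q i y‖) U (𝓝 ‖q1 y - q0 y‖) :=
    (tendsto_const_nhds.sub (hq y)).norm
  rw [_root_.sub_apply]
  exact le_of_tendsto h2 (Eventually.of_forall h1)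

/-- LOCAL THEOREM A (abstract form). -/
theorem lta (h : SI f g) (ho : ∀ x, ‖x‖ = 1 → f (-x) = -f x) {u : X} (hu1 : ‖u‖ = 1)
    (hu : Smooth u) (hfu : Smooth (f u)) {V : Submodule ℝ X} (huV : u ∈ V) {eps0 : ℝ}
    (heps0 : 0 < eps0) (Q : X → (Y →L[ℝ] ℝ) → ℝ → Prop)
    (h1 : ∀ m q s, Q m q s → CosetFun f (J u) V m q s)
    (h2 : ∀ m, ‖m‖ < eps0 → ∃ q s, Q m q s)
    (h3 : ∀ m q2 s2, ‖(2 : ℝ) • m‖ < eps0 → Q ((2 : ℝ) • m) q2 s2 →
      ∃ q s, Q m q s ∧ ‖q2 - q‖ ≤ |2 * s - s2|)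
    {m : X} (hm : ‖m‖ < min eps0 (1 / 64)) {x : X} (hx : ‖x‖ = 1) (hxm : x - m ∈ V) :
    J (f u) (f x) = J u x := by
  set q0 : Y →L[ℝ] ℝ := J (f u) with hq0
  have hfu1 : ‖f u‖ = 1 := h.map u hu1
  have h00 : q0 (f u) = 1 := by rw [hq0, J_self, hfu1]
  have hJu : ‖J u‖ ≤ 1 := J_norm_le u
  have hpu : J u u = 1 := by rw [J_self, hu1]
  -- chains
  have hchain : ∀ (K : ℝ), 0 ≤ K → (∀ m q s, ‖m‖ < min eps0 (1 / 64) → Q m q s → |s| ≤ K * ‖m‖) →
      ∀ m q s, ‖m‖ < min eps0 (1 / 64) → Q m q s → ‖q - q0‖ ≤ 4 * K * ‖m‖ := by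
    intro K hK hs m q s hm hQ
    have hm1 : ‖m‖ < eps0 := hm.trans_le (min_le_left _ _)
    have hm2 : ‖m‖ < 1 / 64 := hm.trans_le (min_le_right _ _)
    have hpow : ∀ n : ℕ, ‖((1 / 2 : ℝ) ^ n) • m‖ = (1 / 2) ^ n * ‖m‖ := fun n => by
      rw [norm_smul, Real.norm_of_nonneg (by positivity)]
    have hple : ∀ n : ℕ, ((1 : ℝ) / 2) ^ n ≤ 1 := fun n => pow_le_one₀ (by norm_num) (by norm_num)
    have hlt : ∀ n : ℕ, ‖((1 / 2 : ℝ) ^ n) • m‖ < min eps0 (1 / 64) := fun n => by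
      rw [hpow]
      refine lt_of_le_of_lt ?_ hm
      nlinarith [norm_nonneg m, hple n]
    -- the next step of the chain
    have hstep : ∀ n : ℕ, ∀ a : {a : (Y →L[ℝ] ℝ) × ℝ // Q (((1 / 2 : ℝ) ^ n) • m) a.1 a.2},
        ∃ b : {b : (Y →L[ℝ] ℝ) × ℝ // Q (((1 / 2 : ℝ) ^ (n + 1)) • m) b.1 b.2},
          ‖a.1.1 - b.1.1‖ ≤ |2 * b.1.2 - a.1.2| := by
      rintro n ⟨⟨q, s⟩, ha⟩
      have e : (2 : ℝ) • (((1 / 2 : ℝ) ^ (n + 1)) • m) = ((1 / 2 : ℝ) ^ n) • m := by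
        rw [smul_smul]; congr 1; ring
      obtain ⟨q', s', hQ', hn⟩ := h3 (((1 / 2 : ℝ) ^ (n + 1)) • m) q s
        (by rw [e]; exact (hlt n).trans_le (min_le_left _ _)) (by rw [e]; exact ha)
      exact ⟨⟨(q', s'), hQ'⟩, hn⟩
    choose nx hnx using hstep
    let A : (n : ℕ) → {a : (Y →L[ℝ] ℝ) × ℝ // Q (((1 / 2 : ℝ) ^ n) • m) a.1 a.2} := fun n =>
      Nat.rec ⟨(q, s), by rw [pow_zero, one_smul]; exact hQ⟩ (fun n a => nx n a) n
    have hA0 : (A 0).1 = (q, s) := rfl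
    have hAs : ∀ n, A (n + 1) = nx n (A n) := fun n => rfl
    -- telescoping
    have htel : ∀ n : ℕ, ‖q - (A n).1.1‖ ≤ 4 * K * ‖m‖ * (1 - (1 / 2) ^ n) := by
      intro n
      induction n with
      | zero => simp [hA0]
      | succ n ih =>
        have h4 : ‖(A n).1.1 - (A (n + 1)).1.1‖ ≤ |2 * (A (n + 1)).1.2 - (A n).1.2| := by
          rw [hAs]; exact hnx n (A n)
        have h5 := hs _ _ _ (hlt n) (A n).2
        have h6 := hs _ _ _ (hlt (n + 1)) (A (n + 1)).2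
        rw [hpow] at h5 h6
        have h7 : |2 * (A (n + 1)).1.2 - (A n).1.2| ≤ 2 * K * ((1 / 2) ^ n * ‖m‖) := by
          have hps : ((1 : ℝ) / 2) ^ (n + 1) * ‖m‖ = (1 / 2) ^ n * ‖m‖ / 2 := by ring
          rw [hps] at h6
          rw [_root_.abs_le] at h5 h6 ⊢
          constructor <;> linarith
        have h8 : ‖q - (A (n + 1)).1.1‖ ≤ ‖q - (A n).1.1‖ + ‖(A n).1.1 - (A (n + 1)).1.1‖ := by
          have e : q - (A (n + 1)).1.1 = (q - (A n).1.1) + ((A n).1.1 - (A (n + 1)).1.1) := by abel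
          rw [e]; exact norm_add_le _ _
        have hps : 4 * K * ‖m‖ * (1 - ((1 : ℝ) / 2) ^ (n + 1))
            = 4 * K * ‖m‖ - 2 * K * ((1 / 2) ^ n * ‖m‖) := by ring
        rw [hps]
        have hps' : 4 * K * ‖m‖ * (1 - ((1 : ℝ) / 2) ^ n)
            = 4 * K * ‖m‖ - 4 * K * ((1 / 2) ^ n * ‖m‖) := by ring
        rw [hps'] at ih
        linarith
    have htel' : ∀ n : ℕ, ‖q - (A n).1.1‖ ≤ 4 * K * ‖m‖ := fun n => by
      refine (htel n).trans ?_
      have : 0 ≤ 4 * K * ‖m‖ := by positivity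
      nlinarith [show (0 : ℝ) ≤ (1 / 2) ^ n by positivity]
    -- ultralimit at the zero coset
    have hU : (hyperfilter ℕ : Filter ℕ) ≤ atTop := by
      rw [← Nat.cofinite_eq_atTop]; exact hyperfilter_le_cofinite
    have hmt : Tendsto (fun n : ℕ => ((1 / 2 : ℝ) ^ n) • m) (hyperfilter ℕ) (𝓝 0) := by
      have h4 : Tendsto (fun n : ℕ => ((1 / 2 : ℝ) ^ n) • m) atTop (𝓝 ((0 : ℝ) • m)) :=
        (tendsto_pow_atTop_nhds_zero_of_lt_one (by norm_num) (by norm_num)).smul_const m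
      rw [zero_smul] at h4
      exact h4.mono_left hU
    have hsb : ∀ n, |(A n).1.2| ≤ K * ‖m‖ := fun n => by
      have h4 := hs _ _ _ (hlt n) (A n).2
      rw [hpow] at h4
      refine h4.trans (mul_le_mul_of_nonneg_left ?_ hK)
      nlinarith [norm_nonneg m, hple n]
    obtain ⟨q', s', hqq', hqlim, hslim⟩ := Est.QQ.closed h (hyperfilter ℕ)
      (fun n => (h1 _ _ _ (A n).2).qq) hmt (by rw [norm_zero]; norm_num) hsb
    -- `s' = 0`
    have hs0 : s' = 0 := by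
      have h4 : Tendsto (fun n => (A n).1.2) (hyperfilter ℕ) (𝓝 0) := by
        have h5 : Tendsto (fun n : ℕ => K * ‖((1 / 2 : ℝ) ^ n) • m‖) (hyperfilter ℕ) (𝓝 0) := by
          have := hmt.norm.const_mul K
          simpa using this
        exact squeeze_zero_norm (fun n => hs _ _ _ (hlt n) (A n).2) h5
      exact tendsto_nhds_unique hslim h4
    have hq'u : q' (f u) = 1 := by
      have := hqq'.2 u hu1 (by rw [sub_zero]; exact huV)
      rw [hpu, hs0] at this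
      linarith
    have hq'0 : q' = q0 := hfu.eq_J ⟨hqq'.1, by rw [hq'u, hfu1]⟩
    rw [hq'0] at hqlim
    exact norm_sub_le_of_tendsto hqlim (by positivity) htel'
  -- contraction
  have hcontr : ∀ n : ℕ, ∀ m q s, ‖m‖ < min eps0 (1 / 64) → Q m q s →
      |s| ≤ 2 * (1 / 2) ^ n * ‖m‖ := by
    intro n
    induction n with
    | zero =>
      intro m q s hm hQ
      have hm2 : ‖m‖ < 1 / 64 := hm.trans_le (min_le_right _ _)
      have := Est.QQ.abs_le_two h hJu hu1 huV hpu (by linarith) (h1 _ _ _ hQ).qq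
      simpa using this
    | succ n ih =>
      intro m q s hm hQ
      have hm2 : ‖m‖ < 1 / 64 := hm.trans_le (min_le_right _ _)
      have hch := hchain (2 * (1 / 2) ^ n) (by positivity) ih
      have h4 := Est.s_bound h ho hu1 hu huV (q0 := q0) h00 (m := m) (by linarith)
        (E := 4 * (2 * (1 / 2) ^ n) * ‖m‖) (fun m' hm' => by
          obtain ⟨q', s', hQ'⟩ := h2 m' ((hm'.trans_lt hm).trans_le (min_le_left _ _))
          refine ⟨q', s', (h1 _ _ _ hQ').qq, (hch m' q' s' (hm'.trans_lt hm) hQ').trans ?_⟩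
          exact mul_le_mul_of_nonneg_left hm' (by positivity))
        (h1 _ _ _ hQ).qq (hch m q s hm hQ)
      refine h4.trans ?_
      rw [pow_succ]
      have hP : 0 ≤ (2 : ℝ) * (1 / 2) ^ n * ‖m‖ := by positivity
      nlinarith
  have hszero : ∀ m q s, ‖m‖ < min eps0 (1 / 64) → Q m q s → s = 0 := by
    intro m q s hm hQ
    have h4 : Tendsto (fun n : ℕ => 2 * ((1 : ℝ) / 2) ^ n * ‖m‖) atTop (𝓝 0) := by
      have := ((tendsto_pow_atTop_nhds_zero_of_lt_one (r := (1 : ℝ) / 2) (by norm_num)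
        (by norm_num)).const_mul 2).mul_const ‖m‖
      simpa using this
    have h5 : |s| ≤ 0 := ge_of_tendsto h4 (Eventually.of_forall fun n => hcontr n m q s hm hQ)
    exact abs_nonpos_iff.mp h5
  obtain ⟨q, s, hQ⟩ := h2 m (hm.trans_le (min_le_left _ _))
  have hs := hszero m q s hm hQ
  have hq := hchain 0 le_rfl (fun m q s hm hQ => by rw [hszero m q s hm hQ]; simp) m q s hm hQ
  have hqq0 : q = q0 := by
    have : ‖q - q0‖ ≤ 0 := by simpa using hq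
    exact sub_eq_zero.mp (norm_le_zero_iff.mp this)
  have h6 := (h1 _ _ _ hQ).rel x hx hxm
  rw [hs, hqq0] at h6
  linarith

end Crest.Agent.R074
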