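import Crest.Agent.R074.Canon

/-!
Row 74 (S0099), blow-up linearity (M2).

At a point `a` of the unit sphere, along a scale `r i → 0` and an ultrafilter, the displacements
`p i = O(r i)` under which the norm near `a` is invariant up to `o(r i)` form a linear space
`BInv`; sphere isometries (odd) map these displacements onto those at `f a` and preserve midpoints
up to `o(r i)` (Mazur-Ulam).  At a smooth point all the rays `r i • v`, `J a v = 0`, belong to it.
-/

set_option autoImplicit false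

namespace Crest.Agent.R074

open Metric Set Filter Topology Asymptotics

section Nu

variable {X : Type*} [NormedAddCommGroup X] [NormedSpace ℝ X]

theorem norm_nu_sub_abs (z : X) : ‖nu z - z‖ ≤ |‖z‖ - 1| := by
  rcases eq_or_ne z 0 with rfl | hz
  · simp [nu]
  · rw [norm_nu_sub_self hz, abs_sub_comm]

open Classical in
/-- total version of `nu` with junk value `a` at `0` -/
noncomputable def nua (a z : X) : X := if z = 0 then a else nu z

theorem norm_nua {a : X} (ha : ‖a‖ = 1) (z : X) : ‖nua a z‖ = 1 := by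
  unfold nua
  split_ifs with h
  · exact ha
  · exact norm_nu h

theorem norm_nua_sub {a : X} (ha : ‖a‖ = 1) (z : X) : ‖nua a z - z‖ ≤ |‖z‖ - 1| := by
  unfold nua
  split_ifs with h
  · rw [h]; simp [ha]
  · exact norm_nu_sub_abs z

theorem nua_of_ne {a z : X} (hz : z ≠ 0) : nua a z = nu z := by
  unfold nua
  rw [if_neg hz]

end Nu

section Inv

variable {X : Type*} [NormedAddCommGroup X] [NormedSpace ℝ X] {U : Filter ℕ} {r : ℕ → ℝ} {a : X}

/-- displacements at `a` of size `O(r)` leaving the norm near `a` invariant up to `o(r)` -/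
structure BInv (U : Filter ℕ) (r : ℕ → ℝ) (a : X) (p : ℕ → X) : Prop where
  isBigO : p =O[U] r
  inv : ∀ t : ℕ → X, (fun i => t i - a) =O[U] r → (fun i => ‖t i + p i‖ - ‖t i‖) =o[U] r

omit [NormedSpace ℝ X] in
theorem BInv.add {p q : ℕ → X} (hp : BInv U r a p) (hq : BInv U r a q) :
    BInv U r a (fun i => p i + q i) where
  isBigO := hp.isBigO.add hq.isBigO
  inv := fun t ht => by
    have h1 : (fun i => (t i + p i) - a) =O[U] r := by
      have e : (fun i => (t i + p i) - a) = fun i => (t i - a) + p i := by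
        ext i; abel
      rw [e]; exact ht.add hp.isBigO
    have h2 := (hq.inv _ h1).add (hp.inv t ht)
    refine h2.congr_left fun i => ?_
    have e : t i + (p i + q i) = t i + p i + q i := by abel
    rw [e]; ring

omit [NormedSpace ℝ X] in
theorem BInv.neg {p : ℕ → X} (hp : BInv U r a p) : BInv U r a (fun i => -p i) where
  isBigO := hp.isBigO.neg_left
  inv := fun t ht => by
    have h1 : (fun i => (t i - p i) - a) =O[U] r := by
      have e : (fun i => (t i - p i) - a) = fun i => (t i - a) - p i := by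
        ext i; abel
      rw [e]; exact ht.sub hp.isBigO
    have h2 := (hp.inv _ h1).neg_left
    refine h2.congr_left fun i => ?_
    have e : t i - p i + p i = t i := by abel
    have e' : t i + -p i = t i - p i := by abel
    rw [e, e']; ring

omit [NormedSpace ℝ X] in
theorem BInv.sub {p q : ℕ → X} (hp : BInv U r a p) (hq : BInv U r a q) :
    BInv U r a (fun i => p i - q i) := by
  have := hp.add hq.neg
  simpa only [sub_eq_add_neg] using this

theorem BInv.half {p : ℕ → X} (hp : BInv U r a p) : BInv U r a (fun i => (1 / 2 : ℝ) • p i) where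
  isBigO := hp.isBigO.const_smul_left _
  inv := fun t ht => by
    have h1 : (fun i => (t i - p i) - a) =O[U] r := by
      have e : (fun i => (t i - p i) - a) = fun i => (t i - a) - p i := by
        ext i; abel
      rw [e]; exact ht.sub hp.isBigO
    have h2 := (hp.inv _ h1)
    have h3 := hp.inv t ht
    have h4 : (fun i => |‖t i + p i‖ - ‖t i‖| + |‖t i - p i + p i‖ - ‖t i - p i‖|) =o[U] r := by
      have := h3.norm_left.add h2.norm_left
      simpa only [Real.norm_eq_abs] using this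
    refine IsBigO.trans_isLittleO (IsBigO.of_bound 1 (Eventually.of_forall fun i => ?_)) h4
    rw [one_mul, Real.norm_eq_abs, Real.norm_of_nonneg (by positivity)]
    set u := t i
    set q := p i
    have e0 : u - q + q = u := by abel
    rw [e0]
    have hA : ‖u + (1 / 2 : ℝ) • q‖ ≤ (‖u‖ + ‖u + q‖) / 2 := by
      have e : u + (1 / 2 : ℝ) • q = (1 / 2 : ℝ) • (u + (u + q)) := by
        rw [smul_add, smul_add]
        have : u = (1 / 2 : ℝ) • u + (1 / 2 : ℝ) • u := by rw [← add_smul]; norm_num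
        conv_lhs => rw [this]
        abel
      rw [e, norm_smul, Real.norm_of_nonneg (by norm_num)]
      have := norm_add_le u (u + q)
      linarith
    have hB : ‖u - (1 / 2 : ℝ) • q‖ ≤ (‖u‖ + ‖u - q‖) / 2 := by
      have e : u - (1 / 2 : ℝ) • q = (1 / 2 : ℝ) • (u + (u - q)) := by
        rw [smul_add, smul_sub]
        have : u = (1 / 2 : ℝ) • u + (1 / 2 : ℝ) • u := by rw [← add_smul]; norm_num
        conv_lhs => rw [this]
        abel
      rw [e, norm_smul, Real.norm_of_nonneg (by norm_num)]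
      have := norm_add_le u (u - q)
      linarith
    have hC : 2 * ‖u‖ ≤ ‖u + (1 / 2 : ℝ) • q‖ + ‖u - (1 / 2 : ℝ) • q‖ := by
      have e : (2 : ℝ) • u = (u + (1 / 2 : ℝ) • q) + (u - (1 / 2 : ℝ) • q) := by
        rw [two_smul]; abel
      have h : 2 * ‖u‖ = ‖(2 : ℝ) • u‖ := by
        rw [norm_smul, Real.norm_of_nonneg (by norm_num)]
      rw [h, e]
      exact norm_add_le _ _
    rw [abs_le]
    constructor
    · have h5 := neg_abs_le (‖u + q‖ - ‖u‖)
      have h6 := neg_abs_le (‖u‖ - ‖u - q‖)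
      have h7 := abs_nonneg (‖u + q‖ - ‖u‖)
      have h8 := abs_nonneg (‖u‖ - ‖u - q‖)
      linarith
    · have h5 := le_abs_self (‖u + q‖ - ‖u‖)
      have h7 := abs_nonneg (‖u + q‖ - ‖u‖)
      have h8 := abs_nonneg (‖u‖ - ‖u - q‖)
      linarith

theorem BInv.smul_unit {p : ℕ → X} (hp : BInv U r a p) {s : ℝ} (hs0 : 0 ≤ s) (hs1 : s ≤ 1) :
    BInv U r a (fun i => s • p i) where
  isBigO := hp.isBigO.const_smul_left _
  inv := fun t ht => by
    have h1 : (fun i => (t i - p i) - a) =O[U] r := by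
      have e : (fun i => (t i - p i) - a) = fun i => (t i - a) - p i := by
        ext i; abel
      rw [e]; exact ht.sub hp.isBigO
    have h2 := (hp.inv _ h1)
    have h3 := hp.inv t ht
    have h4 : (fun i => |‖t i + p i‖ - ‖t i‖| + |‖t i - p i + p i‖ - ‖t i - p i‖|) =o[U] r := by
      have := h3.norm_left.add h2.norm_left
      simpa only [Real.norm_eq_abs] using this
    refine IsBigO.trans_isLittleO (IsBigO.of_bound 1 (Eventually.of_forall fun i => ?_)) h4
    rw [one_mul, Real.norm_eq_abs, Real.norm_of_nonneg (by positivity)]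
    set u := t i
    set q := p i
    have e0 : u - q + q = u := by abel
    rw [e0]
    have hA : ‖u + s • q‖ ≤ (1 - s) * ‖u‖ + s * ‖u + q‖ := by
      have e : u + s • q = (1 - s) • u + s • (u + q) := by
        rw [sub_smul, one_smul, smul_add]; abel
      rw [e]
      refine (norm_add_le _ _).trans ?_
      rw [norm_smul, norm_smul, Real.norm_of_nonneg hs0, Real.norm_of_nonneg (by linarith)]
    have hC : (1 + s) * ‖u‖ ≤ ‖u + s • q‖ + s * ‖u - q‖ := by
      have e : (1 + s) • u = (u + s • q) + s • (u - q) := by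
        rw [add_smul, one_smul, smul_sub]; abel
      have h : (1 + s) * ‖u‖ = ‖(1 + s) • u‖ := by
        rw [norm_smul, Real.norm_of_nonneg (by linarith)]
      rw [h, e]
      refine (norm_add_le _ _).trans ?_
      rw [norm_smul s, Real.norm_of_nonneg hs0]
    have h5 := neg_abs_le (‖u‖ - ‖u - q‖)
    have h6 := le_abs_self (‖u + q‖ - ‖u‖)
    have h7 := abs_nonneg (‖u + q‖ - ‖u‖)
    have h8 := abs_nonneg (‖u‖ - ‖u - q‖)
    have h9 : s * (‖u + q‖ - ‖u‖) ≤ |‖u + q‖ - ‖u‖| := by nlinarith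
    have h10 : -|‖u‖ - ‖u - q‖| ≤ s * (‖u‖ - ‖u - q‖) := by nlinarith
    rw [abs_le]
    constructor
    · linarith
    · linarith

theorem BInv.smul_nonneg {p : ℕ → X} (hp : BInv U r a p) (n : ℕ) :
    ∀ s : ℝ, 0 ≤ s → s ≤ 2 ^ n → BInv U r a (fun i => s • p i) := by
  induction n with
  | zero => intro s hs0 hs1; exact hp.smul_unit hs0 (by simpa using hs1)
  | succ n ih =>
    intro s hs0 hs1
    rw [pow_succ] at hs1
    have h1 := ih (s / 2) (by positivity) (by linarith)
    have h2 := h1.add h1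
    have e : (fun i => (s / 2) • p i + (s / 2) • p i) = fun i => s • p i := by
      ext i; rw [← add_smul]; ring_nf
    rwa [e] at h2

theorem BInv.smul {p : ℕ → X} (hp : BInv U r a p) (s : ℝ) : BInv U r a (fun i => s • p i) := by
  obtain ⟨n, hn⟩ := pow_unbounded_of_one_lt |s| (show (1 : ℝ) < 2 by norm_num)
  have h1 := hp.smul_nonneg n |s| (abs_nonneg _) hn.le
  rcases abs_cases s with ⟨h, _⟩ | ⟨h, _⟩
  · rwa [h] at h1
  · rw [h] at h1
    have h2 := h1.neg
    have e : (fun i => -(-s • p i)) = fun i => s • p i := by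
      ext i; rw [neg_smul, neg_neg]
    rwa [e] at h2

omit [NormedSpace ℝ X] in
theorem BInv.of_isLittleO {p : ℕ → X} (hp : p =o[U] r) : BInv U r a p where
  isBigO := hp.isBigO
  inv := fun t _ => by
    refine IsBigO.trans_isLittleO (IsBigO.of_bound 1 (Eventually.of_forall fun i => ?_)) hp
    rw [one_mul, Real.norm_eq_abs]
    refine (abs_norm_sub_norm_le _ _).trans (le_of_eq ?_)
    congr 1; abel

omit [NormedSpace ℝ X] in
theorem BInv.congr {p q : ℕ → X} (hp : BInv U r a p) (hpq : (fun i => q i - p i) =o[U] r) :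
    BInv U r a q := by
  have h := hp.add (BInv.of_isLittleO (a := a) hpq)
  have e : (fun i => p i + (q i - p i)) = q := by ext i; abel
  rwa [e] at h

omit [NormedSpace ℝ X] in
theorem BInv.norm_sub {p : ℕ → X} (hp : BInv U r a p) :
    (fun i => ‖a + p i‖ - ‖a‖) =o[U] r := by
  have h0 : (fun _ : ℕ => a - a) =O[U] r := by
    rw [sub_self]; exact isBigO_zero _ _
  exact hp.inv (fun _ => a) h0

theorem BInv.nua_sub {p : ℕ → X} (ha : ‖a‖ = 1) (hp : BInv U r a p) :
    (fun i => nua a (a + p i) - (a + p i)) =o[U] r := by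
  refine IsBigO.trans_isLittleO (IsBigO.of_bound 1 (Eventually.of_forall fun i => ?_)) hp.norm_sub
  rw [one_mul, Real.norm_eq_abs, ha]
  exact norm_nua_sub ha _

/-- the elementary estimate behind the comparison of `t` with `nu t` -/
theorem norm_radial_aux {n x : X} (hn : ‖n‖ = 1) {s : ℝ} (hs : -1 ≤ s) :
    |‖n + s • n + x‖ - ‖n + x‖ - s| ≤ |s| * ‖n - x‖ := by
  have e : n + s • n + x = (1 + s / 2) • (n + x) + (s / 2) • (n - x) := by
    have h1 : s • n = (s / 2) • n + (s / 2) • n := by rw [← add_smul]; ring_nf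
    rw [h1, add_smul, one_smul, smul_add, smul_sub]
    abel
  have h1 : |‖n + s • n + x‖ - ‖(1 + s / 2) • (n + x)‖| ≤ |s / 2| * ‖n - x‖ := by
    refine (abs_norm_sub_norm_le _ _).trans (le_of_eq ?_)
    rw [e, add_sub_cancel_left, norm_smul, Real.norm_eq_abs]
  have h2 : |‖n + x‖ - 2| ≤ ‖n - x‖ := by
    have h3 : (2 : ℝ) = ‖(2 : ℝ) • n‖ := by
      rw [norm_smul, hn, Real.norm_of_nonneg (by norm_num)]; norm_num
    conv_lhs => rw [h3]
    refine (abs_norm_sub_norm_le _ _).trans (le_of_eq ?_)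
    rw [two_smul, ← norm_neg]
    congr 1; abel
  have h4 : ‖(1 + s / 2) • (n + x)‖ = (1 + s / 2) * ‖n + x‖ := by
    rw [norm_smul, Real.norm_of_nonneg (by linarith)]
  rw [h4] at h1
  have h5 : ‖n + s • n + x‖ - ‖n + x‖ - s
      = (‖n + s • n + x‖ - (1 + s / 2) * ‖n + x‖) + (s / 2) * (‖n + x‖ - 2) := by ring
  rw [h5]
  refine (abs_add_le _ _).trans ?_
  rw [abs_mul]
  have h6 : |s / 2| * |‖n + x‖ - 2| ≤ |s / 2| * ‖n - x‖ :=
    mul_le_mul_of_nonneg_left h2 (abs_nonneg _)
  have h7 : |s / 2| = |s| / 2 := by rw [abs_div]; norm_num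
  rw [h7] at h1 h6 ⊢
  linarith

/-- comparison of `t` with its radial projection, blow-up form -/
theorem radial_isLittleO (hr : Tendsto r U (𝓝 0)) (ha : ‖a‖ = 1) {t x : ℕ → X}
    (ht : (fun i => t i - a) =O[U] r) (hx : (fun i => x i - a) =O[U] r) :
    (fun i => ‖t i + x i‖ - ‖nua a (t i) + x i‖ - (‖t i‖ - 1)) =o[U] r := by
  -- `‖t‖ - 1 = O(r)`
  have h1 : (fun i => ‖t i‖ - 1) =O[U] r := by
    refine IsBigO.trans (IsBigO.of_bound 1 (Eventually.of_forall fun i => ?_)) ht
    rw [one_mul, Real.norm_eq_abs, ← ha]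
    exact abs_norm_sub_norm_le _ _
  have ht0 : Tendsto (fun i => t i - a) U (𝓝 0) := ht.trans_tendsto hr
  have hx0 : Tendsto (fun i => x i - a) U (𝓝 0) := hx.trans_tendsto hr
  have h2 : Tendsto (fun i => nua a (t i) - x i) U (𝓝 0) := by
    have h3 : Tendsto (fun i => ‖t i‖ - 1) U (𝓝 0) := h1.trans_tendsto hr
    have h4 : Tendsto (fun i => nua a (t i) - t i) U (𝓝 0) := by
      refine squeeze_zero_norm (fun i => norm_nua_sub ha _) ?_
      have := h3.abs
      simpa using this
    have h5 := (h4.add ht0).sub hx0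
    simp only [add_zero, sub_zero] at h5
    refine h5.congr fun i => ?_
    abel
  have h6 : (fun i => |‖t i‖ - 1| * ‖nua a (t i) - x i‖) =o[U] r := by
    have h7 : (fun i => ‖nua a (t i) - x i‖) =o[U] (fun _ => (1 : ℝ)) := by
      rw [isLittleO_one_iff]
      have := h2.norm
      simpa using this
    have h8 := h1.norm_left.mul_isLittleO h7
    simpa only [Real.norm_eq_abs, mul_one] using h8
  have hne : ∀ᶠ i in U, t i ≠ 0 := by
    have h9 : ∀ᶠ i in U, ‖t i - a‖ < 1 := by
      have := ht0.norm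
      rw [norm_zero] at this
      exact this.eventually (gt_mem_nhds one_pos)
    filter_upwards [h9] with i hi h0
    rw [h0, zero_sub, norm_neg, ha] at hi
    exact lt_irrefl _ hi
  refine IsBigO.trans_isLittleO (IsBigO.of_bound 1 ?_) h6
  filter_upwards [hne] with i h0
  rw [one_mul, Real.norm_eq_abs, Real.norm_of_nonneg (by positivity)]
  have e : nua a (t i) = nu (t i) := nua_of_ne h0
  rw [e]
  have hn : ‖nu (t i)‖ = 1 := norm_nu h0
  have h3 := norm_radial_aux (x := x i) hn (s := ‖t i‖ - 1) (by linarith [norm_nonneg (t i)])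
  have e2 : nu (t i) + (‖t i‖ - 1) • nu (t i) = t i := by
    rw [sub_smul, one_smul, add_sub_cancel, nu, smul_smul,
      mul_inv_cancel₀ (norm_ne_zero_iff.mpr h0), one_smul]
  rw [e2] at h3
  exact h3

theorem isBigO_nua_sub (ha : ‖a‖ = 1) {t : ℕ → X} (ht : (fun i => t i - a) =O[U] r) :
    (fun i => nua a (t i) - a) =O[U] r := by
  have h1 : (fun i => nua a (t i) - t i) =O[U] r := by
    refine IsBigO.trans (IsBigO.of_bound 1 (Eventually.of_forall fun i => ?_)) ht
    rw [one_mul]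
    refine (norm_nua_sub ha _).trans ?_
    rw [← ha]
    exact abs_norm_sub_norm_le _ _
  refine (h1.add ht).congr_left fun i => ?_
  abel

/-- the sphere form of invariance implies invariance -/
theorem BInv.of_sphere (hr : Tendsto r U (𝓝 0)) (ha : ‖a‖ = 1) {x : ℕ → X}
    (hx : (fun i => x i - a) =O[U] r)
    (h : ∀ y : ℕ → X, (∀ i, ‖y i‖ = 1) → (fun i => y i - a) =O[U] r →
      (fun i => ‖x i + y i‖ - ‖a + y i‖) =o[U] r) :
    BInv U r a (fun i => x i - a) := by
  have h0 : (fun _ : ℕ => a - a) =O[U] r := by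
    rw [sub_self]; exact isBigO_zero _ _
  -- all nearby `t`
  have hB : ∀ t : ℕ → X, (fun i => t i - a) =O[U] r →
      (fun i => ‖t i + x i‖ - ‖t i + a‖) =o[U] r := by
    intro t ht
    have h1 := radial_isLittleO hr ha ht hx
    have h2 := radial_isLittleO hr ha ht h0
    have h3 := h (fun i => nua a (t i)) (fun i => norm_nua ha _) (isBigO_nua_sub ha ht)
    refine ((h1.sub h2).add h3).congr_left fun i => ?_
    rw [add_comm (x i), add_comm a]
    ring
  have hC : ∀ y : ℕ → X, (fun i => y i - a) =O[U] r →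
      (fun i => ‖y i + (1 / 2 : ℝ) • (x i - a)‖ - ‖y i‖) =o[U] r := by
    intro y hy
    have h1 : (fun i => ((2 : ℝ) • y i - a) - a) =O[U] r := by
      have e : (fun i => ((2 : ℝ) • y i - a) - a) = fun i => (2 : ℝ) • (y i - a) := by
        ext i; rw [smul_sub, two_smul, two_smul]; abel
      rw [e]; exact hy.const_smul_left _
    have h2 := (hB _ h1).const_mul_left (1 / 2)
    refine h2.congr_left fun i => ?_
    have e1 : (2 : ℝ) • y i - a + x i = (2 : ℝ) • (y i + (1 / 2 : ℝ) • (x i - a)) := by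
      rw [smul_add, smul_smul]; norm_num; abel
    have e2 : (2 : ℝ) • y i - a + a = (2 : ℝ) • y i := by abel
    rw [e1, e2, norm_smul, norm_smul, Real.norm_of_nonneg (by norm_num)]
    ring
  refine ⟨hx, fun t ht => ?_⟩
  have h1 : (fun i => (t i + (1 / 2 : ℝ) • (x i - a)) - a) =O[U] r := by
    have e : (fun i => (t i + (1 / 2 : ℝ) • (x i - a)) - a)
        = fun i => (t i - a) + (1 / 2 : ℝ) • (x i - a) := by
      ext i; abel
    rw [e]; exact ht.add (hx.const_smul_left _)
  refine ((hC t ht).add (hC _ h1)).congr_left fun i => ?_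
  have e : t i + (1 / 2 : ℝ) • (x i - a) + (1 / 2 : ℝ) • (x i - a) = t i + (x i - a) := by
    rw [add_assoc, ← add_smul]; norm_num
  rw [e]; ring

/-- invariance implies its sphere form -/
theorem BInv.sphere {p : ℕ → X} (hp : BInv U r a p) {y : ℕ → X}
    (hy : (fun i => y i - a) =O[U] r) :
    (fun i => ‖(a + p i) + y i‖ - ‖a + y i‖) =o[U] r := by
  have h1 : (fun i => (1 / 2 : ℝ) • (a + y i) - a) =O[U] r := by
    have e : (fun i => (1 / 2 : ℝ) • (a + y i) - a) = fun i => (1 / 2 : ℝ) • (y i - a) := by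
      ext i
      have : a = (1 / 2 : ℝ) • a + (1 / 2 : ℝ) • a := by rw [← add_smul]; norm_num
      rw [smul_add, smul_sub]
      conv_lhs => rhs; rw [this]
      abel
    rw [e]; exact hy.const_smul_left _
  have h2 := (hp.half.inv _ h1).const_mul_left 2
  refine h2.congr_left fun i => ?_
  have e1 : (1 / 2 : ℝ) • (a + y i) + (1 / 2 : ℝ) • p i = (1 / 2 : ℝ) • ((a + p i) + y i) := by
    rw [← smul_add]; congr 1; abel
  rw [e1, norm_smul, norm_smul, Real.norm_of_nonneg (by norm_num)]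
  ring

/-- standard rays at a smooth point are invariant displacements -/
theorem BInv.of_smooth (hr : Tendsto r U (𝓝 0)) (ha : ‖a‖ = 1) (hs : Smooth a) {v : X}
    (hv : J a v = 0) {ρ : ℕ → ℝ} (hρ : ρ =O[U] r) : BInv U r a (fun i => ρ i • v) := by
  have hbig : ∀ w : X, (fun i => ρ i • w) =O[U] r := by
    intro w
    have : (fun i => ρ i • w) =O[U] ρ := by
      refine IsBigO.of_bound ‖w‖ (Eventually.of_forall fun i => ?_)
      rw [norm_smul, mul_comm]
    exact this.trans hρ
  have hρ0 : Tendsto ρ U (𝓝 0) := hρ.trans_tendsto hr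
  -- one-sided estimate
  have key : ∀ w : X, J a w = 0 → ∀ t : ℕ → X, (fun i => t i - a) =O[U] r → ∀ ε : ℝ, 0 < ε →
      ∀ᶠ i in U, ‖t i + ρ i • w‖ - ‖t i‖ ≤ ε * ‖r i‖ := by
    intro w hw t ht ε hε
    obtain ⟨C, hC⟩ := ht.bound
    obtain ⟨D, hD⟩ := hρ.bound
    set C' := max C 1 with hC'
    have hC'0 : 0 < C' := lt_max_of_lt_right one_pos
    set D' := max D 1 with hD'
    have hD'0 : 0 < D' := lt_max_of_lt_right one_pos
    set s : ℝ := min (1 / 2) (ε / (4 * C')) with hsdef
    have hs0 : 0 < s := lt_min (by norm_num) (by positivity)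
    have hs1 : s ≤ 1 / 2 := min_le_left _ _
    have hs2 : s * (4 * C') ≤ ε := by
      have := min_le_right (1 / 2 : ℝ) (ε / (4 * C'))
      rw [← hsdef, le_div_iff₀ (by positivity)] at this
      exact this
    obtain ⟨δ, hδ, hd⟩ := hs.deriv w (show (0 : ℝ) < ε / (2 * D') by positivity)
    have hev : ∀ᶠ i in U, |ρ i| ≤ s * δ := by
      have := hρ0.abs
      rw [abs_zero] at this
      filter_upwards [this.eventually (gt_mem_nhds (show (0 : ℝ) < s * δ by positivity))] with i hi
      exact hi.le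
    filter_upwards [hC, hD, hev] with i h1 h2 h3
    have h4 := hd (ρ i / s) (by rw [abs_div, abs_of_pos hs0, div_le_iff₀ hs0]; linarith)
    rw [hw, mul_zero, add_zero, ha, abs_div, abs_of_pos hs0] at h4
    have e : t i + ρ i • w = (t i - s • a) + s • (a + (ρ i / s) • w) := by
      rw [smul_add, smul_smul, mul_div_cancel₀ _ hs0.ne']; abel
    have h5 : ‖t i + ρ i • w‖ ≤ ‖t i - s • a‖ + s * ‖a + (ρ i / s) • w‖ := by
      rw [e]
      refine (norm_add_le _ _).trans ?_
      rw [norm_smul s, Real.norm_of_nonneg hs0.le]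
    have h6 : ‖t i - s • a‖ ≤ (1 - s) * ‖t i‖ + s * ‖t i - a‖ := by
      have e : t i - s • a = (1 - s) • t i + s • (t i - a) := by
        rw [sub_smul, one_smul, smul_sub]; abel
      rw [e]
      refine (norm_add_le _ _).trans ?_
      rw [norm_smul, norm_smul, Real.norm_of_nonneg hs0.le, Real.norm_of_nonneg (by linarith)]
    have h7 : 1 - ‖t i‖ ≤ ‖t i - a‖ := by
      have := norm_sub_norm_le a (t i)
      rw [ha, norm_sub_rev] at this
      exact this
    have h8 : ‖t i - a‖ ≤ C' * ‖r i‖ :=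
      h1.trans (mul_le_mul_of_nonneg_right (le_max_left _ _) (norm_nonneg _))
    have h9 : |ρ i| ≤ D' * ‖r i‖ :=
      h2.trans (mul_le_mul_of_nonneg_right (le_max_left _ _) (norm_nonneg _))
    have h10 : s * ‖a + (ρ i / s) • w‖ ≤ s + ε / (2 * D') * |ρ i| := by
      have := mul_le_mul_of_nonneg_left h4 hs0.le
      have e3 : s * (1 + ε / (2 * D') * (|ρ i| / s)) = s + ε / (2 * D') * |ρ i| := by
        field_simp
      rw [e3] at this
      exact this
    have h11 : ε / (2 * D') * |ρ i| ≤ ε / 2 * ‖r i‖ := by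
      have := mul_le_mul_of_nonneg_left h9 (show 0 ≤ ε / (2 * D') by positivity)
      have e3 : ε / (2 * D') * (D' * ‖r i‖) = ε / 2 * ‖r i‖ := by
        field_simp
      rw [e3] at this
      exact this
    have h12 : s * (C' * ‖r i‖) ≤ ε / 4 * ‖r i‖ := by
      have := mul_le_mul_of_nonneg_right hs2 (norm_nonneg (r i))
      linarith
    have h13 := mul_le_mul_of_nonneg_left h7 hs0.le
    have h14 := mul_le_mul_of_nonneg_left h8 hs0.le
    linarith
  refine ⟨hbig v, fun t ht => ?_⟩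
  rw [isLittleO_iff]
  intro ε hε
  have h1 := key v hv t ht ε hε
  have h2 : (fun i => (t i + ρ i • v) - a) =O[U] r := by
    have e : (fun i => (t i + ρ i • v) - a) = fun i => (t i - a) + ρ i • v := by
      ext i; abel
    rw [e]; exact ht.add (hbig v)
  have h3 := key (-v) (by rw [map_neg, hv, neg_zero]) _ h2 ε hε
  filter_upwards [h1, h3] with i hi1 hi2
  have e : t i + ρ i • v + ρ i • -v = t i := by rw [smul_neg]; abel
  rw [e] at hi2
  rw [Real.norm_eq_abs, abs_le]
  constructor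
  · linarith
  · exact hi1

end Inv

section Transfer

variable {X Y : Type*} [NormedAddCommGroup X] [NormedSpace ℝ X] [NormedAddCommGroup Y]
  [NormedSpace ℝ Y] {f : X → Y} {g : Y → X} {U : Filter ℕ} {r : ℕ → ℝ} {a : X}

omit [NormedSpace ℝ X] [NormedSpace ℝ Y] in
theorem SI.isBigO_comp (h : SI f g) (ha : ‖a‖ = 1) {x : ℕ → X} (hx1 : ∀ i, ‖x i‖ = 1)
    (hx : (fun i => x i - a) =O[U] r) : (fun i => f (x i) - f a) =O[U] r := by
  refine IsBigO.trans (IsBigO.of_bound 1 (Eventually.of_forall fun i => ?_)) hx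
  rw [one_mul, h.dist _ _ (hx1 i) ha]

theorem SI.binv (h : SI f g) (ho : ∀ x, ‖x‖ = 1 → f (-x) = -f x) (hr : Tendsto r U (𝓝 0))
    (ha : ‖a‖ = 1) {x : ℕ → X} (hx1 : ∀ i, ‖x i‖ = 1) (hx : BInv U r a (fun i => x i - a)) :
    BInv U r (f a) (fun i => f (x i) - f a) := by
  refine BInv.of_sphere hr (h.map a ha) (h.isBigO_comp ha hx1 hx.isBigO) ?_
  intro y hy1 hy
  have hgy1 : ∀ i, ‖g (y i)‖ = 1 := fun i => h.imap _ (hy1 i)
  have h1 : (fun i => g (y i) - a) =O[U] r := by
    have := h.symm.isBigO_comp (h.map a ha) hy1 hy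
    rwa [h.left a ha] at this
  refine (hx.sphere h1).congr_left fun i => ?_
  have e : a + (x i - a) = x i := by abel
  rw [e, ← h.norm_add ho (hx1 i) (hgy1 i), ← h.norm_add ho ha (hgy1 i), h.right _ (hy1 i)]

end Transfer

section WCentral

/-- central isometric involution of `S`, for a symmetric function `d` (weak form: the involution
property only up to `d`-distance) -/
structure WCentral {β : Type*} (d : β → β → ℝ) (S : Set β) (s : β → β) : Prop where
  maps : ∀ x ∈ S, s x ∈ S
  iso : ∀ x ∈ S, ∀ y ∈ S, d (s x) (s y) = d x y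
  invol : ∀ x ∈ S, ∀ y ∈ S, d (s (s x)) y = d x y
  central : ∀ x ∈ S, ∀ y ∈ S, 2 * d x y ≤ d x (s x) + d y (s y)

variable {β : Type*} {d : β → β → ℝ} {S : Set β} {s t : β → β}

theorem WCentral.dist_conj (hs : WCentral d S s) (ht : WCentral d S t) {w : β} (hw : w ∈ S) :
    d w (s (t (s w))) = d (s w) (t (s w)) := by
  have h1 := hs.maps w hw
  have h2 := ht.maps _ h1
  have h3 := hs.iso (s w) h1 (t (s w)) h2
  rw [hs.invol w hw _ (hs.maps _ h2)] at h3
  exact h3

theorem WCentral.conj (hd : ∀ x y, d x y = d y x) (hs : WCentral d S s) (ht : WCentral d S t) :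
    WCentral d S (fun x => s (t (s x))) where
  maps := fun x hx => hs.maps _ (ht.maps _ (hs.maps _ hx))
  iso := fun x hx y hy => by
    have hx1 := hs.maps x hx
    have hy1 := hs.maps y hy
    show d (s (t (s x))) (s (t (s y))) = d x y
    rw [hs.iso _ (ht.maps _ hx1) _ (ht.maps _ hy1), ht.iso _ hx1 _ hy1, hs.iso _ hx _ hy]
  invol := fun x hx y hy => by
    have hA := hs.maps x hx
    have hB := ht.maps _ hA
    have hC := hs.maps _ hB
    have hD := hs.maps _ hC
    have hE := ht.maps _ hD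
    have hF := hs.maps _ hE
    have hy1 := hs.maps y hy
    have hy2 := hs.maps _ hy1
    have hy3 := ht.maps _ hy1
    have hy4 := ht.maps _ hy3
    show d (s (t (s (s (t (s x)))))) y = d x y
    rw [hd _ y, ← hs.invol y hy _ hF, hd, hs.iso _ hE _ hy1, hd, ← ht.invol _ hy1 _ hE, hd,
      ht.iso _ hD _ hy3, hs.invol _ hB _ hy3, ht.iso _ hA _ hy1, hs.iso _ hx _ hy]
  central := fun x hx y hy => by
    have hx1 := hs.maps x hx
    have hy1 := hs.maps y hy
    show 2 * d x y ≤ d x (s (t (s x))) + d y (s (t (s y)))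
    rw [hs.dist_conj ht hx, hs.dist_conj ht hy, ← hs.iso x hx y hy]
    exact ht.central _ hx1 _ hy1

theorem WCentral.aux (hd : ∀ x y, d x y = d y x) (hd0 : ∀ x ∈ S, ∀ y ∈ S, 0 ≤ d x y) {D : ℝ}
    (hD : ∀ x ∈ S, ∀ y ∈ S, d x y ≤ D) (ht : WCentral d S t) (n : ℕ) :
    ∀ s : β → β, WCentral d S s → ∀ w ∈ S, (2 : ℝ) ^ n * (d w (s w) - d w (t w)) ≤ D := by
  induction n with
  | zero =>
    intro s hs w hw
    have h1 := hD w hw (s w) (hs.maps w hw)
    have h2 := hd0 w hw (t w) (ht.maps w hw)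
    simp only [pow_zero, one_mul]
    linarith
  | succ n ih =>
    intro s hs w hw
    have h1 := ih _ (hs.conj hd ht) w hw
    rw [hs.dist_conj ht hw] at h1
    have h2 := ht.central w hw (s w) (hs.maps w hw)
    have h3 : 2 * (d w (s w) - d w (t w)) ≤ d (s w) (t (s w)) - d w (t w) := by
      linarith
    have h4 : (0 : ℝ) ≤ 2 ^ n := by positivity
    have h5 := mul_le_mul_of_nonneg_left h3 h4
    rw [pow_succ]
    linarith

theorem WCentral.le (hd : ∀ x y, d x y = d y x) (hd0 : ∀ x ∈ S, ∀ y ∈ S, 0 ≤ d x y) {D : ℝ}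
    (hD : ∀ x ∈ S, ∀ y ∈ S, d x y ≤ D) (hs : WCentral d S s) (ht : WCentral d S t) {w : β}
    (hw : w ∈ S) : d w (s w) ≤ d w (t w) := by
  by_contra hcon
  push Not at hcon
  have hpos : 0 < d w (s w) - d w (t w) := by linarith
  obtain ⟨n, hn⟩ := pow_unbounded_of_one_lt (D / (d w (s w) - d w (t w)))
    (show (1 : ℝ) < 2 by norm_num)
  have h1 := WCentral.aux hd hd0 hD ht n s hs w hw
  rw [div_lt_iff₀ hpos] at hn
  linarith

theorem WCentral.eq (hd : ∀ x y, d x y = d y x) (hd0 : ∀ x ∈ S, ∀ y ∈ S, 0 ≤ d x y) {D : ℝ}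
    (hD : ∀ x ∈ S, ∀ y ∈ S, d x y ≤ D) (hs : WCentral d S s) (ht : WCentral d S t) {w : β}
    (hw : w ∈ S) : d w (s w) = d w (t w) :=
  le_antisymm (hs.le hd hd0 hD ht hw) (ht.le hd hd0 hD hs hw)

end WCentral

section Bd

variable {X : Type*} [NormedAddCommGroup X] [NormedSpace ℝ X] {U : Ultrafilter ℕ} {r : ℕ → ℝ}

/-- the blow-up seminorm of a sequence -/
noncomputable def bd (U : Ultrafilter ℕ) (r : ℕ → ℝ) (z : ℕ → X) : ℝ :=
  limUnder (U : Filter ℕ) (fun i => ‖z i‖ / r i)

omit [NormedSpace ℝ X] in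
theorem bd_tendsto (hr : ∀ i, 0 < r i) {z : ℕ → X} (hz : z =O[(U : Filter ℕ)] r) :
    Tendsto (fun i => ‖z i‖ / r i) U (𝓝 (bd U r z)) := by
  obtain ⟨C, hC⟩ := hz.bound
  have hc : IsCompact (Set.Icc (0 : ℝ) C) := isCompact_Icc
  have hmem : (U.map (fun i => ‖z i‖ / r i) : Filter ℝ) ≤ 𝓟 (Set.Icc (0 : ℝ) C) := by
    rw [le_principal_iff, Ultrafilter.coe_map, mem_map]
    filter_upwards [hC] with i hi
    rw [Real.norm_of_nonneg (hr i).le] at hi
    refine ⟨div_nonneg (norm_nonneg _) (hr i).le, ?_⟩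
    rw [div_le_iff₀ (hr i)]
    exact hi
  obtain ⟨b, _, hb⟩ := hc.ultrafilter_le_nhds _ hmem
  have hb' : Tendsto (fun i => ‖z i‖ / r i) U (𝓝 b) := hb
  have : bd U r z = b := hb'.limUnder_eq
  rw [this]; exact hb'

omit [NormedSpace ℝ X] in
theorem bd_eq_of_tendsto {z : ℕ → X} {b : ℝ} (h : Tendsto (fun i => ‖z i‖ / r i) U (𝓝 b)) :
    bd U r z = b := h.limUnder_eq

omit [NormedSpace ℝ X] in
theorem bd_nonneg (hr : ∀ i, 0 < r i) {z : ℕ → X} (hz : z =O[(U : Filter ℕ)] r) : 0 ≤ bd U r z :=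
  ge_of_tendsto (bd_tendsto hr hz)
    (Eventually.of_forall fun i => div_nonneg (norm_nonneg _) (hr i).le)

omit [NormedSpace ℝ X] in
theorem bd_norm_congr {Y : Type*} [NormedAddCommGroup Y] {z : ℕ → X} {w : ℕ → Y}
    (h : ∀ i, ‖z i‖ = ‖w i‖) : bd U r z = bd U r w := by
  unfold bd
  congr 1
  ext i
  rw [h i]

omit [NormedSpace ℝ X] in
theorem isLittleO_iff_tendsto_div (hr : ∀ i, 0 < r i) {z : ℕ → X} :
    z =o[(U : Filter ℕ)] r ↔ Tendsto (fun i => ‖z i‖ / r i) U (𝓝 0) := by
  rw [← isLittleO_norm_left, isLittleO_iff_tendsto (fun i h => absurd h (hr i).ne')]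

omit [NormedSpace ℝ X] in
theorem bd_eq_zero (hr : ∀ i, 0 < r i) {z : ℕ → X} (hz : z =o[(U : Filter ℕ)] r) :
    bd U r z = 0 :=
  bd_eq_of_tendsto ((isLittleO_iff_tendsto_div hr).mp hz)

omit [NormedSpace ℝ X] in
theorem isLittleO_of_bd (hr : ∀ i, 0 < r i) {z : ℕ → X} (hz : z =O[(U : Filter ℕ)] r)
    (h : bd U r z = 0) : z =o[(U : Filter ℕ)] r := by
  rw [isLittleO_iff_tendsto_div hr, ← h]
  exact bd_tendsto hr hz

omit [NormedSpace ℝ X] in
theorem bd_add_le (hr : ∀ i, 0 < r i) {z w : ℕ → X} (hz : z =O[(U : Filter ℕ)] r)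
    (hw : w =O[(U : Filter ℕ)] r) : bd U r (fun i => z i + w i) ≤ bd U r z + bd U r w := by
  refine le_of_tendsto_of_tendsto (bd_tendsto hr (hz.add hw))
    ((bd_tendsto hr hz).add (bd_tendsto hr hw)) (Eventually.of_forall fun i => ?_)
  show ‖z i + w i‖ / r i ≤ ‖z i‖ / r i + ‖w i‖ / r i
  rw [← add_div, div_le_div_iff_of_pos_right (hr i)]
  exact norm_add_le _ _

omit [NormedSpace ℝ X] in
theorem bd_congr (hr : ∀ i, 0 < r i) {z w : ℕ → X} (hw : w =O[(U : Filter ℕ)] r)
    (h : (fun i => z i - w i) =o[(U : Filter ℕ)] r) : bd U r z = bd U r w := by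
  refine bd_eq_of_tendsto ?_
  have h1 := (isLittleO_iff_tendsto_div hr).mp h
  have h2 := bd_tendsto hr hw
  have h3 : Tendsto (fun i => ‖z i‖ / r i - ‖w i‖ / r i) U (𝓝 0) := by
    refine squeeze_zero_norm (fun i => ?_) h1
    rw [← sub_div, Real.norm_eq_abs, abs_div, abs_of_pos (hr i),
      div_le_div_iff_of_pos_right (hr i)]
    exact abs_norm_sub_norm_le _ _
  have h4 := h3.add h2
  simpa using h4

theorem bd_smul (hr : ∀ i, 0 < r i) {z : ℕ → X} (hz : z =O[(U : Filter ℕ)] r) (c : ℝ) :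
    bd U r (fun i => c • z i) = |c| * bd U r z := by
  refine bd_eq_of_tendsto ?_
  refine ((bd_tendsto hr hz).const_mul |c|).congr fun i => ?_
  rw [norm_smul, Real.norm_eq_abs, mul_div_assoc]

end Bd

section Mid

variable {X Y : Type*} [NormedAddCommGroup X] [NormedSpace ℝ X] [NormedAddCommGroup Y]
  [NormedSpace ℝ Y] {f : X → Y} {g : Y → X} {U : Ultrafilter ℕ} {r : ℕ → ℝ} {a : X}

/-- MAZUR-ULAM in the blow-up: midpoints are preserved up to `o(r)`. -/
theorem SI.blw_mid_seq (h : SI f g) (ho : ∀ x, ‖x‖ = 1 → f (-x) = -f x) (hr0 : ∀ i, 0 < r i)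
    (hr : Tendsto r U (𝓝 0)) (ha : ‖a‖ = 1) {x y m : ℕ → X} (hx1 : ∀ i, ‖x i‖ = 1)
    (hy1 : ∀ i, ‖y i‖ = 1) (hm1 : ∀ i, ‖m i‖ = 1)
    (hx : BInv (U : Filter ℕ) r a (fun i => x i - a))
    (hy : BInv (U : Filter ℕ) r a (fun i => y i - a))
    (hm : (fun i => m i - (1 / 2 : ℝ) • (x i + y i)) =o[(U : Filter ℕ)] r) :
    (fun i => (2 : ℝ) • f (m i) - (f (x i) + f (y i))) =o[(U : Filter ℕ)] r := by
  have ha' := h.map a ha
  have hog := h.odd_symm ho
  set V : Set (ℕ → X) := {z | (∀ i, ‖z i‖ = 1) ∧ BInv (U : Filter ℕ) r a (fun i => z i - a)}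
    with hVdef
  have hxV : x ∈ V := ⟨hx1, hx⟩
  have hyV : y ∈ V := ⟨hy1, hy⟩
  have hmV : m ∈ V := by
    refine ⟨hm1, ((hx.add hy).half).congr ?_⟩
    refine hm.congr_left fun i => ?_
    have e : a = (1 / 2 : ℝ) • a + (1 / 2 : ℝ) • a := by rw [← add_smul]; norm_num
    simp only [smul_add, smul_sub]
    conv_rhs => lhs; rw [e]
    abel
  -- differences are `O(r)`
  have hO : ∀ z ∈ V, ∀ w ∈ V, (fun i => z i - w i) =O[(U : Filter ℕ)] r := by
    intro z hz w hw
    refine (hz.2.isBigO.sub hw.2.isBigO).congr_left fun i => ?_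
    abel
  have hOf : ∀ z ∈ V, ∀ w ∈ V, (fun i => f (z i) - f (w i)) =O[(U : Filter ℕ)] r := by
    intro z hz w hw
    refine IsBigO.trans (IsBigO.of_bound 1 (Eventually.of_forall fun i => ?_)) (hO z hz w hw)
    rw [one_mul, h.dist _ _ (hz.1 i) (hw.1 i)]
  set d : (ℕ → X) → (ℕ → X) → ℝ := fun z w => bd U r (fun i => z i - w i) with hddef
  have hdsymm : ∀ z w, d z w = d w z := fun z w => by
    refine bd_norm_congr fun i => ?_
    rw [norm_sub_rev]
  have hdf : ∀ z ∈ V, ∀ w ∈ V, d z w = bd U r (fun i => f (z i) - f (w i)) := by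
    intro z hz w hw
    refine bd_norm_congr fun i => ?_
    rw [h.dist _ _ (hz.1 i) (hw.1 i)]
  have hd0 : ∀ z ∈ V, ∀ w ∈ V, 0 ≤ d z w := fun z hz w hw => bd_nonneg hr0 (hO z hz w hw)
  -- the reflection `s`
  set s : (ℕ → X) → (ℕ → X) := fun z i => nua a (x i + y i - z i) with hsdef
  have hs1 : ∀ z ∈ V, (fun i => s z i - (x i + y i - z i)) =o[(U : Filter ℕ)] r := by
    intro z hz
    have h1 := ((hx.add hy).sub hz.2).nua_sub ha
    refine h1.congr_left fun i => ?_
    have e : a + (x i - a + (y i - a) - (z i - a)) = x i + y i - z i := by abel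
    rw [e]
  have hsV : ∀ z ∈ V, s z ∈ V := by
    intro z hz
    refine ⟨fun i => norm_nua ha _, ((hx.add hy).sub hz.2).congr ?_⟩
    refine (hs1 z hz).congr_left fun i => ?_
    abel
  -- the reflection `t`
  set t : (ℕ → X) → (ℕ → X) := fun z i => g (nua (f a) (f (x i) + f (y i) - f (z i))) with htdef
  have hft : ∀ z i, f (t z i) = nua (f a) (f (x i) + f (y i) - f (z i)) := fun z i =>
    h.right _ (norm_nua ha' _)
  have hb : ∀ z ∈ V, BInv (U : Filter ℕ) r (f a) (fun i => f (z i) - f a) := fun z hz =>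
    h.binv ho hr ha hz.1 hz.2
  have ht1 : ∀ z ∈ V, (fun i => f (t z i) - (f (x i) + f (y i) - f (z i))) =o[(U : Filter ℕ)] r := by
    intro z hz
    have h1 := (((hb x hxV).add (hb y hyV)).sub (hb z hz)).nua_sub ha'
    refine h1.congr_left fun i => ?_
    have e : f a + (f (x i) - f a + (f (y i) - f a) - (f (z i) - f a))
        = f (x i) + f (y i) - f (z i) := by abel
    rw [e, hft]
  have htV : ∀ z ∈ V, t z ∈ V := by
    intro z hz
    have h2 : BInv (U : Filter ℕ) r (f a)
        (fun i => nua (f a) (f (x i) + f (y i) - f (z i)) - f a) := by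
      refine (((hb x hxV).add (hb y hyV)).sub (hb z hz)).congr ?_
      refine (ht1 z hz).congr_left fun i => ?_
      rw [hft]; abel
    have h3 := h.symm.binv hog hr ha' (fun i => norm_nua ha' _) h2
    rw [h.left a ha] at h3
    exact ⟨fun i => h.imap _ (norm_nua ha' _), h3⟩
  -- the half distances
  have hxm : d x m = d y m := by
    have h1 : d x m = bd U r (fun i => (1 / 2 : ℝ) • (x i - y i)) := by
      refine bd_congr hr0 ((hO x hxV y hyV).const_smul_left _) ?_
      refine hm.neg_left.congr_left fun i => ?_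
      have e : x i = (1 / 2 : ℝ) • x i + (1 / 2 : ℝ) • x i := by rw [← add_smul]; norm_num
      simp only [smul_add, smul_sub]
      conv_rhs => lhs; lhs; rw [e]
      abel
    have h2 : d y m = bd U r (fun i => (1 / 2 : ℝ) • (y i - x i)) := by
      refine bd_congr hr0 ((hO y hyV x hxV).const_smul_left _) ?_
      refine hm.neg_left.congr_left fun i => ?_
      have e : y i = (1 / 2 : ℝ) • y i + (1 / 2 : ℝ) • y i := by rw [← add_smul]; norm_num
      simp only [smul_add, smul_sub]
      conv_rhs => lhs; lhs; rw [e]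
      abel
    rw [h1, h2]
    refine bd_norm_congr fun i => ?_
    rw [norm_smul, norm_smul, norm_sub_rev]
  set S : Set (ℕ → X) := {z | z ∈ V ∧ d x z = d x m ∧ d y z = d y m} with hSdef
  have hSV : ∀ z ∈ S, z ∈ V := fun z hz => hz.1
  have hdsx : ∀ z ∈ V, d x (s z) = d y z := by
    intro z hz
    have h1 : d x (s z) = bd U r (fun i => z i - y i) := by
      refine bd_congr hr0 (hO z hz y hyV) ?_
      refine (hs1 z hz).neg_left.congr_left fun i => ?_
      abel
    rw [h1, hdsymm y z]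
  have hdsy : ∀ z ∈ V, d y (s z) = d x z := by
    intro z hz
    have h1 : d y (s z) = bd U r (fun i => z i - x i) := by
      refine bd_congr hr0 (hO z hz x hxV) ?_
      refine (hs1 z hz).neg_left.congr_left fun i => ?_
      abel
    rw [h1, hdsymm x z]
  have hdtx : ∀ z ∈ V, d x (t z) = d y z := by
    intro z hz
    have h1 : d x (t z) = bd U r (fun i => f (z i) - f (y i)) := by
      rw [hdf x hxV _ (htV z hz)]
      refine bd_congr hr0 (hOf z hz y hyV) ?_
      refine (ht1 z hz).neg_left.congr_left fun i => ?_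
      abel
    rw [h1, hdsymm y z, hdf z hz y hyV]
  have hdty : ∀ z ∈ V, d y (t z) = d x z := by
    intro z hz
    have h1 : d y (t z) = bd U r (fun i => f (z i) - f (x i)) := by
      rw [hdf y hyV _ (htV z hz)]
      refine bd_congr hr0 (hOf z hz x hxV) ?_
      refine (ht1 z hz).neg_left.congr_left fun i => ?_
      abel
    rw [h1, hdsymm x z, hdf z hz x hxV]
  -- displacement of `s` and `t`
  have hsdisp : ∀ z ∈ V, d z (s z) = bd U r (fun i => (z i - x i) + (z i - y i)) := by
    intro z hz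
    refine bd_congr hr0 ((hO z hz x hxV).add (hO z hz y hyV)) ?_
    refine (hs1 z hz).neg_left.congr_left fun i => ?_
    abel
  have htdisp : ∀ z ∈ V, d z (t z)
      = bd U r (fun i => (f (z i) - f (x i)) + (f (z i) - f (y i))) := by
    intro z hz
    rw [hdf z hz _ (htV z hz)]
    refine bd_congr hr0 ((hOf z hz x hxV).add (hOf z hz y hyV)) ?_
    refine (ht1 z hz).neg_left.congr_left fun i => ?_
    abel
  have hCs : WCentral d S s :=
    { maps := fun z hz => ⟨hsV z hz.1, by rw [hdsx z hz.1, hz.2.2, hxm],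
        by rw [hdsy z hz.1, hz.2.1, hxm]⟩
      iso := fun z hz w hw => by
        have h1 : d (s z) (s w) = bd U r (fun i => w i - z i) := by
          refine bd_congr hr0 (hO w hw.1 z hz.1) ?_
          refine ((hs1 z hz.1).sub (hs1 w hw.1)).congr_left fun i => ?_
          abel
        rw [h1, hdsymm z w]
      invol := fun z hz w hw => by
        refine bd_congr hr0 (hO z hz.1 w hw.1) ?_
        refine ((hs1 _ (hsV z hz.1)).sub (hs1 z hz.1)).congr_left fun i => ?_
        abel
      central := fun z hz w hw => by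
        rw [hsdisp z hz.1, hsdisp w hw.1]
        have h1 : bd U r (fun i => (2 : ℝ) • (z i - w i)) = 2 * d z w := by
          rw [bd_smul hr0 (hO z hz.1 w hw.1), abs_of_pos (by norm_num : (0 : ℝ) < 2)]
        have h2 : bd U r (fun i => (w i - x i) + (w i - y i))
            = bd U r (fun i => -((w i - x i) + (w i - y i))) := by
          refine bd_norm_congr fun i => ?_
          rw [norm_neg]
        have h3 := bd_add_le hr0 ((hO z hz.1 x hxV).add (hO z hz.1 y hyV))
          ((hO w hw.1 x hxV).add (hO w hw.1 y hyV)).neg_left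
        rw [← h1, h2]
        refine le_trans (le_of_eq ?_) h3
        congr 1
        ext i
        rw [two_smul]; abel }
  have hCt : WCentral d S t :=
    { maps := fun z hz => ⟨htV z hz.1, by rw [hdtx z hz.1, hz.2.2, hxm],
        by rw [hdty z hz.1, hz.2.1, hxm]⟩
      iso := fun z hz w hw => by
        have h1 : d (t z) (t w) = bd U r (fun i => f (w i) - f (z i)) := by
          rw [hdf _ (htV z hz.1) _ (htV w hw.1)]
          refine bd_congr hr0 (hOf w hw.1 z hz.1) ?_
          refine ((ht1 z hz.1).sub (ht1 w hw.1)).congr_left fun i => ?_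
          abel
        rw [h1, hdsymm z w, hdf w hw.1 z hz.1]
      invol := fun z hz w hw => by
        rw [hdf _ (htV _ (htV z hz.1)) w hw.1, hdf z hz.1 w hw.1]
        refine bd_congr hr0 (hOf z hz.1 w hw.1) ?_
        refine ((ht1 _ (htV z hz.1)).sub (ht1 z hz.1)).congr_left fun i => ?_
        abel
      central := fun z hz w hw => by
        rw [htdisp z hz.1, htdisp w hw.1]
        have h1 : bd U r (fun i => (2 : ℝ) • (f (z i) - f (w i))) = 2 * d z w := by
          rw [bd_smul hr0 (hOf z hz.1 w hw.1), hdf z hz.1 w hw.1]; norm_num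
        have h2 : bd U r (fun i => (f (w i) - f (x i)) + (f (w i) - f (y i)))
            = bd U r (fun i => -((f (w i) - f (x i)) + (f (w i) - f (y i)))) := by
          refine bd_norm_congr fun i => ?_
          rw [norm_neg]
        have h3 := bd_add_le hr0 ((hOf z hz.1 x hxV).add (hOf z hz.1 y hyV))
          ((hOf w hw.1 x hxV).add (hOf w hw.1 y hyV)).neg_left
        rw [← h1, h2]
        refine le_trans (le_of_eq ?_) h3
        congr 1
        ext i
        rw [two_smul]; abel }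
  have hD : ∀ z ∈ S, ∀ w ∈ S, d z w ≤ d x m + d x m := by
    intro z hz w hw
    have h1 := bd_add_le hr0 (hO z hz.1 x hxV) (hO x hxV w hw.1)
    have h2 : bd U r (fun i => z i - x i) = d x m := by
      rw [← hz.2.1]; exact hdsymm z x
    have h3 : bd U r (fun i => x i - w i) = d x m := hw.2.1
    rw [h2, h3] at h1
    refine le_trans (le_of_eq ?_) h1
    refine bd_norm_congr fun i => ?_
    congr 1
    abel
  have hmS : m ∈ S := ⟨hmV, rfl, rfl⟩
  have hfin := WCentral.eq hdsymm (fun z hz w hw => hd0 z hz.1 w hw.1) hD hCs hCt hmS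
  have h0 : d m (s m) = 0 := by
    rw [hsdisp m hmV]
    refine bd_eq_zero hr0 ?_
    refine (hm.const_smul_left (2 : ℝ)).congr_left fun i => ?_
    show (2 : ℝ) • (m i - (1 / 2 : ℝ) • (x i + y i)) = _
    rw [smul_sub, smul_smul, two_smul]
    norm_num
    abel
  rw [h0, htdisp m hmV] at hfin
  have h5 := isLittleO_of_bd hr0 ((hOf m hmV x hxV).add (hOf m hmV y hyV)) hfin.symm
  refine h5.congr_left fun i => ?_
  rw [two_smul]; abel

/-- the blow-up of `f` at `a` along the displacement `p` -/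
noncomputable def BlwT (f : X → Y) (a : X) (p : ℕ → X) (i : ℕ) : Y := f (nua a (a + p i)) - f a

omit [NormedSpace ℝ Y] in
theorem SI.BlwT_norm_sub (h : SI f g) (ha : ‖a‖ = 1) (p q : ℕ → X) (i : ℕ) :
    ‖BlwT f a p i - BlwT f a q i‖ = ‖nua a (a + p i) - nua a (a + q i)‖ := by
  unfold BlwT
  rw [sub_sub_sub_cancel_right, h.dist _ _ (norm_nua ha _) (norm_nua ha _)]

theorem BlwT_disp (ha : ‖a‖ = 1) {p q : ℕ → X} (hp : BInv (U : Filter ℕ) r a p)
    (hq : BInv (U : Filter ℕ) r a q) :
    (fun i => (nua a (a + p i) - nua a (a + q i)) - (p i - q i)) =o[(U : Filter ℕ)] r := by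
  refine ((hp.nua_sub ha).sub (hq.nua_sub ha)).congr_left fun i => ?_
  abel

theorem SI.BlwT_isBigO (h : SI f g) (ha : ‖a‖ = 1) {p q : ℕ → X}
    (hp : BInv (U : Filter ℕ) r a p) (hq : BInv (U : Filter ℕ) r a q) :
    (fun i => BlwT f a p i - BlwT f a q i) =O[(U : Filter ℕ)] r := by
  have h1 : (fun i => nua a (a + p i) - nua a (a + q i)) =O[(U : Filter ℕ)] r := by
    have h2 := (BlwT_disp ha hp hq).isBigO.add (hp.isBigO.sub hq.isBigO)
    refine h2.congr_left fun i => ?_
    abel
  refine IsBigO.trans (IsBigO.of_bound 1 (Eventually.of_forall fun i => ?_)) h1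
  rw [one_mul, h.BlwT_norm_sub ha]

theorem SI.BlwT_bd (h : SI f g) (hr0 : ∀ i, 0 < r i) (ha : ‖a‖ = 1) {p q : ℕ → X}
    (hp : BInv (U : Filter ℕ) r a p) (hq : BInv (U : Filter ℕ) r a q) :
    bd U r (fun i => BlwT f a p i - BlwT f a q i) = bd U r (fun i => p i - q i) := by
  have h1 : bd U r (fun i => BlwT f a p i - BlwT f a q i)
      = bd U r (fun i => nua a (a + p i) - nua a (a + q i)) :=
    bd_norm_congr fun i => h.BlwT_norm_sub ha p q i
  rw [h1]
  exact bd_congr hr0 (hp.isBigO.sub hq.isBigO) (BlwT_disp ha hp hq)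

theorem SI.BlwT_congr (h : SI f g) (hr0 : ∀ i, 0 < r i) (ha : ‖a‖ = 1) {p q : ℕ → X}
    (hp : BInv (U : Filter ℕ) r a p) (hq : BInv (U : Filter ℕ) r a q)
    (hpq : (fun i => p i - q i) =o[(U : Filter ℕ)] r) :
    (fun i => BlwT f a p i - BlwT f a q i) =o[(U : Filter ℕ)] r := by
  refine isLittleO_of_bd hr0 (h.BlwT_isBigO ha hp hq) ?_
  rw [h.BlwT_bd hr0 ha hp hq]
  exact bd_eq_zero hr0 hpq

omit [NormedSpace ℝ Y] in
theorem BlwT_zero (ha : ‖a‖ = 1) (i : ℕ) : BlwT f a (fun _ => 0) i = 0 := by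
  unfold BlwT
  rw [add_zero, nua_of_ne (by rw [← norm_ne_zero_iff, ha]; exact one_ne_zero), nu_of_norm_one ha,
    sub_self]

theorem SI.BlwT_mid (h : SI f g) (ho : ∀ x, ‖x‖ = 1 → f (-x) = -f x) (hr0 : ∀ i, 0 < r i)
    (hr : Tendsto r U (𝓝 0)) (ha : ‖a‖ = 1) {p q m : ℕ → X}
    (hp : BInv (U : Filter ℕ) r a p) (hq : BInv (U : Filter ℕ) r a q)
    (hm : BInv (U : Filter ℕ) r a m)
    (hpqm : ∀ i, (2 : ℝ) • m i = p i + q i) :
    (fun i => (2 : ℝ) • BlwT f a m i - (BlwT f a p i + BlwT f a q i)) =o[(U : Filter ℕ)] r := by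
  have hB : ∀ {p : ℕ → X}, BInv (U : Filter ℕ) r a p →
      BInv (U : Filter ℕ) r a (fun i => nua a (a + p i) - a) := by
    intro p hp
    refine hp.congr ((hp.nua_sub ha).congr_left fun i => ?_)
    abel
  have h1 := h.blw_mid_seq ho hr0 hr ha (x := fun i => nua a (a + p i))
    (y := fun i => nua a (a + q i)) (m := fun i => nua a (a + m i)) (fun i => norm_nua ha _)
    (fun i => norm_nua ha _) (fun i => norm_nua ha _) (hB hp) (hB hq) ?_
  · refine h1.congr_left fun i => ?_
    unfold BlwT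
    rw [smul_sub, two_smul ℝ (f a)]
    abel
  · have h2 := (hm.nua_sub ha).sub (((hp.nua_sub ha).add (hq.nua_sub ha)).const_smul_left
      (1 / 2 : ℝ))
    refine h2.congr_left fun i => ?_
    show nua a (a + m i) - (a + m i) - (1 / 2 : ℝ) • (nua a (a + p i) - (a + p i)
      + (nua a (a + q i) - (a + q i))) = _
    have e : m i = (1 / 2 : ℝ) • (p i + q i) := by
      rw [← hpqm i, smul_smul]; norm_num
    have e2 : a = (1 / 2 : ℝ) • a + (1 / 2 : ℝ) • a := by rw [← add_smul]; norm_num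
    rw [e]
    simp only [smul_add, smul_sub]
    generalize nua a (a + ((1 / 2 : ℝ) • p i + (1 / 2 : ℝ) • q i)) = A
    generalize nua a (a + p i) = B
    generalize nua a (a + q i) = C
    conv_lhs => lhs; rhs; lhs; rw [e2]
    abel

theorem SI.BlwT_add (h : SI f g) (ho : ∀ x, ‖x‖ = 1 → f (-x) = -f x) (hr0 : ∀ i, 0 < r i)
    (hr : Tendsto r U (𝓝 0)) (ha : ‖a‖ = 1) {p q : ℕ → X}
    (hp : BInv (U : Filter ℕ) r a p) (hq : BInv (U : Filter ℕ) r a q) :
    (fun i => BlwT f a (fun j => p j + q j) i - (BlwT f a p i + BlwT f a q i)) =o[(U : Filter ℕ)] r := by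
  have hz : BInv (U : Filter ℕ) r a (fun _ => (0 : X)) :=
    BInv.of_isLittleO (isLittleO_zero _ _)
  have hm := (hp.add hq).half
  have h1 := h.BlwT_mid ho hr0 hr ha hp hq hm (fun i => by rw [smul_smul]; norm_num)
  have h2 := h.BlwT_mid ho hr0 hr ha (hp.add hq) hz hm (fun i => by
    rw [smul_smul]; norm_num)
  refine (h1.sub h2).congr_left fun i => ?_
  rw [BlwT_zero ha]
  abel

theorem SI.BlwT_smul_unit (h : SI f g) (ho : ∀ x, ‖x‖ = 1 → f (-x) = -f x) (hr0 : ∀ i, 0 < r i)
    (hr : Tendsto r U (𝓝 0)) (ha : ‖a‖ = 1) {p : ℕ → X}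
    (hp : BInv (U : Filter ℕ) r a p) (n : ℕ) :
    ∀ t : ℝ, 0 ≤ t → t ≤ 1 →
      bd U r (fun i => BlwT f a (fun j => t • p j) i - t • BlwT f a p i)
        ≤ 2 * bd U r p / 2 ^ n := by
  have hz : BInv (U : Filter ℕ) r a (fun _ => (0 : X)) :=
    BInv.of_isLittleO (isLittleO_zero _ _)
  have hOt : ∀ t : ℝ, (fun i => BlwT f a (fun j => t • p j) i) =O[(U : Filter ℕ)] r := by
    intro t
    refine (h.BlwT_isBigO ha (hp.smul t) hz).congr_left fun i => ?_
    rw [BlwT_zero ha, sub_zero]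
  have hO1 : (fun i => BlwT f a p i) =O[(U : Filter ℕ)] r := by
    refine (h.BlwT_isBigO ha hp hz).congr_left fun i => ?_
    rw [BlwT_zero ha, sub_zero]
  have hbdt : ∀ t : ℝ, bd U r (fun i => BlwT f a (fun j => t • p j) i) = |t| * bd U r p := by
    intro t
    have h1 := h.BlwT_bd hr0 ha (hp.smul t) hz
    have h2 : bd U r (fun i => t • p i - 0) = |t| * bd U r p := by
      rw [← bd_smul hr0 hp.isBigO]
      refine bd_norm_congr fun i => ?_
      rw [sub_zero]
    rw [← h2, ← h1]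
    refine bd_norm_congr fun i => ?_
    rw [BlwT_zero ha, sub_zero]
  have hbd1 : bd U r (fun i => BlwT f a p i) = bd U r p := by
    have h1 := h.BlwT_bd hr0 ha hp hz
    have h2 : bd U r (fun i => p i - 0) = bd U r p := by
      refine bd_norm_congr fun i => ?_
      rw [sub_zero]
    rw [← h2, ← h1]
    refine bd_norm_congr fun i => ?_
    rw [BlwT_zero ha, sub_zero]
  have hp0 : 0 ≤ bd U r p := bd_nonneg hr0 hp.isBigO
  induction n with
  | zero =>
    intro t ht0 ht1
    have h1 := bd_add_le hr0 (hOt t) ((hO1.const_smul_left t).neg_left)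
    have h2 : bd U r (fun i => -(t • BlwT f a p i)) = |t| * bd U r p := by
      rw [← hbd1, ← bd_smul hr0 hO1]
      exact bd_norm_congr fun i => norm_neg _
    have h3 : bd U r (fun i => BlwT f a (fun j => t • p j) i + -(t • BlwT f a p i))
        = bd U r (fun i => BlwT f a (fun j => t • p j) i - t • BlwT f a p i) :=
      bd_norm_congr fun i => by rw [sub_eq_add_neg]
    have h1' : bd U r (fun i => BlwT f a (fun j => t • p j) i + -(t • BlwT f a p i))
        ≤ bd U r (fun i => BlwT f a (fun j => t • p j) i) + bd U r (fun i => -(t • BlwT f a p i)) := h1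
    rw [h3, h2, hbdt, abs_of_nonneg ht0] at h1'
    rw [pow_zero, div_one]
    nlinarith
  | succ n ih =>
    -- halving
    have hhalf : ∀ t : ℝ, 0 ≤ t → t ≤ 1 / 2 →
        bd U r (fun i => BlwT f a (fun j => t • p j) i - t • BlwT f a p i)
          ≤ 2 * bd U r p / 2 ^ (n + 1) := by
      intro t ht0 ht1
      have h1 := ih (2 * t) (by positivity) (by linarith)
      have h2 := h.BlwT_mid ho hr0 hr ha (hp.smul (2 * t)) hz (hp.smul t) (fun i => by
        rw [smul_smul, add_zero])
      have h3 : bd U r (fun i => (2 : ℝ) • (BlwT f a (fun j => t • p j) i - t • BlwT f a p i))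
          = bd U r (fun i => BlwT f a (fun j => (2 * t) • p j) i - (2 * t) • BlwT f a p i) := by
        refine bd_congr hr0 ((hOt (2 * t)).sub (hO1.const_smul_left (2 * t))) ?_
        refine h2.congr_left fun i => ?_
        rw [BlwT_zero ha, smul_sub, smul_smul]
        abel
      have h4 := bd_smul hr0 (z := fun i => BlwT f a (fun j => t • p j) i - t • BlwT f a p i)
        ((hOt t).sub (hO1.const_smul_left t)) 2
      rw [h4, abs_of_pos (by norm_num)] at h3
      rw [← h3] at h1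
      rw [pow_succ, ← div_div]
      linarith
    intro t ht0 ht1
    rcases le_total t (1 / 2) with hh | hh
    · exact hhalf t ht0 hh
    · have h1 := hhalf (1 - t) (by linarith) (by linarith)
      have h2 := h.BlwT_add ho hr0 hr ha (hp.smul t) (hp.smul (1 - t))
      have h3 : bd U r (fun i => BlwT f a (fun j => t • p j) i - t • BlwT f a p i)
          = bd U r (fun i => -(BlwT f a (fun j => (1 - t) • p j) i - (1 - t) • BlwT f a p i)) := by
        refine bd_congr hr0 ((hOt (1 - t)).sub (hO1.const_smul_left (1 - t))).neg_left ?_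
        refine h2.neg_left.congr_left fun i => ?_
        have e : (fun j => t • p j + (1 - t) • p j) = p := by
          ext j; rw [← add_smul]; norm_num
        rw [e, sub_smul, one_smul]
        abel
      rw [h3]
      refine le_trans (le_of_eq ?_) h1
      exact bd_norm_congr fun i => norm_neg _

theorem SI.BlwT_smul (h : SI f g) (ho : ∀ x, ‖x‖ = 1 → f (-x) = -f x) (hr0 : ∀ i, 0 < r i)
    (hr : Tendsto r U (𝓝 0)) (ha : ‖a‖ = 1) {p : ℕ → X}
    (hp : BInv (U : Filter ℕ) r a p) (t : ℝ) :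
    (fun i => BlwT f a (fun j => t • p j) i - t • BlwT f a p i) =o[(U : Filter ℕ)] r := by
  have hz : BInv (U : Filter ℕ) r a (fun _ => (0 : X)) :=
    BInv.of_isLittleO (isLittleO_zero _ _)
  have hOt : ∀ t : ℝ, (fun i => BlwT f a (fun j => t • p j) i) =O[(U : Filter ℕ)] r := by
    intro t
    refine (h.BlwT_isBigO ha (hp.smul t) hz).congr_left fun i => ?_
    rw [BlwT_zero ha, sub_zero]
  have hO1 : (fun i => BlwT f a p i) =O[(U : Filter ℕ)] r := by
    refine (h.BlwT_isBigO ha hp hz).congr_left fun i => ?_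
    rw [BlwT_zero ha, sub_zero]
  have hunit : ∀ t : ℝ, 0 ≤ t → t ≤ 1 →
      (fun i => BlwT f a (fun j => t • p j) i - t • BlwT f a p i) =o[(U : Filter ℕ)] r := by
    intro t ht0 ht1
    have hO := (hOt t).sub (hO1.const_smul_left t)
    refine isLittleO_of_bd hr0 hO ?_
    refine le_antisymm ?_ (bd_nonneg hr0 hO)
    have h1 : Tendsto (fun n : ℕ => 2 * bd U r p / 2 ^ n) atTop (𝓝 0) := by
      have h2 : Tendsto (fun n : ℕ => 2 * bd U r p * (1 / 2) ^ n) atTop (𝓝 (2 * bd U r p * 0)) :=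
        (tendsto_pow_atTop_nhds_zero_of_lt_one (by norm_num) (by norm_num)).const_mul _
      rw [mul_zero] at h2
      refine h2.congr fun n => ?_
      rw [one_div, inv_pow, div_eq_mul_inv]
    exact ge_of_tendsto h1 (Eventually.of_forall fun n => h.BlwT_smul_unit ho hr0 hr ha hp n t ht0 ht1)
  have hdouble : ∀ t : ℝ, (fun i => BlwT f a (fun j => t • p j) i - t • BlwT f a p i)
        =o[(U : Filter ℕ)] r →
      (fun i => BlwT f a (fun j => (2 * t) • p j) i - (2 * t) • BlwT f a p i)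
        =o[(U : Filter ℕ)] r := by
    intro t ht
    have h2 := h.BlwT_add ho hr0 hr ha (hp.smul t) (hp.smul t)
    refine ((ht.const_smul_left (2 : ℝ)).add h2).congr_left fun i => ?_
    show (2 : ℝ) • (BlwT f a (fun j => t • p j) i - t • BlwT f a p i) + _ = _
    have e : (fun j => t • p j + t • p j) = fun j => (2 * t) • p j := by
      ext j; rw [← add_smul, two_mul]
    rw [e, smul_sub, smul_smul, two_smul]
    abel
  have hnn : ∀ n : ℕ, ∀ t : ℝ, 0 ≤ t → t ≤ 2 ^ n →
      (fun i => BlwT f a (fun j => t • p j) i - t • BlwT f a p i) =o[(U : Filter ℕ)] r := by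
    intro n
    induction n with
    | zero => intro t h0 h1; exact hunit t h0 (by simpa using h1)
    | succ n ih =>
      intro t h0 h1
      rw [pow_succ] at h1
      have h2 := hdouble (t / 2) (ih (t / 2) (by positivity) (by linarith))
      have e : 2 * (t / 2) = t := by ring
      rwa [e] at h2
  have hpos : ∀ t : ℝ, 0 ≤ t →
      (fun i => BlwT f a (fun j => t • p j) i - t • BlwT f a p i) =o[(U : Filter ℕ)] r := by
    intro t ht
    obtain ⟨n, hn⟩ := pow_unbounded_of_one_lt t (show (1 : ℝ) < 2 by norm_num)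
    exact hnn n t ht hn.le
  rcases le_total 0 t with ht | ht
  · exact hpos t ht
  · have h1 := hpos (-t) (by linarith)
    have h2 := h.BlwT_add ho hr0 hr ha (hp.smul t) (hp.smul (-t))
    refine (h2.add h1).neg_left.congr_left fun i => ?_
    have e : (fun j => t • p j + (-t) • p j) = fun _ => 0 := by
      ext j; rw [← add_smul]; simp
    rw [e, BlwT_zero ha, neg_smul]
    abel

/-- BLOW-UP LINEARITY, nonstandard form. -/
theorem SI.BlwT_lin (h : SI f g) (ho : ∀ x, ‖x‖ = 1 → f (-x) = -f x) (hr0 : ∀ i, 0 < r i)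
    (hr : Tendsto r U (𝓝 0)) (ha : ‖a‖ = 1) {p q : ℕ → X}
    (hp : BInv (U : Filter ℕ) r a p) (hq : BInv (U : Filter ℕ) r a q) (s t : ℝ) :
    (fun i => BlwT f a (fun j => s • p j + t • q j) i - s • BlwT f a p i - t • BlwT f a q i)
      =o[(U : Filter ℕ)] r := by
  have h1 := h.BlwT_add ho hr0 hr ha (hp.smul s) (hq.smul t)
  have h2 := h.BlwT_smul ho hr0 hr ha hp s
  have h3 := h.BlwT_smul ho hr0 hr ha hq t
  refine ((h1.add h2).add h3).congr_left fun i => ?_
  abel

end Mid

section Final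

variable {X Y : Type*} [NormedAddCommGroup X] [NormedSpace ℝ X] [NormedAddCommGroup Y]
  [NormedSpace ℝ Y] {f : X → Y} {g : Y → X}

/-- BLOW-UP LINEARITY at a smooth point, `ε`-`δ` form. -/
theorem SI.blow_lin (h : SI f g) (ho : ∀ x, ‖x‖ = 1 → f (-x) = -f x) {x : X} (hx : ‖x‖ = 1)
    (hs : Smooth x) {v w : X} (hv : J x v = 0) (hw : J x w = 0) (s t : ℝ) {ε : ℝ} (hε : 0 < ε) :
    ∃ δ : ℝ, 0 < δ ∧ ∀ r : ℝ, 0 < |r| → |r| < δ →
      ‖(f (nu (x + r • (s • v + t • w))) - f x) - s • (f (nu (x + r • v)) - f x)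
        - t • (f (nu (x + r • w)) - f x)‖ ≤ ε * |r| := by
  by_contra hcon
  push Not at hcon
  have hpos : ∀ n : ℕ, (0 : ℝ) < 1 / ((n : ℝ) + 1) := fun n => by positivity
  choose ρ hρ0 hρ1 hρ2 using fun n : ℕ => hcon (1 / ((n : ℝ) + 1)) (hpos n)
  set U : Ultrafilter ℕ := hyperfilter ℕ with hU
  have hUle : (U : Filter ℕ) ≤ atTop := by
    rw [← Nat.cofinite_eq_atTop]; exact hyperfilter_le_cofinite
  set r : ℕ → ℝ := fun n => |ρ n| with hrdef
  have hr : Tendsto r U (𝓝 0) := by
    have h1 : Tendsto r atTop (𝓝 0) :=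
      squeeze_zero (fun n => abs_nonneg _) (fun n => (hρ1 n).le)
        tendsto_one_div_add_atTop_nhds_zero_nat
    exact h1.mono_left hUle
  have hρO : ρ =O[(U : Filter ℕ)] r := by
    refine IsBigO.of_bound 1 (Eventually.of_forall fun i => ?_)
    rw [one_mul, hrdef, Real.norm_eq_abs, Real.norm_eq_abs, abs_abs]
  have hρ : Tendsto ρ U (𝓝 0) := hρO.trans_tendsto hr
  have hp : BInv (U : Filter ℕ) r x (fun i => ρ i • v) := BInv.of_smooth hr hx hs hv hρO
  have hq : BInv (U : Filter ℕ) r x (fun i => ρ i • w) := BInv.of_smooth hr hx hs hw hρO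
  have hlin := h.BlwT_lin ho hρ0 hr hx hp hq s t
  -- eventually nonzero
  have hne : ∀ z : X, ∀ᶠ i in (U : Filter ℕ), x + ρ i • z ≠ 0 := by
    intro z
    have h1 : Tendsto (fun i => x + ρ i • z) U (𝓝 (x + (0 : ℝ) • z)) :=
      tendsto_const_nhds.add (hρ.smul_const z)
    rw [zero_smul, add_zero] at h1
    exact h1.eventually_ne (by rw [← norm_ne_zero_iff, hx]; exact one_ne_zero)
  have hTT : ∀ z : X, ∀ᶠ i in (U : Filter ℕ), BlwT f x (fun i => ρ i • z) i
      = f (nu (x + ρ i • z)) - f x := by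
    intro z
    filter_upwards [hne z] with i hi
    unfold BlwT
    rw [nua_of_ne hi]
  rw [isLittleO_iff] at hlin
  have hfin := hlin hε
  have e : (fun j => s • ρ j • v + t • ρ j • w) = fun j => ρ j • (s • v + t • w) := by
    ext j
    rw [smul_add, smul_comm s, smul_comm t]
  rw [e] at hfin
  obtain ⟨i, h1, h2, h3, h4⟩ := (hfin.and ((hTT v).and ((hTT w).and
    (hTT (s • v + t • w))))).exists
  rw [h2, h3, h4, Real.norm_of_nonneg (hρ0 i).le] at h1
  exact absurd h1 (not_le.mpr (hρ2 i))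

/-- midpoint form (M2) -/
theorem SI.blw_mid (h : SI f g) (ho : ∀ x, ‖x‖ = 1 → f (-x) = -f x) {x : X} (hx : ‖x‖ = 1)
    (hs : Smooth x) {v w : X} (hv : J x v = 0) (hw : J x w = 0) {ε : ℝ} (hε : 0 < ε) :
    ∃ δ : ℝ, 0 < δ ∧ ∀ r : ℝ, 0 < |r| → |r| < δ →
      ‖f (nu (x + r • ((1 / 2 : ℝ) • (v + w))))
        - (1 / 2 : ℝ) • (f (nu (x + r • v)) + f (nu (x + r • w)))‖ ≤ ε * |r| := by
  obtain ⟨δ, hδ, hd⟩ := h.blow_lin ho hx hs hv hw (1 / 2) (1 / 2) hε
  refine ⟨δ, hδ, fun r hr0 hr1 => ?_⟩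
  refine le_trans (le_of_eq ?_) (hd r hr0 hr1)
  congr 1
  have e : f x = (1 / 2 : ℝ) • f x + (1 / 2 : ℝ) • f x := by rw [← add_smul]; norm_num
  rw [← smul_add (1 / 2 : ℝ) v w]
  simp only [smul_add (1 / 2 : ℝ) (f _) (f _), smul_sub]
  conv_rhs => lhs; lhs; rhs; rw [e]
  abel

end Final

end Crest.Agent.R074
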