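import Crest.Agent.R074.Centre

/-!
Row 74 (S0099), the doubling lemma (helper401's note 8188 (II)): for a unit triangle
`a, b, z = a + b` with `f a`, `f z`, `2 f a - f z` smooth and `‖a - b‖ < 2`, every functional
norming `f z - f w`, where `z - w` is a positive multiple of a vector of a half-open segment
`[u, c₀)` of the unit sphere starting at the direction `u` of `a - b`, agrees with
`J (2 f a - f z)` on `ker J (f z)`.

The blow-up of `g` is used only through homogeneity along single rays (`Hom`).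
-/

set_option autoImplicit false

namespace Crest.Agent.R074

open Metric Set Filter Topology Asymptotics

section Nu

variable {X : Type*} [NormedAddCommGroup X] [NormedSpace ℝ X]

namespace Dbl

/-- normalisation -/
noncomputable def nu (z : X) : X := ‖z‖⁻¹ • z

theorem norm_nu {z : X} (hz : z ≠ 0) : ‖nu z‖ = 1 := by
  rw [nu, norm_smul, norm_inv, norm_norm, inv_mul_cancel₀ (norm_ne_zero_iff.mpr hz)]

theorem norm_nu_sub {z : X} (hz : z ≠ 0) : ‖nu z - z‖ = |1 - ‖z‖| := by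
  have h0 : ‖z‖ ≠ 0 := norm_ne_zero_iff.mpr hz
  have e : nu z - z = (‖z‖⁻¹ - 1) • z := by rw [nu, sub_smul, one_smul]
  rw [e, norm_smul, Real.norm_eq_abs]
  have h1 : |‖z‖⁻¹ - 1| * ‖z‖ = |(‖z‖⁻¹ - 1) * ‖z‖| := by
    rw [abs_mul, abs_of_nonneg (norm_nonneg z)]
  rw [h1, sub_mul, inv_mul_cancel₀ h0, one_mul]

/-- crude Lipschitz bound of `nu` at a unit vector -/
theorem norm_nu_sub_le {y z : X} (hy : ‖y‖ = 1) (hz : z ≠ 0) : ‖nu z - y‖ ≤ 2 * ‖z - y‖ := by
  have h1 : ‖nu z - y‖ ≤ ‖nu z - z‖ + ‖z - y‖ := norm_sub_le_norm_sub_add_norm_sub _ _ _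
  rw [norm_nu_sub hz] at h1
  have h2 : |1 - ‖z‖| ≤ ‖z - y‖ := by
    rw [← hy, abs_sub_comm]; exact abs_norm_sub_norm_le _ _
  linarith

end Dbl

open Dbl

/-- second order: at a smooth unit vector the normalisation is a first-order identity on
tangent rays -/
theorem Smooth.nu_isLittleO {y v : X} (hy : ‖y‖ = 1) (hs : Smooth y) (hv : J y v = 0) {l : Filter ℝ}
    (hl : l ≤ 𝓝 0) (τ : ℝ → ℝ) {M : ℝ} (hτ : ∀ r, |τ r| ≤ M) :
    (fun r : ℝ => nu (y + (τ r * r) • v) - (y + (τ r * r) • v)) =o[l] (fun r => r) := by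
  have hM : 0 ≤ M := (abs_nonneg _).trans (hτ 0)
  rw [isLittleO_iff]
  intro c hc
  obtain ⟨δ, hδ, hd⟩ := hs.deriv v (ε := c / (M + 1)) (by positivity)
  have hev : ∀ᶠ r : ℝ in l, |r| < δ / (M + 1) ∧ |r| * (M + 1) * ‖v‖ < 1 := by
    have h1 : ∀ᶠ r : ℝ in 𝓝 0, |r| < δ / (M + 1) := by
      have := Metric.ball_mem_nhds (0 : ℝ) (show 0 < δ / (M + 1) by positivity)
      filter_upwards [this] with r hr
      simpa [Real.dist_eq] using hr
    have h2 : ∀ᶠ r : ℝ in 𝓝 0, |r| < 1 / ((M + 1) * (‖v‖ + 1)) := by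
      have := Metric.ball_mem_nhds (0 : ℝ) (show 0 < 1 / ((M + 1) * (‖v‖ + 1)) by positivity)
      filter_upwards [this] with r hr
      simpa [Real.dist_eq] using hr
    filter_upwards [hl (h1.and h2)] with r hr
    refine ⟨hr.1, ?_⟩
    have h3 := hr.2
    rw [lt_div_iff₀ (by positivity)] at h3
    have h4 : |r| * (M + 1) * ‖v‖ ≤ |r| * ((M + 1) * (‖v‖ + 1)) := by
      have : 0 ≤ |r| * (M + 1) := by positivity
      nlinarith
    linarith
  filter_upwards [hev] with r hr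
  have habs : |τ r * r| ≤ M * |r| := by
    rw [abs_mul]; exact mul_le_mul_of_nonneg_right (hτ r) (abs_nonneg _)
  have hle : |τ r * r| ≤ δ := by
    have h1 := hr.1
    rw [lt_div_iff₀ (by positivity)] at h1
    nlinarith [abs_nonneg r]
  have hne : y + (τ r * r) • v ≠ 0 := by
    intro h0
    have h1 : ‖y‖ = |τ r * r| * ‖v‖ := by
      have : y = -((τ r * r) • v) := eq_neg_of_add_eq_zero_left h0
      rw [this, norm_neg, norm_smul, Real.norm_eq_abs]
    rw [hy] at h1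
    have h2 : |τ r * r| * ‖v‖ ≤ |r| * (M + 1) * ‖v‖ := by
      apply mul_le_mul_of_nonneg_right _ (norm_nonneg _)
      nlinarith [abs_nonneg r]
    linarith [hr.2]
  rw [norm_nu_sub hne]
  have h1 := hd _ hle
  have h2 := norm_add_smul_ge y v (τ r * r)
  rw [hv, hy] at h1 h2
  have h3 : c / (M + 1) * |τ r * r| ≤ c * |r| := by
    have h4 : c / (M + 1) * |τ r * r| ≤ c / (M + 1) * (M * |r|) :=
      mul_le_mul_of_nonneg_left habs (by positivity)
    have h5 : c / (M + 1) * (M * |r|) ≤ c * |r| := by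
      rw [div_mul_eq_mul_div, div_le_iff₀ (by positivity)]
      have : 0 ≤ c * |r| := by positivity
      nlinarith
    linarith
  rw [Real.norm_eq_abs]
  rw [abs_le]
  constructor <;> linarith

/-- flat segments propagate smoothness from an endpoint to the centre -/
theorem Smooth.of_flat {x e : X} (h1 : ‖x + e‖ = ‖x‖) (h2 : ‖x - e‖ = ‖x‖) (hs : Smooth (x + e)) :
    Smooth x ∧ J x = J (x + e) ∧ J x e = 0 := by
  have key : ∀ p : X →L[ℝ] ℝ, Norming p x → p e = 0 ∧ p = J (x + e) := by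
    intro p hp
    have h3 := hp.le (x + e)
    have h4 := hp.le (x - e)
    rw [map_add, hp.2, h1] at h3
    rw [map_sub, hp.2, h2] at h4
    have h5 : p e = 0 := by linarith
    refine ⟨h5, hs.eq_J ⟨hp.1, ?_⟩⟩
    rw [map_add, hp.2, h5, h1, add_zero]
  refine ⟨smooth_of_unique fun p q hp hq => ?_, (key _ (J_norming x)).2, (key _ (J_norming x)).1⟩
  rw [(key p hp).2, (key q hq).2]

end Nu

section Doubling

open Dbl

variable {X Y : Type*} [NormedAddCommGroup X] [NormedSpace ℝ X] [NormedAddCommGroup Y]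
  [NormedSpace ℝ Y] {f : X → Y} {g : Y → X}

/-- homogeneity of the blow-up of `g` at `y` along the ray `α` -/
def Hom (g : Y → X) (y α : Y) : Prop :=
  ∀ t : ℝ, (fun r : ℝ => g (nu (y + (t * r) • α)) - g y - t • (g (nu (y + r • α)) - g y))
    =o[𝓝[>] (0 : ℝ)] (fun r => r)

/-- admissible partners: on the sphere of `Y`, for `Z, A` with `‖Z - A‖ = 1`, `A` smooth and
`|J A (Z - A)| < 1`, the constraint `‖Z_r - A_r‖ = 1` can be kept while `Z` moves linearly. -/
theorem exists_partner {Z A ζ : Y} (hZ : ‖Z‖ = 1) (hA : ‖A‖ = 1) (hZA : ‖Z - A‖ = 1)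
    (hs : Smooth A) (hc : |J A (Z - A)| < 1) :
    ∃ M : ℝ, 0 ≤ M ∧ ∀ᶠ r : ℝ in 𝓝[>] (0 : ℝ), ∃ t : ℝ, |t| ≤ M ∧
      ‖nu (Z + r • ζ) - nu (A + (t * r) • ((Z - A) - J A (Z - A) • A))‖ = 1 := by
  set c : ℝ := J A (Z - A) with hcdef
  set β : Y := (Z - A) - c • A with hβ
  have hJβ : J A β = 0 := by
    rw [hβ, map_sub, map_smul, J_self, hA, smul_eq_mul, mul_one, ← hcdef, sub_self]
  set M : ℝ := (2 * ‖ζ‖ + 1) / (1 - |c|) with hM
  have h1c : 0 < 1 - |c| := by linarith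
  have hM0 : 0 < M := by rw [hM]; positivity
  have hMc : M * (1 - |c|) = 2 * ‖ζ‖ + 1 := by rw [hM]; field_simp
  refine ⟨M, hM0.le, ?_⟩
  have hlo : 𝓝[>] (0 : ℝ) ≤ 𝓝 0 := nhdsWithin_le_nhds
  have he1 := hs.nu_isLittleO hA hJβ hlo (fun _ => M) (M := M) (fun _ => by rw [abs_of_pos hM0])
  have he2 := hs.nu_isLittleO hA hJβ hlo (fun _ => -M) (M := M)
    (fun _ => by rw [abs_neg, abs_of_pos hM0])
  have hb1 := he1.def (c := 1) one_pos
  have hb2 := he2.def (c := 1) one_pos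
  have hsmall : ∀ᶠ r : ℝ in 𝓝[>] (0 : ℝ), 0 < r ∧ r * ‖ζ‖ < 1 ∧ r * M * ‖β‖ < 1 ∧ r * M < 1 := by
    have h0 : ∀ᶠ r : ℝ in 𝓝[>] (0 : ℝ), 0 < r := self_mem_nhdsWithin
    have hcon : ∀ C : ℝ, ∀ᶠ r : ℝ in 𝓝[>] (0 : ℝ), r * C < 1 := by
      intro C
      have : Tendsto (fun r : ℝ => r * C) (𝓝[>] (0 : ℝ)) (𝓝 (0 * C)) :=
        (tendsto_id.mul_const C).mono_left hlo
      rw [zero_mul] at this
      exact this.eventually_lt_const one_pos
    filter_upwards [h0, hcon ‖ζ‖, hcon (M * ‖β‖), hcon M] with r h1 h2 h3 h4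
    exact ⟨h1, h2, by linarith [mul_assoc r M ‖β‖], h4⟩
  filter_upwards [hb1, hb2, hsmall] with r hr1 hr2 hr3
  obtain ⟨hr0, hrζ, hrβ, hrM⟩ := hr3
  rw [Real.norm_of_nonneg hr0.le, one_mul] at hr1 hr2
  -- non-vanishing
  have hne : ∀ t : ℝ, |t| ≤ M → A + (t * r) • β ≠ 0 := by
    intro t ht h0
    have h1 : ‖A‖ = |t * r| * ‖β‖ := by
      have : A = -((t * r) • β) := eq_neg_of_add_eq_zero_left h0
      rw [this, norm_neg, norm_smul, Real.norm_eq_abs]
    rw [hA, abs_mul, abs_of_pos hr0] at h1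
    have h2 : |t| * r * ‖β‖ ≤ r * M * ‖β‖ := by
      apply mul_le_mul_of_nonneg_right _ (norm_nonneg _)
      nlinarith
    linarith
  have hneZ : Z + r • ζ ≠ 0 := by
    intro h0
    have h1 : ‖Z‖ = r * ‖ζ‖ := by
      have : Z = -(r • ζ) := eq_neg_of_add_eq_zero_left h0
      rw [this, norm_neg, norm_smul, Real.norm_of_nonneg hr0.le]
    rw [hZ] at h1
    linarith
  have hZr : ‖nu (Z + r • ζ) - Z‖ ≤ 2 * (r * ‖ζ‖) := by
    have := norm_nu_sub_le hZ hneZ
    rwa [add_sub_cancel_left, norm_smul, Real.norm_of_nonneg hr0.le] at this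
  set φ : ℝ → ℝ := fun t => ‖nu (Z + r • ζ) - nu (A + (t * r) • β)‖ with hφ
  have hcont : ContinuousOn φ (Icc (-M) M) := by
    apply ContinuousOn.norm
    apply continuousOn_const.sub
    intro t ht
    have h1 : ‖A + (t * r) • β‖ ≠ 0 := norm_ne_zero_iff.mpr (hne t (abs_le.mpr ht))
    apply ContinuousAt.continuousWithinAt
    unfold Dbl.nu
    apply ContinuousAt.smul
    · refine ContinuousAt.inv₀ (f := fun x : ℝ => ‖A + (x * r) • β‖) ?_ h1
      fun_prop
    · fun_prop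
  -- value at `M`
  have hup : φ M ≤ 1 := by
    have e : nu (Z + r • ζ) - nu (A + (M * r) • β)
        = (nu (Z + r • ζ) - Z) + ((1 - M * r) • (Z - A) + (M * r * c) • A)
          - (nu (A + (M * r) • β) - (A + (M * r) • β)) := by
      rw [hβ]; module
    have h1 : ‖(1 - M * r) • (Z - A) + (M * r * c) • A‖ ≤ (1 - M * r) + M * r * |c| := by
      refine (norm_add_le _ _).trans ?_
      rw [norm_smul, norm_smul, hZA, hA, Real.norm_of_nonneg (by nlinarith), Real.norm_eq_abs,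
        abs_mul, abs_of_nonneg (by positivity : (0 : ℝ) ≤ M * r)]
      linarith
    show ‖nu (Z + r • ζ) - nu (A + (M * r) • β)‖ ≤ 1
    rw [e]
    refine (norm_sub_le _ _).trans ?_
    have h2 := norm_add_le (nu (Z + r • ζ) - Z) ((1 - M * r) • (Z - A) + (M * r * c) • A)
    have h3 : M * r - M * r * |c| = (2 * ‖ζ‖ + 1) * r := by rw [← hMc]; ring
    nlinarith
  -- value at `-M`
  have hdn : 1 ≤ φ (-M) := by
    have e : (Z - A) - (-M * r) • β = nu (Z + r • ζ) - nu (A + (-M * r) • β)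
        - (nu (Z + r • ζ) - Z) + (nu (A + (-M * r) • β) - (A + (-M * r) • β)) := by
      module
    have h1 : 1 + M * r * (1 - |c|) ≤ ‖(Z - A) - (-M * r) • β‖ := by
      have e2 : (Z - A) = (1 / (1 + M * r)) • ((Z - A) - (-M * r) • β)
          + ((M * r) / (1 + M * r)) • (c • A) := by
        have hne1 : (1 + M * r) ≠ 0 := by positivity
        rw [hβ]
        match_scalars <;> field_simp <;> ring
      have h3 : ‖Z - A‖ ≤ (1 / (1 + M * r)) * ‖(Z - A) - (-M * r) • β‖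
          + ((M * r) / (1 + M * r)) * |c| := by
        conv_lhs => rw [e2]
        refine (norm_add_le _ _).trans ?_
        rw [norm_smul, norm_smul, norm_smul, hA, Real.norm_of_nonneg (by positivity),
          Real.norm_of_nonneg (by positivity), Real.norm_eq_abs, mul_one]
      rw [hZA] at h3
      have hpos : 0 < 1 + M * r := by positivity
      have h4 := mul_le_mul_of_nonneg_left h3 hpos.le
      have h5 : (1 + M * r) * (1 / (1 + M * r) * ‖(Z - A) - (-M * r) • β‖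
          + M * r / (1 + M * r) * |c|) = ‖(Z - A) - (-M * r) • β‖ + M * r * |c| := by
        field_simp
      rw [h5] at h4
      linarith
    have h2 : ‖(Z - A) - (-M * r) • β‖ ≤ φ (-M) + ‖nu (Z + r • ζ) - Z‖
        + ‖nu (A + (-M * r) • β) - (A + (-M * r) • β)‖ := by
      rw [e]
      refine (norm_add_le _ _).trans ?_
      gcongr
      exact norm_sub_le _ _
    have h3 : M * r * (1 - |c|) = (2 * ‖ζ‖ + 1) * r := by rw [← hMc]; ring
    nlinarith
  obtain ⟨t, ht, ht1⟩ := intermediate_value_Icc' (by linarith : -M ≤ M) hcont ⟨hup, hdn⟩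
  exact ⟨t, abs_le.mpr ht, ht1⟩

omit [NormedSpace ℝ X] in
/-- `g` preserves distances of normalised vectors -/
theorem SI.norm_g_sub (h : SI f g) {y y' : Y} (hy : y ≠ 0) (hy' : y' ≠ 0) :
    ‖g (nu y) - g (nu y')‖ = ‖nu y - nu y'‖ :=
  h.symm.dist _ _ (norm_nu hy) (norm_nu hy')

set_option maxHeartbeats 4000000 in
/-- the key one-sided estimate (proof steps (1), (2) of note 8188) -/
theorem doubling_aux (h : SI f g) (ho : ∀ x, ‖x‖ = 1 → f (-x) = -f x) {a b : X} (ha : ‖a‖ = 1)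
    (hb : ‖b‖ = 1) (hab : ‖a + b‖ = 1) (hlt : ‖a - b‖ < 2) (hZ : Smooth (f (a + b)))
    (hA : Smooth (f a)) (hC : Smooth ((2 : ℝ) • f a - f (a + b)))
    (homZ : ∀ ζ, J (f (a + b)) ζ = 0 → Hom g (f (a + b)) ζ)
    (homA : ∀ α, J (f a) α = 0 → Hom g (f a) α)
    {ζ : Y} (hζ : J (f (a + b)) ζ = 0) (k : ℝ) {ε : ℝ} (hε : 0 < ε)
    {U : Ultrafilter ℝ} (hU : (U : Filter ℝ) ≤ 𝓝[>] (0 : ℝ)) :
    ∀ᶠ r : ℝ in (U : Filter ℝ), ‖a - b + k • (g (nu (f (a + b) + r • ζ)) - g (f (a + b)))‖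
      ≤ ‖a - b‖ + r * (k * J ((2 : ℝ) • f a - f (a + b)) ζ) + ε * r := by
  set z : X := a + b with hz
  set A : Y := f a with hAdef
  set B : Y := f b with hBdef
  set Z : Y := f z with hZdef
  have hA1 : ‖A‖ = 1 := h.map a ha
  have hB1 : ‖B‖ = 1 := h.map b hb
  have hZ1 : ‖Z‖ = 1 := h.map z hab
  have hgA : g A = a := h.left a ha
  have hgB : g B = b := h.left b hb
  have hgZ : g Z = z := h.left z hab
  have hZA : ‖Z - A‖ = 1 := by
    rw [hZdef, hAdef, h.dist z a hab ha, hz, add_sub_cancel_left]; exact hb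
  -- flatness
  have hflat := h.symm.flat (h.odd_symm ho) (a := A) (b := B) hA1 hB1
    (by rw [hAdef, hBdef, h.norm_add ho ha hb]; exact hab)
  rw [hgA, hgB, ← hz, ← hZdef] at hflat
  have eC : A - B + (A + B - Z) = (2 : ℝ) • A - Z := by rw [two_smul]; abel
  obtain ⟨hABs, hABJ, hABD⟩ := Smooth.of_flat hflat.1 hflat.2 (by rw [eC]; exact hC)
  rw [eC] at hABJ
  set qt : Y →L[ℝ] ℝ := J ((2 : ℝ) • A - Z) with hqt
  -- the constant
  have hcA : |J A (Z - A)| < 1 := by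
    have h1 : ‖(2 : ℝ) • A - Z‖ = ‖a - b‖ := by
      rw [← eC, hflat.1, hAdef, hBdef, h.dist a b ha hb]
    have h2 := J_le A ((2 : ℝ) • A - Z)
    have h3 := J_le A Z
    rw [map_sub, map_smul, J_self, hA1, smul_eq_mul, h1] at h2
    rw [map_sub, J_self, hA1, abs_lt]
    rw [hZ1] at h3
    constructor <;> linarith
  obtain ⟨M, hM, hpart⟩ := exists_partner (ζ := (-(2 * k)) • ζ) hZ1 hA1 hZA hA hcA
  set β : Y := (Z - A) - J A (Z - A) • A with hβ
  have hJβ : J A β = 0 := by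
    rw [hβ, map_sub, map_smul, J_self, hA1, smul_eq_mul, mul_one, sub_self]
  -- choose the partner
  classical
  set τ : ℝ → ℝ := fun r => if hr : ∃ t : ℝ, |t| ≤ M ∧
      ‖nu (Z + r • (-(2 * k)) • ζ) - nu (A + (t * r) • β)‖ = 1 then Classical.choose hr else 0
    with hτ
  have hτM : ∀ r, |τ r| ≤ M := by
    intro r
    simp only [hτ]
    split_ifs with hr
    · exact (Classical.choose_spec hr).1
    · simpa using hM
  have hτ1 : ∀ᶠ r : ℝ in (U : Filter ℝ),
      ‖nu (Z + r • (-(2 * k)) • ζ) - nu (A + (τ r * r) • β)‖ = 1 := by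
    filter_upwards [hU hpart] with r hr
    have : τ r = Classical.choose hr := by simp only [hτ]; rw [dif_pos hr]
    rw [this]
    exact (Classical.choose_spec hr).2
  -- limit of τ
  obtain ⟨t0, ht0⟩ : ∃ t0 : ℝ, Tendsto τ U (𝓝 t0) := by
    have hc : IsCompact (Set.Icc (-M) M) := isCompact_Icc
    have hmem : (U.map τ : Filter ℝ) ≤ 𝓟 (Set.Icc (-M) M) := by
      rw [le_principal_iff, Ultrafilter.coe_map, mem_map]
      apply Filter.univ_mem'
      intro i
      exact _root_.abs_le.mp (hτM i)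
    obtain ⟨a, _, hle⟩ := hc.ultrafilter_le_nhds _ hmem
    exact ⟨a, hle⟩
  have hU0 : (U : Filter ℝ) ≤ 𝓝 0 := hU.trans nhdsWithin_le_nhds
  have hidU : Tendsto (fun r : ℝ => r) U (𝓝 0) := hU0
  -- little-o facts
  -- A-side
  have oA1 := hA.nu_isLittleO hA1 hJβ hU0 τ hτM
  have oA2 := hA.nu_isLittleO hA1 hJβ hU0 (fun _ => t0) (M := |t0|) (fun _ => le_rfl)
  have oA3 := hA.nu_isLittleO hA1 hJβ hU0 (fun _ => -(2 * t0)) (M := |-(2 * t0)|)
    (fun _ => le_rfl)
  have oHA1 := (homA β hJβ t0).mono hU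
  have oHA2 := (homA β hJβ (-(2 * t0))).mono hU
  -- Z-side
  have oZ1 := hZ.nu_isLittleO hZ1 hζ hU0 (fun _ => -(2 * k)) (M := |-(2 * k)|) (fun _ => le_rfl)
  have oHZ1 := (homZ ζ hζ (-(2 * k))).mono hU
  -- τ r vs t0
  have oτ : (fun r : ℝ => (τ r * r) • β - (t0 * r) • β) =o[(U : Filter ℝ)] (fun r => r) := by
    have h1 : (fun r : ℝ => (τ r * r) • β - (t0 * r) • β) = fun r => r • ((τ r - t0) • β) := by
      ext r; module
    rw [h1]
    have h2 : Tendsto (fun r => (τ r - t0) • β) U (𝓝 0) := by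
      have : Tendsto (fun r => (τ r - t0) • β) U (𝓝 ((t0 - t0) • β)) :=
        (ht0.sub_const t0).smul_const β
      rwa [sub_self, zero_smul] at this
    have h3 : (fun r => (τ r - t0) • β) =o[(U : Filter ℝ)] (fun _ => (1 : ℝ)) :=
      (isLittleO_one_iff ℝ).mpr h2
    have h4 := (isBigO_refl (fun r : ℝ => r) (U : Filter ℝ)).smul_isLittleO h3
    simpa using h4
  -- nonvanishing
  have hne : ∀ (y v : Y), ‖y‖ = 1 → ∀ σ : ℝ → ℝ, (∃ N, ∀ r, |σ r| ≤ N) →
      ∀ᶠ r : ℝ in (U : Filter ℝ), y + (σ r * r) • v ≠ 0 := by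
    intro y v hy σ hσ
    obtain ⟨N, hN⟩ := hσ
    have h1 : Tendsto (fun r : ℝ => (σ r * r) • v) U (𝓝 0) := by
      have h2 : Tendsto (fun r : ℝ => σ r * r) U (𝓝 0) := by
        refine squeeze_zero_norm (a := fun r => N * |r|) (fun r => ?_) ?_
        · rw [Real.norm_eq_abs, abs_mul]
          exact mul_le_mul_of_nonneg_right (hN r) (abs_nonneg _)
        · have := (hidU.abs).const_mul N
          simpa using this
      have := h2.smul_const v
      rwa [zero_smul] at this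
    have h2 : Tendsto (fun r : ℝ => y + (σ r * r) • v) U (𝓝 (y + 0)) := tendsto_const_nhds.add h1
    rw [add_zero] at h2
    have h3 : y ≠ 0 := by intro h0; rw [h0, norm_zero] at hy; norm_num at hy
    exact h2.eventually_ne h3
  have nA1 := hne A β hA1 τ ⟨M, hτM⟩
  have nA2 := hne A β hA1 (fun _ => t0) ⟨|t0|, fun _ => le_rfl⟩
  have nA3 := hne A β hA1 (fun _ => -(2 * t0)) ⟨|-(2 * t0)|, fun _ => le_rfl⟩
  have nZ1 := hne Z ζ hZ1 (fun _ => -(2 * k)) ⟨|-(2 * k)|, fun _ => le_rfl⟩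
  -- derivative estimates
  set η : ℝ := ε / 12 with hη
  have hη0 : 0 < η := by positivity
  obtain ⟨δ1, hδ1, hd1⟩ := hC.deriv ((2 * t0) • β + (2 * k) • ζ) hη0
  obtain ⟨δ2, hδ2, hd2⟩ := hABs.deriv (-(2 * t0) • β) hη0
  have hsmall : ∀ᶠ r : ℝ in (U : Filter ℝ), 0 < r ∧ r < δ1 ∧ r < δ2 := by
    have h0 : ∀ᶠ r : ℝ in (U : Filter ℝ), 0 < r := hU self_mem_nhdsWithin
    exact h0.and ((hidU.eventually_lt_const hδ1).and (hidU.eventually_lt_const hδ2))
  filter_upwards [hτ1, oA1.def hη0, oA2.def hη0, oA3.def hη0, oHA1.def hη0, oHA2.def hη0,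
    oZ1.def hη0, oHZ1.def hη0, oτ.def hη0, nA1, nA2, nA3, nZ1, hsmall] with r
    c0 c1 c2 c3 c4 c5 c6 c7 c8 n1 n2 n3 n4 c9
  obtain ⟨hr0, hr1, hr2⟩ := c9
  rw [Real.norm_of_nonneg hr0.le] at c1 c2 c3 c4 c5 c6 c7 c8
  rw [hgA] at c4 c5
  rw [hgZ] at c7 ⊢
  have eZr : Z + r • (-(2 * k)) • ζ = Z + (-(2 * k) * r) • ζ := by rw [smul_smul, mul_comm]
  rw [eZr] at c0
  -- abbreviations
  set Ar : Y := nu (A + (τ r * r) • β) with hAr
  set Zr : Y := nu (Z + (-(2 * k) * r) • ζ) with hZr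
  set ξ : X := g (nu (A + r • β)) - a with hξ
  set w : X := g (nu (Z + r • ζ)) - z with hw
  have hAr1 : ‖Ar‖ = 1 := norm_nu n1
  have hZr1 : ‖Zr‖ = 1 := norm_nu n4
  -- centre identity
  have hcen : ‖(2 : ℝ) • Ar - Zr‖ = ‖(2 : ℝ) • g Ar - g Zr‖ := h.symm.centre hZr1 hAr1 c0
  -- estimate of 2 Ar - Zr
  have hest1 : ‖(2 : ℝ) • Ar - Zr‖ ≤ ‖a - b‖ + r * (2 * t0 * qt β + 2 * k * qt ζ) + 6 * η * r := by
    have e : (2 : ℝ) • Ar - Zr = ((2 : ℝ) • A - Z + r • ((2 * t0) • β + (2 * k) • ζ))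
        + (2 : ℝ) • (Ar - (A + (τ r * r) • β)) + (2 : ℝ) • ((τ r * r) • β - (t0 * r) • β)
        - (Zr - (Z + (-(2 * k) * r) • ζ)) := by
      module
    have h1 := hd1 r (by rw [abs_of_pos hr0]; exact hr1.le)
    rw [abs_of_pos hr0, ← hqt, map_add, map_smul, map_smul, smul_eq_mul, smul_eq_mul] at h1
    have h2 : ‖(2 : ℝ) • A - Z‖ = ‖a - b‖ := by
      rw [← eC, hflat.1, hAdef, hBdef, h.dist a b ha hb]
    rw [h2] at h1
    rw [e]
    refine (norm_sub_le _ _).trans ?_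
    refine (add_le_add_left (norm_add_le _ _) _).trans ?_
    refine (add_le_add_left (add_le_add_left (norm_add_le _ _) _) _).trans ?_
    rw [norm_smul, norm_smul, Real.norm_of_nonneg (by norm_num : (0 : ℝ) ≤ 2)]
    nlinarith
  -- `g Ar`
  have hest2 : ‖g Ar - a - t0 • ξ‖ ≤ 4 * η * r := by
    have h1 : ‖g Ar - g (nu (A + (t0 * r) • β))‖ ≤ 3 * η * r := by
      rw [hAr, h.norm_g_sub n1 n2]
      have e : nu (A + (τ r * r) • β) - nu (A + (t0 * r) • β)
          = (nu (A + (τ r * r) • β) - (A + (τ r * r) • β)) + ((τ r * r) • β - (t0 * r) • β)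
            - (nu (A + (t0 * r) • β) - (A + (t0 * r) • β)) := by abel
      rw [e]
      refine (norm_sub_le _ _).trans ?_
      refine (add_le_add_left (norm_add_le _ _) _).trans ?_
      linarith
    have e : g Ar - a - t0 • ξ = (g Ar - g (nu (A + (t0 * r) • β)))
        + (g (nu (A + (t0 * r) • β)) - a - t0 • ξ) := by abel
    rw [e]
    refine (norm_add_le _ _).trans ?_
    linarith
  have hest3 : ‖a - b + (2 * t0) • ξ + (2 * k) • w‖
      ≤ ‖a - b‖ + r * (2 * t0 * qt β + 2 * k * qt ζ) + 15 * η * r := by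
    have e : a - b + (2 * t0) • ξ + (2 * k) • w = ((2 : ℝ) • g Ar - g Zr)
        - (2 : ℝ) • (g Ar - a - t0 • ξ) + (g Zr - z - (-(2 * k)) • w) := by
      rw [hz]; module
    rw [e]
    refine (norm_add_le _ _).trans ?_
    refine (add_le_add_left (norm_sub_le _ _) _).trans ?_
    rw [norm_smul, Real.norm_of_nonneg (by norm_num : (0 : ℝ) ≤ 2), ← hcen]
    linarith
  have hest4 : ‖a - b - (2 * t0) • ξ‖ ≤ ‖a - b‖ - r * (2 * t0 * qt β) + 3 * η * r := by
    have h1 : ‖g (nu (A + (-(2 * t0) * r) • β)) - b‖ = ‖nu (A + (-(2 * t0) * r) • β) - B‖ := by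
      have := h.symm.dist _ _ (norm_nu n3) hB1
      rwa [hgB] at this
    have h2 : ‖nu (A + (-(2 * t0) * r) • β) - B‖ ≤ ‖A - B + r • (-(2 * t0) • β)‖ + η * r := by
      have e : nu (A + (-(2 * t0) * r) • β) - B = (A - B + r • (-(2 * t0) • β))
          + (nu (A + (-(2 * t0) * r) • β) - (A + (-(2 * t0) * r) • β)) := by module
      rw [e]
      refine (norm_add_le _ _).trans ?_
      linarith
    have h3 := hd2 r (by rw [abs_of_pos hr0]; exact hr2.le)
    rw [abs_of_pos hr0, hABJ, map_smul, smul_eq_mul] at h3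
    have h4 : ‖A - B‖ = ‖a - b‖ := h.dist a b ha hb
    rw [h4] at h3
    have e : a - b - (2 * t0) • ξ = (g (nu (A + (-(2 * t0) * r) • β)) - b)
        - (g (nu (A + (-(2 * t0) * r) • β)) - a - (-(2 * t0)) • ξ) := by
      module
    rw [e]
    refine (norm_sub_le _ _).trans ?_
    rw [h1]
    nlinarith
  have e : a - b + k • w = (1 / 2 : ℝ) • (a - b + (2 * t0) • ξ + (2 * k) • w)
      + (1 / 2 : ℝ) • (a - b - (2 * t0) • ξ) := by
    module
  rw [e]
  refine (norm_add_le _ _).trans ?_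
  rw [norm_smul, norm_smul, Real.norm_of_nonneg (by norm_num : (0 : ℝ) ≤ 1 / 2)]
  have hη12 : ε = 12 * η := by rw [hη]; ring
  rw [hη12]
  have : 0 ≤ η * r := by positivity
  nlinarith

set_option maxHeartbeats 4000000 in
/-- DOUBLING LEMMA (note 8188 (II)). -/
theorem doubling (h : SI f g) (ho : ∀ x, ‖x‖ = 1 → f (-x) = -f x) {a b : X} (ha : ‖a‖ = 1)
    (hb : ‖b‖ = 1) (hab : ‖a + b‖ = 1) (hlt : ‖a - b‖ < 2) (hZ : Smooth (f (a + b)))
    (hA : Smooth (f a)) (hC : Smooth ((2 : ℝ) • f a - f (a + b)))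
    (homZ : ∀ ζ, J (f (a + b)) ζ = 0 → Hom g (f (a + b)) ζ)
    (homA : ∀ α, J (f a) α = 0 → Hom g (f a) α)
    {w e : X} {σ θ : ℝ} (hw : ‖w‖ = 1) (hσ : 0 < σ) (hθ : θ = 1 ∨ θ = -1)
    (hzw : θ • ((a + b) - w) = σ • (a - b) + e) (hn : ‖(a + b) - w‖ = σ * ‖a - b‖ + ‖e‖)
    {q2 : Y →L[ℝ] ℝ} (hq2 : Norming q2 (θ • (f (a + b) - f w))) {ζ : Y}
    (hζ : J (f (a + b)) ζ = 0) :
    q2 ζ = J ((2 : ℝ) • f a - f (a + b)) ζ := by
  have hZ1 : ‖f (a + b)‖ = 1 := h.map _ hab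
  have hgZ : g (f (a + b)) = a + b := h.left _ hab
  have hW1 : ‖f w‖ = 1 := h.map _ hw
  have hgW : g (f w) = w := h.left _ hw
  set Z : Y := f (a + b) with hZdef
  set qt : Y →L[ℝ] ℝ := J ((2 : ℝ) • f a - Z) with hqt
  have hθθ : θ * θ = 1 := by rcases hθ with h1 | h1 <;> rw [h1] <;> norm_num
  have hθa : |θ| = 1 := by rcases hθ with h1 | h1 <;> rw [h1] <;> norm_num
  -- one-sided inequality for both signs
  have key : ∀ j : ℝ, j = 1 ∨ j = -1 → j * q2 ζ ≤ j * qt ζ := by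
    intro j hj
    by_contra hcon
    push Not at hcon
    set ε : ℝ := (j * q2 ζ - j * qt ζ) / (2 * (σ + 3)) with hε
    have hε0 : 0 < ε := div_pos (by linarith) (by positivity)
    set U : Ultrafilter ℝ := Ultrafilter.of (𝓝[>] (0 : ℝ)) with hUdef
    have hU : (U : Filter ℝ) ≤ 𝓝[>] (0 : ℝ) := Ultrafilter.of_le _
    have hU0 : (U : Filter ℝ) ≤ 𝓝 0 := hU.trans nhdsWithin_le_nhds
    have h1 := doubling_aux h ho ha hb hab hlt hZ hA hC homZ homA hζ (j / σ) hε0 hU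
    have h2 := hZ.nu_isLittleO hZ1 hζ hU0 (fun _ => θ * j) (M := |θ * j|) (fun _ => le_rfl)
    have h3 := (homZ ζ hζ (θ * j)).mono hU
    have h4 : ∀ᶠ r : ℝ in (U : Filter ℝ), Z + (θ * j * r) • ζ ≠ 0 := by
      have h5 : Tendsto (fun r : ℝ => Z + (θ * j * r) • ζ) (𝓝 0) (𝓝 (Z + (θ * j * 0) • ζ)) := by
        apply Continuous.tendsto; fun_prop
      rw [mul_zero, zero_smul, add_zero] at h5
      have h6 : Z ≠ 0 := by intro h0; rw [h0, norm_zero] at hZ1; norm_num at hZ1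
      exact (h5.mono_left hU0).eventually_ne h6
    have h5 : ∀ᶠ r : ℝ in (U : Filter ℝ), 0 < r := hU self_mem_nhdsWithin
    obtain ⟨r, c1, c2, c3, c4, c5⟩ :=
      (h1.and ((h2.def hε0).and ((h3.def hε0).and (h4.and h5)))).exists
    rw [← hZdef, ← hqt, hgZ] at c1
    rw [Real.norm_of_nonneg c5.le] at c2 c3
    rw [hgZ] at c3
    set wt : X := g (nu (Z + r • ζ)) - (a + b) with hwt
    set zr : X := g (nu (Z + (θ * j * r) • ζ)) with hzr
    -- upper bound of `‖z_r - w‖`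
    have d1 : ‖zr - w‖ ≤ ‖(a + b) - w‖ + r * (j * qt ζ) + (σ + 1) * ε * r := by
      have e1 : θ • (zr - w) = σ • (a - b + (j / σ) • wt) + e + θ • (zr - (a + b) - (θ * j) • wt) := by
        have e2 : σ • (a - b + (j / σ) • wt) = σ • (a - b) + j • wt := by
          rw [smul_add, smul_smul, mul_div_cancel₀ _ hσ.ne']
        have e3 : θ • (zr - w) = θ • ((a + b) - w) + θ • (zr - (a + b)) := by module
        have e5 : θ • ((θ * j) • wt) = j • wt := by rw [smul_smul, ← mul_assoc, hθθ, one_mul]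
        rw [e3, hzw, e2, smul_sub θ (zr - (a + b)), e5]
        abel
      have e4 : ‖zr - w‖ = ‖θ • (zr - w)‖ := by rw [norm_smul, Real.norm_eq_abs, hθa, one_mul]
      rw [e4, e1]
      refine (norm_add_le _ _).trans ?_
      refine (add_le_add_left (norm_add_le _ _) _).trans ?_
      rw [norm_smul, norm_smul, Real.norm_of_nonneg hσ.le, Real.norm_eq_abs, hθa, one_mul, hn]
      have e5 : σ * (r * (j / σ * qt ζ)) = r * (j * qt ζ) := by field_simp
      have := mul_le_mul_of_nonneg_left c1 hσ.le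
      nlinarith
    -- lower bound via `q2`
    have d2 : ‖(a + b) - w‖ + r * (j * q2 ζ) ≤ ‖zr - w‖ + ε * r := by
      have e1 : ‖zr - w‖ = ‖nu (Z + (θ * j * r) • ζ) - f w‖ := by
        have := h.symm.dist _ _ (norm_nu c4) hW1
        rwa [hgW] at this
      have e2 := hq2.le (θ • (Z - f w) + (j * r) • ζ)
      rw [map_add, hq2.2, map_smul, smul_eq_mul, norm_smul, Real.norm_eq_abs, hθa, one_mul] at e2
      have e3 : ‖Z - f w‖ = ‖(a + b) - w‖ := h.dist _ _ hab hw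
      rw [e3] at e2
      have e4 : θ • (Z - f w) + (j * r) • ζ = θ • (nu (Z + (θ * j * r) • ζ) - f w)
          - θ • (nu (Z + (θ * j * r) • ζ) - (Z + (θ * j * r) • ζ)) := by
        have : (j * r) • ζ = θ • ((θ * j * r) • ζ) := by
          rw [smul_smul, ← mul_assoc, ← mul_assoc, hθθ, one_mul]
        rw [this]; module
      have e5 : ‖θ • (Z - f w) + (j * r) • ζ‖ ≤ ‖zr - w‖ + ε * r := by
        rw [e4]
        refine (norm_sub_le _ _).trans ?_
        rw [norm_smul, norm_smul, Real.norm_eq_abs, hθa, one_mul, one_mul, e1]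
        linarith
      linarith
    have d3 : r * (j * q2 ζ) ≤ r * (j * qt ζ) + (σ + 2) * ε * r := by linarith
    have d4 : j * q2 ζ - j * qt ζ = 2 * (σ + 3) * ε := by rw [hε]; field_simp
    have d5 : 0 < ε * r := mul_pos hε0 c5
    nlinarith
  have k1 := key 1 (Or.inl rfl)
  have k2 := key (-1) (Or.inr rfl)
  linarith

end Doubling

end Crest.Agent.R074
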