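import Crest.Agent.R074.Blow
import Crest.Agent.R074.Doubling

/-!
Row 74 (S0099): blow-up linearity in the forms used by `Canon.lean` (`MidAt`) and
`Doubling.lean` (`Hom`).
-/

set_option autoImplicit false

namespace Crest.Agent.R074

open Metric Set Filter Topology Asymptotics

section BlowLin

variable {X Y : Type*} [NormedAddCommGroup X] [NormedSpace ℝ X] [NormedAddCommGroup Y]
  [NormedSpace ℝ Y] {f : X → Y} {g : Y → X}

/-- M2: at every smooth point the blow-up is midpoint affine. -/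
theorem SI.blw_midAt (h : SI f g) (ho : ∀ x, ‖x‖ = 1 → f (-x) = -f x) {x : X} (hx : ‖x‖ = 1)
    (hs : Smooth x) : MidAt f x := by
  intro v w hv hw ε hε
  obtain ⟨δ, hδ, hd⟩ := h.blw_mid ho hx hs hv hw hε
  refine ⟨δ, hδ, fun r hr0 hr1 => ?_⟩
  have := hd r (abs_pos.mpr hr0.ne') (by rwa [abs_of_pos hr0])
  rwa [abs_of_pos hr0] at this

/-- M2: homogeneity of the blow-up along rays at every smooth point. -/
theorem SI.hom (h : SI f g) (ho : ∀ x, ‖x‖ = 1 → f (-x) = -f x) {x : X} (hx : ‖x‖ = 1)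
    (hs : Smooth x) {α : X} (hα : J x α = 0) : Hom f x α := by
  intro t
  rw [isLittleO_iff]
  intro ε hε
  obtain ⟨δ, hδ, hd⟩ := h.blow_lin ho hx hs hα hα t 0 hε
  have h1 : ∀ᶠ r : ℝ in 𝓝[>] (0 : ℝ), 0 < r ∧ r < δ := by
    filter_upwards [Ioo_mem_nhdsGT hδ] with r hr
    exact hr
  filter_upwards [h1] with r hr
  have h2 := hd r (abs_pos.mpr hr.1.ne') (by rw [abs_of_pos hr.1]; exact hr.2)
  rw [zero_smul, zero_smul, add_zero, sub_zero, smul_smul, mul_comm r t] at h2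
  exact h2

/-- both forms for the inverse -/
theorem SI.blw_midAt_symm (h : SI f g) (ho : ∀ x, ‖x‖ = 1 → f (-x) = -f x) {y : Y} (hy : ‖y‖ = 1)
    (hs : Smooth y) : MidAt g y :=
  h.symm.blw_midAt (h.odd_symm ho) hy hs

/-- alias of `SI.blw_midAt_symm` -/
theorem SI.midAt_symm (h : SI f g) (ho : ∀ x, ‖x‖ = 1 → f (-x) = -f x) {y : Y} (hy : ‖y‖ = 1)
    (hs : Smooth y) : MidAt g y :=
  h.blw_midAt_symm ho hy hs

theorem SI.hom_symm (h : SI f g) (ho : ∀ x, ‖x‖ = 1 → f (-x) = -f x) {y : Y} (hy : ‖y‖ = 1)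
    (hs : Smooth y) {α : Y} (hα : J y α = 0) : Hom g y α :=
  h.symm.hom (h.odd_symm ho) hy hs hα

end BlowLin

end Crest.Agent.R074
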