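import Crest.Agent.R074.Canon

/-!
Row 74 (S0099): blow-up of a sphere isometry at a smooth point (module M2).
Main result: `SI.midAt`: at a Gateaux smooth point the blow-up is midpoint-affine along
standard rays.
-/

set_option autoImplicit false

namespace Crest.Agent.R074

open Metric Set Filter Topology

namespace Blowup

/-! ### approximate centre lemma -/

/-- central isometric involution, up to distance zero, of a subset of a pseudometric space -/
structure CentralA {α : Type*} [PseudoMetricSpace α] (U : Set α) (s : α → α) : Prop where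
  maps : ∀ x ∈ U, s x ∈ U
  iso : ∀ x ∈ U, ∀ y ∈ U, dist (s x) (s y) = dist x y
  invol : ∀ x ∈ U, dist (s (s x)) x = 0
  central : ∀ x ∈ U, ∀ y ∈ U, 2 * dist x y ≤ dist x (s x) + dist y (s y)

section CentreLemma

variable {α : Type*} [PseudoMetricSpace α] {U : Set α} {s t : α → α}

theorem dist_eq_left {a b z : α} (h : dist a b = 0) : dist a z = dist b z := by
  have h1 := dist_triangle a b z
  have h2 := dist_triangle b a z
  rw [dist_comm b a] at h2
  linarith

theorem CentralA.dist_conj (hs : CentralA U s) (ht : CentralA U t) {w : α} (hw : w ∈ U) :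
    dist w (s (t (s w))) = dist (s w) (t (s w)) := by
  have h1 := hs.maps w hw
  have h2 := ht.maps _ h1
  have h3 := hs.iso (s w) h1 (t (s w)) h2
  rw [dist_eq_left (hs.invol w hw)] at h3
  exact h3

theorem dist_zero_trans {a b c : α} (h1 : dist a b = 0) (h2 : dist b c = 0) : dist a c = 0 := by
  rw [dist_eq_left h1]; exact h2

theorem CentralA.conj (hs : CentralA U s) (ht : CentralA U t) :
    CentralA U (fun x => s (t (s x))) where
  maps := fun x hx => hs.maps _ (ht.maps _ (hs.maps _ hx))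
  iso := fun x hx y hy => by
    have hx1 := hs.maps x hx
    have hy1 := hs.maps y hy
    show dist (s (t (s x))) (s (t (s y))) = dist x y
    rw [hs.iso _ (ht.maps _ hx1) _ (ht.maps _ hy1), ht.iso _ hx1 _ hy1, hs.iso _ hx _ hy]
  invol := fun x hx => by
    have hx1 := hs.maps x hx
    have hx2 := ht.maps _ hx1
    have hx3 := hs.maps _ hx2
    have hx4 := hs.maps _ hx3
    have hx5 := ht.maps _ hx4
    show dist (s (t (s (s (t (s x)))))) x = 0
    have h1 : dist (s (s (t (s x)))) (t (s x)) = 0 := hs.invol _ hx2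
    have h2 : dist (t (s (s (t (s x))))) (t (t (s x))) = 0 := by
      rw [ht.iso _ hx4 _ hx2]; exact h1
    have h3 : dist (t (s (s (t (s x))))) (s x) = 0 := dist_zero_trans h2 (ht.invol _ hx1)
    have h4 : dist (s (t (s (s (t (s x)))))) (s (s x)) = 0 := by
      rw [hs.iso _ hx5 _ hx1]; exact h3
    exact dist_zero_trans h4 (hs.invol _ hx)
  central := fun x hx y hy => by
    have hx1 := hs.maps x hx
    have hy1 := hs.maps y hy
    show 2 * dist x y ≤ dist x (s (t (s x))) + dist y (s (t (s y)))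
    rw [hs.dist_conj ht hx, hs.dist_conj ht hy, ← hs.iso x hx y hy]
    exact ht.central _ hx1 _ hy1

theorem CentralA.aux {D : ℝ} (hD : ∀ x ∈ U, ∀ y ∈ U, dist x y ≤ D) (ht : CentralA U t) (n : ℕ) :
    ∀ s : α → α, CentralA U s → ∀ w ∈ U, (2 : ℝ) ^ n * (dist w (s w) - dist w (t w)) ≤ D := by
  induction n with
  | zero =>
    intro s hs w hw
    have h1 := hD w hw (s w) (hs.maps w hw)
    have h2 : 0 ≤ dist w (t w) := dist_nonneg
    simp only [pow_zero, one_mul]
    linarith
  | succ n ih =>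
    intro s hs w hw
    have h1 := ih _ (hs.conj ht) w hw
    rw [hs.dist_conj ht hw] at h1
    have h2 := ht.central w hw (s w) (hs.maps w hw)
    have h3 : 2 * (dist w (s w) - dist w (t w)) ≤ dist (s w) (t (s w)) - dist w (t w) := by
      linarith
    have h4 : (0 : ℝ) ≤ 2 ^ n := by positivity
    have h5 := mul_le_mul_of_nonneg_left h3 h4
    rw [pow_succ]
    linarith

theorem CentralA.le {D : ℝ} (hD : ∀ x ∈ U, ∀ y ∈ U, dist x y ≤ D) (hs : CentralA U s)
    (ht : CentralA U t) {w : α} (hw : w ∈ U) : dist w (s w) ≤ dist w (t w) := by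
  by_contra hcon
  push Not at hcon
  have hpos : 0 < dist w (s w) - dist w (t w) := by linarith
  obtain ⟨n, hn⟩ := pow_unbounded_of_one_lt (D / (dist w (s w) - dist w (t w)))
    (show (1 : ℝ) < 2 by norm_num)
  have h1 := CentralA.aux hD ht n s hs w hw
  rw [div_lt_iff₀ hpos] at hn
  linarith

end CentreLemma

/-! ### ultralimits of bounded real sequences -/

section UL

variable (U : Ultrafilter ℕ)

/-- ultralimit -/
noncomputable def ul (c : ℕ → ℝ) : ℝ := limUnder (U : Filter ℕ) c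

variable {U}

/-- eventually bounded along `U` -/
def EB (U : Ultrafilter ℕ) (c : ℕ → ℝ) : Prop := ∃ C : ℝ, ∀ᶠ n in (U : Filter ℕ), |c n| ≤ C

theorem EB.tendsto {c : ℕ → ℝ} (hc : EB U c) : Tendsto c U (𝓝 (ul U c)) := by
  obtain ⟨C, hC⟩ := hc
  have hcomp : IsCompact (Icc (-C) C) := isCompact_Icc
  have hmem : (U.map c : Filter ℝ) ≤ 𝓟 (Icc (-C) C) := by
    rw [le_principal_iff, Ultrafilter.coe_map, mem_map]
    filter_upwards [hC] with n hn
    exact _root_.abs_le.mp hn
  obtain ⟨a, ha, hle⟩ := hcomp.ultrafilter_le_nhds _ hmem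
  have h1 : Tendsto c U (𝓝 a) := hle
  have h2 : ul U c = a := h1.limUnder_eq
  rw [h2]; exact h1

theorem ul_eq {c : ℕ → ℝ} {a : ℝ} (h : Tendsto c U (𝓝 a)) : ul U c = a := h.limUnder_eq

theorem EB.add {c c' : ℕ → ℝ} (hc : EB U c) (hc' : EB U c') : EB U (fun n => c n + c' n) := by
  obtain ⟨C, hC⟩ := hc
  obtain ⟨C', hC'⟩ := hc'
  refine ⟨C + C', ?_⟩
  filter_upwards [hC, hC'] with n h1 h2
  exact (abs_add_le _ _).trans (add_le_add h1 h2)

theorem EB.of_le {c c' : ℕ → ℝ} (hc' : EB U c') (h : ∀ᶠ n in (U : Filter ℕ), |c n| ≤ c' n) :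
    EB U c := by
  obtain ⟨C, hC⟩ := hc'
  refine ⟨C, ?_⟩
  filter_upwards [h, hC] with n h1 h2
  exact h1.trans ((le_abs_self _).trans h2)

theorem ul_mono {c c' : ℕ → ℝ} (hc : EB U c) (hc' : EB U c')
    (h : ∀ᶠ n in (U : Filter ℕ), c n ≤ c' n) : ul U c ≤ ul U c' :=
  le_of_tendsto_of_tendsto hc.tendsto hc'.tendsto h

end UL

/-! ### small-o along the ultrafilter -/

section SO

variable {U : Ultrafilter ℕ} {r : ℕ → ℝ}

/-- `c n = o(r n)` along `U` (with `r n > 0`) -/
def SO (U : Ultrafilter ℕ) (r : ℕ → ℝ) (c : ℕ → ℝ) : Prop :=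
  ∀ ε : ℝ, 0 < ε → ∀ᶠ n in (U : Filter ℕ), |c n| ≤ ε * r n

theorem SO.add {c c' : ℕ → ℝ} (hc : SO U r c) (hc' : SO U r c') : SO U r (fun n => c n + c' n) := by
  intro ε hε
  filter_upwards [hc (ε / 2) (by positivity), hc' (ε / 2) (by positivity)] with n h1 h2
  refine (abs_add_le _ _).trans ?_
  linarith

theorem SO.neg {c : ℕ → ℝ} (hc : SO U r c) : SO U r (fun n => -c n) := by
  intro ε hε
  filter_upwards [hc ε hε] with n h1
  rwa [abs_neg]

theorem SO.sub {c c' : ℕ → ℝ} (hc : SO U r c) (hc' : SO U r c') : SO U r (fun n => c n - c' n) := by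
  simpa only [sub_eq_add_neg] using hc.add hc'.neg

theorem SO.const_mul {c : ℕ → ℝ} (hc : SO U r c) (k : ℝ) : SO U r (fun n => k * c n) := by
  intro ε hε
  filter_upwards [hc (ε / (|k| + 1)) (by positivity)] with n h1
  rw [abs_mul]
  have h2 : |k| * |c n| ≤ |k| * (ε / (|k| + 1) * r n) :=
    mul_le_mul_of_nonneg_left h1 (abs_nonneg _)
  have h0 : 0 ≤ ε / (|k| + 1) * r n := (abs_nonneg _).trans h1
  have h3 : |k| * (ε / (|k| + 1) * r n) ≤ (|k| + 1) * (ε / (|k| + 1) * r n) :=
    mul_le_mul_of_nonneg_right (by linarith) h0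
  have h4 : (|k| + 1) * (ε / (|k| + 1) * r n) = ε * r n := by
    have : |k| + 1 ≠ 0 := by positivity
    field_simp
  linarith

theorem SO.congr {c c' : ℕ → ℝ} (hc : SO U r c) (h : ∀ᶠ n in (U : Filter ℕ), c n = c' n) :
    SO U r c' := by
  intro ε hε
  filter_upwards [hc ε hε, h] with n h1 h2
  rwa [← h2]

/-- squeeze between two small sequences -/
theorem SO.squeeze {a b c : ℕ → ℝ} (ha : SO U r a) (hb : SO U r b)
    (h1 : ∀ᶠ n in (U : Filter ℕ), a n ≤ c n) (h2 : ∀ᶠ n in (U : Filter ℕ), c n ≤ b n) :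
    SO U r c := by
  intro ε hε
  filter_upwards [ha ε hε, hb ε hε, h1, h2] with n h3 h4 h5 h6
  rw [_root_.abs_le] at h3 h4 ⊢
  constructor <;> linarith [h3.1, h3.2, h4.1, h4.2]

theorem SO.of_abs_le {c c' : ℕ → ℝ} (hc' : SO U r c')
    (h : ∀ᶠ n in (U : Filter ℕ), |c n| ≤ |c' n|) : SO U r c := by
  intro ε hε
  filter_upwards [hc' ε hε, h] with n h1 h2
  exact h2.trans h1

theorem SO.zero (hr : ∀ n, 0 < r n) : SO U r (fun _ => 0) := by
  intro ε hε
  filter_upwards with n
  rw [abs_zero]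
  have := hr n
  positivity

end SO

section Lineal

variable {X : Type*} [NormedAddCommGroup X] [NormedSpace ℝ X]
variable {U : Ultrafilter ℕ} {r : ℕ → ℝ} {x : X}

/-- eventually bounded sequences -/
def BS (U : Ultrafilter ℕ) (u : ℕ → X) : Prop := ∃ C : ℝ, ∀ᶠ n in (U : Filter ℕ), ‖u n‖ ≤ C

theorem BS.add {u v : ℕ → X} (hu : BS U u) (hv : BS U v) : BS U (fun n => u n + v n) := by
  obtain ⟨C, hC⟩ := hu
  obtain ⟨C', hC'⟩ := hv
  refine ⟨C + C', ?_⟩
  filter_upwards [hC, hC'] with n h1 h2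
  exact (norm_add_le _ _).trans (add_le_add h1 h2)

theorem BS.smul {u : ℕ → X} (hu : BS U u) (k : ℝ) : BS U (fun n => k • u n) := by
  obtain ⟨C, hC⟩ := hu
  refine ⟨|k| * C, ?_⟩
  filter_upwards [hC] with n h1
  rw [norm_smul, Real.norm_eq_abs]
  exact mul_le_mul_of_nonneg_left h1 (abs_nonneg _)

theorem BS.neg {u : ℕ → X} (hu : BS U u) : BS U (fun n => -u n) := by
  obtain ⟨C, hC⟩ := hu
  refine ⟨C, ?_⟩
  filter_upwards [hC] with n h1
  rwa [norm_neg]

theorem BS.const (v : X) : BS U (fun _ => v) := ⟨‖v‖, by filter_upwards with n using le_rfl⟩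

/-- the lineality sequences: translations leave the rescaled norm unchanged -/
def G0 (U : Ultrafilter ℕ) (r : ℕ → ℝ) (x : X) (v : ℕ → X) : Prop :=
  ∀ u : ℕ → X, BS U u → SO U r (fun n => ‖x + r n • (u n + v n)‖ - ‖x + r n • u n‖)

theorem G0.add {v w : ℕ → X} (hv : G0 U r x v) (hw : G0 U r x w) (hvb : BS U v) :
    G0 U r x (fun n => v n + w n) := by
  intro u hu
  have h1 := hv u hu
  have h2 := hw (fun n => u n + v n) (hu.add hvb)
  refine (h2.add h1).congr ?_
  filter_upwards with n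
  rw [add_assoc]; ring

theorem G0.neg {v : ℕ → X} (hv : G0 U r x v) (hvb : BS U v) : G0 U r x (fun n => -v n) := by
  intro u hu
  have h1 := (hv (fun n => u n + -v n) (hu.add hvb.neg)).neg
  refine h1.congr ?_
  filter_upwards with n
  have e : u n + -v n + v n = u n := by abel
  rw [e]; ring

theorem G0.perturb {v w : ℕ → X} (hv : G0 U r x v) (hw : SO U r (fun n => r n * ‖w n - v n‖))
    (hr : ∀ n, 0 < r n) : G0 U r x w := by
  intro u hu
  have h1 := hv u hu
  have h2 : SO U r (fun n => ‖x + r n • (u n + w n)‖ - ‖x + r n • (u n + v n)‖) := by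
    refine hw.of_abs_le ?_
    filter_upwards with n
    refine (abs_norm_sub_norm_le _ _).trans ?_
    have e : x + r n • (u n + w n) - (x + r n • (u n + v n)) = r n • (w n - v n) := by
      rw [add_sub_add_left_eq_sub, ← smul_sub, add_sub_add_left_eq_sub]
    rw [e, norm_smul, Real.norm_of_nonneg (hr n).le]
    exact le_abs_self _
  refine (h2.add h1).congr ?_
  filter_upwards with n
  ring

theorem G0.half {v : ℕ → X} (hv : G0 U r x v) (hvb : BS U v) :
    G0 U r x (fun n => (1 / 2 : ℝ) • v n) := by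
  intro u hu
  have hb2 : BS U (fun n => u n + -((1 / 2 : ℝ) • v n)) := hu.add (hvb.smul _).neg
  have h1 := hv u hu
  have h2 := hv _ hb2
  -- upper bound and lower bound
  refine SO.squeeze (a := fun n => (1 / 2 : ℝ) * (‖x + r n • (u n + -((1 / 2 : ℝ) • v n) + v n)‖
      - ‖x + r n • (u n + -((1 / 2 : ℝ) • v n))‖))
    (b := fun n => (1 / 2 : ℝ) * (‖x + r n • (u n + v n)‖ - ‖x + r n • u n‖))
    (h2.const_mul _) (h1.const_mul _) ?_ ?_
  · filter_upwards with n
    have e1 : u n + -((1 / 2 : ℝ) • v n) + v n = u n + (1 / 2 : ℝ) • v n := by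
      have : v n = (1 / 2 : ℝ) • v n + (1 / 2 : ℝ) • v n := by
        rw [← add_smul]; norm_num
      nth_rewrite 2 [this]
      abel
    rw [e1]
    have h3 : 2 * ‖x + r n • u n‖ ≤ ‖x + r n • (u n + -((1 / 2 : ℝ) • v n))‖
        + ‖x + r n • (u n + (1 / 2 : ℝ) • v n)‖ := by
      have e2 : (2 : ℝ) • (x + r n • u n) = (x + r n • (u n + -((1 / 2 : ℝ) • v n)))
          + (x + r n • (u n + (1 / 2 : ℝ) • v n)) := by
        rw [two_smul, smul_add (r n) (u n), smul_add (r n) (u n), smul_neg]; abel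
      have e3 : 2 * ‖x + r n • u n‖ = ‖(2 : ℝ) • (x + r n • u n)‖ := by
        rw [norm_smul, Real.norm_of_nonneg (by norm_num)]
      rw [e3, e2]; exact norm_add_le _ _
    linarith
  · filter_upwards with n
    have h3 : ‖x + r n • (u n + (1 / 2 : ℝ) • v n)‖ ≤ (1 / 2) * ‖x + r n • u n‖
        + (1 / 2) * ‖x + r n • (u n + v n)‖ := by
      have e2 : x + r n • (u n + (1 / 2 : ℝ) • v n) = (1 / 2 : ℝ) • (x + r n • u n)
          + (1 / 2 : ℝ) • (x + r n • (u n + v n)) := by
        rw [← smul_add]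
        have : x + r n • u n + (x + r n • (u n + v n))
            = (2 : ℝ) • (x + r n • (u n + (1 / 2 : ℝ) • v n)) := by
          rw [smul_add (2 : ℝ) x, smul_smul, smul_add (2 * r n), smul_smul]
          have e4 : 2 * r n * (1 / 2) = r n := by ring
          rw [e4, smul_add (r n) (u n) (v n), two_smul, mul_comm 2 (r n), mul_smul, two_smul,
            smul_add]
          abel
        rw [this, smul_smul]; norm_num
      rw [e2]
      refine (norm_add_le _ _).trans ?_
      rw [norm_smul, norm_smul, Real.norm_of_nonneg (by norm_num)]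
    linarith

/-- tangent constants at a smooth point are lineality sequences -/
theorem G0.const (hx : ‖x‖ = 1) (hs : Smooth x) (hr : ∀ n, 0 < r n)
    (hr0 : Tendsto r U (𝓝 0)) {v : X} (hv : J x v = 0) : G0 U r x (fun _ => v) := by
  -- one-sided estimate
  have key : ∀ v : X, J x v = 0 → ∀ u : ℕ → X, BS U u → ∀ ε : ℝ, 0 < ε →
      ∀ᶠ n in (U : Filter ℕ), ‖x + r n • (u n + v)‖ - ‖x + r n • u n‖ ≤ ε * r n := by
    intro v hv u hu ε hε
    obtain ⟨C, hC⟩ := hu
    have hC0 : 0 ≤ |C| := abs_nonneg C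
    -- choose K large
    obtain ⟨K, hK⟩ := exists_nat_gt (4 * |C| / ε + 1)
    have hK0 : (1 : ℝ) < K := by
      have : 0 ≤ 4 * |C| / ε := by positivity
      linarith
    have hKpos : (0 : ℝ) < K := by linarith
    have hK1 : (0 : ℝ) < K - 1 := by linarith
    have hCK : 4 * |C| ≤ ε * (K - 1) := by
      have h1 : 4 * |C| / ε < K - 1 := by linarith
      rw [div_lt_iff₀ hε] at h1
      linarith
    obtain ⟨δ, hδ, hd⟩ := hs.deriv ((K : ℝ) • v) (show (0 : ℝ) < ε / 2 by positivity)
    have hev : ∀ᶠ n in (U : Filter ℕ), r n < min δ 1 := hr0.eventually (gt_mem_nhds (by positivity))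
    filter_upwards [hC, hev] with n hn hrn
    have hrpos := hr n
    have hrδ : r n < δ := hrn.trans_le (min_le_left _ _)
    have hr1 : r n < 1 := hrn.trans_le (min_le_right _ _)
    have h1 := hd (r n) (by rw [abs_of_pos hrpos]; exact hrδ.le)
    rw [map_smul, hv, smul_zero, mul_zero, add_zero, abs_of_pos hrpos, hx] at h1
    -- convex decomposition
    have e : x + r n • (u n + v) = (1 - 1 / (K : ℝ)) • (x + (r n * (K / (K - 1))) • u n)
        + (1 / (K : ℝ)) • (x + r n • ((K : ℝ) • v)) := by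
      have e1 : (1 - 1 / (K : ℝ)) * (r n * (K / (K - 1))) = r n := by
        have : (K : ℝ) - 1 ≠ 0 := hK1.ne'
        field_simp
      have e2 : (1 / (K : ℝ)) * (r n * K) = r n := by field_simp
      simp only [smul_add, smul_smul]
      rw [e1, e2, sub_smul, one_smul]
      abel
    have h0 : (0 : ℝ) ≤ 1 - 1 / K := by
      rw [sub_nonneg, div_le_one hKpos]; exact hK0.le
    have h2 : ‖x + r n • (u n + v)‖ ≤ (1 - 1 / (K : ℝ)) * ‖x + (r n * (K / (K - 1))) • u n‖
        + (1 / (K : ℝ)) * ‖x + r n • ((K : ℝ) • v)‖ := by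
      rw [e]
      refine (norm_add_le _ _).trans ?_
      rw [norm_smul, norm_smul, Real.norm_of_nonneg h0, Real.norm_of_nonneg (by positivity)]
    have h3 : ‖x + (r n * (K / (K - 1))) • u n‖ ≤ ‖x + r n • u n‖ + r n / (K - 1) * |C| := by
      have e3 : x + (r n * (K / (K - 1))) • u n = (x + r n • u n) + (r n / (K - 1)) • u n := by
        rw [add_assoc, ← add_smul]
        congr 2
        have : (K : ℝ) - 1 ≠ 0 := hK1.ne'
        field_simp
        ring
      rw [e3]
      refine (norm_add_le _ _).trans ?_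
      rw [norm_smul, Real.norm_of_nonneg (by positivity)]
      have : r n / (K - 1) * ‖u n‖ ≤ r n / (K - 1) * |C| :=
        mul_le_mul_of_nonneg_left (hn.trans (le_abs_self C)) (by positivity)
      linarith
    have h4 : 1 - r n * |C| ≤ ‖x + r n • u n‖ := by
      have h5 : ‖x‖ ≤ ‖x + r n • u n‖ + ‖r n • u n‖ := by
        have : x = (x + r n • u n) - r n • u n := by abel
        conv_lhs => rw [this]
        exact norm_sub_le _ _
      rw [hx, norm_smul, Real.norm_of_nonneg hrpos.le] at h5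
      have : r n * ‖u n‖ ≤ r n * |C| :=
        mul_le_mul_of_nonneg_left (hn.trans (le_abs_self C)) hrpos.le
      linarith
    -- combine
    have h6 : (1 - 1 / (K : ℝ)) * ‖x + (r n * (K / (K - 1))) • u n‖
        ≤ (1 - 1 / (K : ℝ)) * (‖x + r n • u n‖ + r n / (K - 1) * |C|) :=
      mul_le_mul_of_nonneg_left h3 h0
    have h7 : (1 / (K : ℝ)) * ‖x + r n • ((K : ℝ) • v)‖ ≤ (1 / (K : ℝ)) * (1 + ε / 2 * r n) :=
      mul_le_mul_of_nonneg_left h1 (by positivity)
    have h8 : (1 - 1 / (K : ℝ)) * (r n / (K - 1) * |C|) = r n * |C| / K := by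
      have : (K : ℝ) - 1 ≠ 0 := hK1.ne'
      field_simp
    have h9 : (1 / (K : ℝ)) * (1 - ‖x + r n • u n‖) ≤ (1 / (K : ℝ)) * (r n * |C|) :=
      mul_le_mul_of_nonneg_left (by linarith) (by positivity)
    have h10 : r n * |C| / K + (1 / (K : ℝ)) * (r n * |C|) ≤ ε / 2 * r n := by
      have e4 : r n * |C| / K + (1 / (K : ℝ)) * (r n * |C|) = (2 * |C| / K) * r n := by ring
      rw [e4]
      refine mul_le_mul_of_nonneg_right ?_ hrpos.le
      rw [div_le_iff₀ hKpos]
      nlinarith
    have h11 : (1 / (K : ℝ)) * (ε / 2 * r n) ≤ ε / 2 * r n := by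
      have : 1 / (K : ℝ) ≤ 1 := by rw [div_le_one hKpos]; exact hK0.le
      have h0' : 0 ≤ ε / 2 * r n := by positivity
      nlinarith
    have h12 : (1 - 1 / (K : ℝ)) * (‖x + r n • u n‖ + r n / (K - 1) * |C|)
        = ‖x + r n • u n‖ - (1 / (K : ℝ)) * ‖x + r n • u n‖ + r n * |C| / K := by
      rw [← h8]; ring
    nlinarith
  intro u hu ε hε
  have h1 := key v hv u hu ε hε
  have h2 := key (-v) (by rw [map_neg, hv, neg_zero]) (fun n => u n + v) (hu.add (BS.const v)) ε hε
  filter_upwards [h1, h2] with n h3 h4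
  have e : u n + v + -v = u n := by abel
  rw [e] at h4
  rw [_root_.abs_le]
  constructor <;> linarith

end Lineal

/-! ### unit sequences -/

section UnitSeq

variable {X : Type*} [NormedAddCommGroup X] [NormedSpace ℝ X]
variable {U : Ultrafilter ℕ} {r : ℕ → ℝ} {x : X}

/-- (eventually) unit sequences at distance `O(r)` from `x` -/
structure UB (U : Ultrafilter ℕ) (r : ℕ → ℝ) (x : X) (y : ℕ → X) : Prop where
  unit : ∀ᶠ n in (U : Filter ℕ), ‖y n‖ = 1
  bdd : ∃ C : ℝ, ∀ᶠ n in (U : Filter ℕ), ‖y n - x‖ ≤ C * r n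

/-- metric form of lineality -/
def QL (U : Ultrafilter ℕ) (r : ℕ → ℝ) (x : X) (y : ℕ → X) : Prop :=
  ∀ y' : ℕ → X, UB U r x y' → SO U r (fun n => ‖y n + y' n‖ - ‖x + y' n‖)

/-- rescaled sequence -/
noncomputable def vec (r : ℕ → ℝ) (x : X) (y : ℕ → X) (n : ℕ) : X := (r n)⁻¹ • (y n - x)

theorem smul_vec (hr : ∀ n, 0 < r n) (y : ℕ → X) (n : ℕ) : r n • vec r x y n = y n - x := by
  rw [vec, smul_smul, mul_inv_cancel₀ (hr n).ne', one_smul]

theorem add_vec (hr : ∀ n, 0 < r n) (y : ℕ → X) (n : ℕ) : x + r n • vec r x y n = y n := by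
  rw [smul_vec hr]; abel

theorem UB.vec_bs (hr : ∀ n, 0 < r n) {y : ℕ → X} (hy : UB U r x y) : BS U (vec r x y) := by
  obtain ⟨C, hC⟩ := hy.bdd
  refine ⟨C, ?_⟩
  filter_upwards [hC] with n hn
  rw [vec, norm_smul, norm_inv, Real.norm_of_nonneg (hr n).le, inv_mul_le_iff₀ (hr n)]
  linarith

theorem SO.of_sq (hr : ∀ n, 0 < r n) (hr0 : Tendsto r U (𝓝 0)) {c : ℕ → ℝ} {K : ℝ}
    (h : ∀ᶠ n in (U : Filter ℕ), |c n| ≤ K * r n * r n) : SO U r c := by
  intro ε hε
  have hev : ∀ᶠ n in (U : Filter ℕ), r n < ε / (|K| + 1) :=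
    hr0.eventually (gt_mem_nhds (by positivity))
  filter_upwards [h, hev] with n h1 h2
  have h3 : (|K| + 1) * r n ≤ ε := by
    rw [lt_div_iff₀ (by positivity)] at h2
    linarith
  have h4 : K * r n ≤ (|K| + 1) * r n :=
    mul_le_mul_of_nonneg_right (by linarith [le_abs_self K]) (hr n).le
  have h5 : K * r n * r n ≤ ε * r n := mul_le_mul_of_nonneg_right (h4.trans h3) (hr n).le
  exact h1.trans h5

theorem ql_of_G0 (hr : ∀ n, 0 < r n) {y : ℕ → X} (hy : UB U r x y) (hg : G0 U r x (vec r x y)) :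
    QL U r x y := by
  intro y' hy'
  have h1 := hg.half (hy.vec_bs hr) (fun n => (1 / 2 : ℝ) • vec r x y' n) ((hy'.vec_bs hr).smul _)
  refine (h1.const_mul 2).congr ?_
  filter_upwards with n
  have e1 : x + r n • ((1 / 2 : ℝ) • vec r x y' n + (1 / 2 : ℝ) • vec r x y n)
      = (1 / 2 : ℝ) • (y n + y' n) := by
    have e : x + r n • ((1 / 2 : ℝ) • vec r x y' n + (1 / 2 : ℝ) • vec r x y n)
        = x + (1 / 2 : ℝ) • (r n • vec r x y' n + r n • vec r x y n) := by module
    rw [e, smul_vec hr, smul_vec hr]; module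
  have e3 : x + r n • ((1 / 2 : ℝ) • vec r x y' n) = (1 / 2 : ℝ) • (x + y' n) := by
    have e : x + r n • ((1 / 2 : ℝ) • vec r x y' n)
        = x + (1 / 2 : ℝ) • (r n • vec r x y' n) := by module
    rw [e, smul_vec hr]; module
  rw [e1, e3, norm_smul, norm_smul, Real.norm_of_nonneg (by norm_num)]
  ring

/-- scaling one unit vector by a factor close to one -/
theorem norm_add_smul_unit {a b : X} (ha : ‖a‖ = 1) {ρ : ℝ} (hρ : 0 ≤ ρ) :
    |‖a + ρ • b‖ - ‖a + b‖ - (ρ - 1)| ≤ |ρ - 1| * ‖a - b‖ := by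
  set σ := ρ - 1 with hσ
  have e1 : a + ρ • b = (1 + σ / 2) • (a + b) + (σ / 2) • (b - a) := by
    have : ρ = σ + 1 := by rw [hσ]; ring
    rw [this]; module
  have h1 : |‖a + ρ • b‖ - ‖(1 + σ / 2) • (a + b)‖| ≤ |σ / 2| * ‖a - b‖ := by
    refine (abs_norm_sub_norm_le _ _).trans ?_
    rw [e1, add_sub_cancel_left, norm_smul, Real.norm_eq_abs, norm_sub_rev]
  have h2 : |‖a + b‖ - 2| ≤ ‖a - b‖ := by
    have e2 : ‖(2 : ℝ) • a‖ = 2 := by rw [norm_smul, ha]; norm_num
    have h3 := abs_norm_sub_norm_le (a + b) ((2 : ℝ) • a)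
    rw [e2] at h3
    have e3 : a + b - (2 : ℝ) • a = -(a - b) := by module
    rwa [e3, norm_neg] at h3
  have hpos : 0 ≤ 1 + σ / 2 := by rw [hσ]; linarith
  rw [norm_smul, Real.norm_of_nonneg hpos] at h1
  have h4 : ‖a + ρ • b‖ - ‖a + b‖ - σ = (‖a + ρ • b‖ - (1 + σ / 2) * ‖a + b‖)
      + (σ / 2) * (‖a + b‖ - 2) := by ring
  rw [h4]
  refine (abs_add_le _ _).trans ?_
  rw [abs_mul (σ / 2)]
  have h5 : |σ / 2| * |‖a + b‖ - 2| ≤ |σ / 2| * ‖a - b‖ :=
    mul_le_mul_of_nonneg_left h2 (abs_nonneg _)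
  have h6 : |σ / 2| = |σ| / 2 := by rw [abs_div]; norm_num
  rw [h6] at h1 h5 ⊢
  linarith

theorem G0_of_ql (hx : ‖x‖ = 1) (hr : ∀ n, 0 < r n) (hr0 : Tendsto r U (𝓝 0)) {y : ℕ → X}
    (hy : UB U r x y) (hq : QL U r x y) : G0 U r x (vec r x y) := by
  have hhalf : G0 U r x (fun n => (1 / 2 : ℝ) • vec r x y n) := by
    intro u hu
    obtain ⟨C, hC⟩ := hu
    obtain ⟨C1, hC1⟩ := hy.bdd
    set z : ℕ → X := fun n => x + (2 * r n) • u n with hz
    set y' : ℕ → X := fun n => nu (z n) with hy'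
    have hsmall : ∀ᶠ n in (U : Filter ℕ), 2 * r n * (|C| + 1) < 1 / 2 := by
      have h1 : ∀ᶠ n in (U : Filter ℕ), r n < 1 / (4 * (|C| + 1)) :=
        hr0.eventually (gt_mem_nhds (by positivity))
      filter_upwards [h1] with n hn
      rw [lt_div_iff₀ (by positivity)] at hn
      linarith
    have hzx : ∀ᶠ n in (U : Filter ℕ), ‖z n - x‖ ≤ 2 * r n * |C| ∧ z n ≠ 0 := by
      filter_upwards [hC, hsmall] with n h1 h2
      have hrn := hr n
      have h3 : ‖z n - x‖ ≤ 2 * r n * |C| := by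
        rw [hz]; simp only [add_sub_cancel_left]
        rw [norm_smul, Real.norm_of_nonneg (by positivity)]
        exact mul_le_mul_of_nonneg_left (h1.trans (le_abs_self C)) (by positivity)
      refine ⟨h3, ?_⟩
      intro h0
      rw [h0, zero_sub, norm_neg, hx] at h3
      nlinarith [abs_nonneg C]
    have hUB : UB U r x y' := by
      refine ⟨?_, 4 * |C|, ?_⟩
      · filter_upwards [hzx] with n hn
        exact norm_nu hn.2
      · filter_upwards [hzx] with n hn
        have := norm_nu_sub_le hn.2 hx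
        have h2 := hn.1
        show ‖nu (z n) - x‖ ≤ _
        linarith
    have h1 := hq y' hUB
    -- compare
    have hcmp : SO U r (fun n => (‖y n + z n‖ - ‖x + z n‖) - (‖y n + y' n‖ - ‖x + y' n‖)) := by
      refine SO.of_sq hr hr0 (K := 2 * |C| * ((|C1| + 4 * |C|) + 4 * |C|)) ?_
      filter_upwards [hzx, hy.unit, hC1] with n h2 h3 h4
      have hrn := hr n
      have hρ : z n = ‖z n‖ • y' n := by
        simp only [hy']
        rw [nu, smul_smul, mul_inv_cancel₀ (norm_ne_zero_iff.mpr h2.2), one_smul]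
      have hρ1 : |‖z n‖ - 1| ≤ 2 * r n * |C| := by
        rw [← hx]
        exact (abs_norm_sub_norm_le _ _).trans h2.1
      have h5 := norm_add_smul_unit (b := y' n) h3 (norm_nonneg (z n))
      have h6 := norm_add_smul_unit (b := y' n) hx (norm_nonneg (z n))
      rw [← hρ] at h5 h6
      have h7 : ‖y' n - x‖ ≤ 4 * |C| * r n := by
        have := norm_nu_sub_le h2.2 hx
        have h8 := h2.1
        show ‖nu (z n) - x‖ ≤ _
        linarith
      have h9 : ‖y n - y' n‖ ≤ (|C1| + 4 * |C|) * r n := by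
        have e : y n - y' n = (y n - x) - (y' n - x) := by abel
        rw [e]
        refine (norm_sub_le _ _).trans ?_
        have : C1 * r n ≤ |C1| * r n := mul_le_mul_of_nonneg_right (le_abs_self _) hrn.le
        linarith
      have h10 : ‖x - y' n‖ ≤ 4 * |C| * r n := by rw [norm_sub_rev]; exact h7
      have h11 : |‖z n‖ - 1| * ‖y n - y' n‖ ≤ (2 * r n * |C|) * ((|C1| + 4 * |C|) * r n) :=
        mul_le_mul hρ1 h9 (norm_nonneg _) (by positivity)
      have h12 : |‖z n‖ - 1| * ‖x - y' n‖ ≤ (2 * r n * |C|) * (4 * |C| * r n) :=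
        mul_le_mul hρ1 h10 (norm_nonneg _) (by positivity)
      have e : (‖y n + z n‖ - ‖x + z n‖) - (‖y n + y' n‖ - ‖x + y' n‖)
          = (‖y n + z n‖ - ‖y n + y' n‖ - (‖z n‖ - 1)) - (‖x + z n‖ - ‖x + y' n‖ - (‖z n‖ - 1)) := by
        ring
      rw [e]
      refine (abs_sub _ _).trans ?_
      have e2 : 2 * |C| * ((|C1| + 4 * |C|) + 4 * |C|) * r n * r n
          = (2 * r n * |C|) * ((|C1| + 4 * |C|) * r n) + (2 * r n * |C|) * (4 * |C| * r n) := by
        ring
      rw [e2]
      linarith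
    have h2 := (hcmp.add h1).const_mul (1 / 2)
    refine h2.congr ?_
    filter_upwards with n
    have e1 : x + r n • (u n + (1 / 2 : ℝ) • vec r x y n) = (1 / 2 : ℝ) • (y n + z n) := by
      have e : x + r n • (u n + (1 / 2 : ℝ) • vec r x y n)
          = x + r n • u n + (1 / 2 : ℝ) • (r n • vec r x y n) := by module
      rw [e, smul_vec hr]; simp only [hz]; module
    have e2 : x + r n • u n = (1 / 2 : ℝ) • (x + z n) := by
      simp only [hz]; module
    rw [e1, e2, norm_smul, norm_smul, Real.norm_of_nonneg (by norm_num)]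
    ring
  have h2 := hhalf.add hhalf ((hy.vec_bs hr).smul _)
  have e : (fun n => (1 / 2 : ℝ) • vec r x y n + (1 / 2 : ℝ) • vec r x y n) = vec r x y := by
    ext n; rw [← add_smul]; norm_num
  rwa [e] at h2

/-- normalising a lineality vector gives a lineal unit sequence -/
theorem mk_seq (hx : ‖x‖ = 1) (hr : ∀ n, 0 < r n) (hr0 : Tendsto r U (𝓝 0)) {v : ℕ → X}
    (hv : G0 U r x v) (hvb : BS U v) :
    UB U r x (fun n => nu (x + r n • v n)) ∧ QL U r x (fun n => nu (x + r n • v n)) ∧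
      SO U r (fun n => ‖nu (x + r n • v n) - (x + r n • v n)‖) := by
  obtain ⟨C, hC⟩ := hvb
  have h1 : SO U r (fun n => ‖x + r n • v n‖ - 1) := by
    have := hv (fun _ => 0) (BS.const 0)
    refine this.congr ?_
    filter_upwards with n
    rw [zero_add, smul_zero, add_zero, hx]
  have hne : ∀ᶠ n in (U : Filter ℕ), x + r n • v n ≠ 0 := by
    have h2 : ∀ᶠ n in (U : Filter ℕ), r n < 1 := hr0.eventually (gt_mem_nhds one_pos)
    filter_upwards [h1 (1 / 2) (by norm_num), h2] with n h3 h4 h0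
    rw [h0, norm_zero, zero_sub, abs_neg, abs_one] at h3
    linarith
  have h3 : SO U r (fun n => ‖nu (x + r n • v n) - (x + r n • v n)‖) := by
    refine h1.of_abs_le ?_
    filter_upwards [hne] with n hn
    rw [abs_of_nonneg (norm_nonneg _), norm_nu_sub_self hn, abs_sub_comm]
  have hUB : UB U r x (fun n => nu (x + r n • v n)) := by
    refine ⟨?_, 2 * C, ?_⟩
    · filter_upwards [hne] with n hn using norm_nu hn
    · filter_upwards [hne, hC] with n hn h4
      refine (norm_nu_sub_le hn hx).trans ?_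
      rw [add_sub_cancel_left, norm_smul, Real.norm_of_nonneg (hr n).le]
      nlinarith [hr n]
  refine ⟨hUB, ?_, h3⟩
  apply ql_of_G0 hr hUB
  refine hv.perturb ?_ hr
  refine h3.congr ?_
  filter_upwards with n
  have e : nu (x + r n • v n) - (x + r n • v n)
      = r n • (vec r x (fun n => nu (x + r n • v n)) n - v n) := by
    rw [smul_sub, smul_vec hr]; abel
  rw [e, norm_smul, Real.norm_of_nonneg (hr n).le]

end UnitSeq

/-! ### the pseudometric space of lineal unit sequences -/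

section LSpace

variable {X : Type*} [NormedAddCommGroup X] [NormedSpace ℝ X]
variable {U : Ultrafilter ℕ} {r : ℕ → ℝ} {x : X}

/-- lineal unit sequences near `x` at scale `r` -/
structure LS (U : Ultrafilter ℕ) (r : ℕ → ℝ) (x : X) where
  val : ℕ → X
  ub : UB U r x val
  ql : QL U r x val

/-- rescaled ultralimit distance of two sequences -/
noncomputable def dd (U : Ultrafilter ℕ) (r : ℕ → ℝ) (y z : ℕ → X) : ℝ :=
  ul U (fun n => ‖y n - z n‖ / r n)

/-- sequences at distance `O(r)` of each other -/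
def Near (U : Ultrafilter ℕ) (r : ℕ → ℝ) (y z : ℕ → X) : Prop :=
  ∃ C : ℝ, ∀ᶠ n in (U : Filter ℕ), ‖y n - z n‖ ≤ C * r n

theorem Near.eb (hr : ∀ n, 0 < r n) {y z : ℕ → X} (h : Near U r y z) :
    EB U (fun n => ‖y n - z n‖ / r n) := by
  obtain ⟨C, hC⟩ := h
  refine ⟨C, ?_⟩
  filter_upwards [hC] with n hn
  rw [abs_div, abs_of_pos (hr n), abs_norm, div_le_iff₀ (hr n)]
  exact hn

theorem UB.near {y z : ℕ → X} (hy : UB U r x y) (hz : UB U r x z) : Near U r y z := by
  obtain ⟨C, hC⟩ := hy.bdd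
  obtain ⟨C', hC'⟩ := hz.bdd
  refine ⟨C + C', ?_⟩
  filter_upwards [hC, hC'] with n h1 h2
  have e : y n - z n = (y n - x) - (z n - x) := by abel
  rw [e]
  refine (norm_sub_le _ _).trans ?_
  linarith

/-- distances only depend on the sequences up to `o(r)` -/
theorem dd_congr (hr : ∀ n, 0 < r n) {y z y' z' : ℕ → X} (hyz : Near U r y z)
    (hy : SO U r (fun n => ‖y n - y' n‖)) (hz : SO U r (fun n => ‖z n - z' n‖)) :
    dd U r y z = dd U r y' z' := by
  symm
  apply ul_eq
  have h1 := (hyz.eb hr).tendsto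
  have h2 : Tendsto (fun n => ‖y' n - z' n‖ / r n - ‖y n - z n‖ / r n) U (𝓝 0) := by
    rw [Metric.tendsto_nhds]
    intro ε hε
    filter_upwards [hy (ε / 4) (by positivity), hz (ε / 4) (by positivity)] with n h3 h4
    rw [abs_norm] at h3 h4
    rw [Real.dist_eq, sub_zero, ← sub_div, abs_div, abs_of_pos (hr n), div_lt_iff₀ (hr n)]
    have h5 : |‖y' n - z' n‖ - ‖y n - z n‖| ≤ ‖y n - y' n‖ + ‖z n - z' n‖ := by
      refine (abs_norm_sub_norm_le _ _).trans ?_
      have e : y' n - z' n - (y n - z n) = (z n - z' n) - (y n - y' n) := by abel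
      rw [e]
      refine (norm_sub_le _ _).trans ?_
      linarith
    have h6 : 0 < ε * r n := mul_pos hε (hr n)
    linarith
  have h3 := h1.add h2
  have e : (fun n => ‖y n - z n‖ / r n + (‖y' n - z' n‖ / r n - ‖y n - z n‖ / r n))
      = fun n => ‖y' n - z' n‖ / r n := by
    ext n; ring
  rw [e, add_zero] at h3
  exact h3

theorem dd_zero_of_SO (hr : ∀ n, 0 < r n) {y z : ℕ → X} (h : SO U r (fun n => ‖y n - z n‖)) :
    dd U r y z = 0 := by
  apply ul_eq
  rw [Metric.tendsto_nhds]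
  intro ε hε
  filter_upwards [h (ε / 2) (by positivity)] with n h3
  rw [abs_norm] at h3
  rw [Real.dist_eq, sub_zero, abs_div, abs_of_pos (hr n), abs_norm, div_lt_iff₀ (hr n)]
  have := mul_pos hε (hr n)
  linarith

/-- pseudometric on lineal unit sequences -/
@[reducible]
noncomputable def pm (hr : ∀ n, 0 < r n) : PseudoMetricSpace (LS U r x) where
  dist a b := dd U r a.val b.val
  dist_self a := by
    apply dd_zero_of_SO hr
    refine (SO.zero hr).congr ?_
    filter_upwards with n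
    rw [sub_self, norm_zero]
  dist_comm a b := by
    unfold dd
    congr 1
    ext n
    rw [norm_sub_rev]
  dist_triangle a b c := by
    have h1 := (a.ub.near b.ub).eb hr
    have h2 := (b.ub.near c.ub).eb hr
    have h3 := (a.ub.near c.ub).eb hr
    have h4 : ul U (fun n => ‖a.val n - b.val n‖ / r n + ‖b.val n - c.val n‖ / r n)
        = dd U r a.val b.val + dd U r b.val c.val := ul_eq (h1.tendsto.add h2.tendsto)
    rw [← h4]
    apply ul_mono h3 (h1.add h2)
    filter_upwards with n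
    rw [← add_div]
    refine div_le_div_of_nonneg_right ?_ (hr n).le
    have e : a.val n - c.val n = (a.val n - b.val n) + (b.val n - c.val n) := by abel
    rw [e]; exact norm_add_le _ _

/-- the (normalised) reflection `y ↦ a + b - y` -/
theorem exists_refl (hx : ‖x‖ = 1) (hr : ∀ n, 0 < r n) (hr0 : Tendsto r U (𝓝 0))
    (a b y : LS U r x) : ∃ e : LS U r x,
      SO U r (fun n => ‖e.val n - (a.val n + b.val n - y.val n)‖) := by
  have ha := G0_of_ql hx hr hr0 a.ub a.ql
  have hb := G0_of_ql hx hr hr0 b.ub b.ql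
  have hy := G0_of_ql hx hr hr0 y.ub y.ql
  have hab := ha.add hb (a.ub.vec_bs hr)
  have habb := (a.ub.vec_bs hr).add (b.ub.vec_bs hr)
  have hv := hab.add (hy.neg (y.ub.vec_bs hr)) habb
  have hvb := habb.add (y.ub.vec_bs hr).neg
  obtain ⟨h1, h2, h3⟩ := mk_seq hx hr hr0 hv hvb
  refine ⟨⟨_, h1, h2⟩, ?_⟩
  refine h3.congr ?_
  filter_upwards with n
  congr 2
  have e : x + r n • (vec r x a.val n + vec r x b.val n + -vec r x y.val n)
      = x + (r n • vec r x a.val n + r n • vec r x b.val n - r n • vec r x y.val n) := by module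
  rw [e, smul_vec hr, smul_vec hr, smul_vec hr]; abel

/-- chosen reflection -/
noncomputable def refl (hx : ‖x‖ = 1) (hr : ∀ n, 0 < r n) (hr0 : Tendsto r U (𝓝 0))
    (a b y : LS U r x) : LS U r x := Classical.choose (exists_refl hx hr hr0 a b y)

theorem refl_spec (hx : ‖x‖ = 1) (hr : ∀ n, 0 < r n) (hr0 : Tendsto r U (𝓝 0))
    (a b y : LS U r x) :
    SO U r (fun n => ‖(refl hx hr hr0 a b y).val n - (a.val n + b.val n - y.val n)‖) :=
  Classical.choose_spec (exists_refl hx hr hr0 a b y)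

section ReflProps

variable (hx : ‖x‖ = 1) (hr : ∀ n, 0 < r n) (hr0 : Tendsto r U (𝓝 0)) (a b : LS U r x)

theorem dd_refl_refl (y y' : LS U r x) :
    dd U r (refl hx hr hr0 a b y).val (refl hx hr hr0 a b y').val = dd U r y.val y'.val := by
  rw [dd_congr hr ((refl hx hr hr0 a b y).ub.near (refl hx hr hr0 a b y').ub)
    (refl_spec hx hr hr0 a b y) (refl_spec hx hr hr0 a b y')]
  unfold dd
  congr 1
  ext n
  have e : a.val n + b.val n - y.val n - (a.val n + b.val n - y'.val n)
      = -(y.val n - y'.val n) := by abel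
  rw [e, norm_neg]

theorem dd_refl_left (y : LS U r x) :
    dd U r (refl hx hr hr0 a b y).val a.val = dd U r b.val y.val := by
  rw [dd_congr hr ((refl hx hr hr0 a b y).ub.near a.ub) (refl_spec hx hr hr0 a b y)
    (z' := a.val) ((SO.zero hr).congr (by filter_upwards with n; rw [sub_self, norm_zero]))]
  unfold dd
  congr 1
  ext n
  have e : a.val n + b.val n - y.val n - a.val n = b.val n - y.val n := by abel
  rw [e]

theorem dd_refl_right (y : LS U r x) :
    dd U r (refl hx hr hr0 a b y).val b.val = dd U r a.val y.val := by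
  rw [dd_congr hr ((refl hx hr hr0 a b y).ub.near b.ub) (refl_spec hx hr hr0 a b y)
    (z' := b.val) ((SO.zero hr).congr (by filter_upwards with n; rw [sub_self, norm_zero]))]
  unfold dd
  congr 1
  ext n
  have e : a.val n + b.val n - y.val n - b.val n = a.val n - y.val n := by abel
  rw [e]

theorem dd_refl_invol (y : LS U r x) :
    dd U r (refl hx hr hr0 a b (refl hx hr hr0 a b y)).val y.val = 0 := by
  apply dd_zero_of_SO hr
  have h1 := refl_spec hx hr hr0 a b (refl hx hr hr0 a b y)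
  have h2 := refl_spec hx hr hr0 a b y
  refine (h1.add h2).of_abs_le ?_
  filter_upwards with n
  rw [abs_norm, abs_of_nonneg (by positivity)]
  have e : (refl hx hr hr0 a b (refl hx hr hr0 a b y)).val n - y.val n
      = ((refl hx hr hr0 a b (refl hx hr hr0 a b y)).val n
          - (a.val n + b.val n - (refl hx hr hr0 a b y).val n))
        - ((refl hx hr hr0 a b y).val n - (a.val n + b.val n - y.val n)) := by abel
  rw [e]
  exact norm_sub_le _ _

/-- displacement of the reflection -/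
theorem dd_self_refl (y : LS U r x) :
    dd U r y.val (refl hx hr hr0 a b y).val
      = ul U (fun n => ‖(2 : ℝ) • y.val n - (a.val n + b.val n)‖ / r n) := by
  rw [dd_congr hr (y.ub.near (refl hx hr hr0 a b y).ub) (y' := y.val)
    ((SO.zero hr).congr (by filter_upwards with n; rw [sub_self, norm_zero]))
    (refl_spec hx hr hr0 a b y)]
  unfold dd
  congr 1
  ext n
  have e : y.val n - (a.val n + b.val n - y.val n)
      = (2 : ℝ) • y.val n - (a.val n + b.val n) := by module
  rw [e]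

include hr in
theorem eb_displ (y : LS U r x) :
    EB U (fun n => ‖(2 : ℝ) • y.val n - (a.val n + b.val n)‖ / r n) := by
  have h1 := (y.ub.near a.ub).eb hr
  have h2 := (y.ub.near b.ub).eb hr
  refine (h1.add h2).of_le ?_
  filter_upwards with n
  rw [abs_div, abs_norm, abs_of_pos (hr n), ← add_div]
  refine div_le_div_of_nonneg_right ?_ (hr n).le
  have e : (2 : ℝ) • y.val n - (a.val n + b.val n) = (y.val n - a.val n) + (y.val n - b.val n) := by
    rw [two_smul]; abel
  rw [e]; exact norm_add_le _ _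

theorem dd_central (y y' : LS U r x) :
    2 * dd U r y.val y'.val ≤ dd U r y.val (refl hx hr hr0 a b y).val
      + dd U r y'.val (refl hx hr hr0 a b y').val := by
  rw [dd_self_refl, dd_self_refl]
  have h1 := (y.ub.near y'.ub).eb hr
  have h2 := eb_displ hr a b y
  have h3 := eb_displ hr a b y'
  have h4 : ul U (fun n => ‖(2 : ℝ) • y.val n - (a.val n + b.val n)‖ / r n
      + ‖(2 : ℝ) • y'.val n - (a.val n + b.val n)‖ / r n)
      = ul U (fun n => ‖(2 : ℝ) • y.val n - (a.val n + b.val n)‖ / r n)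
      + ul U (fun n => ‖(2 : ℝ) • y'.val n - (a.val n + b.val n)‖ / r n) :=
    ul_eq (h2.tendsto.add h3.tendsto)
  rw [← h4]
  have h5 : ul U (fun n => 2 * (‖y.val n - y'.val n‖ / r n)) = 2 * dd U r y.val y'.val :=
    ul_eq (h1.tendsto.const_mul 2)
  rw [← h5]
  have h6 : EB U (fun n => 2 * (‖y.val n - y'.val n‖ / r n)) := by
    have := h1.add h1
    refine this.of_le ?_
    filter_upwards with n
    rw [abs_mul, abs_div, abs_norm, abs_of_pos (hr n)]
    norm_num
    linarith
  apply ul_mono h6 (h2.add h3)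
  filter_upwards with n
  rw [← add_div, ← mul_div_assoc]
  refine div_le_div_of_nonneg_right ?_ (hr n).le
  have e : (2 : ℝ) • (y.val n - y'.val n) = ((2 : ℝ) • y.val n - (a.val n + b.val n))
      - ((2 : ℝ) • y'.val n - (a.val n + b.val n)) := by
    rw [smul_sub]; abel
  have e2 : 2 * ‖y.val n - y'.val n‖ = ‖(2 : ℝ) • (y.val n - y'.val n)‖ := by
    rw [norm_smul, Real.norm_of_nonneg (by norm_num)]
  rw [e2, e]
  exact norm_sub_le _ _

end ReflProps

end LSpace

/-! ### transport of reflections -/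

section Transport

/-- abstract reflection data exchanging two points -/
structure ReflD {α : Type*} [PseudoMetricSpace α] (s : α → α) (a b : α) : Prop where
  iso : ∀ x y, dist (s x) (s y) = dist x y
  left : ∀ x, dist (s x) a = dist b x
  right : ∀ x, dist (s x) b = dist a x
  invol : ∀ x, dist (s (s x)) x = 0
  central : ∀ x y, 2 * dist x y ≤ dist x (s x) + dist y (s y)

theorem dist_eq_right {α : Type*} [PseudoMetricSpace α] {a b z : α} (h : dist a b = 0) :
    dist z a = dist z b := by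
  rw [dist_comm z a, dist_comm z b]; exact dist_eq_left h

theorem displ_eq {α β : Type*} [PseudoMetricSpace α] [PseudoMetricSpace β] {φ : α → β} {ψ : β → α}
    (hφ : ∀ x y, dist (φ x) (φ y) = dist x y) (hψ : ∀ x y, dist (ψ x) (ψ y) = dist x y)
    (h1 : ∀ x, dist (ψ (φ x)) x = 0) (h2 : ∀ y, dist (φ (ψ y)) y = 0)
    {s : α → α} {s' : β → β} {a b : α} (hs : ReflD s a b) (hs' : ReflD s' (φ a) (φ b))
    {m : α} (hm : dist m (s m) = 0) : dist (φ m) (s' (φ m)) = 0 := by
  set D : ℝ := dist m a + dist m b with hDdef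
  set V : Set α := {x | dist x a + dist x b ≤ D} with hV
  have hdt : ∀ x, dist x (ψ (s' (φ x))) = dist (φ x) (s' (φ x)) := by
    intro x
    rw [← hψ (φ x) (s' (φ x))]
    exact (dist_eq_left (h1 x)).symm
  have hCs : CentralA V s := by
    refine ⟨?_, fun x _ y _ => hs.iso x y, fun x _ => hs.invol x, fun x _ y _ => hs.central x y⟩
    intro x hx
    show dist (s x) a + dist (s x) b ≤ D
    rw [hs.left, hs.right, dist_comm b x, dist_comm a x, add_comm]
    exact hx
  have hCt : CentralA V (fun x => ψ (s' (φ x))) := by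
    refine ⟨?_, ?_, ?_, ?_⟩
    · intro x hx
      show dist (ψ (s' (φ x))) a + dist (ψ (s' (φ x))) b ≤ D
      rw [← dist_eq_right (h1 a), ← dist_eq_right (h1 b), hψ, hψ, hs'.left, hs'.right, hφ, hφ,
        dist_comm b x, dist_comm a x, add_comm]
      exact hx
    · intro x _ y _
      show dist (ψ (s' (φ x))) (ψ (s' (φ y))) = dist x y
      rw [hψ, hs'.iso, hφ]
    · intro x _
      show dist (ψ (s' (φ (ψ (s' (φ x)))))) x = 0
      have e1 : dist (s' (φ (ψ (s' (φ x))))) (s' (s' (φ x))) = 0 := by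
        rw [hs'.iso]; exact h2 _
      have e2 : dist (s' (φ (ψ (s' (φ x))))) (φ x) = 0 := dist_zero_trans e1 (hs'.invol _)
      have e3 : dist (ψ (s' (φ (ψ (s' (φ x)))))) (ψ (φ x)) = 0 := by rw [hψ]; exact e2
      exact dist_zero_trans e3 (h1 x)
    · intro x _ y _
      show 2 * dist x y ≤ dist x (ψ (s' (φ x))) + dist y (ψ (s' (φ y)))
      rw [hdt, hdt, ← hφ x y]
      exact hs'.central _ _
  have hD : ∀ x ∈ V, ∀ y ∈ V, dist x y ≤ 2 * D := by
    intro x hx y hy
    have hx' : dist x a + dist x b ≤ D := hx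
    have hy' : dist y a + dist y b ≤ D := hy
    have := dist_triangle x a y
    rw [dist_comm a y] at this
    have h3 : 0 ≤ dist x b := dist_nonneg
    have h4 : 0 ≤ dist y b := dist_nonneg
    linarith
  have hle := CentralA.le hD hCt hCs (w := m) (show m ∈ V from le_refl D)
  rw [hm] at hle
  rw [← hdt m]
  exact le_antisymm hle dist_nonneg

end Transport

/-! ### the induced map -/

section MapLS

variable {X Y : Type*} [NormedAddCommGroup X] [NormedSpace ℝ X] [NormedAddCommGroup Y]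
  [NormedSpace ℝ Y] {f : X → Y} {g : Y → X} {U : Ultrafilter ℕ} {r : ℕ → ℝ} {x : X} {y : Y}

theorem ub_map (h : SI f g) (hx : ‖x‖ = 1) (hxy : f x = y) {z : ℕ → X} (hz : UB U r x z) :
    UB U r y (fun n => f (z n)) := by
  obtain ⟨C, hC⟩ := hz.bdd
  refine ⟨?_, C, ?_⟩
  · filter_upwards [hz.unit] with n hn using h.map _ hn
  · filter_upwards [hz.unit, hC] with n h1 h2
    rw [← hxy, h.dist _ _ h1 hx]; exact h2

theorem ql_map (h : SI f g) (ho : ∀ x, ‖x‖ = 1 → f (-x) = -f x) (hx : ‖x‖ = 1) (hxy : f x = y)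
    {z : ℕ → X} (hz : UB U r x z) (hq : QL U r x z) : QL U r y (fun n => f (z n)) := by
  intro y' hy'
  have hy1 : ‖y‖ = 1 := by rw [← hxy]; exact h.map x hx
  have hgy : g y = x := by rw [← hxy]; exact h.left x hx
  have h1 : UB U r x (fun n => g (y' n)) := ub_map h.symm hy1 hgy hy'
  refine (hq _ h1).congr ?_
  filter_upwards [hz.unit, hy'.unit] with n h2 h3
  have h4 := h.norm_add ho h2 (h.imap _ h3)
  have h5 := h.norm_add ho hx (h.imap _ h3)
  rw [h.right _ h3] at h4 h5
  rw [hxy] at h5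
  rw [h4, h5]

/-- the map induced by a sphere isometry on lineal sequences -/
noncomputable def mapLS (h : SI f g) (ho : ∀ x, ‖x‖ = 1 → f (-x) = -f x) (hx : ‖x‖ = 1)
    (hxy : f x = y) (a : LS U r x) : LS U r y :=
  ⟨fun n => f (a.val n), ub_map h hx hxy a.ub, ql_map h ho hx hxy a.ub a.ql⟩

theorem ul_congr {c c' : ℕ → ℝ} (hc : ∀ᶠ n in (U : Filter ℕ), c n = c' n) : ul U c = ul U c' := by
  unfold ul limUnder
  rw [Filter.map_congr hc]

theorem dd_mapLS (h : SI f g) (ho : ∀ x, ‖x‖ = 1 → f (-x) = -f x) (hx : ‖x‖ = 1)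
    (hxy : f x = y) (a b : LS U r x) :
    dd U r (mapLS h ho hx hxy a).val (mapLS h ho hx hxy b).val = dd U r a.val b.val := by
  apply ul_congr
  filter_upwards [a.ub.unit, b.ub.unit] with n h1 h2
  show ‖f (a.val n) - f (b.val n)‖ / r n = _
  rw [h.dist _ _ h1 h2]

theorem dd_round (h : SI f g) (ho : ∀ x, ‖x‖ = 1 → f (-x) = -f x)
    (ho' : ∀ y, ‖y‖ = 1 → g (-y) = -g y) (hx : ‖x‖ = 1) (hr : ∀ n, 0 < r n)
    (hy : ‖y‖ = 1) (hxy : f x = y) (hyx : g y = x) (a : LS U r x) :
    dd U r (mapLS h.symm ho' hy hyx (mapLS h ho hx hxy a)).val a.val = 0 := by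
  apply dd_zero_of_SO hr
  refine (SO.zero hr).congr ?_
  filter_upwards [a.ub.unit] with n h1
  show (0 : ℝ) = ‖g (f (a.val n)) - a.val n‖
  rw [h.left _ h1, sub_self, norm_zero]

theorem reflD (hx : ‖x‖ = 1) (hr : ∀ n, 0 < r n) (hr0 : Tendsto r U (𝓝 0)) (a b : LS U r x) :
    letI := pm (U := U) (x := x) hr
    ReflD (refl hx hr hr0 a b) a b := by
  letI := pm (U := U) (x := x) hr
  exact ⟨dd_refl_refl hx hr hr0 a b, dd_refl_left hx hr hr0 a b, dd_refl_right hx hr hr0 a b,
    dd_refl_invol hx hr hr0 a b, dd_central hx hr hr0 a b⟩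

/-- the image of a centre is a centre -/
theorem centre_map (h : SI f g) (ho : ∀ x, ‖x‖ = 1 → f (-x) = -f x) (hx : ‖x‖ = 1)
    (hr : ∀ n, 0 < r n) (hr0 : Tendsto r U (𝓝 0)) (a b m : LS U r x)
    (hm : SO U r (fun n => ‖(2 : ℝ) • m.val n - (a.val n + b.val n)‖)) :
    SO U r (fun n => ‖(2 : ℝ) • f (m.val n) - (f (a.val n) + f (b.val n))‖) := by
  have hy : ‖f x‖ = 1 := h.map x hx
  have hyx : g (f x) = x := h.left x hx
  have hyy : f (g (f x)) = f x := by rw [hyx]
  have ho' := h.odd_symm ho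
  set φ : LS U r x → LS U r (f x) := mapLS h ho hx rfl with hφdef
  set ψ : LS U r (f x) → LS U r x := mapLS h.symm ho' hy hyx with hψdef
  letI i1 := pm (U := U) (x := x) hr
  letI i2 := pm (U := U) (x := f x) hr
  have hz : dd U r m.val (refl hx hr hr0 a b m).val = 0 := by
    rw [dd_self_refl]
    apply ul_eq
    rw [Metric.tendsto_nhds]
    intro ε hε
    filter_upwards [hm (ε / 2) (by positivity)] with n h3
    rw [abs_norm] at h3
    rw [Real.dist_eq, sub_zero, abs_div, abs_of_pos (hr n), abs_norm, div_lt_iff₀ (hr n)]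
    have := mul_pos hε (hr n)
    linarith
  have hmain : dd U r (φ m).val (refl hy hr hr0 (φ a) (φ b) (φ m)).val = 0 := by
    refine displ_eq (α := LS U r x) (β := LS U r (f x)) (φ := φ) (ψ := ψ)
      (s := refl hx hr hr0 a b) (s' := refl hy hr hr0 (φ a) (φ b)) (a := a) (b := b) (m := m)
      ?_ ?_ ?_ ?_ (reflD hx hr hr0 a b) (reflD hy hr hr0 (φ a) (φ b)) hz
    · intro p q; exact dd_mapLS h ho hx rfl p q
    · intro p q; exact dd_mapLS h.symm ho' hy hyx p q
    · intro p; exact dd_round h ho ho' hx hr hy rfl hyx p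
    · intro p; exact dd_round h.symm ho' ho hy hr hx hyx rfl p
  rw [dd_self_refl] at hmain
  have heb := eb_displ hr (φ a) (φ b) (φ m)
  have ht := heb.tendsto
  rw [hmain] at ht
  intro ε hε
  have hev := ht.eventually (gt_mem_nhds hε)
  filter_upwards [hev] with n hn
  rw [div_lt_iff₀ (hr n)] at hn
  rw [abs_norm]
  exact hn.le

end MapLS

end Blowup

open Blowup in
/-- M2: the blow-up of a sphere isometry at a smooth point is midpoint-affine. -/
theorem SI.midAt {X Y : Type*} [NormedAddCommGroup X] [NormedSpace ℝ X] [NormedAddCommGroup Y]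
    [NormedSpace ℝ Y] {f : X → Y} {g : Y → X} (h : SI f g)
    (ho : ∀ x, ‖x‖ = 1 → f (-x) = -f x) {x : X} (hx : ‖x‖ = 1) (hs : Smooth x) : MidAt f x := by
  intro v w hv hw
  by_contra hcon
  push Not at hcon
  obtain ⟨ε, hε, hbad⟩ := hcon
  choose r hr1 hr2 hr3 using fun n => hbad (rr n) (rr_pos n)
  have hr0' : Tendsto r atTop (𝓝 0) :=
    squeeze_zero (fun n => (hr1 n).le) (fun n => (hr2 n).le) rr_tendsto
  have hr0 : Tendsto r UU (𝓝 0) := hr0'.mono_left UU_le
  have hmv : J x ((1 / 2 : ℝ) • (v + w)) = 0 := by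
    rw [map_smul, map_add, hv, hw, add_zero, smul_zero]
  obtain ⟨ua, qa, sa⟩ := mk_seq hx hr1 hr0 (G0.const hx hs hr1 hr0 hv) (BS.const v)
  obtain ⟨ub, qb, sb⟩ := mk_seq hx hr1 hr0 (G0.const hx hs hr1 hr0 hw) (BS.const w)
  obtain ⟨um, qm, sm⟩ := mk_seq hx hr1 hr0 (G0.const hx hs hr1 hr0 hmv)
    (BS.const ((1 / 2 : ℝ) • (v + w)))
  have key := centre_map h ho hx hr1 hr0 ⟨_, ua, qa⟩ ⟨_, ub, qb⟩ ⟨_, um, qm⟩ (by
    refine (((sm.const_mul 2).add sa).add sb).of_abs_le ?_
    filter_upwards with n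
    have e : (2 : ℝ) • nu (x + r n • (1 / 2 : ℝ) • (v + w))
        - (nu (x + r n • v) + nu (x + r n • w))
        = (2 : ℝ) • (nu (x + r n • (1 / 2 : ℝ) • (v + w)) - (x + r n • (1 / 2 : ℝ) • (v + w)))
          - (nu (x + r n • v) - (x + r n • v)) - (nu (x + r n • w) - (x + r n • w)) := by module
    show |‖(2 : ℝ) • nu (x + r n • (1 / 2 : ℝ) • (v + w))
        - (nu (x + r n • v) + nu (x + r n • w))‖| ≤ _
    rw [abs_norm, abs_of_nonneg (by positivity), e]
    refine (norm_sub_le _ _).trans ?_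
    refine add_le_add ((norm_sub_le _ _).trans ?_) le_rfl
    rw [norm_smul, Real.norm_of_nonneg (by norm_num)])
  obtain ⟨n, hn⟩ := (key ε hε).exists
  have hn' : ‖(2 : ℝ) • f (nu (x + r n • (1 / 2 : ℝ) • (v + w)))
      - (f (nu (x + r n • v)) + f (nu (x + r n • w)))‖ ≤ ε * r n := by
    rw [abs_norm] at hn; exact hn
  have h4 := hr3 n
  have e : f (nu (x + r n • (1 / 2 : ℝ) • (v + w)))
      - (1 / 2 : ℝ) • (f (nu (x + r n • v)) + f (nu (x + r n • w)))
      = (1 / 2 : ℝ) • ((2 : ℝ) • f (nu (x + r n • (1 / 2 : ℝ) • (v + w)))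
        - (f (nu (x + r n • v)) + f (nu (x + r n • w)))) := by module
  rw [e, norm_smul, Real.norm_of_nonneg (by norm_num)] at h4
  have h5 : 0 ≤ ‖(2 : ℝ) • f (nu (x + r n • (1 / 2 : ℝ) • (v + w)))
      - (f (nu (x + r n • v)) + f (nu (x + r n • w)))‖ := norm_nonneg _
  linarith

end Crest.Agent.R074
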