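import Crest.Agent.R074.Mazur

/-!
Row 74 (S0099), base library, part 4: oddness of sphere isometries (separable spaces).
-/

set_option autoImplicit false

namespace Crest.Agent.R074

open Metric Set Filter Topology

section Faces

variable {X : Type*} [NormedAddCommGroup X] [NormedSpace ℝ X]

/-- the face of the unit sphere cut out by a functional -/
def face (p : X →L[ℝ] ℝ) : Set X := {c | ‖c‖ = 1 ∧ p c = 1}

theorem norm_add_eq_two {p : X →L[ℝ] ℝ} (hp : ‖p‖ ≤ 1) {c c' : X} (hc : c ∈ face p)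
    (hc' : c' ∈ face p) : ‖c + c'‖ = 2 := by
  apply le_antisymm
  · refine (norm_add_le _ _).trans ?_
    rw [hc.1, hc'.1]; norm_num
  · have h1 : p (c + c') ≤ ‖c + c'‖ := by
      have h2 : ‖p (c + c')‖ ≤ ‖p‖ * ‖c + c'‖ := p.le_opNorm _
      have h3 : ‖p‖ * ‖c + c'‖ ≤ 1 * ‖c + c'‖ := mul_le_mul_of_nonneg_right hp (norm_nonneg _)
      have h4 := Real.le_norm_self (p (c + c'))
      linarith
    rw [map_add, hc.2, hc'.2] at h1
    linarith

/-- convex combinations with nonnegative weights of face points -/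
theorem face_convex {p : X →L[ℝ] ℝ} (hp : ‖p‖ ≤ 1) {c c' : X} (hc : c ∈ face p)
    (hc' : c' ∈ face p) {s t : ℝ} (hs : 0 ≤ s) (ht : 0 ≤ t) (hst : s + t = 1) :
    s • c + t • c' ∈ face p := by
  have h2 : p (s • c + t • c') = 1 := by
    rw [map_add, map_smul, map_smul, hc.2, hc'.2, smul_eq_mul, smul_eq_mul]; linarith
  refine ⟨le_antisymm ?_ ?_, h2⟩
  · refine (norm_add_le _ _).trans ?_
    rw [norm_smul, norm_smul, hc.1, hc'.1, Real.norm_of_nonneg hs, Real.norm_of_nonneg ht]
    linarith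
  · have h1 : ‖p (s • c + t • c')‖ ≤ ‖p‖ * ‖s • c + t • c'‖ := p.le_opNorm _
    have h3 : ‖p‖ * ‖s • c + t • c'‖ ≤ 1 * ‖s • c + t • c'‖ :=
      mul_le_mul_of_nonneg_right hp (norm_nonneg _)
    rw [h2, norm_one] at h1
    linarith

theorem Smooth.mem_face_iff {u : X} (hu : Smooth u) (hu1 : ‖u‖ = 1) {y : X} (hy : ‖y‖ = 1) :
    y ∈ face (J u) ↔ ‖u + y‖ = 2 := by
  constructor
  · intro h
    exact norm_add_eq_two (J_norm_le u) ⟨hu1, by rw [J_self, hu1]⟩ h
  · intro h
    refine ⟨hy, ?_⟩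
    have h1 := J_self (u + y)
    rw [map_add, h] at h1
    have h2 := J_le (u + y) u
    have h3 := J_le (u + y) y
    rw [hu1] at h2
    rw [hy] at h3
    have h4 : J (u + y) u = 1 := by linarith
    have h5 : J (u + y) = J u := hu.eq_J ⟨J_norm_le _, by rw [h4, hu1]⟩
    rw [← h5]; linarith

theorem Smooth.self_mem_face {u : X} (hu1 : ‖u‖ = 1) : u ∈ face (J u) :=
  ⟨hu1, by rw [J_self, hu1]⟩

theorem Smooth.neg_mem_face_iff {u : X} (hu : Smooth u) (hu1 : ‖u‖ = 1) {y : X} (hy : ‖y‖ = 1) :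
    -y ∈ face (J u) ↔ ∀ c ∈ face (J u), ‖y - c‖ = 2 := by
  constructor
  · intro h c hc
    have := norm_add_eq_two (J_norm_le u) h hc
    rw [← this, ← norm_neg]; congr 1; abel
  · intro h
    have h1 := h u (Smooth.self_mem_face hu1)
    rw [hu.mem_face_iff hu1 (by rw [norm_neg]; exact hy), ← h1, ← norm_neg]
    congr 1; abel

/-- one-sided separation estimate -/
theorem sep_aux {p : X →L[ℝ] ℝ} (hp : ‖p‖ ≤ 1) {u : X} (hu : u ∈ face p) {x y v : X} {s ε : ℝ}
    (hs : 0 < s) (hxy : x - y = s • v) (huv : ‖u - v‖ ≤ ε) (hx : ‖x‖ ≤ 1)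
    (hd : infDist x (face p) = infDist y (face p)) : s ≤ p x + ε * (1 + s) := by
  have hε : 0 ≤ ε := (norm_nonneg _).trans huv
  have hne : (face p).Nonempty := ⟨u, hu⟩
  set d := infDist x (face p) with hdd
  apply le_of_forall_pos_le_add
  intro η hη
  -- choose k
  set η' : ℝ := min (η / 2) (s * η / 2) with hη'
  have hη'0 : 0 < η' := lt_min (by positivity) (by positivity)
  obtain ⟨k, hk, hkd⟩ := (infDist_lt_iff hne (x := y) (r := d + η')).mp (by rw [← hd]; linarith)
  rw [dist_eq_norm] at hkd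
  have h1s : 0 < 1 + s := by linarith
  set k' : X := (s / (1 + s)) • u + (1 / (1 + s)) • k with hk'
  have hk'mem : k' ∈ face p :=
    face_convex hp hu hk (by positivity) (by positivity) (by field_simp; ring)
  have hsk : (1 + s) • k' = s • u + k := by
    rw [hk', smul_add, smul_smul, smul_smul, mul_div_cancel₀ _ h1s.ne', mul_div_cancel₀ _ h1s.ne',
      one_smul]
  have hA : ‖x - (1 + s) • k'‖ ≤ d + η' + s * ε := by
    have e : x - (1 + s) • k' = (y - k) + s • (v - u) := by
      rw [hsk, smul_sub, ← hxy]; abel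
    rw [e]
    refine (norm_add_le _ _).trans ?_
    rw [norm_smul, Real.norm_of_nonneg hs.le, norm_sub_rev v u]
    have := mul_le_mul_of_nonneg_left huv hs.le
    linarith
  have hB : d ≤ ‖x - k'‖ := by
    rw [← dist_eq_norm]; exact infDist_le_dist_of_mem hk'mem
  have hC : (1 + s) * ‖x - k'‖ ≤ ‖x - (1 + s) • k'‖ + s * ‖x‖ := by
    have e : (1 + s) • (x - k') = (x - (1 + s) • k') + s • x := by
      rw [smul_sub, add_smul, one_smul]; abel
    have h1 : (1 + s) * ‖x - k'‖ = ‖(1 + s) • (x - k')‖ := by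
      rw [norm_smul, Real.norm_of_nonneg h1s.le]
    rw [h1, e]
    refine (norm_add_le _ _).trans ?_
    rw [norm_smul, Real.norm_of_nonneg hs.le]
  have hD : d * s ≤ η' + s * ε + s * ‖x‖ := by nlinarith
  have hD' : d * s ≤ η' + s * ε + s := by nlinarith
  have hE : (1 + s) - p x ≤ ‖x - (1 + s) • k'‖ := by
    have h1 : p ((1 + s) • k' - x) ≤ ‖(1 + s) • k' - x‖ := by
      have h2 : ‖p ((1 + s) • k' - x)‖ ≤ ‖p‖ * ‖(1 + s) • k' - x‖ := p.le_opNorm _
      have h3 : ‖p‖ * ‖(1 + s) • k' - x‖ ≤ 1 * ‖(1 + s) • k' - x‖ :=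
        mul_le_mul_of_nonneg_right hp (norm_nonneg _)
      have h4 := Real.le_norm_self (p ((1 + s) • k' - x))
      linarith
    rw [map_sub, map_smul, hk'mem.2, smul_eq_mul, mul_one, norm_sub_rev] at h1
    exact h1
  have hη1 : η' ≤ η / 2 := min_le_left _ _
  have hη2 : η' ≤ s * η / 2 := min_le_right _ _
  have hF : d ≤ 1 + ε + η / 2 := by
    by_contra hcon
    push Not at hcon
    have := mul_lt_mul_of_pos_right hcon hs
    nlinarith
  linarith

/-- SEPARATION: two points of the unit ball with the same distances to `±face p`, where `p` norms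
a unit vector close to the direction of `x - y`, are close to each other. -/
theorem sep {p : X →L[ℝ] ℝ} (hp : ‖p‖ ≤ 1) {u : X} (hu : u ∈ face p) {x y v : X} {s ε : ℝ}
    (hs : 0 < s) (hv : ‖v‖ = 1) (hxy : x - y = s • v) (huv : ‖u - v‖ ≤ ε) (hx : ‖x‖ ≤ 1)
    (hy : ‖y‖ ≤ 1) (hd : infDist x (face p) = infDist y (face p))
    (hd' : infDist (-x) (face p) = infDist (-y) (face p)) : s ≤ 2 * ε * (1 + s) := by
  have h1 := sep_aux hp hu hs hxy huv hx hd
  have h2 := sep_aux hp hu (x := -y) (y := -x) hs (by rw [← hxy]; abel) huv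
    (by rw [norm_neg]; exact hy) hd'.symm
  rw [map_neg] at h2
  have h3 : p (x - y) ≤ s := by
    have h4 : ‖p (x - y)‖ ≤ ‖p‖ * ‖x - y‖ := p.le_opNorm _
    have h5 : ‖p‖ * ‖x - y‖ ≤ 1 * ‖x - y‖ := mul_le_mul_of_nonneg_right hp (norm_nonneg _)
    have h6 := Real.le_norm_self (p (x - y))
    have h7 : ‖x - y‖ = s := by rw [hxy, norm_smul, hv, Real.norm_of_nonneg hs.le, mul_one]
    linarith
  rw [map_sub] at h3
  nlinarith

end Faces

section Odd

variable {X Y : Type*} [NormedAddCommGroup X] [NormedSpace ℝ X] [NormedAddCommGroup Y]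
  [NormedSpace ℝ Y] {f : X → Y} {g : Y → X}

/-- faces correspond: `u` smooth, `w = -f (-u)` smooth. -/
theorem SI.face_iff (h : SI f g) {u : X} (hu1 : ‖u‖ = 1) (hu : Smooth u)
    (hw : Smooth (-f (-u))) {y : X} (hy : ‖y‖ = 1) :
    f y ∈ face (J (-f (-u))) ↔ y ∈ face (J u) := by
  have hw1 : ‖-f (-u)‖ = 1 := by
    rw [norm_neg]; exact h.map _ (by rw [norm_neg]; exact hu1)
  rw [hu.mem_face_iff hu1 hy, hw.mem_face_iff hw1 (h.map y hy)]
  have h1 := h.dist y (-u) hy (by rw [norm_neg]; exact hu1)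
  have e1 : -f (-u) + f y = f y - f (-u) := by abel
  have e2 : u + y = y - -u := by abel
  rw [e1, e2, h1]

theorem SI.neg_face_iff (h : SI f g) {u : X} (hu1 : ‖u‖ = 1) (hu : Smooth u)
    (hw : Smooth (-f (-u))) {y : X} (hy : ‖y‖ = 1) :
    -f y ∈ face (J (-f (-u))) ↔ -y ∈ face (J u) := by
  have hw1 : ‖-f (-u)‖ = 1 := by
    rw [norm_neg]; exact h.map _ (by rw [norm_neg]; exact hu1)
  rw [hu.neg_mem_face_iff hu1 hy, hw.neg_mem_face_iff hw1 (h.map y hy)]
  constructor
  · intro H c hc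
    rw [← h.dist y c hy hc.1]
    exact H (f c) ((h.face_iff hu1 hu hw hc.1).mpr hc)
  · intro H c hc
    have h1 : f (g c) = c := h.right c hc.1
    have h2 : g c ∈ face (J u) := by
      rw [← h.face_iff hu1 hu hw (h.imap c hc.1), h1]; exact hc
    have h3 := H (g c) h2
    rw [← h.dist y (g c) hy h2.1, h1] at h3
    exact h3

/-- a sphere isometry of `X` onto itself preserving a set preserves distances to this set -/
theorem SI.infDist_eq {f g : X → X} (h : SI f g) {C : Set X} (hC : ∀ c ∈ C, ‖c‖ = 1)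
    (hfC : ∀ y, ‖y‖ = 1 → (f y ∈ C ↔ y ∈ C)) {x : X} (hx : ‖x‖ = 1) :
    infDist (f x) C = infDist x C := by
  have key : ∀ {f g : X → X}, SI f g → (∀ y, ‖y‖ = 1 → (f y ∈ C ↔ y ∈ C)) → ∀ x, ‖x‖ = 1 →
      infDist (f x) C ≤ infDist x C := by
    intro f g h hfC x hx
    rcases C.eq_empty_or_nonempty with hE | hne
    · rw [hE, infDist_empty, infDist_empty]
    · apply le_of_forall_pos_le_add
      intro ε hε
      obtain ⟨c, hc, hcd⟩ := (infDist_lt_iff hne (x := x) (r := infDist x C + ε)).mp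
        (by linarith)
      have h1 : infDist (f x) C ≤ Dist.dist (f x) (f c) :=
        infDist_le_dist_of_mem ((hfC c (hC c hc)).mpr hc)
      rw [dist_eq_norm, h.dist x c hx (hC c hc), ← dist_eq_norm] at h1
      linarith
  apply le_antisymm (key h hfC x hx)
  have h2 := key h.symm (fun y hy => by
    rw [← hfC (g y) (h.imap y hy), h.right y hy]) (f x) (h.map x hx)
  rw [h.left x hx] at h2
  exact h2

/-- ODDNESS of sphere isometries between separable Banach spaces. -/
theorem SI.odd [TopologicalSpace.SeparableSpace X] [TopologicalSpace.SeparableSpace Y]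
    [CompleteSpace X] (h : SI f g) {x : X} (hx : ‖x‖ = 1) : f (-x) = -f x := by
  -- the auxiliary self-isometry `H x = g (-f (-x))`
  have hH : SI (fun x => g (-f (-x))) (fun y => -g (-f y)) := h.neg.comp h.symm
  set H : X → X := fun x => g (-f (-x)) with hHdef
  set G : X → X := fun y => -g (-f y) with hGdef
  have hnx : ‖-x‖ = 1 := by rw [norm_neg]; exact hx
  -- it suffices that H fixes -x
  suffices hfix : H (-x) = -x by
    have h1 : f (H (-x)) = f (-x) := by rw [hfix]
    have h2 : f (H (-x)) = -f (- -x) := by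
      apply h.right
      rw [norm_neg]; exact h.map _ (by rw [norm_neg]; exact hnx)
    rw [← h1, h2, neg_neg]
  by_contra hne
  set a : X := -x with ha
  have ha1 : ‖a‖ = 1 := hnx
  set b : X := H a with hb
  have hb1 : ‖b‖ = 1 := hH.map a ha1
  have hab : a ≠ b := fun h => hne h.symm
  set s : ℝ := ‖a - b‖ with hs
  have hs0 : 0 < s := norm_pos_iff.mpr (sub_ne_zero.mpr hab)
  have hs2 : s ≤ 2 := by
    rw [hs]; refine (norm_sub_le _ _).trans ?_
    rw [ha1, hb1]; norm_num
  set v : X := s⁻¹ • (a - b) with hv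
  have hv1 : ‖v‖ = 1 := by
    rw [hv, norm_smul, norm_inv, Real.norm_of_nonneg hs0.le, ← hs, inv_mul_cancel₀ hs0.ne']
  have hxy : a - b = s • v := by
    rw [hv, smul_smul, mul_inv_cancel₀ hs0.ne', one_smul]
  obtain ⟨u, hu1, hu2, hu3, hu4⟩ := h.neg.exists_joint hv1 (show (0 : ℝ) < s / 12 by positivity)
  have hfaceH : ∀ y, ‖y‖ = 1 → (H y ∈ face (J u) ↔ y ∈ face (J u)) := by
    intro y hy
    have h1 : f (H y) = -f (-y) := by
      apply h.right
      rw [norm_neg]; exact h.map _ (by rw [norm_neg]; exact hy)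
    rw [← h.face_iff hu1 hu3 hu4 (hH.map y hy), h1,
      h.neg_face_iff hu1 hu3 hu4 (by rw [norm_neg]; exact hy), neg_neg]
  have hfaceH' : ∀ y, ‖y‖ = 1 → (-H y ∈ face (J u) ↔ -y ∈ face (J u)) := by
    intro y hy
    have h1 : f (H y) = -f (-y) := by
      apply h.right
      rw [norm_neg]; exact h.map _ (by rw [norm_neg]; exact hy)
    rw [← h.neg_face_iff hu1 hu3 hu4 (hH.map y hy), h1, neg_neg,
      h.face_iff hu1 hu3 hu4 (by rw [norm_neg]; exact hy)]
  have hd1 : infDist b (face (J u)) = infDist a (face (J u)) :=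
    hH.infDist_eq (fun c hc => hc.1) hfaceH ha1
  -- the distance to the negative face
  have hd2 : infDist (-b) (face (J u)) = infDist (-a) (face (J u)) := by
    have hneg : ∀ z : X, infDist (-z) (face (J u)) = infDist z (-face (J u)) := by
      intro z
      have himg : -face (J u) = (fun c : X => -c) '' face (J u) := by
        ext c
        simp only [Set.mem_neg, mem_image]
        constructor
        · intro hc; exact ⟨-c, hc, neg_neg c⟩
        · rintro ⟨c', hc', rfl⟩; rwa [neg_neg]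
      have hiso : Isometry (fun c : X => -c) := isometry_iff_dist_eq.mpr (fun a b => dist_neg_neg a b)
      rw [himg]
      have := infDist_image hiso (t := face (J u)) (x := -z)
      simp only [neg_neg] at this
      exact this.symm
    rw [hneg, hneg]
    refine hH.infDist_eq (fun c hc => ?_) (fun y hy => ?_) ha1
    · rw [Set.mem_neg] at hc
      rw [← norm_neg]; exact hc.1
    · rw [Set.mem_neg, Set.mem_neg]
      exact hfaceH' y hy
  have hfin := sep (J_norm_le u) (Smooth.self_mem_face hu1) hs0 hv1 hxy hu2.le ha1.le hb1.le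
    hd1.symm hd2.symm
  nlinarith

end Odd

end Crest.Agent.R074
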