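import Crest.Agent.R074.Centre
import Crest.Agent.R074.Odd

/-!
Row 74 (S0099): the canonical functional (module F1).
The first order behaviour `phi` of `p ∘ g` along standard rays at a smooth point `y = f x`,
and the canonical norming functional of all `p`-chords through `x`.
The linearity of the blow-up (module M2) enters through the predicate `MidAt`.
-/

set_option autoImplicit false

namespace Crest.Agent.R074

open Metric Set Filter Topology

section Nu

variable {X : Type*} [NormedAddCommGroup X] [NormedSpace ℝ X]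

/-- radial projection onto the unit sphere -/
noncomputable def nu (z : X) : X := ‖z‖⁻¹ • z

theorem norm_nu {z : X} (hz : z ≠ 0) : ‖nu z‖ = 1 := by
  rw [nu, norm_smul, norm_inv, norm_norm, inv_mul_cancel₀ (norm_ne_zero_iff.mpr hz)]

theorem nu_of_norm_one {z : X} (hz : ‖z‖ = 1) : nu z = z := by
  rw [nu, hz, inv_one, one_smul]

theorem nu_neg (z : X) : nu (-z) = -nu z := by
  rw [nu, nu, norm_neg, smul_neg]

theorem norm_nu_sub_self {z : X} (hz : z ≠ 0) : ‖nu z - z‖ = |1 - ‖z‖| := by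
  have h1 : nu z - z = (‖z‖⁻¹ - 1) • z := by rw [nu, sub_smul, one_smul]
  have h0 : 0 < ‖z‖ := norm_pos_iff.mpr hz
  have h2 : |‖z‖⁻¹ - 1| * ‖z‖ = |(‖z‖⁻¹ - 1) * ‖z‖| := by
    rw [abs_mul, abs_of_pos h0]
  rw [h1, norm_smul, Real.norm_eq_abs, h2, sub_mul, inv_mul_cancel₀ h0.ne', one_mul]

theorem norm_nu_sub_le {z x : X} (hz : z ≠ 0) (hx : ‖x‖ = 1) : ‖nu z - x‖ ≤ 2 * ‖z - x‖ := by
  have h1 : ‖nu z - x‖ ≤ ‖nu z - z‖ + ‖z - x‖ := by
    have : nu z - x = (nu z - z) + (z - x) := by abel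
    rw [this]; exact norm_add_le _ _
  have h2 : |1 - ‖z‖| ≤ ‖z - x‖ := by
    rw [← hx, norm_sub_rev z x]
    exact abs_norm_sub_norm_le x z
  rw [norm_nu_sub_self hz] at h1
  linarith

/-- at a smooth unit vector, `nu (x + r v) = x + r v + o(r)` for tangent `v`. -/
theorem Smooth.nu_approx {x v : X} (hx : ‖x‖ = 1) (hs : Smooth x) (hv : J x v = 0) {ε : ℝ}
    (hε : 0 < ε) : ∃ δ > 0, ∀ r : ℝ, 0 < r → r < δ →
      x + r • v ≠ 0 ∧ ‖nu (x + r • v) - (x + r • v)‖ ≤ ε * r := by
  obtain ⟨δ, hδ, h⟩ := hs.deriv v hε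
  refine ⟨δ, hδ, fun r hr hrδ => ?_⟩
  have h1 := h r (by rw [abs_of_pos hr]; exact hrδ.le)
  have h2 := norm_add_smul_ge x v r
  rw [hv, mul_zero, add_zero, abs_of_pos hr, hx] at h1
  rw [hv, mul_zero, add_zero, hx] at h2
  have hne : x + r • v ≠ 0 := by
    intro h0
    rw [h0, norm_zero] at h2
    linarith
  refine ⟨hne, ?_⟩
  rw [norm_nu_sub_self hne, _root_.abs_le]
  constructor <;> linarith

end Nu

section Seq

/-- the fixed scale sequence -/
noncomputable def rr (n : ℕ) : ℝ := 1 / ((n : ℝ) + 1)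

theorem rr_pos (n : ℕ) : 0 < rr n := by unfold rr; positivity

theorem rr_tendsto : Tendsto rr atTop (𝓝 0) := tendsto_one_div_add_atTop_nhds_zero_nat

/-- the fixed ultrafilter -/
noncomputable def UU : Ultrafilter ℕ := hyperfilter ℕ

theorem UU_le : (UU : Filter ℕ) ≤ atTop := by
  rw [UU, ← Nat.cofinite_eq_atTop]; exact hyperfilter_le_cofinite

theorem rr_tendstoU : Tendsto rr UU (𝓝 0) := rr_tendsto.mono_left UU_le

/-- an eventual statement for small positive `r` holds along the scale sequence -/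
theorem eventually_rr {P : ℝ → Prop} {δ : ℝ} (hδ : 0 < δ) (h : ∀ r, 0 < r → r < δ → P r) :
    ∀ᶠ n in (UU : Filter ℕ), P (rr n) := by
  have h1 : ∀ᶠ n in (UU : Filter ℕ), rr n < δ := by
    have := rr_tendstoU.eventually (gt_mem_nhds hδ)
    exact this
  filter_upwards [h1] with n hn
  exact h _ (rr_pos n) hn

end Seq

section Phi

variable {X Y : Type*} [NormedAddCommGroup X] [NormedSpace ℝ X] [NormedAddCommGroup Y]
  [NormedSpace ℝ Y] {f : X → Y} {g : Y → X}

/-- The blow-up of `f` at `x` is midpoint-affine along the standard rays (module M2). -/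
def MidAt (f : X → Y) (x : X) : Prop :=
  ∀ v w : X, J x v = 0 → J x w = 0 → ∀ ε : ℝ, 0 < ε → ∃ δ > 0, ∀ r : ℝ, 0 < r → r < δ →
    ‖f (nu (x + r • ((1 / 2 : ℝ) • (v + w))))
      - (1 / 2 : ℝ) • (f (nu (x + r • v)) + f (nu (x + r • w)))‖ ≤ ε * r

/-- difference quotient of `p ∘ g` at `y` in direction `al` -/
noncomputable def dq (g : Y → X) (p : X →L[ℝ] ℝ) (y al : Y) (r : ℝ) : ℝ :=
  (p (g (nu (y + r • al))) - p (g y)) / r

/-- `Φ` is the derivative (along the fixed ultrafilter) of `p ∘ g` at the unit vector `y` in all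
tangent directions, extended by `Φ y = 0`. -/
structure IsPhi (g : Y → X) (p : X →L[ℝ] ℝ) (y : Y) (Φ : Y →L[ℝ] ℝ) : Prop where
  self : Φ y = 0
  lim : ∀ al, J y al = 0 → Tendsto (fun n => dq g p y al (rr n)) UU (𝓝 (Φ al))

theorem apply_le_of_norm_le_one {p : X →L[ℝ] ℝ} (hp : ‖p‖ ≤ 1) (x : X) : p x ≤ ‖x‖ := by
  have h1 : p x ≤ ‖p x‖ := Real.le_norm_self _
  have h2 : ‖p x‖ ≤ ‖p‖ * ‖x‖ := p.le_opNorm x
  have h3 : ‖p‖ * ‖x‖ ≤ 1 * ‖x‖ := mul_le_mul_of_nonneg_right hp (norm_nonneg _)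
  linarith

theorem abs_apply_le_of_norm_le_one {p : X →L[ℝ] ℝ} (hp : ‖p‖ ≤ 1) (x : X) : |p x| ≤ ‖x‖ := by
  rw [_root_.abs_le]
  constructor
  · have := apply_le_of_norm_le_one hp (-x)
    rw [map_neg, norm_neg] at this
    linarith
  · exact apply_le_of_norm_le_one hp x

/-- bound of the difference quotient -/
theorem SI.abs_dq_le (h : SI f g) {p : X →L[ℝ] ℝ} (hp : ‖p‖ ≤ 1) {y : Y} (hy : ‖y‖ = 1)
    {al : Y} {r : ℝ} (hr : 0 < r) (hne : y + r • al ≠ 0) : |dq g p y al r| ≤ 2 * ‖al‖ := by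
  unfold dq
  rw [abs_div, abs_of_pos hr, div_le_iff₀ hr, ← map_sub]
  refine (abs_apply_le_of_norm_le_one hp _).trans ?_
  rw [h.symm.dist _ _ (norm_nu hne) hy]
  refine (norm_nu_sub_le hne hy).trans ?_
  rw [add_sub_cancel_left, norm_smul, Real.norm_of_nonneg hr.le]
  apply le_of_eq; ring

/-- existence of the derivative functional -/
theorem SI.exists_isPhi (h : SI f g) {p : X →L[ℝ] ℝ} (hp : ‖p‖ ≤ 1) {y : Y} (hy : ‖y‖ = 1)
    (hs : Smooth y) (hmid : MidAt g y) : ∃ Φ : Y →L[ℝ] ℝ, IsPhi g p y Φ := by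
  -- limits exist
  have hlim : ∀ al : Y, J y al = 0 → ∃ a : ℝ, |a| ≤ 2 * ‖al‖ ∧
      Tendsto (fun n => dq g p y al (rr n)) UU (𝓝 a) := by
    intro al hal
    obtain ⟨δ, hδ, hd⟩ := hs.nu_approx hy hal (ε := 1) one_pos
    have hev : ∀ᶠ n in (UU : Filter ℕ), dq g p y al (rr n) ∈ Icc (-(2 * ‖al‖)) (2 * ‖al‖) := by
      refine (eventually_rr hδ (P := fun r => dq g p y al r ∈ Icc (-(2 * ‖al‖)) (2 * ‖al‖)) ?_)
      intro r hr hrδ
      exact _root_.abs_le.mp (h.abs_dq_le hp hy hr (hd r hr hrδ).1)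
    have hc : IsCompact (Icc (-(2 * ‖al‖)) (2 * ‖al‖)) := isCompact_Icc
    have hmem : (UU.map (fun n => dq g p y al (rr n)) : Filter ℝ)
        ≤ 𝓟 (Icc (-(2 * ‖al‖)) (2 * ‖al‖)) := by
      rw [le_principal_iff, Ultrafilter.coe_map, mem_map]
      exact hev
    obtain ⟨a, ha, hle⟩ := hc.ultrafilter_le_nhds _ hmem
    exact ⟨a, _root_.abs_le.mpr ha, hle⟩
  -- the projection onto the tangent space
  set P : Y → Y := fun al => al - (J y al) • y with hP
  have hPJ : ∀ al, J y (P al) = 0 := by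
    intro al
    rw [hP]; simp only [map_sub, map_smul, J_self, hy, smul_eq_mul, mul_one, sub_self]
  have hPadd : ∀ a b, P (a + b) = P a + P b := by
    intro a b
    simp only [hP, map_add, add_smul]; abel
  have hPid : ∀ al, J y al = 0 → P al = al := by
    intro al hal
    simp only [hP, hal, zero_smul, sub_zero]
  choose φ hφ1 hφ2 using fun al : Y => hlim (P al) (hPJ al)
  -- characterisation: any limit along tangent vector is φ
  have huniq : ∀ al (b : ℝ), J y al = 0 → Tendsto (fun n => dq g p y al (rr n)) UU (𝓝 b) →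
      b = φ al := by
    intro al b hal hb
    refine tendsto_nhds_unique hb ?_
    have := hφ2 al
    rwa [hPid al hal] at this
  -- midpoint identity
  have hmidφ : ∀ a b, J y a = 0 → J y b = 0 →
      φ ((1 / 2 : ℝ) • (a + b)) = (1 / 2) * (φ a + φ b) := by
    intro a b ha hb
    symm
    have hab : J y ((1 / 2 : ℝ) • (a + b)) = 0 := by rw [map_smul, map_add, ha, hb]; simp
    have ha2 := hφ2 a
    have hb2 := hφ2 b
    have hab2 := hφ2 ((1 / 2 : ℝ) • (a + b))
    rw [hPid a ha] at ha2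
    rw [hPid b hb] at hb2
    rw [hPid _ hab] at hab2
    have h1 : Tendsto (fun n => dq g p y ((1 / 2 : ℝ) • (a + b)) (rr n)
        - (1 / 2) * (dq g p y a (rr n) + dq g p y b (rr n))) UU
        (𝓝 (φ ((1 / 2 : ℝ) • (a + b)) - (1 / 2) * (φ a + φ b))) :=
      hab2.sub ((ha2.add hb2).const_mul _)
    have h2 : Tendsto (fun n => dq g p y ((1 / 2 : ℝ) • (a + b)) (rr n)
        - (1 / 2) * (dq g p y a (rr n) + dq g p y b (rr n))) UU (𝓝 0) := by
      rw [Metric.tendsto_nhds]
      intro ε hε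
      obtain ⟨δ, hδ, hd⟩ := hmid a b ha hb (ε / 2) (by positivity)
      refine eventually_rr hδ (P := fun r => Dist.dist (dq g p y ((1 / 2 : ℝ) • (a + b)) r
        - (1 / 2) * (dq g p y a r + dq g p y b r)) 0 < ε) ?_
      intro r hr hrδ
      have h3 := hd r hr hrδ
      rw [Real.dist_eq, sub_zero]
      have h4 : dq g p y ((1 / 2 : ℝ) • (a + b)) r - (1 / 2) * (dq g p y a r + dq g p y b r)
          = p (g (nu (y + r • ((1 / 2 : ℝ) • (a + b))))
              - (1 / 2 : ℝ) • (g (nu (y + r • a)) + g (nu (y + r • b)))) / r := by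
        unfold dq
        rw [map_sub, map_smul, map_add, smul_eq_mul]
        field_simp
        ring
      rw [h4, abs_div, abs_of_pos hr, div_lt_iff₀ hr]
      refine (abs_apply_le_of_norm_le_one hp _).trans_lt ?_
      refine h3.trans_lt ?_
      nlinarith
    have h3 := tendsto_nhds_unique h1 h2
    linarith
  have hφ0 : φ 0 = 0 := by
    symm
    apply huniq 0 0 (map_zero _)
    have : (fun n => dq g p y 0 (rr n)) = fun _ => (0 : ℝ) := by
      ext n
      unfold dq
      rw [smul_zero, add_zero, nu_of_norm_one hy, sub_self, zero_div]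
    rw [this]; exact tendsto_const_nhds
  have hdouble : ∀ a, J y a = 0 → φ ((2 : ℝ) • a) = 2 * φ a := by
    intro a ha
    have h2a : J y ((2 : ℝ) • a) = 0 := by rw [map_smul, ha, smul_zero]
    have h1 := hmidφ ((2 : ℝ) • a) 0 h2a (map_zero _)
    rw [add_zero, hφ0, add_zero, smul_smul] at h1
    norm_num at h1
    linarith
  have hadd : ∀ a b, J y a = 0 → J y b = 0 → φ (a + b) = φ a + φ b := by
    intro a b ha hb
    have h1 := hmidφ ((2 : ℝ) • a) ((2 : ℝ) • b) (by rw [map_smul, ha, smul_zero])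
      (by rw [map_smul, hb, smul_zero])
    rw [hdouble a ha, hdouble b hb, ← smul_add, smul_smul] at h1
    norm_num at h1
    linarith
  -- φ ∘ P
  have hφP : ∀ a, φ (P a) = φ a := by
    intro a
    exact (huniq (P a) (φ a) (hPJ a) (hφ2 a)).symm
  have hadd' : ∀ a b, φ (a + b) = φ a + φ b := by
    intro a b
    rw [← hφP (a + b), hPadd, hadd _ _ (hPJ a) (hPJ b), hφP, hφP]
  have hbd : ∀ a, |φ a| ≤ 4 * ‖a‖ := by
    intro a
    refine (hφ1 a).trans ?_
    have h1 : ‖P a‖ ≤ 2 * ‖a‖ := by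
      simp only [hP]
      refine (norm_sub_le _ _).trans ?_
      rw [norm_smul, hy, mul_one, Real.norm_eq_abs]
      have := J_abs_le y a
      linarith
    linarith
  let F : Y →+ ℝ :=
    { toFun := φ
      map_zero' := hφ0
      map_add' := hadd' }
  have hcont : Continuous F := by
    apply AddMonoidHomClass.continuous_of_bound F 4
    intro x
    rw [Real.norm_eq_abs]
    exact hbd x
  refine ⟨F.toRealLinearMap hcont, ?_, ?_⟩
  · show φ y = 0
    rw [← hφP y]
    have : P y = 0 := by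
      simp only [hP, J_self, hy, one_smul, sub_self]
    rw [this, hφ0]
  · intro al hal
    show Tendsto _ _ (𝓝 (φ al))
    have := hφ2 al
    rwa [hPid al hal] at this

theorem IsPhi.unique {p : X →L[ℝ] ℝ} {y : Y} (hy : ‖y‖ = 1) {Φ Ψ : Y →L[ℝ] ℝ}
    (hΦ : IsPhi g p y Φ) (hΨ : IsPhi g p y Ψ) : Φ = Ψ := by
  have key : ∀ al, J y al = 0 → Φ al = Ψ al := fun al hal =>
    tendsto_nhds_unique (hΦ.lim al hal) (hΨ.lim al hal)
  ext z
  have hz : J y (z - (J y z) • y) = 0 := by
    rw [map_sub, map_smul, J_self, hy, smul_eq_mul, mul_one, sub_self]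
  have h1 := key _ hz
  rw [map_sub, map_sub, map_smul, map_smul, hΦ.self, hΨ.self, smul_zero, sub_zero, sub_zero] at h1
  exact h1

end Phi

section Canonical

variable {X Y : Type*} [NormedAddCommGroup X] [NormedSpace ℝ X] [NormedAddCommGroup Y]
  [NormedSpace ℝ Y] {f : X → Y} {g : Y → X}

/-- a nondegenerate `p`-chord: `x` is the top, `w` the bottom -/
structure Chord (p : X →L[ℝ] ℝ) (x w : X) : Prop where
  top : ‖x‖ = 1
  bot : ‖w‖ = 1
  eq : p (x - w) = ‖x - w‖
  lt : ‖x + w‖ < 2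

theorem Chord.neg {p : X →L[ℝ] ℝ} {x w : X} (hc : Chord p x w) : Chord p (-w) (-x) where
  top := by rw [norm_neg]; exact hc.bot
  bot := by rw [norm_neg]; exact hc.top
  eq := by
    have e : -w - -x = x - w := by abel
    rw [e]; exact hc.eq
  lt := by
    have e : -w + -x = -(x + w) := by abel
    rw [e, norm_neg]; exact hc.lt

/-- `J (f x) (f x - f w) > 0` for a nondegenerate chord. -/
theorem SI.J_chord_pos (h : SI f g) (ho : ∀ x, ‖x‖ = 1 → f (-x) = -f x) {x w : X}
    (hx : ‖x‖ = 1) (hw : ‖w‖ = 1) (hlt : ‖x + w‖ < 2) : 0 < J (f x) (f x - f w) := by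
  have h1 := J_le (f x) (f x + f w)
  rw [h.norm_add ho hx hw, map_add, J_self, h.map x hx] at h1
  rw [map_sub, J_self, h.map x hx]
  linarith

/-- general first order inequality at both ends of a chord (module F1, key inequality):
`‖D‖ + Φx al - Φw be ≤ ‖D + (al - be)‖`. -/
theorem SI.key_ineq (h : SI f g) {p : X →L[ℝ] ℝ} (hp : ‖p‖ ≤ 1) {x w : X}
    (hx : ‖x‖ = 1) (hw : ‖w‖ = 1) (heq : p (x - w) = ‖x - w‖)
    (hsx : Smooth (f x)) (hsw : Smooth (f w)) {Φx Φw : Y →L[ℝ] ℝ} (hΦx : IsPhi g p (f x) Φx)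
    (hΦw : IsPhi g p (f w) Φw) {al be : Y} (hal : J (f x) al = 0) (hbe : J (f w) be = 0) :
    ‖f x - f w‖ + (Φx al - Φw be) ≤ ‖f x - f w + (al - be)‖ := by
  set D := f x - f w with hD
  have hfx := h.map x hx
  have hfw := h.map w hw
  have hDn : ‖D‖ = ‖x - w‖ := h.dist x w hx hw
  have hlim : Tendsto (fun n => dq g p (f x) al (rr n) - dq g p (f w) be (rr n)) UU
      (𝓝 (Φx al - Φw be)) := (hΦx.lim al hal).sub (hΦw.lim be hbe)
  have hle : ∀ ε : ℝ, 0 < ε → Φx al - Φw be ≤ ‖D + (al - be)‖ - ‖D‖ + 2 * ε := by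
    intro ε hε
    obtain ⟨δ1, hδ1, h1⟩ := hsx.nu_approx hfx hal hε
    obtain ⟨δ2, hδ2, h2⟩ := hsw.nu_approx hfw hbe hε
    refine le_of_tendsto hlim (eventually_rr (δ := min (min δ1 δ2) 1)
      (P := fun r => dq g p (f x) al r - dq g p (f w) be r ≤ ‖D + (al - be)‖ - ‖D‖ + 2 * ε)
      (lt_min (lt_min hδ1 hδ2) one_pos) ?_)
    intro r hr hrδ
    have hr1 : r < δ1 := hrδ.trans_le ((min_le_left _ _).trans (min_le_left _ _))
    have hr2 : r < δ2 := hrδ.trans_le ((min_le_left _ _).trans (min_le_right _ _))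
    have hr3 : r < 1 := hrδ.trans_le (min_le_right _ _)
    obtain ⟨hne1, ha1⟩ := h1 r hr hr1
    obtain ⟨hne2, ha2⟩ := h2 r hr hr2
    set y1 := nu (f x + r • al) with hy1
    set y2 := nu (f w + r • be) with hy2
    have hn1 : ‖y1‖ = 1 := norm_nu hne1
    have hn2 : ‖y2‖ = 1 := norm_nu hne2
    -- lower bound by p
    have h3 : p (g y1 - g y2) ≤ ‖y1 - y2‖ := by
      rw [← h.symm.dist y1 y2 hn1 hn2]; exact apply_le_of_norm_le_one hp _
    have h4 : ‖y1 - y2‖ ≤ ‖D + r • (al - be)‖ + 2 * ε * r := by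
      have e : y1 - y2 = (D + r • (al - be)) + ((y1 - (f x + r • al)) - (y2 - (f w + r • be))) := by
        rw [hD, smul_sub]; abel
      rw [e]
      refine (norm_add_le _ _).trans ?_
      have := norm_sub_le (y1 - (f x + r • al)) (y2 - (f w + r • be))
      linarith
    have h5 : ‖D + r • (al - be)‖ ≤ (1 - r) * ‖D‖ + r * ‖D + (al - be)‖ := by
      have e : D + r • (al - be) = (1 - r) • D + r • (D + (al - be)) := by
        rw [sub_smul, one_smul, smul_add]; abel
      conv_lhs => rw [e]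
      refine (norm_add_le _ _).trans ?_
      rw [norm_smul, norm_smul, Real.norm_of_nonneg (by linarith), Real.norm_of_nonneg hr.le]
    have h6 : dq g p (f x) al r - dq g p (f w) be r
        = (p (g y1 - g y2) - p (x - w)) / r := by
      unfold dq
      rw [h.left x hx, h.left w hw, ← sub_div]
      congr 1
      simp only [map_sub, hy1, hy2]; ring
    rw [h6, div_le_iff₀ hr, heq, ← hDn]
    nlinarith
  apply le_of_forall_pos_le_add
  intro ε hε
  have := hle (ε / 2) (by positivity)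
  linarith

/-- one-ended version of the key inequality: only `f x` smooth. -/
theorem SI.key_ineq_one (h : SI f g) {p : X →L[ℝ] ℝ} (hp : ‖p‖ ≤ 1) {x w : X}
    (hx : ‖x‖ = 1) (hw : ‖w‖ = 1) (heq : p (x - w) = ‖x - w‖)
    (hsx : Smooth (f x)) {Φx : Y →L[ℝ] ℝ} (hΦx : IsPhi g p (f x) Φx)
    {al : Y} (hal : J (f x) al = 0) :
    ‖f x - f w‖ + Φx al ≤ ‖f x - f w + al‖ := by
  set D := f x - f w with hD
  have hfx := h.map x hx
  have hfw := h.map w hw
  have hDn : ‖D‖ = ‖x - w‖ := h.dist x w hx hw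
  have hlim : Tendsto (fun n => dq g p (f x) al (rr n)) UU (𝓝 (Φx al)) := hΦx.lim al hal
  have hle : ∀ ε : ℝ, 0 < ε → Φx al ≤ ‖D + al‖ - ‖D‖ + ε := by
    intro ε hε
    obtain ⟨δ1, hδ1, h1⟩ := hsx.nu_approx hfx hal hε
    refine le_of_tendsto hlim (eventually_rr (δ := min δ1 1)
      (P := fun r => dq g p (f x) al r ≤ ‖D + al‖ - ‖D‖ + ε) (lt_min hδ1 one_pos) ?_)
    intro r hr hrδ
    have hr1 : r < δ1 := hrδ.trans_le (min_le_left _ _)
    have hr3 : r < 1 := hrδ.trans_le (min_le_right _ _)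
    obtain ⟨hne1, ha1⟩ := h1 r hr hr1
    set y1 := nu (f x + r • al) with hy1
    have hn1 : ‖y1‖ = 1 := norm_nu hne1
    have h3 : p (g y1 - w) ≤ ‖y1 - f w‖ := by
      have := h.symm.dist y1 (f w) hn1 hfw
      rw [h.left w hw] at this
      rw [← this]; exact apply_le_of_norm_le_one hp _
    have h4 : ‖y1 - f w‖ ≤ ‖D + r • al‖ + ε * r := by
      have e : y1 - f w = (D + r • al) + (y1 - (f x + r • al)) := by
        rw [hD]; abel
      rw [e]
      exact (norm_add_le _ _).trans (by linarith)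
    have h5 : ‖D + r • al‖ ≤ (1 - r) * ‖D‖ + r * ‖D + al‖ := by
      have e : D + r • al = (1 - r) • D + r • (D + al) := by
        rw [sub_smul, one_smul, smul_add]; abel
      conv_lhs => rw [e]
      refine (norm_add_le _ _).trans ?_
      rw [norm_smul, norm_smul, Real.norm_of_nonneg (by linarith), Real.norm_of_nonneg hr.le]
    have h6 : dq g p (f x) al r = (p (g y1 - w) - p (x - w)) / r := by
      unfold dq
      rw [h.left x hx]
      congr 1
      simp only [map_sub, hy1]; ring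
    rw [h6, div_le_iff₀ hr, heq, ← hDn]
    nlinarith
  apply le_of_forall_pos_le_add
  intro ε hε
  have := hle ε hε
  linarith

/-- `q` is a canonical functional at `x` (for the derivative functional `Φ`). -/
structure Canon (y : Y) (Φ q : Y →L[ℝ] ℝ) : Prop where
  norm_le : ‖q‖ ≤ 1
  eq : ∀ al, J y al = 0 → q al = Φ al

/-- F1, existence: the functional extending `Φx` and norming `f x - f w`. -/
theorem SI.exists_canon (h : SI f g) (ho : ∀ x, ‖x‖ = 1 → f (-x) = -f x) {p : X →L[ℝ] ℝ}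
    (hp : ‖p‖ ≤ 1) {x w : X} (hc : Chord p x w) (hsx : Smooth (f x)) {Φ : Y →L[ℝ] ℝ}
    (hΦ : IsPhi g p (f x) Φ) :
    ∃ q : Y →L[ℝ] ℝ, Canon (f x) Φ q ∧ q (f x - f w) = ‖x - w‖ := by
  obtain ⟨hx, hw, heq, hlt⟩ := hc
  set D := f x - f w with hD
  have hDn : ‖D‖ = ‖x - w‖ := h.dist x w hx hw
  have hcpos : 0 < J (f x) D := h.J_chord_pos ho hx hw hlt
  set c := J (f x) D with hcdef
  set κ : ℝ := (‖D‖ - Φ D) / c with hκ
  set q : Y →L[ℝ] ℝ := Φ + κ • J (f x) with hq
  have hqD : q D = ‖D‖ := by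
    rw [hq]
    simp only [_root_.add_apply, _root_.smul_apply, smul_eq_mul]
    rw [← hcdef, hκ, div_mul_cancel₀ _ hcpos.ne']; ring
  have hqal : ∀ al, J (f x) al = 0 → q al = Φ al := by
    intro al hal
    rw [hq]
    simp only [_root_.add_apply, _root_.smul_apply, smul_eq_mul, hal, mul_zero, add_zero]
  have hkey : ∀ al, J (f x) al = 0 → ‖D‖ + Φ al ≤ ‖D + al‖ := fun al hal =>
    h.key_ineq_one hp hx hw heq hsx hΦ hal
  -- Φ al ≤ ‖al‖
  have hzero : ∀ al, J (f x) al = 0 → Φ al ≤ ‖al‖ := by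
    intro al hal
    have h1 : ∀ t : ℝ, 0 < t → t * (Φ al - ‖al‖) ≤ 0 := by
      intro t ht
      have h2 := hkey (t • al) (by rw [map_smul, hal, smul_zero])
      rw [map_smul, smul_eq_mul] at h2
      have h3 := norm_add_le D (t • al)
      rw [norm_smul, Real.norm_of_nonneg ht.le] at h3
      linarith
    have := h1 1 one_pos
    linarith
  have hle : ∀ z, q z ≤ ‖z‖ := by
    intro z
    set τ : ℝ := J (f x) z / c with hτ
    set al : Y := z - τ • D with hal'
    have hal : J (f x) al = 0 := by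
      rw [hal', map_sub, map_smul, smul_eq_mul, ← hcdef, hτ, div_mul_cancel₀ _ hcpos.ne', sub_self]
    have hz : z = τ • D + al := by rw [hal']; abel
    have hqz : q z = τ * ‖D‖ + Φ al := by
      rw [hz, map_add, map_smul, hqD, hqal al hal, smul_eq_mul]
    rw [hqz]
    rcases lt_trichotomy τ 0 with hneg | h0 | hpos
    · have h1 := hzero al hal
      have h2 : ‖al‖ ≤ ‖z‖ + ‖τ • D‖ := by
        have e : al = z - τ • D := hal'
        rw [e]; exact norm_sub_le _ _
      rw [norm_smul, Real.norm_eq_abs, abs_of_neg hneg] at h2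
      linarith
    · have h1 := hzero al hal
      have e : z = al := by rw [hz, h0, zero_smul, zero_add]
      rw [h0, zero_mul, zero_add, e]; exact h1
    · have h1 := hkey (τ⁻¹ • al) (by rw [map_smul, hal, smul_zero])
      have h2 : ‖z‖ = τ * ‖D + τ⁻¹ • al‖ := by
        have e : z = τ • (D + τ⁻¹ • al) := by
          rw [smul_add, smul_smul, mul_inv_cancel₀ hpos.ne', one_smul]; exact hz
        rw [e, norm_smul, Real.norm_of_nonneg hpos.le]
      rw [map_smul, smul_eq_mul] at h1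
      have h3 := mul_le_mul_of_nonneg_left h1 hpos.le
      have h4 : τ * (‖D‖ + τ⁻¹ * Φ al) = τ * ‖D‖ + Φ al := by
        rw [mul_add, ← mul_assoc, mul_inv_cancel₀ hpos.ne', one_mul]
      rw [h2]; linarith
  refine ⟨q, ⟨?_, hqal⟩, by rw [hqD, hDn]⟩
  apply ContinuousLinearMap.opNorm_le_bound _ zero_le_one
  intro z
  rw [one_mul, Real.norm_eq_abs, _root_.abs_le]
  constructor
  · have := hle (-z)
    rw [map_neg, norm_neg] at this
    linarith
  · exact hle z

/-- F1, uniqueness: canonical functionals norming chords from the same top agree. -/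
theorem SI.canon_unique (h : SI f g) (ho : ∀ x, ‖x‖ = 1 → f (-x) = -f x)
    {p : X →L[ℝ] ℝ} {x w w' : X} (hc : Chord p x w) (hc' : Chord p x w') {Φ q q' : Y →L[ℝ] ℝ}
    (hq : Canon (f x) Φ q) (hqw : q (f x - f w) = ‖x - w‖) (hq' : Canon (f x) Φ q')
    (hqw' : q' (f x - f w') = ‖x - w'‖) : q = q' := by
  have hx := hc.top
  have hfx := h.map x hx
  -- the difference is a multiple of J
  have hdiff : ∀ z, (q - q') z = (q (f x) - q' (f x)) * J (f x) z := by
    intro z
    have hz : J (f x) (z - (J (f x) z) • f x) = 0 := by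
      rw [map_sub, map_smul, J_self, hfx, smul_eq_mul, mul_one, sub_self]
    have h1 := hq.eq _ hz
    have h2 := hq'.eq _ hz
    have h3 : q (z - (J (f x) z) • f x) = q' (z - (J (f x) z) • f x) := by rw [h1, h2]
    simp only [map_sub, map_smul, smul_eq_mul] at h3
    rw [_root_.sub_apply]
    linarith
  have h1 : 0 ≤ (q (f x) - q' (f x)) * J (f x) (f x - f w) := by
    rw [← hdiff, _root_.sub_apply, hqw]
    have := apply_le_of_norm_le_one hq'.norm_le (f x - f w)
    rw [h.dist x w hx hc.bot] at this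
    linarith
  have h2 : (q (f x) - q' (f x)) * J (f x) (f x - f w') ≤ 0 := by
    rw [← hdiff, _root_.sub_apply, hqw']
    have := apply_le_of_norm_le_one hq.norm_le (f x - f w')
    rw [h.dist x w' hx hc'.bot] at this
    linarith
  have h3 := h.J_chord_pos ho hx hc.bot hc.lt
  have h4 := h.J_chord_pos ho hx hc'.bot hc'.lt
  have h5 : 0 ≤ q (f x) - q' (f x) := by
    by_contra hcon
    push Not at hcon
    have := mul_neg_of_neg_of_pos hcon h3
    linarith
  have h6 : q (f x) - q' (f x) ≤ 0 := by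
    by_contra hcon
    push Not at hcon
    have := mul_pos hcon h4
    linarith
  have h7 : q (f x) - q' (f x) = 0 := le_antisymm h6 h5
  ext z
  have := hdiff z
  rw [h7, zero_mul, _root_.sub_apply] at this
  linarith

/-- F1: if a canonical functional norms one chord from the top `x`, it norms all of them. -/
theorem SI.canon_all (h : SI f g) (ho : ∀ x, ‖x‖ = 1 → f (-x) = -f x) {p : X →L[ℝ] ℝ}
    (hp : ‖p‖ ≤ 1) {x w : X} (hc : Chord p x w) (hsx : Smooth (f x)) {Φ q : Y →L[ℝ] ℝ}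
    (hΦ : IsPhi g p (f x) Φ) (hq : Canon (f x) Φ q) (hqw : q (f x - f w) = ‖x - w‖)
    {w' : X} (hc' : Chord p x w') : q (f x - f w') = ‖x - w'‖ := by
  obtain ⟨q', hq', hqw'⟩ := h.exists_canon ho hp hc' hsx hΦ
  rw [h.canon_unique ho hc hc' hq hqw hq' hqw']
  exact hqw'

/-- F1, both ends smooth: the canonical functional of the chord restricts to `Φw` at the bottom. -/
theorem SI.canon_bot (h : SI f g) (ho : ∀ x, ‖x‖ = 1 → f (-x) = -f x) {p : X →L[ℝ] ℝ}
    (hp : ‖p‖ ≤ 1) {x w : X} (hc : Chord p x w) (hsx : Smooth (f x)) (hsw : Smooth (f w))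
    {Φx Φw q : Y →L[ℝ] ℝ} (hΦx : IsPhi g p (f x) Φx) (hΦw : IsPhi g p (f w) Φw)
    (hq : Canon (f x) Φx q) (hqw : q (f x - f w) = ‖x - w‖) : Canon (f w) Φw q := by
  refine ⟨hq.norm_le, ?_⟩
  obtain ⟨hx, hw, heq, hlt⟩ := hc
  set D := f x - f w with hD
  have hDn : ‖D‖ = ‖x - w‖ := h.dist x w hx hw
  have hcpos : 0 < J (f x) D := h.J_chord_pos ho hx hw hlt
  set c := J (f x) D with hcdef
  -- one inequality for all tangent vectors
  have key : ∀ be, J (f w) be = 0 → q be ≤ Φw be := by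
    intro be hbe
    set τ : ℝ := J (f x) be / c with hτ
    set al : Y := be - τ • D with hal'
    have hal : J (f x) al = 0 := by
      rw [hal', map_sub, map_smul, smul_eq_mul, ← hcdef, hτ, div_mul_cancel₀ _ hcpos.ne', sub_self]
    have hbe' : be = al + τ • D := by rw [hal']; abel
    have hqbe : q be = Φx al + τ * ‖D‖ := by
      rw [hbe', map_add, map_smul, hqw, hq.eq al hal, hDn, smul_eq_mul]
    -- small s
    set s : ℝ := 1 / (|τ| + 1) with hs
    have hτ1 : 0 < |τ| + 1 := by positivity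
    have hs0 : 0 < s := by rw [hs]; positivity
    have hsτ : s * τ ≤ 1 := by
      rw [hs, div_mul_eq_mul_div, one_mul, div_le_one hτ1]
      linarith [le_abs_self τ]
    have h1 := h.key_ineq hp hx hw heq hsx hsw hΦx hΦw (al := s • al) (be := s • be)
      (by rw [map_smul, hal, smul_zero]) (by rw [map_smul, hbe, smul_zero])
    have e : f x - f w + (s • al - s • be) = (1 - s * τ) • D := by
      rw [← hD, hbe', smul_add, smul_smul, sub_smul, one_smul]; abel
    rw [e, norm_smul, Real.norm_of_nonneg (by linarith), map_smul, map_smul, smul_eq_mul,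
      smul_eq_mul, ← hD] at h1
    have h2 : s * (Φx al + τ * ‖D‖ - Φw be) ≤ 0 := by linarith
    have h3 : Φx al + τ * ‖D‖ - Φw be ≤ 0 := by
      by_contra hcon
      push Not at hcon
      have := mul_pos hs0 hcon
      linarith
    rw [hqbe]; linarith
  intro be hbe
  apply le_antisymm (key be hbe)
  have := key (-be) (by rw [map_neg, hbe, neg_zero])
  rw [map_neg, map_neg] at this
  linarith

/-- the derivative functional at the antipode -/
theorem SI.isPhi_neg (h : SI f g) (ho : ∀ x, ‖x‖ = 1 → f (-x) = -f x) {p : X →L[ℝ] ℝ}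
    {y : Y} (hy : ‖y‖ = 1) (hs : Smooth y) {Φ : Y →L[ℝ] ℝ} (hΦ : IsPhi g p y Φ) :
    IsPhi g p (-y) Φ := by
  have hog := h.odd_symm ho
  refine ⟨by rw [map_neg, hΦ.self, neg_zero], ?_⟩
  intro al hal
  rw [hs.J_neg, _root_.neg_apply, neg_eq_zero] at hal
  have hal' : J y (-al) = 0 := by rw [map_neg, hal, neg_zero]
  have h1 := (hΦ.lim (-al) hal').neg
  rw [map_neg, neg_neg] at h1
  refine h1.congr' ?_
  obtain ⟨δ, hδ, hd⟩ := hs.nu_approx hy hal' (ε := 1) one_pos
  refine eventually_rr hδ (P := fun r => -dq g p y (-al) r = dq g p (-y) al r) ?_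
  intro r hr hrδ
  unfold dq
  have e : -y + r • al = -(y + r • (-al)) := by rw [smul_neg]; abel
  rw [e, nu_neg, hog _ (norm_nu (hd r hr hrδ).1), hog y hy, map_neg, map_neg, ← neg_div]
  congr 1; ring

end Canonical

end Crest.Agent.R074
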