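import Crest.Agent.R074.Base

/-!
Row 74 (S0099), base library, part 2: Mazur's theorem (generic Gateaux smoothness of the norm
of a separable Banach space), on the unit sphere, and jointly for a sphere isometry.
-/

set_option autoImplicit false

namespace Crest.Agent.R074

open Metric Set Filter Topology

section Mazur

variable {X : Type*} [NormedAddCommGroup X] [NormedSpace ℝ X]

/-- the open set of `ε`-smooth points in direction `v` -/
def OV (v : X) (ε : ℝ) : Set X :=
  {x | ∃ δ : ℝ, 0 < δ ∧ ‖x + δ • v‖ + ‖x - δ • v‖ - 2 * ‖x‖ < ε * δ}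

theorem isOpen_OV (v : X) (ε : ℝ) : IsOpen (OV v ε) := by
  have : OV v ε = ⋃ δ : {δ : ℝ // 0 < δ},
      {x : X | ‖x + (δ : ℝ) • v‖ + ‖x - (δ : ℝ) • v‖ - 2 * ‖x‖ < ε * (δ : ℝ)} := by
    ext x
    simp only [OV, mem_ofPred_eq, mem_iUnion, Subtype.exists, exists_prop]
  rw [this]
  refine isOpen_iUnion fun δ => ?_
  exact isOpen_lt (by fun_prop) continuous_const

theorem OV_smul {v : X} {ε : ℝ} {x : X} (hx : x ∈ OV v ε) {c : ℝ} (hc : 0 < c) :
    c • x ∈ OV v ε := by
  obtain ⟨δ, hδ, hlt⟩ := hx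
  refine ⟨c * δ, mul_pos hc hδ, ?_⟩
  have e1 : c • x + (c * δ) • v = c • (x + δ • v) := by rw [smul_add, smul_smul]
  have e2 : c • x - (c * δ) • v = c • (x - δ • v) := by rw [smul_sub, smul_smul]
  rw [e1, e2, norm_smul, norm_smul, norm_smul, Real.norm_of_nonneg hc.le]
  nlinarith

/-- along the line `x + t v` there are `ε`-smooth points with arbitrarily small `|t|` -/
theorem exists_OV_line (x v : X) {ε r : ℝ} (hε : 0 < ε) (hr : 0 < r) :
    ∃ t : ℝ, 0 < t ∧ t < r ∧ x + t • v ∈ OV v ε := by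
  obtain ⟨N, hN⟩ := exists_nat_gt (2 * ‖v‖ / ε)
  set δ : ℝ := r / (N + 2) with hδdef
  have hN0 : (0 : ℝ) ≤ N := Nat.cast_nonneg N
  have hδ : 0 < δ := by positivity
  by_contra hcon
  push Not at hcon
  -- slopes
  set φ : ℕ → ℝ := fun k => ‖x + ((k : ℝ) * δ) • v‖ with hφ
  have hstep : ∀ k : ℕ, k < N → φ (k + 1) - φ k + ε * δ ≤ φ (k + 2) - φ (k + 1) := by
    intro k hk
    have hk' : (k : ℝ) + 1 ≤ N := by exact_mod_cast hk
    have hlt : ((k : ℝ) + 1) * δ < r := by
      rw [hδdef, mul_div_assoc', div_lt_iff₀ (by positivity)]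
      nlinarith
    have h1 := hcon (((k : ℝ) + 1) * δ) (by positivity) hlt
    simp only [OV, mem_ofPred_eq, not_exists, not_and, not_lt] at h1
    have h2 := h1 δ hδ
    have e1 : x + (((k : ℝ) + 1) * δ) • v + δ • v = x + (((k + 2 : ℕ) : ℝ) * δ) • v := by
      push_cast
      rw [add_assoc, ← add_smul]; congr 2; ring
    have e2 : x + (((k : ℝ) + 1) * δ) • v - δ • v = x + ((k : ℝ) * δ) • v := by
      rw [add_sub_assoc, ← sub_smul]; congr 2; ring
    have e3 : x + (((k : ℝ) + 1) * δ) • v = x + (((k + 1 : ℕ) : ℝ) * δ) • v := by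
      push_cast; rfl
    rw [e1, e2, e3] at h2
    simp only [hφ]
    linarith
  have hind : ∀ k : ℕ, k ≤ N → φ 1 - φ 0 + k * (ε * δ) ≤ φ (k + 1) - φ k := by
    intro k
    induction k with
    | zero => intro _; simp
    | succ k ih =>
      intro hk
      have h1 := ih (by omega)
      have h2 := hstep k (by omega)
      push_cast
      linarith
  have hlip : ∀ k : ℕ, |φ (k + 1) - φ k| ≤ δ * ‖v‖ := by
    intro k
    simp only [hφ]
    refine (abs_norm_sub_norm_le _ _).trans ?_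
    have : x + (((k + 1 : ℕ) : ℝ) * δ) • v - (x + ((k : ℝ) * δ) • v) = δ • v := by
      push_cast
      rw [add_sub_add_left_eq_sub, ← sub_smul]; congr 1; ring
    rw [this, norm_smul, Real.norm_of_nonneg hδ.le]
  have h1 := hind N le_rfl
  have h2 := (_root_.abs_le.mp (hlip N)).2
  have h3 := (_root_.abs_le.mp (hlip 0)).1
  simp only [zero_add] at h3
  have h4 : (N : ℝ) * (ε * δ) ≤ 2 * (δ * ‖v‖) := by linarith
  have h5 : 2 * ‖v‖ < N * ε := by
    rwa [div_lt_iff₀ hε] at hN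
  nlinarith

theorem smooth_iff_forall {D : ℕ → X} (hD : DenseRange D) (x : X) :
    Smooth x ↔ ∀ n m : ℕ, x ∈ OV (D n) (1 / ((m : ℝ) + 1)) := by
  constructor
  · intro h n m
    exact h (D n) _ (by positivity)
  · intro h v ε hε
    obtain ⟨n, hn⟩ := hD.exists_dist_lt v (show (0 : ℝ) < ε / 4 by positivity)
    obtain ⟨m, hm⟩ := exists_nat_one_div_lt (show (0 : ℝ) < ε / 4 by positivity)
    obtain ⟨δ, hδ, hlt⟩ := h n m
    refine ⟨δ, hδ, ?_⟩
    rw [dist_eq_norm] at hn
    have h1 : ‖x + δ • v‖ ≤ ‖x + δ • D n‖ + δ * ‖v - D n‖ := by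
      have e : x + δ • v = (x + δ • D n) + δ • (v - D n) := by rw [smul_sub]; abel
      rw [e]
      refine (norm_add_le _ _).trans ?_
      rw [norm_smul, Real.norm_of_nonneg hδ.le]
    have h2 : ‖x - δ • v‖ ≤ ‖x - δ • D n‖ + δ * ‖v - D n‖ := by
      have e : x - δ • v = (x - δ • D n) - δ • (v - D n) := by rw [smul_sub]; abel
      rw [e]
      refine (norm_sub_le _ _).trans ?_
      rw [norm_smul, Real.norm_of_nonneg hδ.le]
    have h3 : δ * ‖v - D n‖ ≤ δ * (ε / 4) := mul_le_mul_of_nonneg_left hn.le hδ.le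
    have h4 : 1 / ((m : ℝ) + 1) * δ ≤ ε / 4 * δ := mul_le_mul_of_nonneg_right hm.le hδ.le
    nlinarith

/-- general genericity criterion: if all the open sets `{z | φ z ∈ OV v ε}` are dense, the set of
`z` with `φ z` smooth is residual. -/
theorem residual_smooth_of_dense [TopologicalSpace.SeparableSpace X] {Z : Type*}
    [TopologicalSpace Z] (φ : Z → X) (hφ : Continuous φ)
    (hd : ∀ (v : X) (ε : ℝ), 0 < ε → Dense {z | φ z ∈ OV v ε}) :
    {z | Smooth (φ z)} ∈ residual Z := by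
  have : Nonempty X := ⟨0⟩
  set D : ℕ → X := TopologicalSpace.denseSeq X with hDdef
  have hD : DenseRange D := TopologicalSpace.denseRange_denseSeq X
  have heq : {z | Smooth (φ z)} = ⋂ n : ℕ, ⋂ m : ℕ, {z | φ z ∈ OV (D n) (1 / ((m : ℝ) + 1))} := by
    ext z
    simp only [mem_ofPred_eq, mem_iInter]
    exact smooth_iff_forall hD (φ z)
  rw [heq]
  rw [countable_iInter_mem]
  intro n
  rw [countable_iInter_mem]
  intro m
  exact residual_of_dense_open ((isOpen_OV _ _).preimage hφ) (hd _ _ (by positivity))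

/-- `ε`-smooth points are dense in the unit sphere, metric form -/
theorem exists_OV_sphere {x : X} (hx : ‖x‖ = 1) (v : X) {ε r : ℝ} (hε : 0 < ε) (hr : 0 < r) :
    ∃ y : X, ‖y‖ = 1 ∧ ‖y - x‖ < r ∧ y ∈ OV v ε := by
  set ρ : ℝ := min (1 / 2) (r / 4) / (‖v‖ + 1) with hρ
  have hm : 0 < min (1 / 2) (r / 4) := lt_min (by norm_num) (by positivity)
  have hρ0 : 0 < ρ := by positivity
  obtain ⟨t, ht0, htr, hy⟩ := exists_OV_line x v hε hρ0
  have hv : ‖t • v‖ < min (1 / 2) (r / 4) := by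
    rw [norm_smul, Real.norm_of_nonneg ht0.le]
    have h1 : t * (‖v‖ + 1) < min (1 / 2) (r / 4) := by
      rwa [hρ, lt_div_iff₀ (by positivity)] at htr
    nlinarith [norm_nonneg v]
  set y := x + t • v with hydef
  have hy1 : |‖y‖ - 1| ≤ ‖t • v‖ := by
    rw [← hx]
    have := abs_norm_sub_norm_le y x
    rwa [hydef, add_sub_cancel_left] at this
  have hv1 : ‖t • v‖ < 1 / 2 := hv.trans_le (min_le_left _ _)
  have hv2 : ‖t • v‖ < r / 4 := hv.trans_le (min_le_right _ _)
  have hy0 : 0 < ‖y‖ := by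
    have := (_root_.abs_le.mp hy1).1
    linarith
  refine ⟨‖y‖⁻¹ • y, ?_, ?_, OV_smul hy (inv_pos.mpr hy0)⟩
  · rw [norm_smul, norm_inv, norm_norm, inv_mul_cancel₀ hy0.ne']
  · have e : ‖y‖⁻¹ • y - x = (‖y‖⁻¹ - 1) • y + t • v := by
      rw [sub_smul, one_smul, hydef]; abel
    rw [e]
    refine (norm_add_le _ _).trans_lt ?_
    rw [norm_smul, Real.norm_eq_abs]
    have h1 : |‖y‖⁻¹ - 1| * ‖y‖ = |‖y‖ - 1| := by
      have h2 : |‖y‖⁻¹ - 1| * ‖y‖ = |(‖y‖⁻¹ - 1) * ‖y‖| := by
        rw [abs_mul, abs_of_pos hy0]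
      rw [h2, sub_mul, inv_mul_cancel₀ hy0.ne', one_mul, abs_sub_comm]
    rw [h1]
    linarith

theorem dense_OV_sphere (v : X) {ε : ℝ} (hε : 0 < ε) :
    Dense {u : sphere (0 : X) 1 | (u : X) ∈ OV v ε} := by
  rw [Metric.dense_iff]
  intro u r hr
  obtain ⟨y, hy1, hy2, hy3⟩ := exists_OV_sphere (x := (u : X)) (by simp) v hε hr
  refine ⟨⟨y, by simpa using hy1⟩, ?_, hy3⟩
  rw [Metric.mem_ball, Subtype.dist_eq, dist_eq_norm]
  exact hy2

/-- Mazur's theorem on the unit sphere -/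
theorem residual_smooth [TopologicalSpace.SeparableSpace X] :
    {u : sphere (0 : X) 1 | Smooth (u : X)} ∈ residual (sphere (0 : X) 1) :=
  residual_smooth_of_dense (fun u : sphere (0 : X) 1 => (u : X)) continuous_subtype_val
    (fun v _ε hε => dense_OV_sphere v hε)

end Mazur

section Joint

variable {X Y : Type*} [NormedAddCommGroup X] [NormedSpace ℝ X] [NormedAddCommGroup Y]
  [NormedSpace ℝ Y] {f : X → Y} {g : Y → X}

theorem SI.continuous (h : SI f g) : Continuous (fun u : sphere (0 : X) 1 => f u) := by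
  rw [Metric.continuous_iff]
  intro u ε hε
  refine ⟨ε, hε, fun v hv => ?_⟩
  rw [dist_eq_norm, h.dist _ _ (by simp) (by simp)]
  rwa [Subtype.dist_eq, dist_eq_norm] at hv

theorem SI.residual_smooth_comp [TopologicalSpace.SeparableSpace Y] (h : SI f g) :
    {u : sphere (0 : X) 1 | Smooth (f u)} ∈ residual (sphere (0 : X) 1) := by
  refine residual_smooth_of_dense (fun u : sphere (0 : X) 1 => f u) h.continuous ?_
  intro v ε hε
  rw [Metric.dense_iff]
  intro u r hr
  have hu : ‖(u : X)‖ = 1 := by simp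
  obtain ⟨y, hy1, hy2, hy3⟩ := exists_OV_sphere (h.map _ hu) v hε hr
  refine ⟨⟨g y, by simpa using h.imap y hy1⟩, ?_, ?_⟩
  · rw [Metric.mem_ball, Subtype.dist_eq, dist_eq_norm]
    show ‖g y - u‖ < r
    have := h.symm.dist y (f u) hy1 (h.map _ hu)
    rw [h.left _ hu] at this
    rw [this]; exact hy2
  · show f (g y) ∈ OV v ε
    rw [h.right _ hy1]; exact hy3

/-- jointly smooth points are residual -/
theorem SI.residual_joint [TopologicalSpace.SeparableSpace X] [TopologicalSpace.SeparableSpace Y]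
    (h : SI f g) :
    {u : sphere (0 : X) 1 | Smooth (u : X) ∧ Smooth (f u)} ∈ residual (sphere (0 : X) 1) := by
  exact Filter.inter_mem residual_smooth h.residual_smooth_comp

/-- jointly smooth points are dense (metric form) -/
theorem SI.exists_joint [TopologicalSpace.SeparableSpace X] [TopologicalSpace.SeparableSpace Y]
    [CompleteSpace X] (h : SI f g) {x : X} (hx : ‖x‖ = 1) {r : ℝ} (hr : 0 < r) :
    ∃ u : X, ‖u‖ = 1 ∧ ‖u - x‖ < r ∧ Smooth u ∧ Smooth (f u) := by
  have : CompleteSpace (sphere (0 : X) 1) := isClosed_sphere.completeSpace_coe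
  have hd : Dense {u : sphere (0 : X) 1 | Smooth (u : X) ∧ Smooth (f u)} :=
    dense_of_mem_residual h.residual_joint
  rw [Metric.dense_iff] at hd
  obtain ⟨u, hu1, hu2⟩ := hd ⟨x, by simpa using hx⟩ r hr
  refine ⟨u, by simp, ?_, hu2.1, hu2.2⟩
  rwa [Metric.mem_ball, Subtype.dist_eq, dist_eq_norm] at hu1

end Joint

end Crest.Agent.R074
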