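import Crest.Agent.R074.Tau
import Crest.Agent.R074.Mazur
import Crest.Agent.R074.LTA

/-!
Row 74 (S0099): SLICE LEMMA. If `p = ‖·‖` on a relatively open convex cone of the subspace `V`,
then for every `m` in the open ball there are a functional `q` and a constant `s` with
`p x - q (f x) = s` on the slice `S ∩ (m + V)`.
-/

set_option autoImplicit false

namespace Crest.Agent.R074

open Metric Set Filter Topology

/-- a function which is locally constant on a set `D` near every point of a preconnected set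
`P ⊆ closure D` is constant on `D ∩ P`. -/
theorem const_of_local {α β : Type*} [TopologicalSpace α] {P D : Set α} (hP : IsPreconnected P)
    (hPD : P ⊆ closure D) (val : α → β)
    (hloc : ∀ a ∈ P, ∃ U ∈ 𝓝 a, ∀ d₁ ∈ D ∩ U, ∀ d₂ ∈ D ∩ U, val d₁ = val d₂) :
    ∀ d₁ ∈ D ∩ P, ∀ d₂ ∈ D ∩ P, val d₁ = val d₂ := by
  intro d₁ hd₁ d₂ hd₂
  by_contra hne
  set u : Set α := ⋃₀ {U | IsOpen U ∧ ∀ d ∈ D ∩ U, val d = val d₁} with hu
  set v : Set α := ⋃₀ {U | IsOpen U ∧ ∀ d ∈ D ∩ U, val d ≠ val d₁} with hv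
  have huo : IsOpen u := isOpen_sUnion fun U hU => hU.1
  have hvo : IsOpen v := isOpen_sUnion fun U hU => hU.1
  have hcase : ∀ a ∈ P, ∃ U, IsOpen U ∧ a ∈ U ∧ ∀ d₁ ∈ D ∩ U, ∀ d₂ ∈ D ∩ U, val d₁ = val d₂ := by
    intro a ha
    obtain ⟨U, hU, hc⟩ := hloc a ha
    obtain ⟨U', hU'1, hU'2, hU'3⟩ := mem_nhds_iff.mp hU
    exact ⟨U', hU'2, hU'3, fun d hd e he => hc d ⟨hd.1, hU'1 hd.2⟩ e ⟨he.1, hU'1 he.2⟩⟩
  have hcov : P ⊆ u ∪ v := by
    intro a ha
    obtain ⟨U, hUo, haU, hc⟩ := hcase a ha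
    obtain ⟨d, hdU, hdD⟩ := mem_closure_iff.mp (hPD ha) U hUo haU
    by_cases hd : val d = val d₁
    · left
      exact ⟨U, ⟨hUo, fun e he => by rw [hc e he d ⟨hdD, hdU⟩, hd]⟩, haU⟩
    · right
      exact ⟨U, ⟨hUo, fun e he => by rw [hc e he d ⟨hdD, hdU⟩]; exact hd⟩, haU⟩
  have h1 : (P ∩ u).Nonempty := by
    refine ⟨d₁, hd₁.2, ?_⟩
    obtain ⟨U, hUo, haU, hc⟩ := hcase d₁ hd₁.2
    exact ⟨U, ⟨hUo, fun e he => hc e he d₁ ⟨hd₁.1, haU⟩⟩, haU⟩
  have h2 : (P ∩ v).Nonempty := by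
    refine ⟨d₂, hd₂.2, ?_⟩
    obtain ⟨U, hUo, haU, hc⟩ := hcase d₂ hd₂.2
    exact ⟨U, ⟨hUo, fun e he => by rw [hc e he d₂ ⟨hd₂.1, haU⟩]; exact fun h => hne h.symm⟩, haU⟩
  obtain ⟨a, haP, ⟨U, ⟨hUo, hUc⟩, haU⟩, ⟨W, ⟨hWo, hWc⟩, haW⟩⟩ := hP u v huo hvo hcov h1 h2
  obtain ⟨d, ⟨hdU, hdW⟩, hdD⟩ := mem_closure_iff.mp (hPD haP) (U ∩ W) (hUo.inter hWo) ⟨haU, haW⟩
  exact hWc d ⟨hdD, hdW⟩ (hUc d ⟨hdD, hdU⟩)

variable {X Y : Type*} [NormedAddCommGroup X] [NormedSpace ℝ X] [NormedAddCommGroup Y]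
  [NormedSpace ℝ Y] {f : X → Y} {g : Y → X}

/-- F1 for the functional `p` (canonical norming functionals at tops/bottoms of `p`-chords). -/
def CanonAt (f : X → Y) (p : X →L[ℝ] ℝ) : Prop :=
  ∃ qT qB : X → (Y →L[ℝ] ℝ), ∀ y w : X, ‖y‖ = 1 → ‖w‖ = 1 → y ≠ w → ‖y + w‖ < 2 →
    p (y - w) = ‖y - w‖ →
    (Smooth (f y) → Norming (qT y) (f y - f w)) ∧ (Smooth (f w) → Norming (qB w) (f y - f w)) ∧
      (Smooth (f y) → Smooth (f w) → qT y = qB w)

omit [NormedSpace ℝ X] [NormedSpace ℝ Y] in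
/-- continuity of `f ∘ x` for sphere valued `x` -/
theorem SI.continuousOn_comp (h : SI f g) {Z : Type*} [TopologicalSpace Z] {x : Z → X} {S : Set Z}
    (hx : ContinuousOn x S) (hx1 : ∀ t ∈ S, ‖x t‖ = 1) : ContinuousOn (fun t => f (x t)) S := by
  intro t ht
  rw [ContinuousWithinAt, tendsto_iff_norm_sub_tendsto_zero]
  have h1 := (tendsto_iff_norm_sub_tendsto_zero).mp (hx t ht)
  refine h1.congr' ?_
  filter_upwards [self_mem_nhdsWithin] with t' ht'
  exact (h.dist _ _ (hx1 t' ht') (hx1 t ht)).symm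

/-- for a fixed direction, the tops over generic points are `Y`-smooth -/
theorem residual_top_smooth [TopologicalSpace.SeparableSpace Y] (h : SI f g) {c : X}
    (hc : ‖c‖ = 1) : {m : X | ‖m‖ < 1 → Smooth (f (top c m))} ∈ residual X := by
  have : Nonempty Y := ⟨0⟩
  set D : ℕ → Y := TopologicalSpace.denseSeq Y with hDdef
  have hD : DenseRange D := TopologicalSpace.denseRange_denseSeq Y
  have hsub : (⋂ n : ℕ, ⋂ k : ℕ, {m : X | (‖m‖ < 1 ∧ f (top c m) ∈ OV (D n) (1 / ((k : ℝ) + 1))) ∨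
      1 < ‖m‖}) ⊆ {m : X | ‖m‖ < 1 → Smooth (f (top c m))} := by
    intro m hm hm1
    rw [smooth_iff_forall hD]
    intro n k
    simp only [mem_iInter, mem_ofPred_eq] at hm
    rcases hm n k with h1 | h1
    · exact h1.2
    · linarith
  refine Filter.mem_of_superset ?_ hsub
  rw [countable_iInter_mem]
  intro n
  rw [countable_iInter_mem]
  intro k
  have hcont : ContinuousOn (fun m : X => f (top c m)) (ball 0 1) :=
    h.continuousOn_comp (continuousOn_top_right hc)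
      (fun m hm => norm_top hc (by simpa using hm))
  apply residual_of_dense_open
  · have h1 : IsOpen (ball (0 : X) 1 ∩ (fun m : X => f (top c m)) ⁻¹'
        (OV (D n) (1 / ((k : ℝ) + 1)))) :=
      hcont.isOpen_inter_preimage isOpen_ball (isOpen_OV _ _)
    have h2 : IsOpen {m : X | 1 < ‖m‖} := isOpen_lt continuous_const continuous_norm
    have h3 := h1.union h2
    convert h3 using 1
    ext m
    simp only [mem_ofPred_eq, mem_union, mem_inter_iff, mem_ball_zero_iff, mem_preimage]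
  · rw [Metric.dense_iff]
    intro m0 r hr
    rcases lt_or_ge ‖m0‖ 1 with hm0 | hm0
    · have hy0 := norm_top hc hm0
      obtain ⟨y', hy'1, hy'2, hy'3⟩ := exists_OV_sphere (h.map _ hy0) (D n)
        (show (0 : ℝ) < 1 / ((k : ℝ) + 1) by positivity)
        (show 0 < min r (1 - ‖m0‖) from lt_min hr (by linarith))
      have hgy := h.imap y' hy'1
      have hd : ‖g y' - top c m0‖ = ‖y' - f (top c m0)‖ := by
        have := h.symm.dist y' (f (top c m0)) hy'1 (h.map _ hy0)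
        rwa [h.left _ hy0] at this
      set m : X := m0 + (g y' - top c m0) with hm
      have hmd : ‖m - m0‖ < min r (1 - ‖m0‖) := by
        rw [hm, add_sub_cancel_left, hd]; exact hy'2
      have hm1 : ‖m‖ < 1 := by
        have h1 := norm_add_le m0 (m - m0)
        rw [add_sub_cancel] at h1
        have h2 := min_le_right r (1 - ‖m0‖)
        linarith
      have htop : g y' = top c m := by
        apply eq_top hm1 hgy (tau_pos hc hm0).le
        rw [hm]; unfold top; abel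
      refine ⟨m, ?_, Or.inl ⟨hm1, ?_⟩⟩
      · rw [Metric.mem_ball, dist_eq_norm]; exact hmd.trans_le (min_le_left _ _)
      · rw [← htop, h.right y' hy'1]; exact hy'3
    · -- push outwards
      have hpos : 0 < ‖m0‖ := by linarith
      refine ⟨(1 + r / (2 * ‖m0‖)) • m0, ?_, Or.inr ?_⟩
      · rw [Metric.mem_ball, dist_eq_norm, add_smul, one_smul, add_sub_cancel_left, norm_smul,
          Real.norm_of_nonneg (by positivity)]
        have : r / (2 * ‖m0‖) * ‖m0‖ = r / 2 := by field_simp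
        rw [this]; linarith
      · show 1 < ‖(1 + r / (2 * ‖m0‖)) • m0‖
        rw [norm_smul, Real.norm_of_nonneg (by positivity)]
        have : 0 < r / (2 * ‖m0‖) := by positivity
        nlinarith

/-- the convex set of directions used in the slice lemma -/
def Dirs (p : X →L[ℝ] ℝ) (V : Submodule ℝ X) (c : X) (ε : ℝ) : Set X :=
  {c' | c' ∈ V ∧ p c' = 1 ∧ ‖c' - c‖ < ε}

theorem Dirs.convex (p : X →L[ℝ] ℝ) (V : Submodule ℝ X) (c : X) (ε : ℝ) :
    Convex ℝ (Dirs p V c ε) := by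
  have h1 : Convex ℝ (V : Set X) := V.convex
  have h2 : Convex ℝ {x : X | p x = 1} := by
    intro x hx y hy a b _ _ hab
    simp only [mem_ofPred_eq] at hx hy ⊢
    rw [map_add, map_smul, map_smul, hx, hy]; simpa using hab
  have h3 : Convex ℝ (ball c ε) := convex_ball c ε
  have e : Dirs p V c ε = (V : Set X) ∩ ({x : X | p x = 1} ∩ ball c ε) := by
    ext x
    simp [Dirs, mem_ball, dist_eq_norm]
  rw [e]
  exact h1.inter (h2.inter h3)

section Core

variable {p : X →L[ℝ] ℝ} {V : Submodule ℝ X} {c : X} {ε : ℝ}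

theorem Dirs.norm_eq (HF : ∀ h ∈ V, ‖h‖ ≤ ε → p (c + h) = ‖c + h‖) (hcV : c ∈ V) {c' : X}
    (hc' : c' ∈ Dirs p V c ε) : ‖c'‖ = 1 := by
  have := HF (c' - c) (V.sub_mem hc'.1 hcV) hc'.2.2.le
  rw [add_sub_cancel] at this
  rw [← this]; exact hc'.2.1

/-- the parameter set of chords over the slice of `m0` -/
def PP (p : X →L[ℝ] ℝ) (V : Submodule ℝ X) (c : X) (ε : ℝ) (m0 : X) : Set (X × X) :=
  {a | a.1 ∈ Dirs p V c ε ∧ a.2 - m0 ∈ V ∧ ‖a.2‖ < 1}

theorem PP.convex (p : X →L[ℝ] ℝ) (V : Submodule ℝ X) (c : X) (ε : ℝ) (m0 : X) :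
    Convex ℝ (PP p V c ε m0) := by
  have h1 : Convex ℝ {m : X | m - m0 ∈ V ∧ ‖m‖ < 1} := by
    intro x hx y hy a b ha hb hab
    refine ⟨?_, ?_⟩
    · have e : a • x + b • y - m0 = a • (x - m0) + b • (y - m0) := by
        have : m0 = a • m0 + b • m0 := by rw [← add_smul, hab, one_smul]
        nth_rewrite 1 [this]
        rw [smul_sub, smul_sub]; abel
      rw [e]; exact V.add_mem (V.smul_mem _ hx.1) (V.smul_mem _ hy.1)
    · have := (convex_ball (0 : X) 1) (by simpa using hx.2) (by simpa using hy.2) ha hb hab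
      simpa using this
  exact (Dirs.convex p V c ε).prod h1

variable (HF : ∀ h ∈ V, ‖h‖ ≤ ε → p (c + h) = ‖c + h‖) (hcV : c ∈ V)

include HF hcV

/-- near a point of the parameter set, tops and bottoms form `p`-chords -/
theorem PP.local_chord {m0 : X} {a0 : X × X} (ha0 : a0 ∈ PP p V c ε m0) :
    ∃ U ∈ 𝓝 a0, ∀ a1 ∈ PP p V c ε m0 ∩ U, ∀ a2 ∈ PP p V c ε m0 ∩ U,
      top a1.1 a1.2 ≠ top (-a2.1) a2.2 ∧ ‖top a1.1 a1.2 + top (-a2.1) a2.2‖ < 2 ∧
      p (top a1.1 a1.2 - top (-a2.1) a2.2) = ‖top a1.1 a1.2 - top (-a2.1) a2.2‖ := by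
  obtain ⟨c0, m⟩ := a0
  obtain ⟨hc0, hmV, hm1⟩ := ha0
  simp only at hc0 hmV hm1
  have hn0 : ‖c0‖ = 1 := Dirs.norm_eq HF hcV hc0
  have hn0' : ‖-c0‖ = 1 := by rw [norm_neg]; exact hn0
  set T0 := top c0 m with hT0
  set B0 := top (-c0) m with hB0
  set ρ : ℝ := tau c0 m + tau (-c0) m with hρ
  have hρ0 : 0 < ρ := add_pos (tau_pos hn0 hm1) (tau_pos hn0' hm1)
  have hTB : T0 - B0 = ρ • c0 := top_sub_top c0 m
  have hTBlt : ‖T0 + B0‖ < 2 := norm_top_add_top_lt hn0 hm1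
  set η : ℝ := ε - ‖c0 - c‖ with hη
  have hη0 : 0 < η := by have := hc0.2.2; linarith
  set κ : ℝ := min (min (ρ * η) ρ) (2 - ‖T0 + B0‖) / 2 with hκ
  have hκ0 : 0 < κ := by
    apply half_pos
    exact lt_min (lt_min (by positivity) hρ0) (by linarith)
  have hκ1 : 2 * κ ≤ ρ * η := by
    have : 2 * κ = min (min (ρ * η) ρ) (2 - ‖T0 + B0‖) := by rw [hκ]; ring
    rw [this]; exact (min_le_left _ _).trans (min_le_left _ _)
  have hκ2 : 2 * κ ≤ ρ := by
    have : 2 * κ = min (min (ρ * η) ρ) (2 - ‖T0 + B0‖) := by rw [hκ]; ring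
    rw [this]; exact (min_le_left _ _).trans (min_le_right _ _)
  have hκ3 : 2 * κ ≤ 2 - ‖T0 + B0‖ := by
    have : 2 * κ = min (min (ρ * η) ρ) (2 - ‖T0 + B0‖) := by rw [hκ]; ring
    rw [this]; exact min_le_right _ _
  -- continuity of tops and bottoms
  have hcT : ContinuousWithinAt (fun q : X × X => top q.1 q.2) {q | ‖q.1‖ = 1 ∧ ‖q.2‖ < 1}
      (c0, m) := continuousOn_top _ ⟨hn0, hm1⟩
  have hcB : ContinuousWithinAt (fun q : X × X => top (-q.1) q.2) {q | ‖q.1‖ = 1 ∧ ‖q.2‖ < 1}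
      (c0, m) := by
    have h1 : ContinuousOn (fun q : X × X => top (-q.1) q.2) {q | ‖q.1‖ = 1 ∧ ‖q.2‖ < 1} := by
      have h2 : ContinuousOn (fun q : X × X => ((-q.1, q.2) : X × X))
          {q | ‖q.1‖ = 1 ∧ ‖q.2‖ < 1} := by fun_prop
      refine (continuousOn_top (X := X)).comp h2 ?_
      intro q hq
      exact ⟨by simpa using hq.1, hq.2⟩
    exact h1 _ ⟨hn0, hm1⟩
  have heT : ∀ᶠ q in 𝓝[{q : X × X | ‖q.1‖ = 1 ∧ ‖q.2‖ < 1}] (c0, m), ‖top q.1 q.2 - T0‖ < κ := by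
    have := (tendsto_iff_norm_sub_tendsto_zero).mp hcT
    exact this.eventually_lt_const hκ0
  have heB : ∀ᶠ q in 𝓝[{q : X × X | ‖q.1‖ = 1 ∧ ‖q.2‖ < 1}] (c0, m),
      ‖top (-q.1) q.2 - B0‖ < κ := by
    have := (tendsto_iff_norm_sub_tendsto_zero).mp hcB
    exact this.eventually_lt_const hκ0
  obtain ⟨U, hU, hUm⟩ := mem_nhdsWithin_iff_exists_mem_nhds_inter.mp (heT.and heB)
  refine ⟨U, hU, ?_⟩
  intro a1 ha1 a2 ha2
  have h1 := hUm ⟨ha1.2, ⟨Dirs.norm_eq HF hcV ha1.1.1, ha1.1.2.2⟩⟩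
  have h2 := hUm ⟨ha2.2, ⟨Dirs.norm_eq HF hcV ha2.1.1, ha2.1.2.2⟩⟩
  obtain ⟨h1T, _⟩ := h1
  obtain ⟨_, h2B⟩ := h2
  set T1 := top a1.1 a1.2 with hT1
  set B2 := top (-a2.1) a2.2 with hB2
  have hw : ‖(T1 - B2) - ρ • c0‖ < 2 * κ := by
    have e : (T1 - B2) - ρ • c0 = (T1 - T0) - (B2 - B0) := by rw [← hTB]; abel
    rw [e]
    have := norm_sub_le (T1 - T0) (B2 - B0)
    linarith
  have hV1 : T1 - m0 ∈ V := by
    have e : T1 - m0 = (a1.2 - m0) + tau a1.1 a1.2 • a1.1 := by rw [hT1]; unfold top; abel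
    rw [e]; exact V.add_mem ha1.1.2.1 (V.smul_mem _ ha1.1.1.1)
  have hV2 : B2 - m0 ∈ V := by
    have e : B2 - m0 = (a2.2 - m0) + tau (-a2.1) a2.2 • (-a2.1) := by rw [hB2]; unfold top; abel
    rw [e]; exact V.add_mem ha2.1.2.1 (V.smul_mem _ (V.neg_mem ha2.1.1.1))
  have hVd : T1 - B2 ∈ V := by
    have e : T1 - B2 = (T1 - m0) - (B2 - m0) := by abel
    rw [e]; exact V.sub_mem hV1 hV2
  have hnpos : 0 < ‖T1 - B2‖ := by
    have h3 := norm_sub_norm_le (ρ • c0) (T1 - B2)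
    rw [norm_sub_rev (ρ • c0), norm_smul, hn0, mul_one, Real.norm_of_nonneg hρ0.le] at h3
    linarith
  refine ⟨fun h => ?_, ?_, ?_⟩
  · rw [h, sub_self, norm_zero] at hnpos
    exact lt_irrefl _ hnpos
  · have e : T1 + B2 = (T0 + B0) + ((T1 - T0) + (B2 - B0)) := by abel
    rw [e]
    have h3 := norm_add_le (T0 + B0) ((T1 - T0) + (B2 - B0))
    have h4 := norm_add_le (T1 - T0) (B2 - B0)
    linarith
  · set hh : X := ρ⁻¹ • (T1 - B2) - c with hhh
    have hhV : hh ∈ V := V.sub_mem (V.smul_mem _ hVd) hcV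
    have hhn : ‖hh‖ ≤ ε := by
      have e : hh = ρ⁻¹ • ((T1 - B2) - ρ • c0) + (c0 - c) := by
        rw [hhh, smul_sub ρ⁻¹ (T1 - B2), smul_smul, inv_mul_cancel₀ hρ0.ne', one_smul]; abel
      rw [e]
      refine (norm_add_le _ _).trans ?_
      rw [norm_smul, norm_inv, Real.norm_of_nonneg hρ0.le]
      have h3 : ρ⁻¹ * ‖(T1 - B2) - ρ • c0‖ ≤ ρ⁻¹ * (ρ * η) :=
        mul_le_mul_of_nonneg_left (by linarith) (by positivity)
      rw [← mul_assoc, inv_mul_cancel₀ hρ0.ne', one_mul] at h3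
      linarith
    have h3 := HF hh hhV hhn
    rw [hhh, add_sub_cancel, map_smul, norm_smul, norm_inv, Real.norm_of_nonneg hρ0.le,
      smul_eq_mul] at h3
    exact mul_left_cancel₀ (inv_ne_zero hρ0.ne') h3

/-- every point of the slice is, for some direction of `Dirs`, an end point of its segment -/
theorem exists_dir_end (hε : 0 < ε) (hc : ‖c‖ = 1) {m0 z : X} (hm0 : ‖m0‖ < 1)
    (hz : ‖z‖ = 1) (hzV : z - m0 ∈ V) :
    ∃ c' ∈ Dirs p V c ε, (∀ δ : ℝ, 0 < δ → 1 < ‖z + δ • c'‖) ∨ (∀ δ : ℝ, 0 < δ → 1 < ‖z + δ • (-c')‖) := by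
  by_contra hcon
  push Not at hcon
  have hpc : p c = 1 := by
    have := HF 0 V.zero_mem (by rw [norm_zero]; exact hε.le)
    rw [add_zero, hc] at this
    exact this
  -- `J z` vanishes on `Dirs`
  have hj : ∀ c' ∈ Dirs p V c ε, J z c' = 0 := by
    intro c' hc'
    obtain ⟨⟨δ1, hδ1, h1⟩, ⟨δ2, hδ2, h2⟩⟩ := hcon c' hc'
    have h3 := J_le z (z + δ1 • c')
    have h4 := J_le z (z + δ2 • (-c'))
    rw [map_add, map_smul, J_self, hz, smul_eq_mul] at h3 h4
    rw [map_neg] at h4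
    apply le_antisymm
    · nlinarith
    · nlinarith
  have hcD : c ∈ Dirs p V c ε := ⟨hcV, hpc, by rw [sub_self, norm_zero]; exact hε⟩
  have hjc := hj c hcD
  -- `J z` vanishes on `V`
  have hjV : ∀ v ∈ V, J z v = 0 := by
    intro v hv
    -- remove the `c`-component
    have key : ∀ w ∈ V, p w = 0 → J z w = 0 := by
      intro w hw hpw
      set t : ℝ := ε / (2 * (‖w‖ + 1)) with ht
      have ht0 : 0 < t := by positivity
      have hmem : c + t • w ∈ Dirs p V c ε := by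
        refine ⟨V.add_mem hcV (V.smul_mem _ hw), ?_, ?_⟩
        · rw [map_add, map_smul, hpw, hpc]; simp
        · rw [add_sub_cancel_left, norm_smul, Real.norm_of_nonneg ht0.le, ht, div_mul_eq_mul_div,
            div_lt_iff₀ (by positivity)]
          nlinarith [norm_nonneg w]
      have h1 := hj _ hmem
      rw [map_add, hjc, map_smul, smul_eq_mul, zero_add] at h1
      exact (mul_eq_zero.mp h1).resolve_left ht0.ne'
    have h1 := key (v - p v • c) (V.sub_mem hv (V.smul_mem _ hcV))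
      (by rw [map_sub, map_smul, hpc, smul_eq_mul, mul_one, sub_self])
    rw [map_sub, map_smul, hjc, smul_zero, sub_zero] at h1
    exact h1
  have h1 := hjV _ hzV
  rw [map_sub, J_self, hz] at h1
  have h2 := J_le z m0
  linarith

end Core

/-- the slice lemma at a generic point -/
theorem slice_generic (h : SI f g) {p : X →L[ℝ] ℝ} (hp : ‖p‖ ≤ 1) {V : Submodule ℝ X} {c : X}
    (hcV : c ∈ V) (hc : ‖c‖ = 1) {ε : ℝ} (hε : 0 < ε)
    (HF : ∀ h ∈ V, ‖h‖ ≤ ε → p (c + h) = ‖c + h‖) (hcan : CanonAt f p) {DV DC : Set X}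
    (hDV : (V : Set X) ⊆ closure (DV ∩ V)) (hDC : Dirs p V c ε ⊆ closure (DC ∩ Dirs p V c ε))
    {m0 : X} (hm0 : ‖m0‖ < 1)
    (hT : ∀ v ∈ DV, ∀ c' ∈ DC, ‖m0 + v‖ < 1 → Smooth (f (top c' (m0 + v))))
    (hB : ∀ v ∈ DV, ∀ c' ∈ DC, ‖m0 + v‖ < 1 → Smooth (f (top (-c') (m0 + v)))) :
    ∃ q s, CosetFun f p V m0 q s := by
  obtain ⟨qT, qB, hq⟩ := hcan
  set P : Set (X × X) := PP p V c ε m0 with hP
  set D : Set (X × X) := {a | a.1 ∈ DC ∩ Dirs p V c ε ∧ a.2 - m0 ∈ DV ∩ V ∧ ‖a.2‖ < 1} with hD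
  have hDP : D ⊆ P := fun a ha => ⟨ha.1.2, ha.2.1.2, ha.2.2⟩
  have hpc : p c = 1 := by
    have := HF 0 V.zero_mem (by rw [norm_zero]; exact hε.le)
    rw [add_zero, hc] at this
    exact this
  have hcD : c ∈ Dirs p V c ε := ⟨hcV, hpc, by rw [sub_self, norm_zero]; exact hε⟩
  have hPD : P ⊆ closure D := by
    rintro ⟨c1, m1⟩ ⟨h1, h2, h3⟩
    simp only at h1 h2 h3
    rw [Metric.mem_closure_iff]
    intro δ hδ
    obtain ⟨c2, hc2, hc2d⟩ := Metric.mem_closure_iff.mp (hDC h1) δ hδ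
    obtain ⟨v, hv, hvd⟩ := Metric.mem_closure_iff.mp (hDV h2) (min δ (1 - ‖m1‖))
      (lt_min hδ (by linarith))
    rw [dist_eq_norm] at hvd
    refine ⟨(c2, m0 + v), ⟨hc2, ?_, ?_⟩, ?_⟩
    · show m0 + v - m0 ∈ DV ∩ V
      rw [add_sub_cancel_left]; exact hv
    · show ‖m0 + v‖ < 1
      have e : m0 + v = m1 - (m1 - m0 - v) := by abel
      rw [e]
      refine (norm_sub_le _ _).trans_lt ?_
      have := min_le_right δ (1 - ‖m1‖)
      linarith
    · rw [Prod.dist_eq]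
      apply max_lt hc2d
      rw [dist_eq_norm]
      have e : m1 - (m0 + v) = m1 - m0 - v := by abel
      show ‖m1 - (m0 + v)‖ < δ
      rw [e]
      exact hvd.trans_le (min_le_left _ _)
  have hPc : IsPreconnected P := (PP.convex p V c ε m0).isPreconnected
  -- smoothness on `D`
  have hsT : ∀ a ∈ D, Smooth (f (top a.1 a.2)) := by
    rintro ⟨c1, m1⟩ ⟨h1, h2, h3⟩
    have := hT (m1 - m0) h2.1 c1 h1.1 (by rw [add_sub_cancel]; exact h3)
    rwa [add_sub_cancel] at this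
  have hsB : ∀ a ∈ D, Smooth (f (top (-a.1) a.2)) := by
    rintro ⟨c1, m1⟩ ⟨h1, h2, h3⟩
    have := hB (m1 - m0) h2.1 c1 h1.1 (by rw [add_sub_cancel]; exact h3)
    rwa [add_sub_cancel] at this
  have hnT : ∀ a ∈ P, ‖top a.1 a.2‖ = 1 := fun a ha =>
    norm_top (Dirs.norm_eq HF hcV ha.1) ha.2.2
  have hnB : ∀ a ∈ P, ‖top (-a.1) a.2‖ = 1 := fun a ha =>
    norm_top (by rw [norm_neg]; exact Dirs.norm_eq HF hcV ha.1) ha.2.2
  -- the locally constant value
  set val : X × X → (Y →L[ℝ] ℝ) × ℝ := fun a =>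
    (qT (top a.1 a.2), p (top a.1 a.2) - qT (top a.1 a.2) (f (top a.1 a.2))) with hval
  -- comparison of the values at a top and a bottom
  have hcmp : ∀ a1 ∈ D, ∀ a2 ∈ D, top a1.1 a1.2 ≠ top (-a2.1) a2.2 →
      ‖top a1.1 a1.2 + top (-a2.1) a2.2‖ < 2 →
      p (top a1.1 a1.2 - top (-a2.1) a2.2) = ‖top a1.1 a1.2 - top (-a2.1) a2.2‖ →
      val a1 = (qB (top (-a2.1) a2.2),
        p (top (-a2.1) a2.2) - qB (top (-a2.1) a2.2) (f (top (-a2.1) a2.2))) := by
    intro a1 ha1 a2 ha2 hne hlt hpp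
    obtain ⟨h1, h2, h3⟩ := hq _ _ (hnT a1 (hDP ha1)) (hnB a2 (hDP ha2)) hne hlt hpp
    have h4 := h3 (hsT a1 ha1) (hsB a2 ha2)
    have h5 := (h1 (hsT a1 ha1)).2
    rw [h.dist _ _ (hnT a1 (hDP ha1)) (hnB a2 (hDP ha2)), ← hpp, map_sub, map_sub] at h5
    simp only [hval]
    rw [Prod.mk.injEq]
    refine ⟨h4, ?_⟩
    rw [← h4]
    linarith
  have hloc : ∀ a ∈ P, ∃ U ∈ 𝓝 a, ∀ d₁ ∈ D ∩ U, ∀ d₂ ∈ D ∩ U, val d₁ = val d₂ := by
    intro a ha
    obtain ⟨U, hU, hUc⟩ := PP.local_chord HF hcV ha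
    refine ⟨U, hU, ?_⟩
    intro d1 hd1 d2 hd2
    obtain ⟨h1, h2, h3⟩ := hUc d1 ⟨hDP hd1.1, hd1.2⟩ d2 ⟨hDP hd2.1, hd2.2⟩
    obtain ⟨h4, h5, h6⟩ := hUc d2 ⟨hDP hd2.1, hd2.2⟩ d2 ⟨hDP hd2.1, hd2.2⟩
    rw [hcmp d1 hd1.1 d2 hd2.1 h1 h2 h3, hcmp d2 hd2.1 d2 hd2.1 h4 h5 h6]
  have hconst := const_of_local hPc hPD val hloc
  -- a base point
  have ha0 : ((c, m0) : X × X) ∈ P := ⟨hcD, by show m0 - m0 ∈ V; rw [sub_self]; exact V.zero_mem, hm0⟩
  obtain ⟨d0, hd0⟩ : D.Nonempty := by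
    have := hPD ha0
    by_contra hne
    rw [not_nonempty_iff_eq_empty] at hne
    rw [hne, closure_empty] at this
    exact this
  set q : Y →L[ℝ] ℝ := (val d0).1 with hqdef
  set s : ℝ := (val d0).2 with hsdef
  have hself : ∀ a ∈ P, top a.1 a.2 ≠ top (-a.1) a.2 ∧ ‖top a.1 a.2 + top (-a.1) a.2‖ < 2 ∧
      p (top a.1 a.2 - top (-a.1) a.2) = ‖top a.1 a.2 - top (-a.1) a.2‖ := by
    intro a ha
    obtain ⟨U, hU, hUc⟩ := PP.local_chord HF hcV ha
    exact hUc a ⟨ha, mem_of_mem_nhds hU⟩ a ⟨ha, mem_of_mem_nhds hU⟩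
  have hqn : ‖q‖ ≤ 1 := by
    obtain ⟨h1, h2, h3⟩ := hself d0 (hDP hd0)
    exact ((hq _ _ (hnT _ (hDP hd0)) (hnB _ (hDP hd0)) h1 h2 h3).1 (hsT _ hd0)).1
  have hTD : ∀ a ∈ D, p (top a.1 a.2) - q (f (top a.1 a.2)) = s := by
    intro a ha
    have h1 := hconst a ⟨ha, hDP ha⟩ d0 ⟨hd0, hDP hd0⟩
    have h2 : qT (top a.1 a.2) = q := by rw [hqdef, ← h1]
    rw [hsdef, ← h1]
    show _ = p (top a.1 a.2) - qT (top a.1 a.2) (f (top a.1 a.2))
    rw [h2]
  have hBD : ∀ a ∈ D, p (top (-a.1) a.2) - q (f (top (-a.1) a.2)) = s := by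
    intro a ha
    obtain ⟨h1, h2, h3⟩ := hself a (hDP ha)
    have h4 := hcmp a ha a ha h1 h2 h3
    have h5 := hconst a ⟨ha, hDP ha⟩ d0 ⟨hd0, hDP hd0⟩
    rw [h4] at h5
    have h6 : qB (top (-a.1) a.2) = q := by rw [hqdef, ← h5]
    rw [hsdef, ← h5]
    show _ = p (top (-a.1) a.2) - qB (top (-a.1) a.2) (f (top (-a.1) a.2))
    rw [h6]
  -- extension to `P`
  have hcT : ContinuousOn (fun a : X × X => top a.1 a.2) P := by
    refine (continuousOn_top (X := X)).mono ?_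
    intro a ha
    exact ⟨Dirs.norm_eq HF hcV ha.1, ha.2.2⟩
  have hcB : ContinuousOn (fun a : X × X => top (-a.1) a.2) P := by
    have h2 : ContinuousOn (fun q : X × X => ((-q.1, q.2) : X × X)) P := by fun_prop
    refine (continuousOn_top (X := X)).comp h2 ?_
    intro a ha
    exact ⟨by rw [norm_neg]; exact Dirs.norm_eq HF hcV ha.1, ha.2.2⟩
  have hext : ∀ x : X × X → X, ContinuousOn x P → (∀ a ∈ P, ‖x a‖ = 1) →
      (∀ a ∈ D, p (x a) - q (f (x a)) = s) → ∀ a ∈ P, p (x a) - q (f (x a)) = s := by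
    intro x hx hx1 hxD a ha
    have hF : ContinuousOn (fun a => p (x a) - q (f (x a))) P :=
      (p.continuous.comp_continuousOn hx).sub
        (q.continuous.comp_continuousOn (h.continuousOn_comp hx hx1))
    have h1 : Tendsto (fun a => p (x a) - q (f (x a))) (𝓝[D] a) (𝓝 (p (x a) - q (f (x a)))) :=
      (hF a ha).mono_left (nhdsWithin_mono _ hDP)
    have hne : (𝓝[D] a).NeBot := mem_closure_iff_nhdsWithin_neBot.mp (hPD ha)
    have h2 : Tendsto (fun a => p (x a) - q (f (x a))) (𝓝[D] a) (𝓝 s) := by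
      refine tendsto_const_nhds.congr' ?_
      filter_upwards [self_mem_nhdsWithin] with b hb
      exact (hxD b hb).symm
    exact tendsto_nhds_unique h1 h2
  have hTP := hext (fun a => top a.1 a.2) hcT hnT hTD
  have hBP := hext (fun a => top (-a.1) a.2) hcB hnB hBD
  refine ⟨q, s, hqn, ?_⟩
  intro z hz hzV
  obtain ⟨c', hc', hend⟩ := exists_dir_end HF hcV hε hc hm0 hz hzV
  have hc'1 : ‖c'‖ = 1 := Dirs.norm_eq HF hcV hc'
  -- approximation
  have happ : ∀ b : X, ‖b‖ = 1 → (∀ δ : ℝ, 0 < δ → 1 < ‖z + δ • b‖) →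
      (∀ σ : ℝ, 0 < σ → σ ≤ 1 → p (top b ((1 - σ) • z + σ • m0))
        - q (f (top b ((1 - σ) • z + σ • m0))) = s) → p z - q (f z) = s := by
    intro b hb hend hs
    have hlim : ∀ δ : ℝ, 0 < δ → |p z - q (f z) - s| ≤ 4 * δ := by
      intro δ hδ
      have h1 := hend δ hδ
      -- choose σ small
      have hcont : Continuous (fun σ : ℝ => ‖(1 - σ) • z + σ • m0 + δ • b‖) := by fun_prop
      have h2 : ∀ᶠ σ in 𝓝 (0 : ℝ), 1 < ‖(1 - σ) • z + σ • m0 + δ • b‖ := by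
        have := hcont.tendsto 0
        simp only [sub_zero, one_smul, zero_smul, add_zero] at this
        exact this.eventually_const_lt h1
      have h3 : ∀ᶠ σ in 𝓝 (0 : ℝ), σ * ‖z - m0‖ < δ := by
        have hc2 : Continuous (fun σ : ℝ => σ * ‖z - m0‖) := by fun_prop
        have := hc2.tendsto 0
        simp only [zero_mul] at this
        exact this.eventually_lt_const hδ
      have h4 : ∀ᶠ σ in 𝓝 (0 : ℝ), σ < 1 := eventually_lt_nhds one_pos
      obtain ⟨σ, ⟨⟨hσ1, hσ2⟩, hσ3⟩, hσ0⟩ :=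
        (((h2.and h3).and h4).filter_mono nhdsWithin_le_nhds |>.and
          (self_mem_nhdsWithin (s := Ioi (0 : ℝ)))).exists
      replace hσ0 : 0 < σ := hσ0
      set zσ : X := (1 - σ) • z + σ • m0 with hzσ
      have hzσ1 : ‖zσ‖ < 1 := by
        refine (norm_add_le _ _).trans_lt ?_
        rw [norm_smul, norm_smul, hz, Real.norm_of_nonneg (by linarith),
          Real.norm_of_nonneg hσ0.le]
        nlinarith
      have hτ : tau b zσ < δ := (tau_lt_iff hb hzσ1 hδ.le).mpr hσ1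
      have hτ0 := tau_pos hb hzσ1
      set y := top b zσ with hy
      have hy1 : ‖y‖ = 1 := norm_top hb hzσ1
      have hzy : ‖z - y‖ ≤ 2 * δ := by
        have e : z - y = σ • (z - m0) - tau b zσ • b := by
          rw [hy]; unfold top
          rw [hzσ, sub_smul, one_smul, smul_sub]; abel
        rw [e]
        refine (norm_sub_le _ _).trans ?_
        rw [norm_smul, norm_smul, hb, Real.norm_of_nonneg hσ0.le, Real.norm_of_nonneg hτ0.le]
        linarith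
      have h5 := hs σ hσ0 hσ3.le
      have h6 := Est.le_norm_of hp (z - y)
      have h7 := Est.le_norm_of hqn (f z - f y)
      rw [h.dist _ _ hz hy1, map_sub] at h7
      rw [map_sub] at h6
      have h8 : p y - q (f y) = s := h5
      rw [_root_.abs_le] at h6 h7 ⊢
      constructor <;> linarith
    have h0 : |p z - q (f z) - s| ≤ 0 := by
      apply le_of_forall_pos_le_add
      intro δ hδ
      have := hlim (δ / 4) (by positivity)
      linarith
    have := abs_nonpos_iff.mp h0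
    linarith
  have hmem : ∀ σ : ℝ, 0 < σ → σ ≤ 1 → ((c', (1 - σ) • z + σ • m0) : X × X) ∈ P := by
    intro σ hσ0 hσ1
    refine ⟨hc', ?_, ?_⟩
    · show (1 - σ) • z + σ • m0 - m0 ∈ V
      have e : (1 - σ) • z + σ • m0 - m0 = (1 - σ) • (z - m0) := by
        rw [sub_smul, one_smul, sub_smul, one_smul, smul_sub]; abel
      rw [e]; exact V.smul_mem _ hzV
    · show ‖(1 - σ) • z + σ • m0‖ < 1
      refine (norm_add_le _ _).trans_lt ?_
      rw [norm_smul, norm_smul, hz, Real.norm_of_nonneg (by linarith), Real.norm_of_nonneg hσ0.le]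
      nlinarith
  rcases hend with hend | hend
  · exact happ c' hc'1 hend (fun σ h0 h1 => hTP _ (hmem σ h0 h1))
  · exact happ (-c') (by rw [norm_neg]; exact hc'1) hend (fun σ h0 h1 => hBP _ (hmem σ h0 h1))

/-- SLICE LEMMA (F2). -/
theorem slice [TopologicalSpace.SeparableSpace X] [TopologicalSpace.SeparableSpace Y]
    [CompleteSpace X] (h : SI f g) {p : X →L[ℝ] ℝ} (hp : ‖p‖ ≤ 1) {V : Submodule ℝ X} {c : X}
    (hcV : c ∈ V) (hc : ‖c‖ = 1) {ε : ℝ} (hε : 0 < ε)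
    (HF : ∀ h ∈ V, ‖h‖ ≤ ε → p (c + h) = ‖c + h‖) (hcan : CanonAt f p) :
    ∀ m : X, ‖m‖ < 1 → ∃ q s, CosetFun f p V m q s := by
  obtain ⟨DV, hDV1, hDV2, hDV3⟩ :=
    (TopologicalSpace.IsSeparable.of_separableSpace (V : Set X)).exists_countable_dense_subset
  obtain ⟨DC, hDC1, hDC2, hDC3⟩ :=
    (TopologicalSpace.IsSeparable.of_separableSpace (Dirs p V c ε)).exists_countable_dense_subset
  -- generic points
  set G : Set X := {m | ∀ v ∈ DV, ∀ c' ∈ DC, (‖m + v‖ < 1 → Smooth (f (top c' (m + v)))) ∧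
    (‖m + v‖ < 1 → Smooth (f (top (-c') (m + v))))} with hG
  have hGres : G ∈ residual X := by
    have e : G = ⋂ v ∈ DV, ⋂ c' ∈ DC, {m | (‖m + v‖ < 1 → Smooth (f (top c' (m + v)))) ∧
        (‖m + v‖ < 1 → Smooth (f (top (-c') (m + v))))} := by
      ext m
      simp only [hG, mem_iInter, mem_ofPred_eq]
    rw [e, countable_bInter_mem hDV2]
    intro v hv
    rw [countable_bInter_mem hDC2]
    intro c' hc'
    have hc'1 : ‖c'‖ = 1 := Dirs.norm_eq HF hcV (hDC1 hc')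
    have htend : Tendsto (fun m : X => m + v) (residual X) (residual X) :=
      tendsto_residual_of_isOpenMap (by fun_prop) (isOpenMap_add_right v)
    have h1 := htend (residual_top_smooth h hc'1)
    have h2 := htend (residual_top_smooth h (c := -c') (by rw [norm_neg]; exact hc'1))
    exact Filter.inter_mem h1 h2
  have hGd : Dense G := dense_of_mem_residual hGres
  have hgen : ∀ m ∈ G, ‖m‖ < 1 → ∃ q s, CosetFun f p V m q s := by
    intro m hm hm1
    refine slice_generic h hp hcV hc hε HF hcan (DV := DV) (DC := DC) ?_ ?_ hm1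
      (fun v hv c' hc' => (hm v hv c' hc').1) (fun v hv c' hc' => (hm v hv c' hc').2)
    · rw [inter_eq_self_of_subset_left hDV1]; exact hDV3
    · rw [inter_eq_self_of_subset_left hDC1]; exact hDC3
  intro m hm
  -- approximate `m` by generic points
  have hex : ∀ n : ℕ, ∃ m' ∈ G, ‖m'‖ < 1 ∧ ‖m' - m‖ < 1 / ((n : ℝ) + 1) := by
    intro n
    have hr : 0 < min (1 - ‖m‖) (1 / ((n : ℝ) + 1)) := lt_min (by linarith) (by positivity)
    obtain ⟨m', hm'1, hm'2⟩ := (Metric.dense_iff.mp hGd) m _ hr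
    rw [Metric.mem_ball, dist_eq_norm] at hm'1
    refine ⟨m', hm'2, ?_, hm'1.trans_le (min_le_right _ _)⟩
    have h1 := norm_add_le m (m' - m)
    rw [add_sub_cancel] at h1
    have := min_le_left (1 - ‖m‖) (1 / ((n : ℝ) + 1))
    linarith
  choose mm hmG hm1 hmd using hex
  choose q s hqs using fun n => hgen (mm n) (hmG n) (hm1 n)
  have hsb : ∀ n, |s n| ≤ 2 := by
    intro n
    have h1 := (hqs n).rel (top c (mm n)) (norm_top hc (hm1 n)) (by
      unfold top; rw [add_sub_cancel_left]; exact V.smul_mem _ hcV)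
    have h2 := Est.le_norm_of hp (top c (mm n))
    have h3 := Est.le_norm_of (hqs n).norm_le (f (top c (mm n)))
    rw [norm_top hc (hm1 n)] at h2
    rw [h.map _ (norm_top hc (hm1 n))] at h3
    rw [← h1]
    rw [_root_.abs_le] at h2 h3 ⊢
    constructor <;> linarith
  have hU : (hyperfilter ℕ : Filter ℕ) ≤ atTop := by
    rw [← Nat.cofinite_eq_atTop]; exact hyperfilter_le_cofinite
  have hmt : Tendsto mm (hyperfilter ℕ) (𝓝 m) := by
    rw [tendsto_iff_norm_sub_tendsto_zero]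
    refine squeeze_zero (fun n => norm_nonneg _) (fun n => (hmd n).le) ?_
    exact tendsto_one_div_add_atTop_nhds_zero_nat.mono_left hU
  obtain ⟨q', s', hq', _, _⟩ := Est.QQ.closed h (hyperfilter ℕ) (fun n => (hqs n).qq) hmt hm hsb
  exact ⟨q', s', ⟨hq'.1, hq'.2⟩⟩

end Crest.Agent.R074
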