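import Crest.Agent.R074.Canon
import Crest.Agent.R074.Slice

/-!
Row 74 (S0099): the canonical functionals (module F1) deliver the hypothesis `CanonAt` of the
slice lemma (F2), for every functional `p` of norm at most one.
-/

set_option autoImplicit false

namespace Crest.Agent.R074

open Metric Set Filter Topology

variable {X Y : Type*} [NormedAddCommGroup X] [NormedSpace ℝ X] [NormedAddCommGroup Y]
  [NormedSpace ℝ Y] {f : X → Y} {g : Y → X}

/-- `q` is the canonical functional at the top `x` of some `p`-chord. -/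
def TopFun (f : X → Y) (g : Y → X) (p : X →L[ℝ] ℝ) (x : X) (q : Y →L[ℝ] ℝ) : Prop :=
  ∃ (Φ : Y →L[ℝ] ℝ) (w : X), IsPhi g p (f x) Φ ∧ Canon (f x) Φ q ∧ Chord p x w ∧
    q (f x - f w) = ‖x - w‖

theorem SI.topFun_norming (h : SI f g) (ho : ∀ x, ‖x‖ = 1 → f (-x) = -f x) {p : X →L[ℝ] ℝ}
    (hp : ‖p‖ ≤ 1) {x w : X} (hc : Chord p x w) (hs : Smooth (f x)) {q : Y →L[ℝ] ℝ}
    (hq : TopFun f g p x q) : Norming q (f x - f w) := by
  obtain ⟨Φ, w', hΦ, hcan, hc', hqw'⟩ := hq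
  refine ⟨hcan.norm_le, ?_⟩
  rw [h.canon_all ho hp hc' hs hΦ hcan hqw' hc, h.dist x w hc.top hc.bot]

theorem SI.exists_topFun (h : SI f g) (ho : ∀ x, ‖x‖ = 1 → f (-x) = -f x) {p : X →L[ℝ] ℝ}
    (hp : ‖p‖ ≤ 1) (hmid : ∀ y, ‖y‖ = 1 → Smooth y → MidAt g y) {x w : X} (hc : Chord p x w)
    (hs : Smooth (f x)) : ∃ q, TopFun f g p x q := by
  obtain ⟨Φ, hΦ⟩ := h.exists_isPhi hp (h.map x hc.top) hs (hmid _ (h.map x hc.top) hs)
  obtain ⟨q, hq, hqw⟩ := h.exists_canon ho hp hc hs hΦ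
  exact ⟨q, Φ, w, hΦ, hq, hc, hqw⟩

theorem SI.topFun_unique (h : SI f g) (ho : ∀ x, ‖x‖ = 1 → f (-x) = -f x) {p : X →L[ℝ] ℝ}
    {x : X} (hx : ‖x‖ = 1) {q q' : Y →L[ℝ] ℝ} (hq : TopFun f g p x q)
    (hq' : TopFun f g p x q') : q = q' := by
  obtain ⟨Φ, w, hΦ, hcan, hc, hqw⟩ := hq
  obtain ⟨Φ', w', hΦ', hcan', hc', hqw'⟩ := hq'
  have e : Φ = Φ' := hΦ.unique (h.map x hx) hΦ'
  subst e
  exact h.canon_unique ho hc hc' hcan hqw hcan' hqw'

/-- the canonical functional at the top of a chord is the one at its bottom. -/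
theorem SI.topFun_bot (h : SI f g) (ho : ∀ x, ‖x‖ = 1 → f (-x) = -f x) {p : X →L[ℝ] ℝ}
    (hp : ‖p‖ ≤ 1) (hmid : ∀ y, ‖y‖ = 1 → Smooth y → MidAt g y) {x w : X} (hc : Chord p x w)
    (hsx : Smooth (f x)) (hsw : Smooth (f w)) {q : Y →L[ℝ] ℝ} (hq : TopFun f g p x q) :
    TopFun f g p (-w) q := by
  obtain ⟨Φw, hΦw⟩ := h.exists_isPhi hp (h.map w hc.bot) hsw (hmid _ (h.map w hc.bot) hsw)
  have hn := h.topFun_norming ho hp hc hsx hq
  obtain ⟨Φ, w', hΦ, hcan, hc', hqw'⟩ := hq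
  have hqw : q (f x - f w) = ‖x - w‖ := by rw [hn.2, h.dist x w hc.top hc.bot]
  have hcw := h.canon_bot ho hp hc hsx hsw hΦ hΦw hcan hqw
  have hfw : f (-w) = -f w := ho w hc.bot
  have hfx : f (-x) = -f x := ho x hc.top
  refine ⟨Φw, -x, ?_, ⟨hcw.norm_le, ?_⟩, hc.neg, ?_⟩
  · rw [hfw]
    exact h.isPhi_neg ho (h.map w hc.bot) hsw hΦw
  · intro al hal
    rw [hfw, hsw.J_neg, _root_.neg_apply, neg_eq_zero] at hal
    exact hcw.eq al hal
  · rw [hfw, hfx]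
    have e1 : -f w - -f x = f x - f w := by abel
    have e2 : -w - -x = x - w := by abel
    rw [e1, e2]
    exact hqw

/-- F1 for every functional of norm at most one, from the midpoint-linearity of the blow-ups of
the inverse at smooth points (M2). -/
theorem SI.canonAt (h : SI f g) (ho : ∀ x, ‖x‖ = 1 → f (-x) = -f x) {p : X →L[ℝ] ℝ}
    (hp : ‖p‖ ≤ 1) (hmid : ∀ y, ‖y‖ = 1 → Smooth y → MidAt g y) : CanonAt f p := by
  classical
  set qT : X → (Y →L[ℝ] ℝ) := fun x =>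
    if hx : ∃ q, TopFun f g p x q then Classical.choose hx else 0 with hqT
  have hqTs : ∀ x w, Chord p x w → Smooth (f x) → TopFun f g p x (qT x) := by
    intro x w hc hs
    have hex := h.exists_topFun ho hp hmid hc hs
    have : qT x = Classical.choose hex := by rw [hqT]; exact dif_pos hex
    rw [this]
    exact Classical.choose_spec hex
  refine ⟨qT, fun w => qT (-w), ?_⟩
  intro y w hy hw hne hlt heq
  have hc : Chord p y w := ⟨hy, hw, heq, hlt⟩
  have hfw : f (-w) = -f w := ho w hw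
  have hfy : f (-y) = -f y := ho y hy
  refine ⟨?_, ?_, ?_⟩
  · intro hs
    exact h.topFun_norming ho hp hc hs (hqTs y w hc hs)
  · intro hs
    have hs' : Smooth (f (-w)) := by rw [hfw]; exact hs.neg
    have hn := h.topFun_norming ho hp hc.neg hs' (hqTs (-w) (-y) hc.neg hs')
    rw [hfw, hfy] at hn
    have e1 : -f w - -f y = f y - f w := by abel
    rw [e1] at hn
    exact hn
  · intro hsy hsw
    have hs' : Smooth (f (-w)) := by rw [hfw]; exact hsw.neg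
    have h1 := h.topFun_bot ho hp hmid hc hsy hsw (hqTs y w hc hsy)
    exact h.topFun_unique ho (x := -w) (by rw [norm_neg]; exact hw) h1
      (hqTs (-w) (-y) hc.neg hs')

/-- SLICE LEMMA (F2) with the M2 hypothesis on the inverse. -/
theorem SI.slice [TopologicalSpace.SeparableSpace X] [TopologicalSpace.SeparableSpace Y]
    [CompleteSpace X] (h : SI f g) (ho : ∀ x, ‖x‖ = 1 → f (-x) = -f x)
    (hmid : ∀ y, ‖y‖ = 1 → Smooth y → MidAt g y) {p : X →L[ℝ] ℝ} (hp : ‖p‖ ≤ 1)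
    {V : Submodule ℝ X} {c : X} (hcV : c ∈ V) (hc : ‖c‖ = 1) {ε : ℝ} (hε : 0 < ε)
    (HF : ∀ h ∈ V, ‖h‖ ≤ ε → p (c + h) = ‖c + h‖) :
    ∀ m : X, ‖m‖ < 1 → ∃ q s, CosetFun f p V m q s :=
  Crest.Agent.R074.slice h hp hcV hc hε HF (h.canonAt ho hp hmid)

end Crest.Agent.R074
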