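import Mathlib

/-!
Row 74 (S0099): local Mazur–Ulam theorem (isometries between balls), by the reflection trick on
the lens `B(a,ρ) ∩ B(b,ρ)`.  Also the convexity lemma `conv_shift`.
-/

set_option autoImplicit false

namespace Crest.Agent.R074

open Metric Set Filter Topology

/-- metric form of the Väisälä argument -/
theorem reflect_fixed {M : Type*} [MetricSpace M] (R : M ≃ᵢ M) (z a b : M)
    (hRz : ∀ w, dist (R w) z = dist w z) (hR2 : ∀ w, dist (R w) w = 2 * dist w z)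
    (hab : R a = b) (hba : R b = a) :
    ∀ e : M ≃ᵢ M, e a = a → e b = b → e z = z := by
  set s := { e : M ≃ᵢ M | e a = a ∧ e b = b } with hs
  have : Nonempty s := ⟨⟨IsometryEquiv.refl M, rfl, rfl⟩⟩
  have h_bdd : BddAbove (range fun e : s => dist ((e : M ≃ᵢ M) z) z) := by
    refine ⟨dist a z + dist a z, forall_mem_range.2 <| Subtype.forall.2 ?_⟩
    rintro e ⟨hx, _⟩
    calc
      dist (e z) z ≤ dist (e z) a + dist a z := dist_triangle (e z) a z
      _ = dist (e a) (e z) + dist a z := by rw [hx, dist_comm]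
      _ = dist a z + dist a z := by rw [e.dist_eq a z]
  set f : M ≃ᵢ M → M ≃ᵢ M := fun e => ((e.trans R).trans e.symm).trans R with hf
  have hf_dist : ∀ e, dist (f e z) z = 2 * dist (e z) z := by
    intro e
    have e1 : f e z = R (e.symm (R (e z))) := rfl
    rw [e1, hRz, ← e.dist_eq, e.apply_symm_apply, hR2]
  have hf_maps_to : MapsTo f s s := by
    rintro e ⟨hx, hy⟩
    have e1 : ∀ w, f e w = R (e.symm (R (e w))) := fun w => rfl
    constructor
    · rw [e1, hx, hab, e.symm_apply_eq.2 hy.symm, hba]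
    · rw [e1, hy, hba, e.symm_apply_eq.2 hx.symm, hab]
  set c := ⨆ e : s, dist ((e : M ≃ᵢ M) z) z with hc
  have h1 : c ≤ c / 2 := by
    apply ciSup_le
    rintro ⟨e, he⟩
    simp only [le_div_iff₀' (zero_lt_two' ℝ), ← hf_dist]
    exact le_ciSup h_bdd ⟨f e, hf_maps_to he⟩
  replace h1 : c ≤ 0 := by linarith
  refine fun e hx hy => dist_le_zero.1 (le_trans ?_ h1)
  exact le_ciSup h_bdd ⟨e, hx, hy⟩

section

variable {E F : Type*} [NormedAddCommGroup E] [NormedSpace ℝ E] [NormedAddCommGroup F]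
  [NormedSpace ℝ F]

/-- the lens -/
def Lens (a b : E) (ρ : ℝ) : Type _ := {v : E // ‖v - a‖ ≤ ρ ∧ ‖v - b‖ ≤ ρ}

noncomputable instance (a b : E) (ρ : ℝ) : MetricSpace (Lens a b ρ) :=
  inferInstanceAs (MetricSpace {v : E // ‖v - a‖ ≤ ρ ∧ ‖v - b‖ ≤ ρ})

omit [NormedSpace ℝ E] in
theorem Lens.dist_def {a b : E} {ρ : ℝ} (v w : Lens a b ρ) : dist v w = ‖v.1 - w.1‖ := by
  rw [← dist_eq_norm]; rfl

/-- the reflection of the lens -/
noncomputable def Lens.refl (a b : E) (ρ : ℝ) : Lens a b ρ ≃ᵢ Lens a b ρ where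
  toFun v := ⟨a + b - v.1, by
    constructor
    · have e : a + b - v.1 - a = -(v.1 - b) := by abel
      rw [e, norm_neg]; exact v.2.2
    · have e : a + b - v.1 - b = -(v.1 - a) := by abel
      rw [e, norm_neg]; exact v.2.1⟩
  invFun v := ⟨a + b - v.1, by
    constructor
    · have e : a + b - v.1 - a = -(v.1 - b) := by abel
      rw [e, norm_neg]; exact v.2.2
    · have e : a + b - v.1 - b = -(v.1 - a) := by abel
      rw [e, norm_neg]; exact v.2.1⟩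
  left_inv v := by
    apply Subtype.ext
    show a + b - (a + b - v.1) = v.1
    abel
  right_inv v := by
    apply Subtype.ext
    show a + b - (a + b - v.1) = v.1
    abel
  isometry_toFun := by
    refine Isometry.of_dist_eq fun v w => ?_
    rw [Lens.dist_def, Lens.dist_def]
    show ‖(a + b - v.1) - (a + b - w.1)‖ = ‖v.1 - w.1‖
    have e : (a + b - v.1) - (a + b - w.1) = -(v.1 - w.1) := by abel
    rw [e, norm_neg]

theorem Lens.refl_apply {a b : E} {ρ : ℝ} (v : Lens a b ρ) :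
    (Lens.refl a b ρ v).1 = a + b - v.1 := rfl

theorem local_midpoint {R : ℝ} {φ : E → F} {ψ : F → E}
    (h3 : ∀ v, ‖v‖ ≤ R → ψ (φ v) = v) (h4 : ∀ e, ‖e‖ ≤ R → φ (ψ e) = e)
    (h5 : ∀ v w, ‖v‖ ≤ R → ‖w‖ ≤ R → ‖φ v - φ w‖ = ‖v - w‖)
    (h6 : ∀ v w, ‖v‖ ≤ R → ‖w‖ ≤ R → ‖ψ v - ψ w‖ = ‖v - w‖)
    {a b : E} (ha : ‖a‖ ≤ R / 2) (hb : ‖b‖ ≤ R / 2) (hab : ‖a - b‖ ≤ R / 2)
    (ha' : ‖φ a‖ ≤ R / 2) (hb' : ‖φ b‖ ≤ R / 2) :
    φ ((1 / 2 : ℝ) • (a + b)) = (1 / 2 : ℝ) • (φ a + φ b) := by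
  have hR : 0 ≤ R := by linarith [norm_nonneg a]
  have haR : ‖a‖ ≤ R := by linarith
  have hbR : ‖b‖ ≤ R := by linarith
  have hLR : ∀ v : E, ‖v - a‖ ≤ R / 2 → ‖v‖ ≤ R := by
    intro v hv
    have := norm_add_le (v - a) a
    rw [sub_add_cancel] at this
    linarith
  have hLR' : ∀ v : F, ‖v - φ a‖ ≤ R / 2 → ‖v‖ ≤ R := by
    intro v hv
    have := norm_add_le (v - φ a) (φ a)
    rw [sub_add_cancel] at this
    linarith
  -- the isometry between lenses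
  let Φ : Lens a b (R / 2) ≃ᵢ Lens (φ a) (φ b) (R / 2) :=
    { toFun := fun v => ⟨φ v.1, by
        rw [h5 _ _ (hLR _ v.2.1) haR, h5 _ _ (hLR _ v.2.1) hbR]; exact v.2⟩
      invFun := fun e => ⟨ψ e.1, by
        have e1 : ‖ψ e.1 - ψ (φ a)‖ = ‖e.1 - φ a‖ := h6 _ _ (hLR' _ e.2.1) (by linarith)
        have e2 : ‖ψ e.1 - ψ (φ b)‖ = ‖e.1 - φ b‖ := h6 _ _ (hLR' _ e.2.1) (by linarith)
        rw [h3 _ haR] at e1
        rw [h3 _ hbR] at e2
        rw [e1, e2]; exact e.2⟩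
      left_inv := fun v => Subtype.ext (h3 _ (hLR _ v.2.1))
      right_inv := fun e => Subtype.ext (h4 _ (hLR' _ e.2.1))
      isometry_toFun := by
        refine Isometry.of_dist_eq fun v w => ?_
        rw [Lens.dist_def, Lens.dist_def]
        exact h5 _ _ (hLR _ v.2.1) (hLR _ w.2.1) }
  have hΦ : ∀ v, (Φ v).1 = φ v.1 := fun v => rfl
  set z : E := (1 / 2 : ℝ) • (a + b) with hz
  have hza : z - a = (1 / 2 : ℝ) • (b - a) := by
    rw [hz]; module
  have hzb : z - b = (1 / 2 : ℝ) • (a - b) := by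
    rw [hz]; module
  have hzL : ‖z - a‖ ≤ R / 2 ∧ ‖z - b‖ ≤ R / 2 := by
    rw [hza, hzb, norm_smul, norm_smul, norm_sub_rev b a, Real.norm_of_nonneg (by norm_num)]
    constructor <;> linarith [norm_nonneg (a - b)]
  have ρ0 : (0 : ℝ) ≤ R / 2 := by linarith
  let A : Lens a b (R / 2) := ⟨a, by rw [sub_self, norm_zero]; exact ρ0, hab⟩
  let B : Lens a b (R / 2) := ⟨b, by rw [norm_sub_rev]; exact hab, by
    rw [sub_self, norm_zero]; exact ρ0⟩
  let Z : Lens a b (R / 2) := ⟨z, hzL⟩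
  let Rz := Lens.refl a b (R / 2)
  let Rz' := Lens.refl (φ a) (φ b) (R / 2)
  have hfix := reflect_fixed Rz Z A B
    (by
      intro w
      rw [Lens.dist_def, Lens.dist_def, Lens.refl_apply]
      show ‖a + b - w.1 - z‖ = ‖w.1 - z‖
      have e : a + b - w.1 - z = -(w.1 - z) := by rw [hz]; module
      rw [e, norm_neg])
    (by
      intro w
      rw [Lens.dist_def, Lens.dist_def, Lens.refl_apply]
      show ‖a + b - w.1 - w.1‖ = 2 * ‖w.1 - z‖
      have e : a + b - w.1 - w.1 = (-2 : ℝ) • (w.1 - z) := by rw [hz]; module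
      rw [e, norm_smul]; norm_num)
    (Subtype.ext (by show a + b - a = b; abel))
    (Subtype.ext (by show a + b - b = a; abel))
    (((Φ.trans Rz').trans Φ.symm).trans Rz)
    (by
      show Rz (Φ.symm (Rz' (Φ A))) = A
      have e1 : Rz' (Φ A) = Φ B := Subtype.ext (by
        show φ a + φ b - φ a = φ b; abel)
      rw [e1, Φ.symm_apply_apply]
      exact Subtype.ext (by show a + b - b = a; abel))
    (by
      show Rz (Φ.symm (Rz' (Φ B))) = B
      have e1 : Rz' (Φ B) = Φ A := Subtype.ext (by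
        show φ a + φ b - φ b = φ a; abel)
      rw [e1, Φ.symm_apply_apply]
      exact Subtype.ext (by show a + b - a = b; abel))
  have hfix' : Rz (Φ.symm (Rz' (Φ Z))) = Z := hfix
  have h8 : Φ.symm (Rz' (Φ Z)) = Z := by
    have e1 : Rz Z = Z := Subtype.ext (by
      show a + b - z = z
      rw [hz]; module)
    apply Rz.injective
    rw [hfix', e1]
  have h9 : Rz' (Φ Z) = Φ Z := by
    rw [← Φ.symm_apply_eq]; exact h8
  have h10 : φ a + φ b - φ z = φ z := congrArg Subtype.val h9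
  have h11 : φ a + φ b = (2 : ℝ) • φ z := by
    rw [two_smul]
    nth_rewrite 1 [← h10]
    abel
  rw [h11, smul_smul]; norm_num

theorem dyadic_aux {G H : Type*} [NormedAddCommGroup G] [NormedSpace ℝ G] [NormedAddCommGroup H]
    [NormedSpace ℝ H] {R : ℝ} (θ : G → H)
    (hθ : ∀ v, ‖v‖ ≤ R / 2 → θ ((1 / 2 : ℝ) • v) = (1 / 2 : ℝ) • θ v) :
    ∀ (k n : ℕ) (v : G), ‖((1 / 2 : ℝ) ^ n) • v‖ ≤ R / 2 →
      (2 : ℝ) ^ (n + k) • θ (((1 / 2 : ℝ) ^ (n + k)) • v) = (2 : ℝ) ^ n • θ (((1 / 2 : ℝ) ^ n) • v) := by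
  intro k
  induction k with
  | zero => intro n v _; rfl
  | succ k ih =>
    intro n v hv
    have h1 : ‖((1 / 2 : ℝ) ^ (n + k)) • v‖ ≤ R / 2 := by
      rw [norm_smul] at hv ⊢
      refine le_trans ?_ hv
      apply mul_le_mul_of_nonneg_right _ (norm_nonneg _)
      rw [Real.norm_of_nonneg (by positivity), Real.norm_of_nonneg (by positivity), pow_add]
      have : (1 / 2 : ℝ) ^ k ≤ 1 := pow_le_one₀ (by norm_num) (by norm_num)
      have h2 : (0 : ℝ) < (1 / 2) ^ n := by positivity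
      nlinarith
    have h2 := hθ _ h1
    rw [← ih n v hv]
    have e1 : ((1 / 2 : ℝ) ^ (n + (k + 1))) • v = (1 / 2 : ℝ) • (((1 / 2 : ℝ) ^ (n + k)) • v) := by
      rw [smul_smul]; congr 1; ring
    rw [e1, h2, smul_smul]
    congr 1
    rw [← add_assoc, pow_succ]; ring

theorem exists_dyadic {G : Type*} [NormedAddCommGroup G] [NormedSpace ℝ G] {R : ℝ} (hR : 0 < R)
    (v : G) : ∃ n : ℕ, ∀ m, n ≤ m → ‖((1 / 2 : ℝ) ^ m) • v‖ ≤ R / 2 := by
  have h1 : Tendsto (fun m : ℕ => ‖((1 / 2 : ℝ) ^ m) • v‖) atTop (𝓝 0) := by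
    have h2 : Tendsto (fun m : ℕ => ((1 / 2 : ℝ) ^ m)) atTop (𝓝 0) :=
      tendsto_pow_atTop_nhds_zero_of_lt_one (by norm_num) (by norm_num)
    have h3 := (h2.smul_const v).norm
    simpa using h3
  have h2 := h1.eventually (ge_mem_nhds (show (0 : ℝ) < R / 2 by linarith))
  exact eventually_atTop.mp h2

/-- **Local Mazur–Ulam.** -/
theorem local_MU {R : ℝ} (hR : 0 < R) {φ : E → F} {ψ : F → E} (h0 : φ 0 = 0)
    (h3 : ∀ v, ‖v‖ ≤ R → ψ (φ v) = v) (h4 : ∀ e, ‖e‖ ≤ R → φ (ψ e) = e)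
    (h5 : ∀ v w, ‖v‖ ≤ R → ‖w‖ ≤ R → ‖φ v - φ w‖ = ‖v - w‖)
    (h6 : ∀ v w, ‖v‖ ≤ R → ‖w‖ ≤ R → ‖ψ v - ψ w‖ = ‖v - w‖) :
    ∃ L : E ≃ₗᵢ[ℝ] F, ∀ v, ‖v‖ ≤ R / 2 → φ v = L v := by
  have hψ0 : ψ 0 = 0 := by
    have := h3 0 (by simpa using hR.le)
    rwa [h0] at this
  have hnφ : ∀ v, ‖v‖ ≤ R → ‖φ v‖ = ‖v‖ := by
    intro v hv
    have := h5 v 0 hv (by simpa using hR.le)
    simpa [h0] using this
  have hnψ : ∀ v, ‖v‖ ≤ R → ‖ψ v‖ = ‖v‖ := by
    intro v hv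
    have := h6 v 0 hv (by simpa using hR.le)
    simpa [hψ0] using this
  -- halving
  have half : ∀ v, ‖v‖ ≤ R / 2 → φ ((1 / 2 : ℝ) • v) = (1 / 2 : ℝ) • φ v := by
    intro v hv
    have := local_midpoint h3 h4 h5 h6 (a := v) (b := 0) hv (by simp; linarith)
      (by simpa using hv) (by rw [hnφ v (by linarith)]; exact hv) (by rw [h0]; simp; linarith)
    simpa [h0] using this
  have halfψ : ∀ v, ‖v‖ ≤ R / 2 → ψ ((1 / 2 : ℝ) • v) = (1 / 2 : ℝ) • ψ v := by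
    intro v hv
    have := local_midpoint h4 h3 h6 h5 (a := v) (b := 0) hv (by simp; linarith)
      (by simpa using hv) (by rw [hnψ v (by linarith)]; exact hv) (by rw [hψ0]; simp; linarith)
    simpa [hψ0] using this
  choose NE hNE using fun v : E => exists_dyadic hR v
  choose NF hNF using fun v : F => exists_dyadic hR v
  let Lf : E → F := fun v => (2 : ℝ) ^ (NE v) • φ (((1 / 2 : ℝ) ^ (NE v)) • v)
  let Lg : F → E := fun v => (2 : ℝ) ^ (NF v) • ψ (((1 / 2 : ℝ) ^ (NF v)) • v)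
  have hLf : ∀ v : E, ∀ m, ‖((1 / 2 : ℝ) ^ m) • v‖ ≤ R / 2 →
      Lf v = (2 : ℝ) ^ m • φ (((1 / 2 : ℝ) ^ m) • v) := by
    intro v m hm
    have h1 := dyadic_aux φ half (NE v) m v hm
    have h2 := dyadic_aux φ half m (NE v) v (hNE v _ le_rfl)
    show (2 : ℝ) ^ (NE v) • φ (((1 / 2 : ℝ) ^ (NE v)) • v) = _
    rw [← h1, ← h2, add_comm]
  have hLg : ∀ v : F, ∀ m, ‖((1 / 2 : ℝ) ^ m) • v‖ ≤ R / 2 →
      Lg v = (2 : ℝ) ^ m • ψ (((1 / 2 : ℝ) ^ m) • v) := by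
    intro v m hm
    have h1 := dyadic_aux ψ halfψ (NF v) m v hm
    have h2 := dyadic_aux ψ halfψ m (NF v) v (hNF v _ le_rfl)
    show (2 : ℝ) ^ (NF v) • ψ (((1 / 2 : ℝ) ^ (NF v)) • v) = _
    rw [← h1, ← h2, add_comm]
  have pp : ∀ m : ℕ, (2 : ℝ) ^ m * (1 / 2) ^ m = 1 := by
    intro m; rw [← mul_pow]; norm_num
  have pp' : ∀ m : ℕ, (1 / 2 : ℝ) ^ m * 2 ^ m = 1 := by
    intro m; rw [← mul_pow]; norm_num
  have hR2 : R / 2 ≤ R := by linarith
  have hgf : ∀ v, Lg (Lf v) = v := by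
    intro v
    have h1 := hNE v _ le_rfl
    have h2 : ((1 / 2 : ℝ) ^ (NE v)) • Lf v = φ (((1 / 2 : ℝ) ^ (NE v)) • v) := by
      show ((1 / 2 : ℝ) ^ (NE v)) • ((2 : ℝ) ^ (NE v) • _) = _
      rw [smul_smul, pp', one_smul]
    rw [hLg (Lf v) (NE v) (by rw [h2, hnφ _ (h1.trans hR2)]; exact h1), h2, h3 _ (h1.trans hR2),
      smul_smul, pp, one_smul]
  have hfg : ∀ v, Lf (Lg v) = v := by
    intro v
    have h1 := hNF v _ le_rfl
    have h2 : ((1 / 2 : ℝ) ^ (NF v)) • Lg v = ψ (((1 / 2 : ℝ) ^ (NF v)) • v) := by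
      show ((1 / 2 : ℝ) ^ (NF v)) • ((2 : ℝ) ^ (NF v) • _) = _
      rw [smul_smul, pp', one_smul]
    rw [hLf (Lg v) (NF v) (by rw [h2, hnψ _ (h1.trans hR2)]; exact h1), h2, h4 _ (h1.trans hR2),
      smul_smul, pp, one_smul]
  have hiso : ∀ v w, ‖Lf v - Lf w‖ = ‖v - w‖ := by
    intro v w
    set m := max (NE v) (NE w) with hm
    have h1 := hNE v m (le_max_left _ _)
    have h2 := hNE w m (le_max_right _ _)
    rw [hLf v m h1, hLf w m h2, ← smul_sub, norm_smul, h5 _ _ (h1.trans hR2) (h2.trans hR2),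
      ← smul_sub, norm_smul, ← mul_assoc, Real.norm_of_nonneg (by positivity),
      Real.norm_of_nonneg (by positivity), pp, one_mul]
  let Φ : E ≃ᵢ F :=
    { toFun := Lf
      invFun := Lg
      left_inv := hgf
      right_inv := hfg
      isometry_toFun := Isometry.of_dist_eq fun v w => by
        rw [dist_eq_norm, dist_eq_norm]; exact hiso v w }
  have hΦ0 : Φ 0 = 0 := by
    show Lf 0 = 0
    rw [hLf 0 0 (by simp; linarith)]
    simp [h0]
  refine ⟨Φ.toRealLinearIsometryEquivOfMapZero hΦ0, fun v hv => ?_⟩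
  rw [IsometryEquiv.coe_toRealLinearIsometryEquivOfMapZero]
  show φ v = Lf v
  rw [hLf v 0 (by simpa using hv)]
  simp

/-- convexity: if `‖D + s E‖ = ‖D + (s-1) E‖` with `s ≥ 1` then `s ‖E‖ ≤ 2 ‖D‖`. -/
theorem conv_shift {D e : E} {s : ℝ} (hs : 1 ≤ s) (h : ‖D + s • e‖ ≤ ‖D + (s - 1) • e‖) :
    s * ‖e‖ ≤ 2 * ‖D‖ := by
  have hs0 : 0 < s := by linarith
  have e1 : D + (s - 1) • e = (1 / s) • D + (1 - 1 / s) • (D + s • e) := by
    have : (1 - 1 / s) * s = s - 1 := by field_simp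
    rw [smul_add, smul_smul, this, ← add_assoc, ← add_smul]
    have h2 : 1 / s + (1 - 1 / s) = 1 := by ring
    rw [h2, one_smul]
  have h1 : ‖D + (s - 1) • e‖ ≤ (1 / s) * ‖D‖ + (1 - 1 / s) * ‖D + s • e‖ := by
    have h2 : 0 ≤ 1 - 1 / s := by
      have : 1 / s ≤ 1 := by rw [div_le_one hs0]; exact hs
      linarith
    rw [e1]
    refine (norm_add_le _ _).trans ?_
    rw [norm_smul, norm_smul, Real.norm_of_nonneg h2, Real.norm_of_nonneg (by positivity)]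
  have h2 : ‖D + s • e‖ ≤ ‖D‖ := by
    have h3 : (1 / s) * ‖D + s • e‖ ≤ (1 / s) * ‖D‖ := by
      have : (1 - 1 / s) * ‖D + s • e‖ = ‖D + s • e‖ - (1 / s) * ‖D + s • e‖ := by ring
      linarith
    have h4 : 0 < 1 / s := by positivity
    exact le_of_mul_le_mul_left h3 h4
  have h3 : ‖s • e‖ ≤ ‖D + s • e‖ + ‖D‖ := by
    have := norm_sub_le (D + s • e) D
    rwa [add_sub_cancel_left] at this
  rw [norm_smul, Real.norm_of_nonneg hs0.le] at h3
  linarith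

end

end Crest.Agent.R074
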