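import Crest.Agent.R074.Base
import Crest.Agent.R074.LocMU

/-!
Row 74 (S0099): local structure given a local family `K` of pairs of functionals `(p, q)` with
`q ∘ f = p` on the sphere near `y` (`LA f g y r K`), such that the `p`'s recover the norm near `y`.
Results: flatness of the spheres along `N = ⋂ ker p` (`LA.norm_add`), `f (s+v) = f s + L v` with one
linear isometry `L : N → N'` near `y` (`LA.exists_L`), and local constancy of
`D_h(z) = f (z+h) - f z` (`LA.Dh`).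
-/

set_option autoImplicit false

namespace Crest.Agent.R074

open Metric Set Filter Topology

variable {X Y : Type*} [NormedAddCommGroup X] [NormedSpace ℝ X] [NormedAddCommGroup Y]
  [NormedSpace ℝ Y]

/-- local family of pairs of functionals -/
structure LA (f : X → Y) (g : Y → X) (y : X) (r : ℝ) (K : Set ((X →L[ℝ] ℝ) × (Y →L[ℝ] ℝ))) :
    Prop where
  si : SI f g
  hy : ‖y‖ = 1
  n1 : ∀ k ∈ K, ‖k.1‖ ≤ 1
  n2 : ∀ k ∈ K, ‖k.2‖ ≤ 1
  eq : ∀ k ∈ K, ∀ x, ‖x‖ = 1 → ‖x - y‖ < r → k.2 (f x) = k.1 x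
  dense : ∀ s, ‖s‖ = 1 → ‖s - y‖ < r → ∀ δ : ℝ, 0 < δ → ∃ k ∈ K, 1 - δ < k.1 s

/-- common kernel on the `X` side -/
def kerX (K : Set ((X →L[ℝ] ℝ) × (Y →L[ℝ] ℝ))) : Submodule ℝ X where
  carrier := {v | ∀ k ∈ K, k.1 v = 0}
  add_mem' := by
    intro a b ha hb k hk
    rw [map_add, ha k hk, hb k hk, add_zero]
  zero_mem' := fun k _ => map_zero _
  smul_mem' := by
    intro c a ha k hk
    rw [map_smul, ha k hk, smul_zero]

/-- common kernel on the `Y` side -/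
def kerY (K : Set ((X →L[ℝ] ℝ) × (Y →L[ℝ] ℝ))) : Submodule ℝ Y where
  carrier := {v | ∀ k ∈ K, k.2 v = 0}
  add_mem' := by
    intro a b ha hb k hk
    rw [map_add, ha k hk, hb k hk, add_zero]
  zero_mem' := fun k _ => map_zero _
  smul_mem' := by
    intro c a ha k hk
    rw [map_smul, ha k hk, smul_zero]

theorem mem_kerX {K : Set ((X →L[ℝ] ℝ) × (Y →L[ℝ] ℝ))} {v : X} :
    v ∈ kerX K ↔ ∀ k ∈ K, k.1 v = 0 := Iff.rfl

theorem mem_kerY {K : Set ((X →L[ℝ] ℝ) × (Y →L[ℝ] ℝ))} {v : Y} :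
    v ∈ kerY K ↔ ∀ k ∈ K, k.2 v = 0 := Iff.rfl

variable {f : X → Y} {g : Y → X} {y : X} {r : ℝ} {K : Set ((X →L[ℝ] ℝ) × (Y →L[ℝ] ℝ))}

theorem LA.symm (h : LA f g y r K) : LA g f (f y) r (Prod.swap '' K) where
  si := h.si.symm
  hy := h.si.map _ h.hy
  n1 := by rintro _ ⟨k, hk, rfl⟩; exact h.n2 k hk
  n2 := by rintro _ ⟨k, hk, rfl⟩; exact h.n1 k hk
  eq := by
    rintro _ ⟨k, hk, rfl⟩ x hx hxr
    show k.1 (g x) = k.2 x
    have h1 : ‖g x - y‖ < r := by
      have := h.si.dist (g x) y (h.si.imap _ hx) h.hy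
      rw [h.si.right _ hx] at this
      rwa [← this]
    have h2 := h.eq k hk (g x) (h.si.imap _ hx) h1
    rw [h.si.right _ hx] at h2
    exact h2.symm
  dense := by
    intro s hs hsr δ hδ
    have h1 : ‖g s - y‖ < r := by
      have := h.si.dist (g s) y (h.si.imap _ hs) h.hy
      rw [h.si.right _ hs] at this
      rwa [← this]
    obtain ⟨k, hk, hk2⟩ := h.dense (g s) (h.si.imap _ hs) h1 δ hδ
    refine ⟨_, mem_image_of_mem _ hk, ?_⟩
    show 1 - δ < k.2 s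
    have h2 := h.eq k hk (g s) (h.si.imap _ hs) h1
    rw [h.si.right _ hs] at h2
    rw [h2]; exact hk2

theorem LA.mono (h : LA f g y r K) {y' : X} (hy' : ‖y'‖ = 1) {r' : ℝ} (hr : ‖y' - y‖ + r' ≤ r) :
    LA f g y' r' K where
  si := h.si
  hy := hy'
  n1 := h.n1
  n2 := h.n2
  eq := by
    intro k hk x hx hxr
    apply h.eq k hk x hx
    have := norm_add_le (x - y') (y' - y)
    rw [sub_add_sub_cancel] at this
    linarith
  dense := by
    intro s hs hsr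
    apply h.dense s hs
    have := norm_add_le (s - y') (y' - y)
    rw [sub_add_sub_cancel] at this
    linarith

/-- the norm does not decrease along `N` -/
theorem LA.le_norm_add (h : LA f g y r K) {s v : X} (hs : ‖s‖ = 1) (hsr : ‖s - y‖ < r)
    (hv : v ∈ kerX K) : 1 ≤ ‖s + v‖ := by
  refine le_of_forall_pos_lt_add fun δ hδ => ?_
  obtain ⟨k, hk, hk2⟩ := h.dense s hs hsr δ hδ
  have h1 : k.1 (s + v) ≤ ‖s + v‖ := by
    have h2 : k.1 (s + v) ≤ ‖k.1 (s + v)‖ := Real.le_norm_self _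
    have h3 : ‖k.1 (s + v)‖ ≤ ‖k.1‖ * ‖s + v‖ := k.1.le_opNorm _
    have h4 : ‖k.1‖ * ‖s + v‖ ≤ 1 * ‖s + v‖ :=
      mul_le_mul_of_nonneg_right (h.n1 k hk) (norm_nonneg _)
    linarith
  rw [map_add, hv k hk, add_zero] at h1
  linarith

/-- flatness along `N` -/
theorem LA.norm_add (h : LA f g y r K) {s v : X} (hs : ‖s‖ = 1) (hv : v ∈ kerX K)
    (hsr : ‖s - y‖ + 2 * ‖v‖ < r) : ‖s + v‖ = 1 := by
  have hv0 := norm_nonneg v
  have hsr' : ‖s - y‖ < r := by linarith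
  have h1 := h.le_norm_add hs hsr' hv
  apply le_antisymm _ h1
  set n := ‖s + v‖ with hn
  have hn0 : 0 < n := by linarith
  set s' : X := (1 / n) • (s + v) with hs'
  have hs'1 : ‖s'‖ = 1 := by
    rw [hs', norm_smul, Real.norm_of_nonneg (by positivity), ← hn]
    field_simp
  have hnv : n - 1 ≤ ‖v‖ := by
    have := norm_add_le s v
    rw [← hn, hs] at this
    linarith
  have h2 : ‖s' - (s + v)‖ = n - 1 := by
    have e : s' - (s + v) = (1 / n - 1) • (s + v) := by rw [hs']; module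
    rw [e, norm_smul, ← hn, Real.norm_eq_abs, abs_of_nonpos]
    · field_simp; ring
    · have : 1 / n ≤ 1 := by rw [div_le_one hn0]; exact h1
      linarith
  have h3 : ‖s' - y‖ < r := by
    have e : s' - y = (s' - (s + v)) + ((s - y) + v) := by abel
    rw [e]
    refine (norm_add_le _ _).trans_lt ?_
    have := norm_add_le (s - y) v
    linarith
  have h4 : (-(1 / n : ℝ)) • v ∈ kerX K := Submodule.smul_mem _ _ hv
  have h5 := h.le_norm_add hs'1 h3 h4
  have e : s' + (-(1 / n : ℝ)) • v = (1 / n) • s := by rw [hs']; module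
  rw [e, norm_smul, hs, mul_one, Real.norm_of_nonneg (by positivity)] at h5
  rwa [le_div_iff₀ hn0, one_mul] at h5

theorem LA.map_sub_mem (h : LA f g y r K) {s s' : X} (hs : ‖s‖ = 1) (hs' : ‖s'‖ = 1)
    (hsr : ‖s - y‖ < r) (hsr' : ‖s' - y‖ < r) (hv : s' - s ∈ kerX K) : f s' - f s ∈ kerY K := by
  intro k hk
  rw [map_sub, h.eq k hk s hs hsr, h.eq k hk s' hs' hsr', ← map_sub]
  exact hv k hk

/-- linearity of `f` along the flats -/
theorem LA.exists_L₁ (h : LA f g y r K) (hr : 0 < r) {s : X} (hs : ‖s‖ = 1)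
    (hsr : ‖s - y‖ ≤ r / 2) :
    ∃ L : kerX K ≃ₗᵢ[ℝ] kerY K, ∀ v : kerX K, ‖v‖ ≤ r / 10 → f (s + v) = f s + L v := by
  set R : ℝ := r / 5 with hR
  have hR0 : 0 < R := by positivity
  have key1 : ∀ v : kerX K, ‖v‖ ≤ R → ‖s + (v : X)‖ = 1 ∧ ‖s + (v : X) - y‖ < r := by
    intro v hv
    have hv' : ‖(v : X)‖ ≤ R := hv
    constructor
    · apply h.norm_add hs v.2
      linarith
    · have e : s + (v : X) - y = (s - y) + v := by abel
      rw [e]
      refine (_root_.norm_add_le _ _).trans_lt ?_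
      linarith
  have hs2 : ‖s - y‖ < r := by linarith
  have hfs : ‖f s‖ = 1 := h.si.map _ hs
  have hfsr : ‖f s - f y‖ ≤ r / 2 := by rw [h.si.dist _ _ hs h.hy]; exact hsr
  have hK : kerX (Prod.swap '' K) = kerY K := by
    ext v
    rw [mem_kerX, mem_kerY]
    constructor
    · intro hv k hk
      exact hv (k.2, k.1) ⟨k, hk, rfl⟩
    · rintro hv _ ⟨k, hk, rfl⟩
      exact hv k hk
  have hK' : kerY (Prod.swap '' K) = kerX K := by
    ext v
    rw [mem_kerX, mem_kerY]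
    constructor
    · intro hv k hk
      exact hv (k.2, k.1) ⟨k, hk, rfl⟩
    · rintro hv _ ⟨k, hk, rfl⟩
      exact hv k hk
  have key2 : ∀ e : kerY K, ‖e‖ ≤ R → ‖f s + (e : Y)‖ = 1 ∧ ‖f s + (e : Y) - f y‖ < r := by
    intro e he
    have he1 : ‖(e : Y)‖ ≤ R := he
    constructor
    · apply h.symm.norm_add hfs (by rw [hK]; exact e.2)
      linarith
    · have e' : f s + (e : Y) - f y = (f s - f y) + e := by abel
      rw [e']
      refine (_root_.norm_add_le _ _).trans_lt ?_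
      linarith
  have mem1 : ∀ v : kerX K, ‖v‖ ≤ R → f (s + v) - f s ∈ kerY K := by
    intro v hv
    apply h.map_sub_mem hs (key1 v hv).1 hs2 (key1 v hv).2
    rw [add_sub_cancel_left]; exact v.2
  have mem2 : ∀ e : kerY K, ‖e‖ ≤ R → g (f s + e) - s ∈ kerX K := by
    intro e he
    have h1 := h.symm.map_sub_mem hfs (key2 e he).1 (by linarith) (key2 e he).2
      (by rw [add_sub_cancel_left, hK]; exact e.2)
    rw [h.si.left _ hs, hK'] at h1
    exact h1
  classical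
  let φ : kerX K → kerY K := fun v => if hv : ‖v‖ ≤ R then ⟨f (s + v) - f s, mem1 v hv⟩ else 0
  let ψ : kerY K → kerX K := fun e => if he : ‖e‖ ≤ R then ⟨g (f s + e) - s, mem2 e he⟩ else 0
  have hφ : ∀ v, ‖v‖ ≤ R → (φ v : Y) = f (s + v) - f s := by
    intro v hv; simp only [φ, dif_pos hv]
  have hψ : ∀ e, ‖e‖ ≤ R → (ψ e : X) = g (f s + e) - s := by
    intro e he; simp only [ψ, dif_pos he]
  have hφd : ∀ v w, ‖v‖ ≤ R → ‖w‖ ≤ R → ‖φ v - φ w‖ = ‖v - w‖ := by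
    intro v w hv hw
    show ‖((φ v - φ w : kerY K) : Y)‖ = ‖((v - w : kerX K) : X)‖
    rw [Submodule.coe_sub, Submodule.coe_sub, hφ v hv, hφ w hw]
    have e1 : f (s + v) - f s - (f (s + w) - f s) = f (s + v) - f (s + w) := by abel
    rw [e1, h.si.dist _ _ (key1 v hv).1 (key1 w hw).1, add_sub_add_left_eq_sub]
  have hψd : ∀ v w, ‖v‖ ≤ R → ‖w‖ ≤ R → ‖ψ v - ψ w‖ = ‖v - w‖ := by
    intro v w hv hw
    show ‖((ψ v - ψ w : kerX K) : X)‖ = ‖((v - w : kerY K) : Y)‖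
    rw [Submodule.coe_sub, Submodule.coe_sub, hψ v hv, hψ w hw]
    have e1 : g (f s + v) - s - (g (f s + w) - s) = g (f s + v) - g (f s + w) := by abel
    rw [e1, h.si.symm.dist _ _ (key2 v hv).1 (key2 w hw).1, add_sub_add_left_eq_sub]
  have hφ0 : φ 0 = 0 := by
    apply Subtype.ext
    rw [hφ 0 (by simpa using hR0.le)]
    simp
  have hψ0 : ψ 0 = 0 := by
    apply Subtype.ext
    rw [hψ 0 (by simpa using hR0.le)]
    simp [h.si.left _ hs]
  have hφn : ∀ v, ‖v‖ ≤ R → ‖φ v‖ = ‖v‖ := by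
    intro v hv
    have := hφd v 0 hv (by simpa using hR0.le)
    simpa [hφ0] using this
  have hψn : ∀ v, ‖v‖ ≤ R → ‖ψ v‖ = ‖v‖ := by
    intro v hv
    have := hψd v 0 hv (by simpa using hR0.le)
    simpa [hψ0] using this
  obtain ⟨L, hL⟩ := local_MU hR0 (φ := φ) (ψ := ψ) hφ0
    (by
      intro v hv
      apply Subtype.ext
      rw [hψ _ (by rw [hφn v hv]; exact hv), hφ v hv]
      have e1 : f s + (f (s + v) - f s) = f (s + v) := by abel
      rw [e1, h.si.left _ (key1 v hv).1, add_sub_cancel_left])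
    (by
      intro v hv
      apply Subtype.ext
      rw [hφ _ (by rw [hψn v hv]; exact hv), hψ v hv]
      have e1 : s + (g (f s + v) - s) = g (f s + v) := by abel
      rw [e1, h.si.right _ (key2 v hv).1, add_sub_cancel_left])
    hφd hψd
  refine ⟨L, fun v hv => ?_⟩
  have hv' : ‖v‖ ≤ R := by rw [hR]; linarith
  have h1 := hL v (by rw [hR]; linarith)
  have h2 := hφ v hv'
  rw [h1] at h2
  rw [h2]; abel

/-- two `L`'s at nearby points coincide -/
theorem LA.L_unique (h : LA f g y r K) {ρ : ℝ} (hρ : 0 < ρ) {s₁ s₂ : X}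
    (hs₁ : ∀ v : kerX K, ‖v‖ ≤ ρ → ‖s₁ + (v : X)‖ = 1)
    (hs₂ : ∀ v : kerX K, ‖v‖ ≤ ρ → ‖s₂ + (v : X)‖ = 1)
    {L₁ L₂ : kerX K ≃ₗᵢ[ℝ] kerY K}
    (h₁ : ∀ v : kerX K, ‖v‖ ≤ ρ → f (s₁ + v) = f s₁ + L₁ v)
    (h₂ : ∀ v : kerX K, ‖v‖ ≤ ρ → f (s₂ + v) = f s₂ + L₂ v)
    (hclose : ‖s₁ - s₂‖ < ρ / 4) : L₁ = L₂ := by
  have h10 : ‖s₁‖ = 1 := by simpa using hs₁ 0 (by simpa using hρ.le)
  have h20 : ‖s₂‖ = 1 := by simpa using hs₂ 0 (by simpa using hρ.le)
  -- it suffices to look at small vectors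
  have small : ∀ n : kerX K, ‖n‖ ≤ ρ / 4 → L₁ n = L₂ n := by
    intro n hn
    by_contra hne
    set E : kerY K := L₁ n - L₂ n with hE
    have hE0 : E ≠ 0 := sub_ne_zero.mpr hne
    have hEpos : 0 < ‖E‖ := norm_pos_iff.mpr hE0
    have hEle : ‖E‖ ≤ ρ / 2 := by
      have := norm_sub_le (L₁ n) (L₂ n)
      rw [L₁.norm_map, L₂.norm_map] at this
      linarith
    set t : ℝ := ρ / (2 * ‖E‖) with ht
    have htE : t * ‖E‖ = ρ / 2 := by rw [ht]; field_simp
    have ht1 : 1 ≤ t := by rw [ht, le_div_iff₀ (by positivity)]; linarith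
    set m : kerX K := t • L₂.symm E with hm
    have hLm : L₂ m = t • E := by rw [hm, map_smul, L₂.apply_symm_apply]
    have hmn : ‖m‖ = ρ / 2 := by
      rw [← L₂.norm_map, hLm, norm_smul, Real.norm_of_nonneg (by linarith), htE]
    set D : Y := f s₁ - f s₂ with hD
    have hDn : ‖D‖ < ρ / 4 := by rw [hD, h.si.dist _ _ h10 h20]; exact hclose
    -- n = 0
    have a1 : ‖D + t • (E : Y)‖ = ‖s₁ - s₂ + m‖ := by
      have b1 := h₂ (-m) (by rw [norm_neg, hmn]; linarith)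
      have b2 := h.si.dist s₁ (s₂ + (-m : kerX K)) h10
        (hs₂ (-m) (by rw [norm_neg, hmn]; linarith))
      rw [b1, map_neg, hLm] at b2
      have e1 : f s₁ - (f s₂ + ((-(t • E) : kerY K) : Y)) = D + t • (E : Y) := by
        rw [hD]; push_cast; abel
      have e2 : s₁ - (s₂ + ((-m : kerX K) : X)) = s₁ - s₂ + m := by push_cast; abel
      rw [e1, e2] at b2
      exact b2
    have a2 : ‖D + (t - 1) • (E : Y)‖ = ‖s₁ - s₂ + m‖ := by
      have b0 := h₁ (-n) (by rw [norm_neg]; linarith)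
      have b1 := h₂ (-n - m) (by
        refine (norm_sub_le _ _).trans ?_
        rw [norm_neg, hmn]; linarith)
      have b2 := h.si.dist (s₁ + (-n : kerX K)) (s₂ + (-n - m : kerX K))
        (hs₁ (-n) (by rw [norm_neg]; linarith))
        (hs₂ (-n - m) (by
          refine (norm_sub_le _ _).trans ?_
          rw [norm_neg, hmn]; linarith))
      rw [b0, b1, map_sub, map_neg, map_neg, hLm] at b2
      have e1 : f s₁ + ((-(L₁ n) : kerY K) : Y) - (f s₂ + ((-(L₂ n) - t • E : kerY K) : Y))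
          = D + (t - 1) • (E : Y) := by
        rw [hD, sub_smul, one_smul]
        have : (E : Y) = (L₁ n : Y) - (L₂ n : Y) := by rw [hE]; push_cast; rfl
        push_cast
        rw [this]
        abel
      have e2 : s₁ + ((-n : kerX K) : X) - (s₂ + ((-n - m : kerX K) : X)) = s₁ - s₂ + m := by
        push_cast; abel
      rw [e1, e2] at b2
      exact b2
    have h3 := conv_shift ht1 (le_of_eq (a1.trans a2.symm))
    have h4 : ‖(E : Y)‖ = ‖E‖ := rfl
    rw [h4, htE] at h3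
    linarith
  ext n
  rcases eq_or_ne n 0 with rfl | hn
  · simp
  have hn0 : 0 < ‖n‖ := norm_pos_iff.mpr hn
  set c : ℝ := ρ / (4 * ‖n‖) with hc
  have hc0 : 0 < c := by positivity
  have h1 := small (c • n) (by
    rw [norm_smul, Real.norm_of_nonneg hc0.le, hc]
    field_simp
    exact le_rfl)
  rw [map_smul, map_smul] at h1
  have h2 := smul_right_injective (kerY K) hc0.ne' h1
  rw [h2]

/-- one `L` for all points near `y` -/
theorem LA.exists_L (h : LA f g y r K) (hr : 0 < r) :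
    ∃ L : kerX K ≃ₗᵢ[ℝ] kerY K, ∀ s : X, ‖s‖ = 1 → ‖s - y‖ < r / 40 →
      ∀ v : kerX K, ‖v‖ ≤ r / 10 → ‖s + (v : X)‖ = 1 ∧ f (s + v) = f s + L v := by
  obtain ⟨L, hL⟩ := h.exists_L₁ hr h.hy (by rw [sub_self, norm_zero]; positivity)
  refine ⟨L, fun s hs hsr v hv => ?_⟩
  have n1 : ∀ s : X, ‖s‖ = 1 → ‖s - y‖ < r / 40 → ∀ v : kerX K, ‖v‖ ≤ r / 10 →
      ‖s + (v : X)‖ = 1 := by
    intro s hs hsr v hv
    have hv' : ‖(v : X)‖ ≤ r / 10 := hv
    apply h.norm_add hs v.2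
    linarith
  refine ⟨n1 s hs hsr v hv, ?_⟩
  obtain ⟨L', hL'⟩ := h.exists_L₁ hr hs (by linarith)
  have h1 : L' = L := h.L_unique (show 0 < r / 10 by positivity)
    (fun v hv => n1 s hs hsr v hv)
    (fun v hv => n1 y h.hy (by rw [sub_self, norm_zero]; positivity) v hv) hL' hL
    (by linarith)
  rw [← h1]
  exact hL' v hv

/-- local constancy of `D_h` -/
theorem LA.Dh (h : LA f g y r K) (hr : 0 < r) {z₁ z₂ d : X} (h1 : ‖z₁‖ = 1) (h2 : ‖z₂‖ = 1)
    (h1' : ‖z₁ + d‖ = 1) (h2' : ‖z₂ + d‖ = 1) (hz1 : ‖z₁ - y‖ < r / 40)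
    (hz2 : ‖z₂ - y‖ < r / 40) (hd : ‖d‖ < r / 40) :
    f (z₁ + d) - f z₁ = f (z₂ + d) - f z₂ := by
  obtain ⟨L, hL⟩ := h.exists_L hr
  by_contra hne
  have near : ∀ z : X, ‖z - y‖ < r / 40 → ‖z + d - y‖ < r := by
    intro z hz
    have e : z + d - y = (z - y) + d := by abel
    rw [e]
    refine (_root_.norm_add_le _ _).trans_lt ?_
    linarith
  have near0 : ∀ z : X, ‖z - y‖ < r / 40 → ‖z - y‖ < r := by intro z hz; linarith
  set Δ₁ := f (z₁ + d) - f z₁ with hΔ₁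
  set Δ₂ := f (z₂ + d) - f z₂ with hΔ₂
  have hmem : Δ₁ - Δ₂ ∈ kerY K := by
    intro k hk
    rw [hΔ₁, hΔ₂, map_sub, map_sub, map_sub, h.eq k hk _ h1' (near _ hz1),
      h.eq k hk _ h2' (near _ hz2), h.eq k hk _ h1 (near0 _ hz1), h.eq k hk _ h2 (near0 _ hz2),
      map_add, map_add]
    ring
  set δ : kerY K := ⟨Δ₁ - Δ₂, hmem⟩ with hδ
  have hδ0 : δ ≠ 0 := by
    intro h0
    apply hne
    have : (δ : Y) = 0 := by rw [h0]; rfl
    rw [hδ] at this
    exact sub_eq_zero.mp this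
  have hδpos : 0 < ‖δ‖ := norm_pos_iff.mpr hδ0
  -- the distance identity
  have key : ∀ z : X, ‖z‖ = 1 → ‖z + d‖ = 1 → ‖z - y‖ < r / 40 → ∀ w : kerX K, ‖w‖ ≤ r / 10 →
      ‖f (z + d) - f z - L w‖ = ‖d - w‖ := by
    intro z hz hzd hzy w hw
    have b1 := hL z hz hzy w hw
    have b2 := h.si.dist (z + d) (z + w) hzd b1.1
    rw [b1.2] at b2
    have e1 : f (z + d) - (f z + (L w : Y)) = f (z + d) - f z - L w := by abel
    have e2 : z + d - (z + (w : X)) = d - w := by abel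
    rw [e1, e2] at b2
    exact b2
  set τ : ℝ := (r / 10) / ‖δ‖ with hτ
  have hτ0 : 0 ≤ τ := by positivity
  have hτδ : τ * ‖δ‖ = r / 10 := by rw [hτ]; field_simp
  set w : kerX K := (-τ) • L.symm δ with hw
  have hLw : L w = (-τ) • δ := by rw [hw, map_smul, L.apply_symm_apply]
  have hwn : ‖w‖ = r / 10 := by
    rw [← L.norm_map, hLw, norm_smul, norm_neg, Real.norm_of_nonneg hτ0, hτδ]
  have k1 := key z₁ h1 h1' hz1 w hwn.le
  have k2 := key z₂ h2 h2' hz2 w hwn.le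
  rw [← hΔ₁, hLw] at k1
  rw [← hΔ₂, hLw] at k2
  have e1 : Δ₁ - (((-τ) • δ : kerY K) : Y) = Δ₂ + (τ + 1) • (δ : Y) := by
    push_cast
    have : (δ : Y) = Δ₁ - Δ₂ := rfl
    rw [this]
    module
  have e2 : Δ₂ - (((-τ) • δ : kerY K) : Y) = Δ₂ + (τ + 1 - 1) • (δ : Y) := by
    push_cast
    module
  rw [e1] at k1
  rw [e2] at k2
  have h3 := conv_shift (s := τ + 1) (by linarith) (le_of_eq (k1.trans k2.symm))
  have h4 : ‖Δ₂‖ = ‖d‖ := by
    rw [hΔ₂, h.si.dist _ _ h2' h2, add_sub_cancel_left]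
  have h5 : ‖(δ : Y)‖ = ‖δ‖ := rfl
  rw [h4, h5] at h3
  nlinarith

end Crest.Agent.R074
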