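import Crest.Agent.R074.Base
import Crest.Agent.R074.LocMU
import Crest.Agent.R074.Flat

/-!
Row 74 (S0099), case (B): if the local Theorem A holds for a dense set of `u` with a universal
radius, then `f` is the restriction of a linear isometry (dimension at least three).
-/

set_option autoImplicit false

namespace Crest.Agent.R074

open Metric Set Filter Topology

/-- uniformly locally constant on a preconnected set ⇒ constant -/
theorem const_of_loc {α β : Type*} [PseudoMetricSpace α] {P : Set α} (hP : IsPreconnected P)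
    {c : ℝ} (hc : 0 < c) (F : α → β) (hF : ∀ x ∈ P, ∀ y ∈ P, dist x y < c → F x = F y) :
    ∀ x ∈ P, ∀ y ∈ P, F x = F y := by
  intro x hx y hy
  by_contra hne
  set A : Set α := ⋃ z ∈ {z ∈ P | F z = F x}, ball z (c / 2) with hA
  set B : Set α := ⋃ z ∈ {z ∈ P | F z ≠ F x}, ball z (c / 2) with hB
  have hAo : IsOpen A := isOpen_biUnion fun z _ => isOpen_ball
  have hBo : IsOpen B := isOpen_biUnion fun z _ => isOpen_ball
  have hc2 : 0 < c / 2 := by positivity
  have hcov : P ⊆ A ∪ B := by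
    intro z hz
    by_cases h : F z = F x
    · left
      exact mem_biUnion (show z ∈ {z ∈ P | F z = F x} from ⟨hz, h⟩) (mem_ball_self hc2)
    · right
      exact mem_biUnion (show z ∈ {z ∈ P | F z ≠ F x} from ⟨hz, h⟩) (mem_ball_self hc2)
  obtain ⟨w, _, hwA, hwB⟩ := hP A B hAo hBo hcov
    ⟨x, hx, mem_biUnion (show x ∈ {z ∈ P | F z = F x} from ⟨hx, rfl⟩) (mem_ball_self hc2)⟩
    ⟨y, hy, mem_biUnion (show y ∈ {z ∈ P | F z ≠ F x} from ⟨hy, fun h => hne h.symm⟩)
      (mem_ball_self hc2)⟩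
  simp only [hA, hB, mem_iUnion, exists_prop, mem_ofPred_eq, mem_ball] at hwA hwB
  obtain ⟨z, ⟨hz, hzx⟩, hwz⟩ := hwA
  obtain ⟨z', ⟨hz', hzx'⟩, hwz'⟩ := hwB
  apply hzx'
  rw [← hzx]
  apply hF z' hz' z hz
  calc dist z' z ≤ dist z' w + dist w z := dist_triangle _ _ _
    _ < c / 2 + c / 2 := by rw [dist_comm z' w]; exact add_lt_add hwz' hwz
    _ = c := by ring

variable {X Y : Type*} [NormedAddCommGroup X] [NormedSpace ℝ X] [NormedAddCommGroup Y]
  [NormedSpace ℝ Y] {f : X → Y} {g : Y → X}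

/-- local constancy of `D_h` from the local Theorem A on a dense set -/
theorem dloc_of_LTA (h : SI f g) {ε : ℝ} (hε : 0 < ε) (G : Set X) (hG1 : ∀ u ∈ G, ‖u‖ = 1)
    (hG : ∀ s : X, ‖s‖ = 1 → ∀ δ : ℝ, 0 < δ → ∃ u ∈ G, ‖s - u‖ < δ)
    (hLTA : ∀ u ∈ G, ∀ x, ‖x‖ = 1 → ‖x - u‖ < ε → J (f u) (f x) = J u x)
    {z₁ z₂ d : X} (h1 : ‖z₁‖ = 1) (h2 : ‖z₂‖ = 1) (h1' : ‖z₁ + d‖ = 1) (h2' : ‖z₂ + d‖ = 1)
    (hz : ‖z₁ - z₂‖ < ε / 80) (hd : ‖d‖ < ε / 80) :
    f (z₁ + d) - f z₁ = f (z₂ + d) - f z₂ := by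
  set K : Set ((X →L[ℝ] ℝ) × (Y →L[ℝ] ℝ)) :=
    {k | ∃ u ∈ G, ‖u - z₁‖ < ε / 2 ∧ k = (J u, J (f u))} with hK
  have hLA : LA f g z₁ (ε / 2) K := by
    refine ⟨h, h1, ?_, ?_, ?_, ?_⟩
    · rintro k ⟨u, -, -, rfl⟩; exact J_norm_le _
    · rintro k ⟨u, -, -, rfl⟩; exact J_norm_le _
    · rintro k ⟨u, hu, huz, rfl⟩ x hx hxz
      apply hLTA u hu x hx
      have e : x - u = (x - z₁) - (u - z₁) := by abel
      rw [e]
      refine (norm_sub_le _ _).trans_lt ?_
      linarith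
    · intro s hs hsz δ hδ
      obtain ⟨u, hu, hsu⟩ := hG s hs (min δ (ε / 2 - ‖s - z₁‖)) (lt_min hδ (by linarith))
      have a1 : ‖s - u‖ < δ := hsu.trans_le (min_le_left _ _)
      have a2 : ‖s - u‖ < ε / 2 - ‖s - z₁‖ := hsu.trans_le (min_le_right _ _)
      refine ⟨(J u, J (f u)), ⟨u, hu, ?_, rfl⟩, ?_⟩
      · have e : u - z₁ = (s - z₁) - (s - u) := by abel
        rw [e]
        refine (norm_sub_le _ _).trans_lt ?_
        linarith
      · show 1 - δ < J u s
        have b1 := J_le u (u - s)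
        rw [map_sub, J_self, hG1 u hu, norm_sub_rev] at b1
        linarith
  apply hLA.Dh (by positivity) h1 h2 h1' h2'
  · rw [sub_self, norm_zero]; positivity
  · rw [norm_sub_rev]; linarith
  · linarith

/-- a chord in direction `k` near a point where `k` is tangent -/
theorem near_chord {e k : X} (he : ‖e‖ = 1) (hk : ‖k‖ ≤ 1 / 4) (hek : ∀ t : ℝ, 1 ≤ ‖e + t • k‖) :
    ∃ y : X, ‖y‖ = 1 ∧ ‖y - k‖ = 1 ∧ ‖y - e‖ ≤ 4 * ‖k‖ := by
  set N : ℝ → ℝ := fun s => ‖e + s • k‖ with hN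
  have hNc : Continuous N := by fun_prop
  have hN1 : ∀ s, 1 ≤ N s := hek
  have hNle : ∀ s, 0 ≤ s → N s ≤ 1 + s * ‖k‖ := by
    intro s hs
    refine (norm_add_le _ _).trans ?_
    rw [he, norm_smul, Real.norm_of_nonneg hs]
  -- the fixed point
  obtain ⟨s₀, hs₀, hs₀'⟩ : ∃ s ∈ Icc (0 : ℝ) 2, N s - s = 0 := by
    have h1 : ContinuousOn (fun s => N s - s) (Icc (0 : ℝ) 2) := by fun_prop
    have h2 := intermediate_value_Icc' (by norm_num : (0 : ℝ) ≤ 2) h1
    have h3 : (0 : ℝ) ∈ Icc (N 2 - 2) (N 0 - 0) := by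
      constructor
      · have := hNle 2 (by norm_num); linarith
      · have := hN1 0; linarith
    obtain ⟨s, hs, hs'⟩ := h2 h3
    exact ⟨s, hs, hs'⟩
  have hs₀e : N s₀ = s₀ := by linarith
  set σ : ℝ → X := fun s => (1 / N s) • (e + s • k) with hσ
  have hNpos : ∀ s, 0 < N s := fun s => by linarith [hN1 s]
  have hσ1 : ∀ s, ‖σ s‖ = 1 := by
    intro s
    rw [hσ]
    show ‖(1 / N s) • (e + s • k)‖ = 1
    rw [norm_smul, Real.norm_of_nonneg (by have := hNpos s; positivity)]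
    show 1 / N s * N s = 1
    field_simp [(hNpos s).ne']
  have hσc : Continuous σ := by
    apply Continuous.smul
    · exact continuous_const.div hNc fun s => (hNpos s).ne'
    · fun_prop
  obtain ⟨s, hs, hs'⟩ : ∃ s ∈ Icc (0 : ℝ) s₀, ‖σ s - k‖ = 1 := by
    have h1 : ContinuousOn (fun s => ‖σ s - k‖) (Icc (0 : ℝ) s₀) := by fun_prop
    have h2 := intermediate_value_Icc' hs₀.1 h1
    have h3 : (1 : ℝ) ∈ Icc (‖σ s₀ - k‖) (‖σ 0 - k‖) := by
      constructor
      · have e1 : σ s₀ - k = (1 / N s₀) • e := by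
          rw [hσ]
          show (1 / N s₀) • (e + s₀ • k) - k = _
          have e2 : (1 / N s₀) * s₀ = 1 := by rw [hs₀e]; field_simp; rw [← hs₀e]; exact div_self (hNpos _).ne'
          rw [smul_add, smul_smul, e2, one_smul, add_sub_cancel_right]
        rw [e1, norm_smul, he, mul_one, Real.norm_of_nonneg (by have := hNpos s₀; positivity)]
        rw [div_le_one (hNpos _)]
        exact hN1 _
      · have e1 : σ 0 = e := by
          rw [hσ]
          show (1 / N 0) • (e + (0 : ℝ) • k) = e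
          have : N 0 = 1 := by simp [hN, he]
          rw [this]; simp
        rw [e1]
        have := hek (-1)
        rw [neg_one_smul, ← sub_eq_add_neg] at this
        exact this
    obtain ⟨s, hs, hs'⟩ := h2 h3
    exact ⟨s, hs, hs'⟩
  refine ⟨σ s, hσ1 s, hs', ?_⟩
  have h1 : ‖σ s - (e + s • k)‖ = N s - 1 := by
    have e1 : σ s - (e + s • k) = (1 / N s - 1) • (e + s • k) := by
      rw [hσ]; module
    rw [e1, norm_smul, Real.norm_eq_abs, abs_of_nonpos]
    · show -(1 / N s - 1) * N s = N s - 1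
      have := (hNpos s).ne'
      field_simp
      ring
    · have : 1 / N s ≤ 1 := by rw [div_le_one (hNpos _)]; exact hN1 _
      linarith
  have h2 : σ s - e = (σ s - (e + s • k)) + s • k := by abel
  rw [h2]
  refine (norm_add_le _ _).trans ?_
  rw [h1, norm_smul, Real.norm_of_nonneg hs.1]
  have h3 := hNle s hs.1
  have h4 : s ≤ 2 := hs.2.trans hs₀.2
  have h5 := norm_nonneg k
  nlinarith

/-- a unit vector "orthogonal" to a finite-dimensional proper subspace -/
theorem exists_perp (M : Submodule ℝ X) [FiniteDimensional ℝ M] (hM : M ≠ ⊤) :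
    ∃ e : X, ‖e‖ = 1 ∧ ∀ m ∈ M, 1 ≤ ‖e + m‖ := by
  obtain ⟨w, hw⟩ : ∃ w : X, w ∉ M := by
    by_contra hcon
    push Not at hcon
    exact hM (eq_top_iff.mpr fun x _ => hcon x)
  have : ProperSpace M := FiniteDimensional.proper_real M
  obtain ⟨m₀, hm₀⟩ : ∃ m₀ : M, ∀ m : M, ‖w - m₀‖ ≤ ‖w - m‖ := by
    apply Continuous.exists_forall_le (f := fun m : M => ‖w - m‖)
    · fun_prop
    · have h1 : Tendsto (fun m : M => ‖m‖ - ‖w‖) (cocompact M) atTop :=
        by
        simpa only [sub_eq_add_neg] using!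
          tendsto_atTop_add_const_right (cocompact M) (-‖w‖) tendsto_norm_cocompact_atTop
      refine tendsto_atTop_mono (fun m => ?_) h1
      have := norm_sub_norm_le (m : X) w
      rw [norm_sub_rev] at this
      exact this
  have hpos : 0 < ‖w - m₀‖ := by
    rw [norm_pos_iff, sub_ne_zero]
    rintro rfl
    exact hw m₀.2
  refine ⟨(1 / ‖w - m₀‖) • (w - m₀), ?_, fun m hm => ?_⟩
  · rw [norm_smul, Real.norm_of_nonneg (by positivity)]
    field_simp
  · have e1 : (1 / ‖w - m₀‖) • (w - (m₀ : X)) + m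
        = (1 / ‖w - m₀‖) • (w - ((m₀ : X) - ‖w - m₀‖ • m)) := by
      rw [smul_sub, smul_sub, smul_sub, smul_smul]
      have : 1 / ‖w - (m₀ : X)‖ * ‖w - (m₀ : X)‖ = 1 := by field_simp
      rw [this, one_smul]; abel
    rw [e1, norm_smul, Real.norm_of_nonneg (by positivity)]
    have h1 := hm₀ (m₀ - ‖w - m₀‖ • ⟨m, hm⟩)
    have h2 : ‖w - m₀‖ ≤ ‖w - ((m₀ : X) - ‖w - m₀‖ • m)‖ := h1
    rw [one_div, inv_mul_eq_div, le_div_iff₀ hpos, one_mul]
    exact h2

/-- inscribed small triangles with one long "orthogonal" side -/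
theorem inscribe (hPc : ∀ h : X, h ≠ 0 → ‖h‖ < 2 → IsPreconnected {z : X | ‖z‖ = 1 ∧ ‖z + h‖ = 1})
    {e k m : X} {R : ℝ} (he : ‖e‖ = 1) (hk0 : k ≠ 0) (hk : ‖k‖ ≤ 1 / 4)
    (hek : ∀ t : ℝ, 1 ≤ ‖e + t • k‖) (hR1 : R ≤ 1) (hR : ‖m‖ + 4 * ‖k‖ ≤ R) :
    ∃ y : X, ‖y‖ = 1 ∧ ‖y - k‖ = 1 ∧ ‖y + (R • e + m)‖ = 1 := by
  have hR0 : 0 ≤ R := by linarith [norm_nonneg m, norm_nonneg k]
  obtain ⟨y₁, h11, h12, h13⟩ := near_chord he hk hek
  have hek' : ∀ t : ℝ, 1 ≤ ‖-e + t • k‖ := by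
    intro t
    have := hek (-t)
    rwa [← norm_neg, neg_add, ← neg_smul, neg_neg] at this
  obtain ⟨y₂, h21, h22, h23⟩ := near_chord (by rwa [norm_neg]) hk hek'
  have hP := hPc (-k) (neg_ne_zero.mpr hk0) (by rw [norm_neg]; linarith)
  have hc : ContinuousOn (fun y : X => ‖y + (R • e + m)‖)
      {z : X | ‖z‖ = 1 ∧ ‖z + -k‖ = 1} := by fun_prop
  have hv := hP.intermediate_value (a := y₂) (b := y₁)
    (by rw [mem_ofPred_eq, ← sub_eq_add_neg]; exact ⟨h21, h22⟩)
    (by rw [mem_ofPred_eq, ← sub_eq_add_neg]; exact ⟨h11, h12⟩) hc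
  have hmem : (1 : ℝ) ∈ Icc (‖y₂ + (R • e + m)‖) (‖y₁ + (R • e + m)‖) := by
    constructor
    · have e1 : y₂ + (R • e + m) = (y₂ - -e) + ((-(1 - R)) • e + m) := by module
      rw [e1]
      refine (norm_add_le _ _).trans ?_
      have h3 : ‖(-(1 - R)) • e + m‖ ≤ (1 - R) + ‖m‖ := by
        refine (norm_add_le _ _).trans ?_
        rw [norm_smul, norm_neg, he, mul_one, Real.norm_of_nonneg (by linarith)]
      linarith
    · have e1 : (1 + R) • e = (y₁ + (R • e + m)) - ((y₁ - e) + m) := by module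
      have h3 : ‖(1 + R) • e‖ = 1 + R := by
        rw [norm_smul, he, mul_one, Real.norm_of_nonneg (by linarith)]
      have h4 := norm_sub_le (y₁ + (R • e + m)) ((y₁ - e) + m)
      rw [← e1, h3] at h4
      have h5 := norm_add_le (y₁ - e) m
      linarith
  obtain ⟨y, hy, hy'⟩ := hv hmem
  rw [mem_ofPred_eq, ← sub_eq_add_neg] at hy
  exact ⟨y, hy.1, hy.2, hy'⟩

/-- a locally additive, bounded map extends to a continuous linear map -/
theorem exists_linear_of_local {η : ℝ} (hη : 0 < η) {D : X → Y}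
    (hadd : ∀ h k : X, ‖h‖ ≤ η → ‖k‖ ≤ η → D (h + k) = D h + D k)
    (hbd : ∀ h : X, ‖h‖ ≤ η → ‖D h‖ ≤ ‖h‖) :
    ∃ T : X →L[ℝ] Y, ∀ h : X, ‖h‖ ≤ η → T h = D h := by
  have half : ∀ v : X, ‖v‖ ≤ (2 * η) / 2 → D ((1 / 2 : ℝ) • v) = (1 / 2 : ℝ) • D v := by
    intro v hv
    have hv' : ‖v‖ ≤ η := by linarith
    have h1 : ‖(1 / 2 : ℝ) • v‖ ≤ η := by
      rw [norm_smul, Real.norm_of_nonneg (by norm_num)]
      linarith [norm_nonneg v]
    have h2 := hadd _ _ h1 h1
    have e1 : (1 / 2 : ℝ) • v + (1 / 2 : ℝ) • v = v := by module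
    rw [e1] at h2
    rw [h2]; module
  have hR : 0 < 2 * η := by positivity
  have e2 : 2 * η / 2 = η := by ring
  choose NE hNE using fun v : X => exists_dyadic hR v
  let Lf : X → Y := fun v => (2 : ℝ) ^ (NE v) • D (((1 / 2 : ℝ) ^ (NE v)) • v)
  have hLf : ∀ v : X, ∀ m, ‖((1 / 2 : ℝ) ^ m) • v‖ ≤ 2 * η / 2 →
      Lf v = (2 : ℝ) ^ m • D (((1 / 2 : ℝ) ^ m) • v) := by
    intro v m hm
    have h1 := dyadic_aux D half (NE v) m v hm
    have h2 := dyadic_aux D half m (NE v) v (hNE v _ le_rfl)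
    show (2 : ℝ) ^ (NE v) • D (((1 / 2 : ℝ) ^ (NE v)) • v) = _
    rw [← h1, ← h2, add_comm]
  have pp : ∀ m : ℕ, (2 : ℝ) ^ m * (1 / 2) ^ m = 1 := by
    intro m; rw [← mul_pow]; norm_num
  have hLadd : ∀ v w, Lf (v + w) = Lf v + Lf w := by
    intro v w
    set m := max (NE (v + w)) (max (NE v) (NE w)) with hm
    have h1 := hNE (v + w) m (le_max_left _ _)
    have h2 := hNE v m ((le_max_left _ _).trans (le_max_right _ _))
    have h3 := hNE w m ((le_max_right _ _).trans (le_max_right _ _))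
    rw [hLf _ m h1, hLf v m h2, hLf w m h3, smul_add, hadd _ _ (by rwa [e2] at h2)
      (by rwa [e2] at h3), smul_add]
  have hLbd : ∀ v, ‖Lf v‖ ≤ ‖v‖ := by
    intro v
    have h1 := hNE v _ le_rfl
    rw [hLf v _ h1, norm_smul, Real.norm_of_nonneg (by positivity)]
    have h2 := hbd _ (by rwa [e2] at h1)
    rw [norm_smul, Real.norm_of_nonneg (by positivity)] at h2
    calc (2 : ℝ) ^ NE v * ‖D ((1 / 2 : ℝ) ^ NE v • v)‖
        ≤ (2 : ℝ) ^ NE v * ((1 / 2) ^ NE v * ‖v‖) :=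
          mul_le_mul_of_nonneg_left h2 (by positivity)
      _ = ‖v‖ := by rw [← mul_assoc, pp, one_mul]
  let A : X →+ Y := AddMonoidHom.mk' Lf hLadd
  have hAc : Continuous A := by
    apply AddMonoidHomClass.continuous_of_bound A 1
    intro v
    rw [one_mul]
    exact hLbd v
  refine ⟨A.toRealLinearMap hAc, fun h hh => ?_⟩
  show Lf h = D h
  rw [hLf h 0 (by rw [pow_zero, one_smul, e2]; exact hh)]
  simp

/-- **Case (B)**: from local constancy of `D_h` to a linear isometry. -/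
theorem linear_of_dloc (h : SI f g) (ho : ∀ x, ‖x‖ = 1 → f (-x) = -f x)
    (hX : 2 < Module.rank ℝ X)
    (hPc : ∀ h : X, h ≠ 0 → ‖h‖ < 2 → IsPreconnected {z : X | ‖z‖ = 1 ∧ ‖z + h‖ = 1})
    {c : ℝ} (hc : 0 < c)
    (hloc : ∀ z₁ z₂ d : X, ‖z₁‖ = 1 → ‖z₂‖ = 1 → ‖z₁ + d‖ = 1 → ‖z₂ + d‖ = 1 →
      ‖z₁ - z₂‖ < c → ‖d‖ < c → f (z₁ + d) - f z₁ = f (z₂ + d) - f z₂) :
    ∃ T : X ≃ₗᵢ[ℝ] Y, ∀ x, ‖x‖ = 1 → T x = f x := by
  classical
  -- wlog c ≤ 1
  wlog hc1 : c ≤ 1 with H
  · exact H h ho hX hPc one_pos (fun z₁ z₂ d a1 a2 a3 a4 a5 a6 =>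
      hloc z₁ z₂ d a1 a2 a3 a4 (by linarith) (by linarith)) le_rfl
  let D : X → Y := fun d =>
    if hd : ∃ z : X, ‖z‖ = 1 ∧ ‖z + d‖ = 1 then f (hd.choose + d) - f hd.choose else 0
  have hD : ∀ d z : X, ‖d‖ < c → ‖z‖ = 1 → ‖z + d‖ = 1 → f (z + d) - f z = D d := by
    intro d z hd hz hzd
    have hex : ∃ z : X, ‖z‖ = 1 ∧ ‖z + d‖ = 1 := ⟨z, hz, hzd⟩
    have e1 : D d = f (hex.choose + d) - f hex.choose := by
      simp only [D, dif_pos hex]
    rw [e1]
    rcases eq_or_ne d 0 with rfl | hd0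
    · simp
    have hP := hPc d hd0 (by linarith)
    exact const_of_loc hP hc (fun z => f (z + d) - f z)
      (fun x hx y hy hxy => hloc x y d hx.1 hy.1 hx.2 hy.2 (by rwa [← dist_eq_norm]) hd)
      z ⟨hz, hzd⟩ _ ⟨hex.choose_spec.1, hex.choose_spec.2⟩
  have hDbd : ∀ d : X, ‖d‖ < c → ‖D d‖ ≤ ‖d‖ := by
    intro d hd
    by_cases hex : ∃ z : X, ‖z‖ = 1 ∧ ‖z + d‖ = 1
    · obtain ⟨z, hz, hzd⟩ := hex
      rw [← hD d z hd hz hzd, h.dist _ _ hzd hz, add_sub_cancel_left]
    · simp only [D, dif_neg hex, norm_zero]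
      exact norm_nonneg _
  set η : ℝ := c / 20 with hη
  have hη0 : 0 < η := by positivity
  have tri : ∀ a k y : X, ‖a‖ < c → ‖k‖ < c → ‖a + k‖ < c → ‖y‖ = 1 → ‖y - k‖ = 1 →
      ‖y + a‖ = 1 → D (a + k) = D a + D k := by
    intro a k y ha hk hak h1 h2 h3
    have b1 := hD a y ha h1 h3
    have b2 := hD k (y - k) hk h2 (by rwa [sub_add_cancel])
    have e1 : y - k + (a + k) = y + a := by abel
    have b3 := hD (a + k) (y - k) hak h2 (by rwa [e1])
    rw [← b1, ← b2, ← b3, e1, sub_add_cancel]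
    abel
  have hD0 : D 0 = 0 := by
    have := hDbd 0 (by simpa using hc)
    simpa using this
  have hadd : ∀ u k : X, ‖u‖ ≤ η → ‖k‖ ≤ η → D (u + k) = D u + D k := by
    intro u k hu hk
    set M : Submodule ℝ X := Submodule.span ℝ {u, k} with hM
    have hfd : FiniteDimensional ℝ M := by
      rw [hM]; exact FiniteDimensional.span_of_finite ℝ (Set.toFinite _)
    have hMtop : M ≠ ⊤ := by
      intro htop
      have h1 : Module.rank ℝ X ≤ 2 := by
        have h2 : Module.rank ℝ (⊤ : Submodule ℝ X) ≤ 2 := by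
          rw [← htop, hM]
          refine (rank_span_le _).trans ?_
          refine (Cardinal.mk_insert_le).trans ?_
          rw [Cardinal.mk_singleton]
          norm_num
        rwa [rank_top] at h2
      exact absurd hX (not_lt.mpr h1)
    obtain ⟨e, he, heM⟩ := exists_perp M hMtop
    have huM : u ∈ M := Submodule.subset_span (by simp)
    have hkM : k ∈ M := Submodule.subset_span (by simp)
    have huk : ‖u + k‖ ≤ 2 * η := by
      have := norm_add_le u k
      linarith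
    set a : X := (c / 2) • e with ha
    have han : ‖a‖ = c / 2 := by
      rw [ha, norm_smul, he, mul_one, Real.norm_of_nonneg (by positivity)]
    have hau : ‖a + u‖ < c := by
      have := norm_add_le a u
      linarith
    have hauk : ‖a + u + k‖ < c := by
      have := norm_add_le (a + u) k
      have := norm_add_le a u
      linarith
    have t1 : D (a + u) = D a + D u := by
      rcases eq_or_ne u 0 with rfl | hu0
      · rw [add_zero, hD0, add_zero]
      obtain ⟨y, y1, y2, y3⟩ := inscribe hPc (m := 0) (R := c / 2) he hu0 (by linarith)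
        (fun t => heM _ (M.smul_mem t huM)) (by linarith) (by rw [norm_zero]; linarith)
      rw [add_zero] at y3
      exact tri a u y (by linarith) (by linarith) hau y1 y2 y3
    have t2 : D (a + u + k) = D (a + u) + D k := by
      rcases eq_or_ne k 0 with rfl | hk0
      · rw [add_zero, hD0, add_zero]
      obtain ⟨y, y1, y2, y3⟩ := inscribe hPc (m := u) (R := c / 2) he hk0 (by linarith)
        (fun t => heM _ (M.smul_mem t hkM)) (by linarith) (by linarith)
      exact tri (a + u) k y hau (by linarith) hauk y1 y2 y3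
    have t3 : D (a + (u + k)) = D a + D (u + k) := by
      rcases eq_or_ne (u + k) 0 with h0 | h0
      · rw [h0, add_zero, hD0, add_zero]
      obtain ⟨y, y1, y2, y3⟩ := inscribe hPc (m := 0) (R := c / 2) he h0 (by linarith)
        (fun t => heM _ (M.smul_mem t (M.add_mem huM hkM))) (by linarith)
        (by rw [norm_zero]; linarith)
      rw [add_zero] at y3
      exact tri a (u + k) y (by linarith) (by linarith) (by rw [← add_assoc]; exact hauk) y1 y2 y3
    rw [← add_assoc, t2, t1, add_assoc] at t3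
    exact (add_left_cancel t3).symm
  obtain ⟨T, hT⟩ := exists_linear_of_local hη0 hadd (fun d hd => hDbd d (by linarith))
  have hrank1 : 1 < Module.rank ℝ X := lt_trans (by norm_num) hX
  have hS := isPreconnected_sphere hrank1 (0 : X) 1
  have hconst := const_of_loc hS hη0 (fun x => f x - T x) (by
    intro x hx y hy hxy
    rw [mem_sphere_zero_iff_norm] at hx hy
    rw [dist_eq_norm] at hxy
    have h1 := hT (x - y) hxy.le
    have h2 := hD (x - y) y (by linarith) hy (by rwa [add_sub_cancel])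
    rw [add_sub_cancel] at h2
    rw [map_sub, ← h2] at h1
    have h3 : f x - T x - (f y - T y) = (f x - f y) - (T x - T y) := by abel
    have h4 : f x - T x - (f y - T y) = 0 := by rw [h3, h1, sub_self]
    exact sub_eq_zero.mp h4)
  have hTf : ∀ x, ‖x‖ = 1 → T x = f x := by
    intro x hx
    have h1 := hconst x (by simpa using hx) (-x) (by simpa using hx)
    rw [ho x hx, map_neg, neg_sub_neg] at h1
    have h2 : (2 : ℝ) • (f x - T x) = 0 := by
      have : (2 : ℝ) • (f x - T x) = (f x - T x) - (T x - f x) := by module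
      rw [this, ← h1, sub_self]
    have h3 := (smul_eq_zero.mp h2).resolve_left (by norm_num)
    exact (sub_eq_zero.mp h3).symm
  have hTn : ∀ x, ‖T x‖ = ‖x‖ := by
    intro x
    rcases eq_or_ne x 0 with rfl | hx
    · simp
    have hx0 : 0 < ‖x‖ := norm_pos_iff.mpr hx
    have h1 : ‖(1 / ‖x‖) • x‖ = 1 := by
      rw [norm_smul, Real.norm_of_nonneg (by positivity)]; field_simp
    have h2 := h.map _ h1
    rw [← hTf _ h1, map_smul, norm_smul, Real.norm_of_nonneg (by positivity)] at h2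
    field_simp at h2
    exact h2
  have hsurj : Function.Surjective T := by
    intro y
    rcases eq_or_ne y 0 with rfl | hy
    · exact ⟨0, map_zero _⟩
    have hy0 : 0 < ‖y‖ := norm_pos_iff.mpr hy
    have h1 : ‖(1 / ‖y‖) • y‖ = 1 := by
      rw [norm_smul, Real.norm_of_nonneg (by positivity)]; field_simp
    refine ⟨‖y‖ • g ((1 / ‖y‖) • y), ?_⟩
    rw [map_smul, hTf _ (h.imap _ h1), h.right _ h1, smul_smul]
    have : ‖y‖ * (1 / ‖y‖) = 1 := by field_simp
    rw [this, one_smul]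
  let Tli : X →ₗᵢ[ℝ] Y := ⟨T.toLinearMap, hTn⟩
  exact ⟨LinearIsometryEquiv.ofSurjective Tli hsurj, fun x hx => hTf x hx⟩

end Crest.Agent.R074
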