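import Mathlib

/-!
Row 74 (S0099): for `2 < dim X`, `0 < ‖h‖ < 2`, the set `P_h = {z : ‖z‖ = 1 ∧ ‖z + h‖ = 1}` is
preconnected.
-/

set_option autoImplicit false

namespace Crest.Agent.R074

open Metric Set Filter Topology

section PConn

variable {X : Type*} [NormedAddCommGroup X] [NormedSpace ℝ X]

/-- the part of `P_h` in the half plane `{α d + β h : α > 0}`. -/
def PFib (h d : X) : Set X :=
  {z | ‖z‖ = 1 ∧ ‖z + h‖ = 1 ∧ ∃ α β : ℝ, 0 < α ∧ z = α • d + β • h}

theorem pconn_seg {z h : X} {s r : ℝ} (hs : 0 ≤ s) (hsr : s ≤ r) (h1 : ‖z‖ = 1)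
    (h2 : ‖z + h‖ = 1) (h3 : ‖z + r • h‖ = 1) (h4 : ‖z + r • h + h‖ = 1) :
    ‖z + s • h‖ = 1 ∧ ‖z + s • h + h‖ = 1 := by
  rcases eq_or_lt_of_le (hs.trans hsr) with hr | hr
  · have hs0 : s = 0 := le_antisymm (hr ▸ hsr) hs
    rw [hs0, zero_smul, add_zero]
    exact ⟨h1, h2⟩
  -- upper bounds
  have u1 : ‖z + s • h‖ ≤ 1 := by
    have e : r • (z + s • h) = (r - s) • z + s • (z + r • h) := by
      simp only [smul_add, smul_smul, sub_smul, mul_comm s r]; abel
    have h5 : ‖r • (z + s • h)‖ ≤ (r - s) * 1 + s * 1 := by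
      rw [e]
      refine (norm_add_le _ _).trans ?_
      rw [norm_smul, norm_smul, Real.norm_of_nonneg (by linarith), Real.norm_of_nonneg hs, h1, h3]
    rw [norm_smul, Real.norm_of_nonneg hr.le] at h5
    nlinarith
  have u2 : ‖z + s • h + h‖ ≤ 1 := by
    have e : r • (z + s • h + h) = (r - s) • (z + h) + s • (z + r • h + h) := by
      simp only [smul_add, smul_smul, sub_smul, mul_comm s r]; abel
    have h5 : ‖r • (z + s • h + h)‖ ≤ (r - s) * 1 + s * 1 := by
      rw [e]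
      refine (norm_add_le _ _).trans ?_
      rw [norm_smul, norm_smul, Real.norm_of_nonneg (by linarith), Real.norm_of_nonneg hs, h2, h4]
    rw [norm_smul, Real.norm_of_nonneg hr.le] at h5
    nlinarith
  -- lower bounds
  have l1 : 1 ≤ ‖z + s • h‖ := by
    have e : (r + 1 - s) • (z + r • h) = (z + s • h) + (r - s) • (z + r • h + h) := by
      simp only [smul_add, smul_smul, sub_smul, add_smul, one_smul]
      have : (r + 1 - s) * r = s + (r - s) * r + (r - s) := by ring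
      module
    have h5 : (r + 1 - s) * 1 ≤ ‖z + s • h‖ + (r - s) * 1 := by
      have h6 : ‖(r + 1 - s) • (z + r • h)‖ = (r + 1 - s) * 1 := by
        rw [norm_smul, Real.norm_of_nonneg (by linarith), h3]
      have h7 : ‖(r - s) • (z + r • h + h)‖ = (r - s) * 1 := by
        rw [norm_smul, Real.norm_of_nonneg (by linarith), h4]
      rw [← h6, ← h7, e]
      exact norm_add_le _ _
    linarith
  have l2 : 1 ≤ ‖z + s • h + h‖ := by
    have e : (1 + s) • (z + h) = (z + s • h + h) + s • z := by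
      simp only [smul_add, add_smul, one_smul]; abel
    have h5 : (1 + s) * 1 ≤ ‖z + s • h + h‖ + s * 1 := by
      have h6 : ‖(1 + s) • (z + h)‖ = (1 + s) * 1 := by
        rw [norm_smul, Real.norm_of_nonneg (by linarith), h2]
      have h7 : ‖s • z‖ = s * 1 := by
        rw [norm_smul, Real.norm_of_nonneg hs, h1]
      rw [← h6, ← h7, e]
      exact norm_add_le _ _
    linarith
  exact ⟨le_antisymm u1 l1, le_antisymm u2 l2⟩

/-- convex combination with one point strictly inside. -/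
theorem pconn_lt {x y : X} {a b : ℝ} (hx : ‖x‖ < 1) (hy : ‖y‖ ≤ 1) (ha : 0 < a) (hb : 0 ≤ b)
    (hab : a + b = 1) : ‖a • x + b • y‖ < 1 := by
  refine lt_of_le_of_lt (norm_add_le _ _) ?_
  rw [norm_smul, norm_smul, Real.norm_of_nonneg ha.le, Real.norm_of_nonneg hb]
  nlinarith [norm_nonneg x, norm_nonneg y]

theorem pconn_not {x h : X} {s : ℝ} (hx : ‖x‖ < 1) (hxh : ‖x + h‖ < 1) (h1 : ‖x + s • h‖ = 1)
    (h2 : ‖x + s • h + h‖ = 1) : False := by
  rcases le_or_gt s (-1) with c1 | c1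
  · rcases eq_or_lt_of_le c1 with c | c
    · -- s = -1
      rw [c] at h2
      have : x + (-1 : ℝ) • h + h = x := by rw [neg_smul, one_smul]; abel
      rw [this] at h2
      linarith
    · -- s < -1
      have hs : s < 0 := by linarith
      have key := pconn_lt (x := x) (y := x + s • h) (a := -1 / s) (b := (s + 1) / s) hx h1.le
        (div_pos_of_neg_of_neg (by norm_num) hs) (div_nonneg_of_nonpos (by linarith) hs.le)
        (by rw [← add_div, show -1 + (s + 1) = s by ring, div_self hs.ne])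
      have e : (-1 / s) • x + ((s + 1) / s) • (x + s • h) = x + s • h + h := by
        have h3 : (s + 1) / s * s = s + 1 := div_mul_cancel₀ _ hs.ne
        have h4 : -1 / s + (s + 1) / s = 1 := by
          rw [← add_div, show -1 + (s + 1) = s by ring, div_self hs.ne]
        rw [smul_add, smul_smul, h3, ← add_assoc, ← add_smul, h4, one_smul, add_smul, one_smul]
        abel
      rw [e] at key
      linarith
  rcases le_or_gt s 0 with c2 | c2
  · -- -1 < s ≤ 0
    have key := pconn_lt (x := x + h) (y := x) (a := s + 1) (b := -s) hxh hx.le (by linarith)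
      (by linarith) (by ring)
    have e : (s + 1) • (x + h) + (-s) • x = x + s • h + h := by
      simp only [smul_add, add_smul, one_smul, neg_smul]; abel
    rw [e] at key
    linarith
  rcases le_or_gt s 1 with c3 | c3
  · -- 0 < s ≤ 1
    have key := pconn_lt (x := x + h) (y := x) (a := s) (b := 1 - s) hxh hx.le c2
      (by linarith) (by ring)
    have e : s • (x + h) + (1 - s) • x = x + s • h := by
      simp only [smul_add, sub_smul, one_smul]; abel
    rw [e] at key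
    linarith
  · -- 1 < s
    have hs : 0 < s := by linarith
    have key := pconn_lt (x := x + h) (y := x + s • h + h) (a := 1 / s) (b := (s - 1) / s) hxh
      h2.le (by positivity) (div_nonneg (by linarith) hs.le) (by field_simp; ring)
    have e : (1 / s) • (x + h) + ((s - 1) / s) • (x + s • h + h) = x + s • h := by
      have h3 : (s - 1) / s * s = s - 1 := div_mul_cancel₀ _ hs.ne'
      have h4 : 1 / s + (s - 1) / s = 1 := by field_simp; ring
      have e1 : (1 / s) • (x + h) + ((s - 1) / s) • (x + s • h + h)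
          = (1 / s + (s - 1) / s) • (x + h) + ((s - 1) / s * s) • h := by
        rw [add_smul, mul_smul]
        simp only [smul_add]
        abel
      rw [e1, h3, h4, one_smul, sub_smul, one_smul]
      abel
    rw [e] at key
    linarith

theorem pconn_shift_aux {x h : X} (h2 : ‖h‖ < 2) (hx : ‖x‖ < 1) (hxh : ‖x + h‖ ≤ 1) :
    ∃ s : ℝ, ‖x + s • h‖ < 1 ∧ ‖x + s • h + h‖ < 1 := by
  refine ⟨-((1 - ‖x‖) / 4), ?_, ?_⟩
  · refine lt_of_le_of_lt (norm_add_le _ _) ?_
    rw [norm_smul, norm_neg, Real.norm_of_nonneg (by linarith)]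
    have h3 : (1 - ‖x‖) / 4 * ‖h‖ ≤ (1 - ‖x‖) / 4 * 2 :=
      mul_le_mul_of_nonneg_left h2.le (by linarith)
    linarith
  · have h3 := norm_nonneg x
    have key := pconn_lt (x := x) (y := x + h) (a := (1 - ‖x‖) / 4) (b := 1 - (1 - ‖x‖) / 4) hx
      hxh (by linarith) (by linarith) (by ring)
    have e : ((1 - ‖x‖) / 4) • x + (1 - (1 - ‖x‖) / 4) • (x + h)
        = x + (-((1 - ‖x‖) / 4)) • h + h := by
      simp only [smul_add, sub_smul, one_smul, neg_smul]; abel
    rw [e] at key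
    exact key

theorem pconn_shift {x h : X} (h2 : ‖h‖ < 2) (hx : ‖x‖ ≤ 1) (hxh : ‖x + h‖ ≤ 1)
    (hlt : ‖x‖ < 1 ∨ ‖x + h‖ < 1) : ∃ s : ℝ, ‖x + s • h‖ < 1 ∧ ‖x + s • h + h‖ < 1 := by
  rcases hlt with hlt | hlt
  · exact pconn_shift_aux h2 hlt hxh
  · obtain ⟨s, hs1, hs2⟩ := pconn_shift_aux (x := x + h) (h := -h) (by rwa [norm_neg]) hlt
      (by rwa [add_neg_cancel_right])
    refine ⟨-s, ?_, ?_⟩
    · have e : x + (-s) • h = x + h + s • (-h) + -h := by
        rw [smul_neg, neg_smul]; abel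
      rw [e]; exact hs2
    · have e : x + (-s) • h + h = x + h + s • (-h) := by
        rw [smul_neg, neg_smul]; abel
      rw [e]; exact hs1

theorem pconn_coef {h d : X} (hd : d ∉ Submodule.span ℝ {h}) :
    ∃ c : ℝ, 0 < c ∧ ∀ d' : X, ‖d' - d‖ ≤ c → ∀ α β : ℝ, c * |α| ≤ ‖α • d' + β • h‖ := by
  have hcl : IsClosed ((Submodule.span ℝ {h} : Submodule ℝ X) : Set X) :=
    Submodule.closed_of_finiteDimensional _
  have hne : ((Submodule.span ℝ {h} : Submodule ℝ X) : Set X).Nonempty := ⟨0, zero_mem _⟩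
  have hpos : 0 < infDist d ((Submodule.span ℝ {h} : Submodule ℝ X) : Set X) :=
    (hcl.notMem_iff_infDist_pos hne).mp hd
  set c := infDist d ((Submodule.span ℝ {h} : Submodule ℝ X) : Set X) with hc
  refine ⟨c / 2, by positivity, fun d' hd' α β => ?_⟩
  have h1 : c * |α| ≤ ‖α • d + β • h‖ := by
    rcases eq_or_ne α 0 with rfl | hα
    · simp
    · have hmem : (-(β / α)) • h ∈ ((Submodule.span ℝ {h} : Submodule ℝ X) : Set X) :=
        Submodule.smul_mem _ _ (Submodule.mem_span_singleton_self h)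
      have h2 : c ≤ dist d ((-(β / α)) • h) := infDist_le_dist_of_mem hmem
      rw [dist_eq_norm] at h2
      have e : α • d + β • h = α • (d - (-(β / α)) • h) := by
        rw [smul_sub, smul_smul, mul_neg, mul_div_cancel₀ _ hα, neg_smul, sub_neg_eq_add]
      rw [e, norm_smul, Real.norm_eq_abs, mul_comm]
      exact mul_le_mul_of_nonneg_left h2 (abs_nonneg _)
  have h2 : ‖α • d + β • h‖ ≤ ‖α • d' + β • h‖ + |α| * (c / 2) := by
    have e : α • d + β • h = (α • d' + β • h) - α • (d' - d) := by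
      rw [smul_sub]; abel
    rw [e]
    refine (norm_sub_le _ _).trans ?_
    rw [norm_smul, Real.norm_eq_abs]
    have := mul_le_mul_of_nonneg_left hd' (abs_nonneg α)
    linarith
  linarith

theorem pconn_exists {h d : X} (h0 : h ≠ 0) (h2 : ‖h‖ < 2) (hd : d ∉ Submodule.span ℝ {h}) :
    ∃ α β : ℝ, 0 < α ∧ ‖α • d + β • h‖ = 1 ∧ ‖α • d + β • h + h‖ = 1 := by
  obtain ⟨c, hc, hcoef⟩ := pconn_coef hd
  have hcoef' : ∀ α β : ℝ, c * |α| ≤ ‖α • d + β • h‖ :=
    hcoef d (by rw [sub_self, norm_zero]; exact hc.le)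
  have hh : 0 < ‖h‖ := norm_pos_iff.mpr h0
  set K : Set (ℝ × ℝ) := {p | 0 ≤ p.1 ∧ ‖p.1 • d + p.2 • h‖ ≤ 1 ∧ ‖p.1 • d + p.2 • h + h‖ ≤ 1}
    with hK
  have hKcl : IsClosed K := by
    have c1 : Continuous fun p : ℝ × ℝ => ‖p.1 • d + p.2 • h‖ := by fun_prop
    have c2 : Continuous fun p : ℝ × ℝ => ‖p.1 • d + p.2 • h + h‖ := by fun_prop
    exact IsClosed.inter (isClosed_le continuous_const continuous_fst) (IsClosed.inter
      (isClosed_le c1 continuous_const) (isClosed_le c2 continuous_const))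
  have hKsub : K ⊆ Icc (-(1 / c)) (1 / c) ×ˢ
      Icc (-((1 + 1 / c * ‖d‖) / ‖h‖)) ((1 + 1 / c * ‖d‖) / ‖h‖) := by
    rintro ⟨α, β⟩ ⟨hα, hn1, hn2⟩
    simp only at hα hn1 hn2
    have h3 : |α| ≤ 1 / c := by
      rw [le_div_iff₀ hc]
      have := hcoef' α β
      linarith
    have h4 : |β| ≤ (1 + 1 / c * ‖d‖) / ‖h‖ := by
      rw [le_div_iff₀ hh]
      have e : β • h = (α • d + β • h) - α • d := by abel
      have h5 : ‖β • h‖ ≤ 1 + |α| * ‖d‖ := by
        rw [e]
        refine (norm_sub_le _ _).trans ?_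
        rw [norm_smul, Real.norm_eq_abs]
        linarith
      rw [norm_smul, Real.norm_eq_abs] at h5
      have := mul_le_mul_of_nonneg_right h3 (norm_nonneg d)
      linarith
    exact ⟨abs_le.mp h3, abs_le.mp h4⟩
  have hKc : IsCompact K := (isCompact_Icc.prod isCompact_Icc).of_isClosed_subset hKcl hKsub
  have hKne : K.Nonempty := by
    refine ⟨(0, -1 / 2), le_rfl, ?_, ?_⟩
    · simp only [zero_smul, zero_add]
      rw [norm_smul]
      norm_num
      linarith
    · have e : (0 : ℝ) • d + (-1 / 2 : ℝ) • h + h = (1 / 2 : ℝ) • h := by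
        rw [zero_smul, zero_add]
        module
      show ‖(0 : ℝ) • d + (-1 / 2 : ℝ) • h + h‖ ≤ 1
      rw [e, norm_smul]
      norm_num
      linarith
  obtain ⟨⟨α, β⟩, hmem, hmax⟩ := hKc.exists_isMaxOn hKne continuous_fst.continuousOn
  have hmax' : ∀ α' β' : ℝ, (α', β') ∈ K → α' ≤ α := fun α' β' hp => hmax hp
  obtain ⟨hα, hn1, hn2⟩ := hmem
  simp only at hα hn1 hn2
  -- a strictly feasible point at height α gives a contradiction
  have hstrict : ∀ x : ℝ, 0 ≤ α → ‖α • d + x • h‖ < 1 → ‖α • d + x • h + h‖ < 1 → False := by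
    intro x _ hx1 hx2
    set m := max ‖α • d + x • h‖ ‖α • d + x • h + h‖ with hm
    have hm1 : m < 1 := max_lt hx1 hx2
    have hηpos : 0 < (1 - m) / (‖d‖ + 1) := by
      have := norm_nonneg d
      exact div_pos (by linarith) (by linarith)
    have hηd : (1 - m) / (‖d‖ + 1) * ‖d‖ ≤ 1 - m := by
      have := norm_nonneg d
      rw [div_mul_eq_mul_div, div_le_iff₀ (by linarith)]
      nlinarith
    set η := (1 - m) / (‖d‖ + 1) with hη
    have hin : (α + η, x) ∈ K := by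
      refine ⟨by show 0 ≤ α + η; linarith, ?_, ?_⟩
      · show ‖(α + η) • d + x • h‖ ≤ 1
        have e : (α + η) • d + x • h = (α • d + x • h) + η • d := by rw [add_smul]; abel
        rw [e]
        refine (norm_add_le _ _).trans ?_
        rw [norm_smul, Real.norm_of_nonneg hηpos.le]
        have := le_max_left ‖α • d + x • h‖ ‖α • d + x • h + h‖
        linarith
      · show ‖(α + η) • d + x • h + h‖ ≤ 1
        have e : (α + η) • d + x • h + h = (α • d + x • h + h) + η • d := by rw [add_smul]; abel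
        rw [e]
        refine (norm_add_le _ _).trans ?_
        rw [norm_smul, Real.norm_of_nonneg hηpos.le]
        have := le_max_right ‖α • d + x • h‖ ‖α • d + x • h + h‖
        linarith
    have := hmax' _ _ hin
    linarith
  have hboth : ‖α • d + β • h‖ = 1 ∧ ‖α • d + β • h + h‖ = 1 := by
    by_contra hcon
    have hlt : ‖α • d + β • h‖ < 1 ∨ ‖α • d + β • h + h‖ < 1 := by
      rcases lt_or_eq_of_le hn1 with h3 | h3
      · exact Or.inl h3
      · rcases lt_or_eq_of_le hn2 with h4 | h4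
        · exact Or.inr h4
        · exact absurd ⟨h3, h4⟩ hcon
    obtain ⟨s, hs1, hs2⟩ := pconn_shift h2 hn1 hn2 hlt
    refine hstrict (β + s) hα ?_ ?_
    · rwa [add_smul, ← add_assoc]
    · rwa [add_smul, ← add_assoc]
  refine ⟨α, β, ?_, hboth.1, hboth.2⟩
  rcases lt_or_eq_of_le hα with h3 | h3
  · exact h3
  · exfalso
    refine hstrict (-1 / 2) hα ?_ ?_
    · rw [← h3, zero_smul, zero_add, norm_smul]
      norm_num
      linarith
    · have e : α • d + (-1 / 2 : ℝ) • h + h = (1 / 2 : ℝ) • h := by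
        rw [← h3, zero_smul, zero_add]
        module
      rw [e, norm_smul]
      norm_num
      linarith

theorem pconn_height {h d : X} (h2 : ‖h‖ < 2) {α₁ β₁ α₂ β₂ : ℝ} (hα₁ : 0 < α₁)
    (hlt : α₁ < α₂) (ha : ‖α₁ • d + β₁ • h‖ = 1) (ha' : ‖α₁ • d + β₁ • h + h‖ = 1)
    (hb : ‖α₂ • d + β₂ • h‖ = 1) (hb' : ‖α₂ • d + β₂ • h + h‖ = 1) : False := by
  have hα₂ : 0 < α₂ := hα₁.trans hlt
  set t := α₁ / α₂ with ht
  have ht0 : 0 < t := by positivity
  have ht1 : t < 1 := (div_lt_one hα₂).mpr hlt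
  have htα : t * α₂ = α₁ := div_mul_cancel₀ _ hα₂.ne'
  -- the strictly interior pair
  set x : X := (1 - t) • ((-1 / 2 : ℝ) • h) + t • (α₂ • d + β₂ • h) with hx
  have hx1 : ‖x‖ < 1 := by
    refine pconn_lt ?_ hb.le (by linarith) ht0.le (by ring)
    rw [norm_smul]; norm_num; linarith
  have hxh : x + h = (1 - t) • ((1 / 2 : ℝ) • h) + t • (α₂ • d + β₂ • h + h) := by
    rw [hx]; module
  have hx2 : ‖x + h‖ < 1 := by
    rw [hxh]
    refine pconn_lt ?_ hb'.le (by linarith) ht0.le (by ring)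
    rw [norm_smul]; norm_num; linarith
  have e : α₁ • d + β₁ • h = x + (β₁ + (1 - t) / 2 - t * β₂) • h := by
    rw [hx, ← htα]; module
  refine pconn_not (s := β₁ + (1 - t) / 2 - t * β₂) hx1 hx2 ?_ ?_
  · rw [← e]; exact ha
  · rw [← e]; exact ha'

theorem convex_PFib {h d : X} (h2 : ‖h‖ < 2) : Convex ℝ (PFib h d) := by
  -- ordered version
  have key : ∀ α β₁ β₂ : ℝ, ∀ s : ℝ, β₁ ≤ β₂ → 0 ≤ s → s ≤ 1 →
      ‖α • d + β₁ • h‖ = 1 → ‖α • d + β₁ • h + h‖ = 1 → ‖α • d + β₂ • h‖ = 1 →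
      ‖α • d + β₂ • h + h‖ = 1 →
      ‖α • d + (β₁ + s * (β₂ - β₁)) • h‖ = 1 ∧ ‖α • d + (β₁ + s * (β₂ - β₁)) • h + h‖ = 1 := by
    intro α β₁ β₂ s hβ hs0 hs1 k1 k2 k3 k4
    have e : α • d + β₂ • h = (α • d + β₁ • h) + (β₂ - β₁) • h := by module
    have e' : α • d + (β₁ + s * (β₂ - β₁)) • h
        = (α • d + β₁ • h) + (s * (β₂ - β₁)) • h := by module
    rw [e'] 
    rw [e] at k3 k4
    refine pconn_seg (mul_nonneg hs0 (by linarith)) ?_ k1 k2 k3 k4
    nlinarith
  rintro x ⟨hx1, hx2, α₁, β₁, hα₁, hx3⟩ y ⟨hy1, hy2, α₂, β₂, hα₂, hy3⟩ a b ha hb hab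
  have hαeq : α₁ = α₂ := by
    rcases lt_trichotomy α₁ α₂ with h3 | h3 | h3
    · exact (pconn_height h2 hα₁ h3 (hx3 ▸ hx1) (hx3 ▸ hx2) (hy3 ▸ hy1) (hy3 ▸ hy2)).elim
    · exact h3
    · exact (pconn_height h2 hα₂ h3 (hy3 ▸ hy1) (hy3 ▸ hy2) (hx3 ▸ hx1) (hx3 ▸ hx2)).elim
  subst hαeq
  rw [hx3] at hx1 hx2
  rw [hy3] at hy1 hy2
  have hb' : b = 1 - a := by linarith
  rcases le_total β₁ β₂ with hβ | hβ
  · obtain ⟨k1, k2⟩ := key α₁ β₁ β₂ b hβ hb (by linarith) hx1 hx2 hy1 hy2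
    have e : a • x + b • y = α₁ • d + (β₁ + b * (β₂ - β₁)) • h := by
      rw [hx3, hy3, hb']; module
    refine ⟨?_, ?_, α₁, _, hα₁, e⟩
    · rw [e]; exact k1
    · rw [e]; exact k2
  · obtain ⟨k1, k2⟩ := key α₁ β₂ β₁ a hβ ha (by linarith) hy1 hy2 hx1 hx2
    have e : a • x + b • y = α₁ • d + (β₂ + a * (β₁ - β₂)) • h := by
      rw [hx3, hy3, hb']; module
    refine ⟨?_, ?_, α₁, _, hα₁, e⟩
    · rw [e]; exact k1
    · rw [e]; exact k2

theorem pconn_notMem {h z : X} (h0 : h ≠ 0) (h2 : ‖h‖ < 2) (hz : ‖z‖ = 1) (hz' : ‖z + h‖ = 1) :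
    z ∉ Submodule.span ℝ {h} := by
  intro hmem
  obtain ⟨b, rfl⟩ := Submodule.mem_span_singleton.mp hmem
  have hh : 0 < ‖h‖ := norm_pos_iff.mpr h0
  have e : b • h + h = (b + 1) • h := by rw [add_smul, one_smul]
  rw [e, norm_smul, Real.norm_eq_abs] at hz'
  rw [norm_smul, Real.norm_eq_abs] at hz
  have h3 : |b| = |b + 1| := by
    have : |b| * ‖h‖ = |b + 1| * ‖h‖ := by rw [hz, hz']
    exact mul_right_cancel₀ hh.ne' this
  rcases abs_eq_abs.mp h3 with h4 | h4
  · linarith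
  · have h5 : b = -1 / 2 := by linarith
    rw [h5] at hz
    norm_num at hz
    linarith

theorem pconn_limit {h d : X} (h0 : h ≠ 0) (h2 : ‖h‖ < 2) (hd : d ∉ Submodule.span ℝ {h})
    {u v : Set X} (hv : IsOpen v)
    (hdisj : ∀ z : X, ‖z‖ = 1 → ‖z + h‖ = 1 → z ∈ u → z ∈ v → False)
    (hdv : PFib h d ⊆ v)
    (hcl : d ∈ closure {d' : X | d' ∉ Submodule.span ℝ {h} ∧ PFib h d' ⊆ u}) : False := by
  obtain ⟨x, hx, hlim⟩ := mem_closure_iff_seq_limit.mp hcl
  obtain ⟨c, hc, hcoef⟩ := pconn_coef hd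
  have hh : 0 < ‖h‖ := norm_pos_iff.mpr h0
  have hex : ∀ n, ∃ p : ℝ × ℝ, 0 < p.1 ∧ ‖p.1 • x n + p.2 • h‖ = 1 ∧
      ‖p.1 • x n + p.2 • h + h‖ = 1 := fun n => by
    obtain ⟨α, β, h3⟩ := pconn_exists h0 h2 (hx n).1
    exact ⟨(α, β), h3⟩
  choose p hp1 hp2 hp3 using hex
  -- boundedness
  have hev : ∀ᶠ n in atTop, ‖x n - d‖ ≤ c := by
    have := (tendsto_iff_norm_sub_tendsto_zero.mp hlim)
    filter_upwards [this.eventually (gt_mem_nhds hc)] with n hn
    exact hn.le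
  have hbd : ∀ᶠ n in atTop, p n ∈ Icc (-(1 / c)) (1 / c) ×ˢ
      Icc (-((1 + 1 / c * (‖d‖ + c)) / ‖h‖)) ((1 + 1 / c * (‖d‖ + c)) / ‖h‖) := by
    filter_upwards [hev] with n hn
    have h3 : |(p n).1| ≤ 1 / c := by
      rw [le_div_iff₀ hc]
      have := hcoef (x n) hn (p n).1 (p n).2
      rw [hp2 n] at this
      linarith
    have h4 : |(p n).2| ≤ (1 + 1 / c * (‖d‖ + c)) / ‖h‖ := by
      rw [le_div_iff₀ hh]
      have e : (p n).2 • h = ((p n).1 • x n + (p n).2 • h) - (p n).1 • x n := by abel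
      have h5 : ‖(p n).2 • h‖ ≤ 1 + |(p n).1| * ‖x n‖ := by
        rw [e]
        refine (norm_sub_le _ _).trans ?_
        rw [norm_smul, Real.norm_eq_abs, hp2 n]
      rw [norm_smul, Real.norm_eq_abs] at h5
      have h6 : ‖x n‖ ≤ ‖d‖ + c := by
        have : x n = d + (x n - d) := by abel
        rw [this]
        exact (norm_add_le _ _).trans (by linarith)
      have h7 : |(p n).1| * ‖x n‖ ≤ 1 / c * (‖d‖ + c) :=
        mul_le_mul h3 h6 (norm_nonneg _) (by positivity)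
      linarith
    exact ⟨abs_le.mp h3, abs_le.mp h4⟩
  obtain ⟨q, hq, φ, hφ, hφlim⟩ :=
    (isCompact_Icc.prod isCompact_Icc).tendsto_subseq' hbd.frequently
  -- the limit point
  have hx' : Tendsto (fun n => x (φ n)) atTop (𝓝 d) := hlim.comp hφ.tendsto_atTop
  have hp1' : Tendsto (fun n => (p (φ n)).1) atTop (𝓝 q.1) :=
    (continuous_fst.tendsto q).comp hφlim
  have hp2' : Tendsto (fun n => (p (φ n)).2) atTop (𝓝 q.2) :=
    (continuous_snd.tendsto q).comp hφlim
  have hz : Tendsto (fun n => (p (φ n)).1 • x (φ n) + (p (φ n)).2 • h) atTop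
      (𝓝 (q.1 • d + q.2 • h)) := (hp1'.smul hx').add (hp2'.smul_const h)
  have hn1 : ‖q.1 • d + q.2 • h‖ = 1 := by
    have h3 := hz.norm
    have h4 : (fun n => ‖(p (φ n)).1 • x (φ n) + (p (φ n)).2 • h‖) = fun _ => (1 : ℝ) :=
      funext fun n => hp2 (φ n)
    rw [h4] at h3
    exact tendsto_nhds_unique h3 tendsto_const_nhds |>.symm ▸ rfl
  have hn2 : ‖q.1 • d + q.2 • h + h‖ = 1 := by
    have h3 := (hz.add_const h).norm
    have h4 : (fun n => ‖(p (φ n)).1 • x (φ n) + (p (φ n)).2 • h + h‖) = fun _ => (1 : ℝ) :=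
      funext fun n => hp3 (φ n)
    rw [h4] at h3
    exact tendsto_nhds_unique h3 tendsto_const_nhds |>.symm ▸ rfl
  have hq1 : 0 ≤ q.1 := ge_of_tendsto' hp1' (fun n => (hp1 (φ n)).le)
  have hq1' : 0 < q.1 := by
    rcases lt_or_eq_of_le hq1 with h3 | h3
    · exact h3
    · exfalso
      rw [← h3, zero_smul, zero_add] at hn1 hn2
      exact pconn_notMem h0 h2 hn1 hn2
        (Submodule.smul_mem _ _ (Submodule.mem_span_singleton_self h))
  have hmem : q.1 • d + q.2 • h ∈ v := hdv ⟨hn1, hn2, q.1, q.2, hq1', rfl⟩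
  obtain ⟨n, hn⟩ := (hz.eventually (hv.mem_nhds hmem)).exists
  exact hdisj _ (hp2 (φ n)) (hp3 (φ n))
    ((hx (φ n)).2 ⟨hp2 (φ n), hp3 (φ n), _, _, hp1 (φ n), rfl⟩) hn

theorem one_lt_rank_quotient (hX : 2 < Module.rank ℝ X) (h : X) :
    1 < Module.rank ℝ (X ⧸ (Submodule.span ℝ {h} : Submodule ℝ X)) := by
  by_contra hcon
  push Not at hcon
  have h1 := Submodule.rank_quotient_add_rank (Submodule.span ℝ {h} : Submodule ℝ X)
  have h2 : Module.rank ℝ (Submodule.span ℝ {h} : Submodule ℝ X) ≤ 1 := by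
    refine (rank_span_le ({h} : Set X)).trans ?_
    simp
  have h3 : Module.rank ℝ X ≤ 1 + 1 := by
    rw [← h1]
    exact add_le_add hcon h2
  rw [one_add_one_eq_two] at h3
  exact absurd hX (not_lt.mpr h3)

theorem isPreconnected_P (hX : 2 < Module.rank ℝ X) {h : X} (h0 : h ≠ 0) (h2 : ‖h‖ < 2) :
    IsPreconnected {z : X | ‖z‖ = 1 ∧ ‖z + h‖ = 1} := by
  intro u v hu hv huv hne1 hne2
  obtain ⟨z0, ⟨hz0, hz0'⟩, hz0u⟩ := hne1
  obtain ⟨z1, ⟨hz1, hz1'⟩, hz1v⟩ := hne2
  by_contra hcon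
  have hdisj : ∀ z : X, ‖z‖ = 1 → ‖z + h‖ = 1 → z ∈ u → z ∈ v → False :=
    fun z h3 h4 h5 h6 => hcon ⟨z, ⟨h3, h4⟩, h5, h6⟩
  have hpre : IsPreconnected ((Submodule.span ℝ {h} : Submodule ℝ X) : Set X)ᶜ :=
    (isConnected_compl_of_one_lt_codim (one_lt_rank_quotient hX h)).isPreconnected
  have hsub : ∀ d : X, PFib h d ⊆ u ∨ PFib h d ⊆ v := by
    intro d
    refine isPreconnected_iff_subset_of_disjoint.mp (convex_PFib (d := d) h2).isPreconnected u v
      hu hv (fun z hz => huv ⟨hz.1, hz.2.1⟩) ?_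
    ext z
    constructor
    · rintro ⟨hz, hzu, hzv⟩
      exact (hdisj z hz.1 hz.2.1 hzu hzv).elim
    · intro hz
      exact hz.elim
  have hself : ∀ z : X, ‖z‖ = 1 → ‖z + h‖ = 1 → z ∈ PFib h z := fun z h3 h4 =>
    ⟨h3, h4, 1, 0, one_pos, by rw [one_smul, zero_smul, add_zero]⟩
  have hDU : z0 ∈ closure {d' : X | d' ∉ Submodule.span ℝ {h} ∧ PFib h d' ⊆ u} := by
    refine subset_closure ⟨pconn_notMem h0 h2 hz0 hz0', ?_⟩
    rcases hsub z0 with h3 | h3
    · exact h3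
    · exact (hdisj z0 hz0 hz0' hz0u (h3 (hself z0 hz0 hz0'))).elim
  have hDV : z1 ∈ closure {d' : X | d' ∉ Submodule.span ℝ {h} ∧ PFib h d' ⊆ v} := by
    refine subset_closure ⟨pconn_notMem h0 h2 hz1 hz1', ?_⟩
    rcases hsub z1 with h3 | h3
    · exact (hdisj z1 hz1 hz1' (h3 (hself z1 hz1 hz1')) hz1v).elim
    · exact h3
  obtain ⟨d, hdD, hdU, hdV⟩ := isPreconnected_closed_iff.mp hpre _ _ isClosed_closure
    isClosed_closure (fun d hd => by
      rcases hsub d with h3 | h3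
      · exact Or.inl (subset_closure ⟨hd, h3⟩)
      · exact Or.inr (subset_closure ⟨hd, h3⟩))
    ⟨z0, pconn_notMem h0 h2 hz0 hz0', hDU⟩ ⟨z1, pconn_notMem h0 h2 hz1 hz1', hDV⟩
  rcases hsub d with h3 | h3
  · exact pconn_limit h0 h2 hdD hu (fun z h4 h5 h6 h7 => hdisj z h4 h5 h7 h6) h3 hdV
  · exact pconn_limit h0 h2 hdD hv hdisj h3 hdU

end PConn

end Crest.Agent.R074
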