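import Crest.Agent.R074.Asm
import Crest.Agent.R074.CaseB
import Crest.Agent.R074.PConn

/-!
Row 74 (S0099), case (B), final form: `CaseBStatement` of `Asm.lean`.
-/

set_option autoImplicit false

universe u v

namespace Crest.Agent.R074

open Metric Set Filter Topology

/-- local Theorem A with a uniform radius on a dense set implies the extension property -/
theorem ext_of_dense_LTA {X : Type u} {Y : Type v} [NormedAddCommGroup X] [NormedSpace ℝ X]
    [NormedAddCommGroup Y] [NormedSpace ℝ Y] {f : X → Y} {g : Y → X} (h : SI f g)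
    (ho : ∀ x, ‖x‖ = 1 → f (-x) = -f x) (hX : 2 < Module.rank ℝ X) {ε : ℝ} (hε : 0 < ε)
    (hG : sphere (0 : X) 1 ⊆ closure (GoodSet f ε)) : Ext f := by
  refine linear_of_dloc h ho hX (fun k hk0 hk2 => isPreconnected_P hX hk0 hk2)
    (c := ε / 80) (by positivity) ?_
  intro z₁ z₂ d h1 h2 h1' h2' hz hd
  refine dloc_of_LTA h hε (GoodSet f ε) (fun u hu => hu.1) ?_
    (fun u hu x hx hxu => hu.2.2.2 x hx hxu) h1 h2 h1' h2' hz hd
  intro s hs δ hδ
  obtain ⟨u, hu, hsu⟩ := Metric.mem_closure_iff.mp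
    (hG (show s ∈ sphere (0 : X) 1 by simpa using hs)) δ hδ
  exact ⟨u, hu, by rwa [← dist_eq_norm]⟩

theorem two_lt_rank {X : Type u} [AddCommGroup X] [Module ℝ X] (hX : ¬ FiniteDimensional ℝ X) :
    2 < Module.rank ℝ X := by
  have h1 : Cardinal.aleph0 ≤ Module.rank ℝ X := by
    by_contra hcon
    push Not at hcon
    exact hX (Module.rank_lt_aleph0_iff.mp hcon)
  exact lt_of_lt_of_le (by exact_mod_cast Cardinal.nat_lt_aleph0 2) h1

theorem caseBStatement : CaseBStatement.{u, v} := by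
  intro X Y _ _ _ _ _ _ _ _ f g h ho hX ε hε hG
  exact ext_of_dense_LTA h ho (two_lt_rank hX) hε hG

end Crest.Agent.R074
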