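import Crest.Agent.R074.Base

/-!
Row 74 (S0099): chords of the unit ball. For a unit vector `u` and a point `v` of the open unit
ball, `tau u v` is the unique `t > 0` with `‖v + t • u‖ = 1`, and `top u v = v + tau u v • u`.
The other end of the chord is `top (-u) v`.
-/

set_option autoImplicit false

namespace Crest.Agent.R074

open Metric Set Filter Topology

section Tau

variable {X : Type*} [NormedAddCommGroup X] [NormedSpace ℝ X]

/-- convexity of the norm along a line, chord form -/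
theorem norm_line_le (v u : X) {s t : ℝ} (hs : 0 ≤ s) (hst : s ≤ t) (ht : 0 < t) :
    ‖v + s • u‖ ≤ (1 - s / t) * ‖v‖ + (s / t) * ‖v + t • u‖ := by
  have e : v + s • u = (1 - s / t) • v + (s / t) • (v + t • u) := by
    rw [sub_smul, one_smul, smul_add, smul_smul, div_mul_cancel₀ s ht.ne']; abel
  have h0 : s / t ≤ 1 := (div_le_one ht).mpr hst
  have h00 : 0 ≤ s / t := div_nonneg hs ht.le
  conv_lhs => rw [e]
  refine (norm_add_le _ _).trans ?_
  rw [norm_smul, norm_smul, Real.norm_of_nonneg (by linarith), Real.norm_of_nonneg h00]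

/-- if the line starts inside the open ball and is in the closed ball at time `t`, it is in the
open ball before -/
theorem norm_line_lt {v u : X} (hv : ‖v‖ < 1) {s t : ℝ} (hs : 0 ≤ s) (hst : s < t)
    (ht : ‖v + t • u‖ ≤ 1) : ‖v + s • u‖ < 1 := by
  have ht0 : 0 < t := lt_of_le_of_lt hs hst
  have h1 := norm_line_le v u hs hst.le ht0
  have h2 : s / t < 1 := (div_lt_one ht0).mpr hst
  have h3 : 0 ≤ s / t := div_nonneg hs ht0.le
  nlinarith

/-- the exit time of the line `v + t u` from the unit ball -/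
noncomputable def tau (u v : X) : ℝ := sSup {t : ℝ | ‖v + t • u‖ ≤ 1}

/-- the exit point -/
noncomputable def top (u v : X) : X := v + tau u v • u

theorem exists_exit {u v : X} (hu : ‖u‖ = 1) (hv : ‖v‖ < 1) : ∃ t : ℝ, 0 < t ∧ ‖v + t • u‖ = 1 := by
  have hc : ContinuousOn (fun t : ℝ => ‖v + t • u‖) (Icc 0 2) := by fun_prop
  have h2 : 1 ≤ ‖v + (2 : ℝ) • u‖ := by
    have h3 : ‖(2 : ℝ) • u‖ ≤ ‖v + (2 : ℝ) • u‖ + ‖v‖ := by
      have e : (2 : ℝ) • u = (v + (2 : ℝ) • u) - v := by abel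
      conv_lhs => rw [e]
      exact norm_sub_le _ _
    rw [norm_smul, hu, Real.norm_of_nonneg (by norm_num)] at h3
    linarith
  have h0 : ‖v + (0 : ℝ) • u‖ ≤ 1 := by
    rw [zero_smul, add_zero]; exact hv.le
  obtain ⟨t, ht, hte⟩ := intermediate_value_Icc (show (0 : ℝ) ≤ 2 by norm_num) hc
    (show (1 : ℝ) ∈ Icc (‖v + (0 : ℝ) • u‖) (‖v + (2 : ℝ) • u‖) from ⟨h0, h2⟩)
  refine ⟨t, lt_of_le_of_ne ht.1 ?_, hte⟩
  intro h
  have hte' : ‖v + t • u‖ = 1 := hte
  rw [← h, zero_smul, add_zero] at hte'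
  linarith

theorem tau_eq {u v : X} (hv : ‖v‖ < 1) {t : ℝ} (ht0 : 0 ≤ t)
    (ht : ‖v + t • u‖ = 1) : tau u v = t := by
  have hg : IsGreatest {t : ℝ | ‖v + t • u‖ ≤ 1} t := by
    refine ⟨ht.le, ?_⟩
    intro s hs
    by_contra hcon
    push Not at hcon
    have := norm_line_lt hv ht0 hcon hs
    linarith
  exact hg.csSup_eq

theorem tau_spec {u v : X} (hu : ‖u‖ = 1) (hv : ‖v‖ < 1) :
    0 < tau u v ∧ ‖v + tau u v • u‖ = 1 := by
  obtain ⟨t, ht0, ht⟩ := exists_exit hu hv
  rw [tau_eq hv ht0.le ht]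
  exact ⟨ht0, ht⟩

theorem tau_pos {u v : X} (hu : ‖u‖ = 1) (hv : ‖v‖ < 1) : 0 < tau u v := (tau_spec hu hv).1

theorem norm_add_tau {u v : X} (hu : ‖u‖ = 1) (hv : ‖v‖ < 1) : ‖v + tau u v • u‖ = 1 :=
  (tau_spec hu hv).2

theorem norm_top {u v : X} (hu : ‖u‖ = 1) (hv : ‖v‖ < 1) : ‖top u v‖ = 1 := norm_add_tau hu hv

/-- before the exit time one is in the open ball -/
theorem lt_tau_iff {u v : X} (hu : ‖u‖ = 1) (hv : ‖v‖ < 1) {t : ℝ} (ht : 0 ≤ t) :
    t < tau u v ↔ ‖v + t • u‖ < 1 := by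
  constructor
  · intro h
    exact norm_line_lt hv ht h (norm_add_tau hu hv).le
  · intro h
    by_contra hcon
    push Not at hcon
    rcases hcon.eq_or_lt with h1 | h1
    · rw [← h1, norm_add_tau hu hv] at h
      exact lt_irrefl _ h
    · have := norm_line_lt hv (tau_pos hu hv).le h1 h.le
      rw [norm_add_tau hu hv] at this
      exact lt_irrefl _ this

/-- after the exit time one is outside the closed ball -/
theorem tau_lt_iff {u v : X} (hu : ‖u‖ = 1) (hv : ‖v‖ < 1) {t : ℝ} (ht : 0 ≤ t) :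
    tau u v < t ↔ 1 < ‖v + t • u‖ := by
  constructor
  · intro h
    by_contra hcon
    push Not at hcon
    have := norm_line_lt hv (tau_pos hu hv).le h hcon
    rw [norm_add_tau hu hv] at this
    exact lt_irrefl _ this
  · intro h
    by_contra hcon
    push Not at hcon
    rcases hcon.eq_or_lt with h1 | h1
    · rw [h1, norm_add_tau hu hv] at h
      exact lt_irrefl _ h
    · have := (lt_tau_iff hu hv ht).mp h1
      linarith

/-- between the two ends of the chord one is in the open ball -/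
theorem norm_lt_of_mem_chord {u v : X} (hu : ‖u‖ = 1) (hv : ‖v‖ < 1) {t : ℝ}
    (h1 : -tau (-u) v < t) (h2 : t < tau u v) : ‖v + t • u‖ < 1 := by
  rcases le_total 0 t with ht | ht
  · exact (lt_tau_iff hu hv ht).mp h2
  · have hu' : ‖-u‖ = 1 := by rw [norm_neg]; exact hu
    have := (lt_tau_iff hu' hv (neg_nonneg.mpr ht)).mp (by linarith)
    rwa [smul_neg, neg_smul, neg_neg] at this

theorem tau_le_two {u v : X} (hu : ‖u‖ = 1) (hv : ‖v‖ < 1) : tau u v ≤ 1 + ‖v‖ := by
  have h1 := norm_add_tau hu hv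
  have h2 := tau_pos hu hv
  have h3 : ‖tau u v • u‖ ≤ ‖v + tau u v • u‖ + ‖v‖ := by
    have e : tau u v • u = (v + tau u v • u) - v := by abel
    conv_lhs => rw [e]
    exact norm_sub_le _ _
  rw [norm_smul, hu, Real.norm_of_nonneg h2.le, h1] at h3
  linarith

theorem one_sub_le_tau {u v : X} (hu : ‖u‖ = 1) (hv : ‖v‖ < 1) : 1 - ‖v‖ ≤ tau u v := by
  have h1 := norm_add_tau hu hv
  have h2 := tau_pos hu hv
  have h3 := norm_add_le v (tau u v • u)
  rw [norm_smul, hu, Real.norm_of_nonneg h2.le, h1] at h3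
  linarith

/-- joint continuity of the exit time -/
theorem continuousOn_tau :
    ContinuousOn (fun q : X × X => tau q.1 q.2) {q | ‖q.1‖ = 1 ∧ ‖q.2‖ < 1} := by
  rintro ⟨u₀, v₀⟩ ⟨hu₀, hv₀⟩
  simp only at hu₀ hv₀
  rw [Metric.continuousWithinAt_iff']
  intro ε hε
  have hpos := tau_pos hu₀ hv₀
  set t₀ := tau u₀ v₀ with ht₀
  set ε' : ℝ := min ε t₀ with hε'
  have hε'0 : 0 < ε' := lt_min hε hpos
  have h1 : 0 ≤ t₀ - ε' := by
    have := min_le_right ε t₀
    linarith
  have h2 : 0 ≤ t₀ + ε' := by linarith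
  have hA : ‖v₀ + (t₀ - ε') • u₀‖ < 1 := (lt_tau_iff hu₀ hv₀ h1).mp (by linarith)
  have hB : 1 < ‖v₀ + (t₀ + ε') • u₀‖ := (tau_lt_iff hu₀ hv₀ h2).mp (by linarith)
  have hcA : Continuous (fun q : X × X => ‖q.2 + (t₀ - ε') • q.1‖) := by fun_prop
  have hcB : Continuous (fun q : X × X => ‖q.2 + (t₀ + ε') • q.1‖) := by fun_prop
  have hAe : ∀ᶠ q : X × X in 𝓝[{q | ‖q.1‖ = 1 ∧ ‖q.2‖ < 1}] (u₀, v₀),
      ‖q.2 + (t₀ - ε') • q.1‖ < 1 :=
    mem_nhdsWithin_of_mem_nhds (hcA.continuousAt.eventually_lt_const hA)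
  have hBe : ∀ᶠ q : X × X in 𝓝[{q | ‖q.1‖ = 1 ∧ ‖q.2‖ < 1}] (u₀, v₀),
      1 < ‖q.2 + (t₀ + ε') • q.1‖ :=
    mem_nhdsWithin_of_mem_nhds (hcB.continuousAt.eventually_const_lt hB)
  filter_upwards [hAe, hBe, self_mem_nhdsWithin] with q h3 h4 h5
  have h6 := (lt_tau_iff h5.1 h5.2 h1).mpr h3
  have h7 := (tau_lt_iff h5.1 h5.2 h2).mpr h4
  have h8 : ε' ≤ ε := min_le_left _ _
  rw [Real.dist_eq, abs_lt]
  constructor <;> linarith

theorem continuousOn_top :
    ContinuousOn (fun q : X × X => top q.1 q.2) {q | ‖q.1‖ = 1 ∧ ‖q.2‖ < 1} := by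
  have h1 : ContinuousOn (fun q : X × X => q.2 + tau q.1 q.2 • q.1)
      {q | ‖q.1‖ = 1 ∧ ‖q.2‖ < 1} :=
    continuousOn_snd.add (continuousOn_tau.smul continuousOn_fst)
  exact h1

/-- continuity in the second variable -/
theorem continuousOn_top_right {u : X} (hu : ‖u‖ = 1) : ContinuousOn (top u) (ball 0 1) := by
  have h1 : ContinuousOn (fun v : X => ((u, v) : X × X)) (ball 0 1) := by fun_prop
  refine (continuousOn_top (X := X)).comp h1 ?_
  intro v hv
  exact ⟨hu, by simpa using hv⟩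

/-- continuity in the first variable -/
theorem continuousOn_top_left {v : X} (hv : ‖v‖ < 1) :
    ContinuousOn (fun u : X => top u v) (sphere 0 1) := by
  have h1 : ContinuousOn (fun u : X => ((u, v) : X × X)) (sphere 0 1) := by fun_prop
  refine (continuousOn_top (X := X)).comp h1 ?_
  intro u hu
  exact ⟨by simpa using hu, hv⟩

theorem isPreconnected_top {u : X} (hu : ‖u‖ = 1) : IsPreconnected (top u '' ball 0 1) :=
  (convex_ball (0 : X) 1).isPreconnected.image _ (continuousOn_top_right hu)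

theorem top_sub_top (u v : X) : top u v - top (-u) v = (tau u v + tau (-u) v) • u := by
  unfold top
  rw [smul_neg, add_smul]; abel

theorem top_add_top (u v : X) :
    top u v + top (-u) v = (2 : ℝ) • v + (tau u v - tau (-u) v) • u := by
  unfold top
  rw [smul_neg, sub_smul, two_smul]; abel

/-- the chord only depends on the line -/
theorem top_add_smul {u v : X} (hu : ‖u‖ = 1) (hv : ‖v‖ < 1) {s : ℝ} (hs : ‖v + s • u‖ < 1) :
    top u (v + s • u) = top u v := by
  have hadd : ∀ (v : X) (s : ℝ), ‖v‖ < 1 → ‖v + s • u‖ < 1 → 0 ≤ s →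
      top u (v + s • u) = top u v := by
    intro v s hv hs hs0
    have h1 : s < tau u v := (lt_tau_iff hu hv hs0).mpr hs
    have h2 : tau u (v + s • u) = tau u v - s := by
      apply tau_eq hs (by linarith)
      rw [add_assoc, ← add_smul]
      have : s + (tau u v - s) = tau u v := by ring
      rw [this]
      exact norm_add_tau hu hv
    unfold top
    rw [h2, add_assoc, ← add_smul]
    congr 2; ring
  rcases le_total 0 s with h | h
  · exact hadd v s hv hs h
  · have e0 : v + s • u + (-s) • u = v := by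
      rw [add_assoc, ← add_smul, add_neg_cancel, zero_smul, add_zero]
    have h1 := hadd (v + s • u) (-s) hs (by rw [e0]; exact hv) (by linarith)
    rw [e0] at h1
    exact h1.symm

/-- a nondegenerate chord is given by `top` at any of its interior points -/
theorem eq_top {u v a : X} (hv : ‖v‖ < 1) (ha : ‖a‖ = 1) {r : ℝ} (hr : 0 ≤ r)
    (h : a = v + r • u) : a = top u v := by
  have h1 : tau u v = r := tau_eq hv hr (by rw [← h]; exact ha)
  unfold top
  rw [h1, h]

/-- ends of a nondegenerate chord in terms of the midpoint -/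
theorem chord_eq_top {u a b : X} (ha : ‖a‖ = 1) (hb : ‖b‖ = 1) (hab : ‖a + b‖ < 2) {r : ℝ}
    (hr : 0 ≤ r) (h : a - b = r • u) :
    a = top u ((1 / 2 : ℝ) • (a + b)) ∧ b = top (-u) ((1 / 2 : ℝ) • (a + b)) := by
  have hm : ‖(1 / 2 : ℝ) • (a + b)‖ < 1 := by
    rw [norm_smul, Real.norm_of_nonneg (by norm_num)]; linarith
  constructor
  · apply eq_top hm ha (show (0 : ℝ) ≤ r / 2 by linarith)
    have : (r / 2) • u = (1 / 2 : ℝ) • (a - b) := by rw [h, smul_smul]; congr 1; ring
    rw [this, ← smul_add]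
    have e : a + b + (a - b) = (2 : ℝ) • a := by rw [two_smul]; abel
    rw [e, smul_smul]; norm_num
  · apply eq_top hm hb (show (0 : ℝ) ≤ r / 2 by linarith)
    have : (r / 2) • (-u) = (1 / 2 : ℝ) • (-(a - b)) := by
      rw [h, smul_neg, smul_neg, smul_smul]; congr 2; ring
    rw [this, ← smul_add]
    have e : a + b + -(a - b) = (2 : ℝ) • b := by rw [two_smul]; abel
    rw [e, smul_smul]; norm_num

/-- the middle of a chord over a point of the open ball is in the open ball -/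
theorem norm_top_add_top_lt {u v : X} (hu : ‖u‖ = 1) (hv : ‖v‖ < 1) :
    ‖top u v + top (-u) v‖ < 2 := by
  have hu' : ‖-u‖ = 1 := by rw [norm_neg]; exact hu
  have h1 := tau_pos hu hv
  have h2 := tau_pos hu' hv
  have h3 : ‖v + ((tau u v - tau (-u) v) / 2) • u‖ < 1 :=
    norm_lt_of_mem_chord hu hv (by linarith) (by linarith)
  rw [top_add_top]
  have e : (2 : ℝ) • v + (tau u v - tau (-u) v) • u
      = (2 : ℝ) • (v + ((tau u v - tau (-u) v) / 2) • u) := by
    rw [smul_add, smul_smul]; congr 2; ring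
  rw [e, norm_smul, Real.norm_of_nonneg (by norm_num)]
  linarith

/-- the chord over a point of norm `< 1` has positive length, both ends unit -/
theorem norm_top_sub_top {u v : X} (hu : ‖u‖ = 1) (hv : ‖v‖ < 1) :
    ‖top u v - top (-u) v‖ = tau u v + tau (-u) v := by
  have hu' : ‖-u‖ = 1 := by rw [norm_neg]; exact hu
  rw [top_sub_top, norm_smul, hu, mul_one,
    Real.norm_of_nonneg (add_pos (tau_pos hu hv) (tau_pos hu' hv)).le]

theorem norm_top_sub_self {u v : X} (hu : ‖u‖ = 1) (hv : ‖v‖ < 1) : ‖top u v - u‖ ≤ 2 * ‖v‖ := by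
  have h1 := tau_le_two hu hv
  have h2 := one_sub_le_tau hu hv
  have e : top u v - u = v + (tau u v - 1) • u := by
    unfold top
    rw [sub_smul, one_smul]; abel
  rw [e]
  refine (norm_add_le _ _).trans ?_
  rw [norm_smul, hu, mul_one, Real.norm_eq_abs]
  have : |tau u v - 1| ≤ ‖v‖ := by
    rw [_root_.abs_le]
    constructor <;> linarith
  linarith

end Tau

end Crest.Agent.R074
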