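import Crest.Agent.R074.Canon
import Crest.Agent.R074.Tau

/-!
Row 74 (S0099): transfer of exposedness. If `x` is smooth, `x - y` is smooth and exposed, then
every norming functional of `f x - f y` is exposed (its face is a point).
-/

set_option autoImplicit false

namespace Crest.Agent.R074

open Metric Set Filter Topology

section Expo

variable {X Y : Type*} [NormedAddCommGroup X] [NormedSpace ℝ X] [NormedAddCommGroup Y]
  [NormedSpace ℝ Y] {f : X → Y} {g : Y → X}

theorem EP.norm_smul_nu {z : X} (hz : z ≠ 0) : ‖z‖ • nu z = z := by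
  rw [nu, smul_smul, mul_inv_cancel₀ (norm_ne_zero_iff.mpr hz), one_smul]

theorem EP.nu_smul {z : X} {r : ℝ} (hr : 0 < r) (hz : ‖z‖ = 1) : nu (r • z) = z := by
  rw [nu, norm_smul, hz, mul_one, Real.norm_of_nonneg hr.le, smul_smul, inv_mul_cancel₀ hr.ne',
    one_smul]

/-- two nondegenerate chords from the same top in the same direction have the same bottom -/
theorem EP.chord_bot_unique {x y w u : X} (hx : ‖x‖ = 1) (hy : ‖y‖ = 1) (hw : ‖w‖ = 1)
    (h1 : ‖x + y‖ < 2) (h2 : ‖x + w‖ < 2) {r s : ℝ} (hr : 0 ≤ r) (hs : 0 ≤ s)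
    (hu : ‖u‖ = 1) (hxy : x - y = r • u) (hxw : x - w = s • u) : y = w := by
  have hu' : ‖-u‖ = 1 := by rw [norm_neg]; exact hu
  obtain ⟨-, e1⟩ := chord_eq_top hx hy h1 hr hxy
  obtain ⟨-, e2⟩ := chord_eq_top hx hw h2 hs hxw
  have m1 : ‖(1 / 2 : ℝ) • (x + y)‖ < 1 := by
    rw [norm_smul, Real.norm_of_nonneg (by norm_num)]; linarith
  have m2 : ‖(1 / 2 : ℝ) • (x + w)‖ < 1 := by
    rw [norm_smul, Real.norm_of_nonneg (by norm_num)]; linarith
  have e3 : (1 / 2 : ℝ) • (x + w) = (1 / 2 : ℝ) • (x + y) + ((s - r) / 2) • (-u) := by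
    have hy' : y = x - r • u := by rw [← hxy]; abel
    have hw' : w = x - s • u := by rw [← hxw]; abel
    rw [hy', hw']
    module
  rw [e3] at e2 m2
  rw [e1, e2, top_add_smul hu' m1 m2]

/-- (E') transfer of exposedness -/
theorem SI.exposed_transfer (h : SI f g) (ho : ∀ x, ‖x‖ = 1 → f (-x) = -f x)
    (hmf : ∀ x, ‖x‖ = 1 → Smooth x → MidAt f x) {x y : X} (hx : ‖x‖ = 1) (hy : ‖y‖ = 1)
    (hlt : ‖x + y‖ < 2) (hne : x ≠ y) (hsx : Smooth x) (hs : Smooth (x - y))
    (hexp : ∀ c, ‖c‖ = 1 → J (x - y) c = 1 → c = nu (x - y)) {q : Y →L[ℝ] ℝ} (hq : ‖q‖ ≤ 1)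
    (hqn : q (f x - f y) = ‖x - y‖) : ∀ ζ, ‖ζ‖ = 1 → q ζ = 1 → ζ = nu (f x - f y) := by
  have hog := h.odd_symm ho
  have hfx := h.map x hx
  have hfy := h.map y hy
  have hxy0 : x - y ≠ 0 := sub_ne_zero.mpr hne
  have hr : 0 < ‖x - y‖ := norm_pos_iff.mpr hxy0
  have hdist : ‖f x - f y‖ = ‖x - y‖ := h.dist x y hx hy
  have hfxy0 : f x - f y ≠ 0 := by
    intro h0; rw [h0, norm_zero] at hdist; rw [← hdist] at hr; exact lt_irrefl _ hr
  have hltf : ‖f x + f y‖ < 2 := by rw [h.norm_add ho hx hy]; exact hlt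
  -- the canonical functional of `g` at `f x`
  obtain ⟨Φ, hΦ⟩ := h.symm.exists_isPhi (p := q) hq hx hsx (hmf x hx hsx)
  have hch : Chord q (f x) (f y) := ⟨hfx, hfy, by rw [hqn, hdist], hltf⟩
  have hgf : g (f x) = x := h.left x hx
  have hgfy : g (f y) = y := h.left y hy
  have hsx' : Smooth (g (f x)) := by rw [hgf]; exact hsx
  have hΦ' : IsPhi f q (g (f x)) Φ := by rw [hgf]; exact hΦ
  obtain ⟨p, hp, hpe⟩ := h.symm.exists_canon hog hq hch hsx' hΦ'
  have hpe' := hpe
  rw [hgf, hgfy, hdist] at hpe'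
  have hpJ : p = J (x - y) := hs.eq_J ⟨hp.norm_le, hpe'⟩
  -- every `q`-chord from `f x` ends at `f y`
  have key : ∀ W : Y, Chord q (f x) W → W ≠ f x → W = f y := by
    intro W hW hWne
    have h1 := h.symm.canon_all hog hq hch hsx' hΦ' hp hpe hW
    rw [hgf] at h1
    have hgW := h.imap W hW.bot
    have hfgW : f (g W) = W := h.right W hW.bot
    have hd : ‖f x - W‖ = ‖x - g W‖ := by
      have := h.dist x (g W) hx hgW
      rwa [hfgW] at this
    have hne' : x - g W ≠ 0 := by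
      intro h0
      have : x = g W := sub_eq_zero.mp h0
      exact hWne (by rw [this, hfgW])
    have hc : nu (x - g W) = nu (x - y) := by
      apply hexp _ (norm_nu hne')
      rw [nu, map_smul, ← hpJ, h1, hd, smul_eq_mul,
        inv_mul_cancel₀ (norm_ne_zero_iff.mpr hne')]
    have hlt' : ‖x + g W‖ < 2 := by
      have := h.norm_add ho hx hgW
      rw [hfgW] at this
      rw [← this]; exact hW.lt
    have e := EP.chord_bot_unique hx hy hgW hlt hlt' (norm_nonneg (x - y)) (norm_nonneg (x - g W))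
      (norm_nu hxy0) (EP.norm_smul_nu hxy0).symm (by rw [← hc]; exact (EP.norm_smul_nu hne').symm)
    rw [e, hfgW]
  -- now the face
  intro ζ hζ hqζ
  set ω := nu (f x - f y) with hω
  have hω1 : ‖ω‖ = 1 := norm_nu hfxy0
  have hqω : q ω = 1 := by
    rw [hω, nu, map_smul, hqn, hdist, smul_eq_mul, inv_mul_cancel₀ hr.ne']
  set r := ‖x - y‖ with hrdef
  have hr2 : r ≤ 2 := by
    rw [hrdef]; have := norm_sub_le x y; rw [hx, hy] at this; linarith
  set M := (1 / 2 : ℝ) • (f x + f y) with hM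
  have hM1 : ‖M‖ < 1 := by
    rw [hM, norm_smul, Real.norm_of_nonneg (by norm_num)]; linarith
  set t := (1 - ‖M‖) / 4 with ht
  have ht0 : 0 < t := by rw [ht]; linarith
  have ht1 : t ≤ 1 := by rw [ht]; linarith [norm_nonneg M]
  set ωt := (1 - t) • ω + t • ζ with hωt
  have hωt1 : ‖ωt‖ = 1 := by
    apply le_antisymm
    · rw [hωt]
      refine (norm_add_le _ _).trans ?_
      rw [norm_smul, norm_smul, Real.norm_of_nonneg (by linarith), Real.norm_of_nonneg ht0.le,
        hω1, hζ]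
      linarith
    · have h1 : q ωt = 1 := by
        rw [hωt, map_add, map_smul, map_smul, hqω, hqζ, smul_eq_mul, smul_eq_mul]; ring
      have h2 := apply_le_of_norm_le_one hq ωt
      rw [h1] at h2; exact h2
  have hqωt : q ωt = 1 := by
    rw [hωt, map_add, map_smul, map_smul, hqω, hqζ, smul_eq_mul, smul_eq_mul]; ring
  set v := f x - (r / 2) • ωt with hv
  have hfxM : f x = M + (r / 2) • ω := by
    have h1 : r • ω = f x - f y := by
      rw [hω, ← hdist]; exact EP.norm_smul_nu hfxy0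
    have h2 : (r / 2) • ω = (1 / 2 : ℝ) • (r • ω) := by rw [smul_smul]; congr 1; ring
    rw [h2, h1, hM]
    module
  have hvM : v = M + ((r / 2) * t) • (ω - ζ) := by
    rw [hv, hfxM, hωt]
    module
  have hv1 : ‖v‖ < 1 := by
    rw [hvM]
    refine (norm_add_le _ _).trans_lt ?_
    have h0 : ‖((r / 2) * t) • (ω - ζ)‖ = r / 2 * t * ‖ω - ζ‖ := by
      rw [norm_smul, Real.norm_of_nonneg (by positivity)]
    rw [h0]
    have h1 : ‖ω - ζ‖ ≤ 2 := by
      have := norm_sub_le ω ζ; rw [hω1, hζ] at this; linarith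
    have h2 : r / 2 * t * ‖ω - ζ‖ ≤ 1 * t * 2 := by
      have h3 : r / 2 * t ≤ 1 * t := mul_le_mul_of_nonneg_right (by linarith) ht0.le
      exact mul_le_mul h3 h1 (norm_nonneg _) (by positivity)
    have h4 : t * 4 = 1 - ‖M‖ := by rw [ht]; ring
    linarith
  have htop : f x = top ωt v := by
    apply eq_top hv1 hfx (r := r / 2) (by positivity)
    rw [hv]; abel
  have hωt' : ‖-ωt‖ = 1 := by rw [norm_neg]; exact hωt1
  have hsub := top_sub_top ωt v
  have hpos : 0 < tau ωt v + tau (-ωt) v := add_pos (tau_pos hωt1 hv1) (tau_pos hωt' hv1)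
  have hW : Chord q (f x) (top (-ωt) v) := by
    refine ⟨hfx, norm_top hωt' hv1, ?_, ?_⟩
    · rw [htop, hsub, map_smul, hqωt, norm_smul, hωt1, Real.norm_of_nonneg hpos.le, smul_eq_mul]
    · rw [htop]; exact norm_top_add_top_lt hωt1 hv1
  have hWne : top (-ωt) v ≠ f x := by
    intro h0
    rw [← h0] at htop
    rw [← htop, sub_self] at hsub
    have h1 : ‖(tau ωt v + tau (-ωt) v) • ωt‖ = 0 := by rw [← hsub, norm_zero]
    rw [norm_smul, hωt1, mul_one, Real.norm_of_nonneg hpos.le] at h1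
    exact hpos.ne' h1
  have hWy := key _ hW hWne
  rw [hWy, ← htop] at hsub
  have hωωt : ω = ωt := by rw [hω, hsub, EP.nu_smul hpos hωt1]
  have h1 : t • (ζ - ω) = 0 := by
    have : ωt - ω = t • (ζ - ω) := by rw [hωt]; module
    rw [← this, ← hωωt, sub_self]
  rcases smul_eq_zero.mp h1 with h2 | h2
  · exact absurd h2 ht0.ne'
  · exact sub_eq_zero.mp h2

end Expo

end Crest.Agent.R074
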