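import Mathlib

/-!
Row 74 (S0099), finite-dimensional case, part 1: area formula for Lipschitz maps.
-/

set_option autoImplicit false

namespace Crest.Agent.R074

open MeasureTheory MeasureTheory.Measure Metric Set Module
open scoped NNReal ENNReal Topology

section Area

variable {E : Type*} [NormedAddCommGroup E] [NormedSpace ℝ E] [FiniteDimensional ℝ E]
  [MeasurableSpace E] [BorelSpace E]

/-- Lipschitz images of Haar-null sets are Haar-null. -/
theorem lipschitz_image_null (μ : Measure E) [IsAddHaarMeasure μ] {K : ℝ≥0} {h : E → E}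
    (hh : LipschitzWith K h) {N : Set E} (hN : μ N = 0) : μ (h '' N) = 0 := by
  set ν : Measure E := μH[finrank ℝ E] with hν
  have h1 : ν ≪ μ := absolutelyContinuous_isAddHaarMeasure ν μ
  have h2 : μ ≪ ν := absolutelyContinuous_isAddHaarMeasure μ ν
  apply h2
  have h3 : ν N = 0 := h1 hN
  have h4 := hh.hausdorffMeasure_image_le (d := finrank ℝ E) (by positivity) N
  rw [← hν, h3, mul_zero] at h4
  exact le_antisymm h4 (by positivity)

theorem area_aux (μ : Measure E) [IsAddHaarMeasure μ] {K : ℝ≥0} {h : E → E}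
    (hh : LipschitzWith K h) {s : Set E} (hs : MeasurableSet s) :
    ∃ t : Set E, MeasurableSet t ∧ t ⊆ s ∧ t =ᵐ[μ] s ∧ μ (h '' s) = μ (h '' t) ∧
      ∀ x ∈ t, HasFDerivWithinAt h (fderiv ℝ h x) t x := by
  refine ⟨s ∩ {x | DifferentiableAt ℝ h x}, hs.inter (measurableSet_of_differentiableAt ℝ h),
    inter_subset_left, ?_, ?_, ?_⟩
  · have : ∀ᵐ x ∂μ, DifferentiableAt ℝ h x := hh.ae_differentiableAt
    filter_upwards [this] with x hx
    simp only [eq_iff_iff]
    constructor
    · intro h1; exact h1.1
    · intro h1; exact ⟨h1, hx⟩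
  · have hnull : μ (s \ {x | DifferentiableAt ℝ h x}) = 0 := by
      have : ∀ᵐ x ∂μ, DifferentiableAt ℝ h x := hh.ae_differentiableAt
      refine measure_mono_null ?_ (ae_iff.mp this)
      intro x hx
      exact hx.2
    apply le_antisymm
    · have hsub : h '' s ⊆ h '' (s ∩ {x | DifferentiableAt ℝ h x}) ∪
          h '' (s \ {x | DifferentiableAt ℝ h x}) := by
        rw [← image_union, inter_union_sdiff]
      calc μ (h '' s) ≤ _ := measure_mono hsub
        _ ≤ _ := measure_union_le _ _
        _ = _ := by rw [lipschitz_image_null μ hh hnull, add_zero]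
    · exact measure_mono (image_mono inter_subset_left)
  · intro x hx
    exact (DifferentiableAt.hasFDerivAt hx.2).hasFDerivWithinAt

/-- area inequality -/
theorem area_le (μ : Measure E) [IsAddHaarMeasure μ] {K : ℝ≥0} {h : E → E}
    (hh : LipschitzWith K h) {s : Set E} (hs : MeasurableSet s) :
    μ (h '' s) ≤ ∫⁻ x in s, ENNReal.ofReal |(fderiv ℝ h x).det| ∂μ := by
  obtain ⟨t, ht, hts, hae, him, hd⟩ := area_aux μ hh hs
  rw [him]
  refine (addHaar_image_le_lintegral_abs_det_fderiv μ ht hd).trans ?_
  exact lintegral_mono_set hts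

/-- area formula for injective Lipschitz maps -/
theorem area_eq (μ : Measure E) [IsAddHaarMeasure μ] {K : ℝ≥0} {h : E → E}
    (hh : LipschitzWith K h) {s : Set E} (hs : MeasurableSet s) (hinj : InjOn h s) :
    ∫⁻ x in s, ENNReal.ofReal |(fderiv ℝ h x).det| ∂μ = μ (h '' s) := by
  obtain ⟨t, ht, hts, hae, him, hd⟩ := area_aux μ hh hs
  rw [him, ← lintegral_abs_det_fderiv_eq_addHaar_image μ ht hd (hinj.mono hts)]
  rw [Measure.restrict_congr_set hae]

end Area

end Crest.Agent.R074
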