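import Crest.Agent.R074.FDArea

/-!
Row 74 (S0099), finite-dimensional case, part 2: no Lipschitz retraction of the unit ball
onto the unit sphere (Milnor-Rogers).
-/

set_option autoImplicit false

namespace Crest.Agent.R074

open MeasureTheory MeasureTheory.Measure Metric Set Module Filter
open scoped NNReal ENNReal Topology

section Poly

/-- `t ↦ det (1 + t A)` is a polynomial of degree `≤ finrank`. -/
theorem exists_poly_det {X : Type*} [NormedAddCommGroup X] [NormedSpace ℝ X]
    [FiniteDimensional ℝ X] (A : X →L[ℝ] X) :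
    ∃ p : Polynomial ℝ, p.natDegree ≤ finrank ℝ X ∧
      ∀ t : ℝ, p.eval t = (ContinuousLinearMap.id ℝ X + t • A).det := by
  classical
  let b := finBasis ℝ X
  let M : Matrix (Fin (finrank ℝ X)) (Fin (finrank ℝ X)) ℝ :=
    LinearMap.toMatrix b b (A : X →ₗ[ℝ] X)
  refine ⟨Matrix.det ((Polynomial.X : Polynomial ℝ) • M.map Polynomial.C +
    (1 : Matrix _ _ ℝ).map Polynomial.C), ?_, ?_⟩
  · simpa using Polynomial.natDegree_det_X_add_C_le M 1
  · intro t
    rw [← Polynomial.coe_evalRingHom, RingHom.map_det, ContinuousLinearMap.det,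
      ← LinearMap.det_toMatrix b]
    congr 1
    ext i j
    simp [M, Matrix.add_apply, Matrix.smul_apply, Matrix.map_apply, LinearMap.toMatrix_apply,
      Matrix.one_apply]
    by_cases hij : i = j
    · subst hij; simp; ring
    · simp [hij]; ring

/-- Interpolation weights: for every `τ > 0` there are nodes in `(0, τ)` and weights with sum one
expressing `det (1 + A)` through `det (1 + t_j A)`. -/
theorem exists_nodes (n : ℕ) {τ : ℝ} (hτ : 0 < τ) :
    ∃ (v : Fin (n + 1) → ℝ) (w : Fin (n + 1) → ℝ), (∀ j, 0 < v j ∧ v j < τ) ∧ ∑ j, w j = 1 ∧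
      ∀ p : Polynomial ℝ, p.natDegree ≤ n → p.eval 1 = ∑ j, w j * p.eval (v j) := by
  classical
  let v : Fin (n + 1) → ℝ := fun j => τ * ((j : ℕ) + 1) / (n + 2)
  have hv : Set.InjOn v (Finset.univ : Finset (Fin (n + 1))) := by
    intro i _ j _ hij
    have h1 : τ * ((i : ℕ) + 1) / (n + 2) = τ * ((j : ℕ) + 1) / (n + 2) := hij
    have h2 : (0 : ℝ) < n + 2 := by positivity
    rw [div_left_inj' h2.ne'] at h1
    have h3 := mul_left_cancel₀ hτ.ne' h1
    have h4 : ((i : ℕ) : ℝ) = ((j : ℕ) : ℝ) := by linarith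
    exact Fin.ext (by exact_mod_cast h4)
  refine ⟨v, fun j => (Lagrange.basis Finset.univ v j).eval 1, ?_, ?_, ?_⟩
  · intro j
    have hj : ((j : ℕ) : ℝ) ≤ n := by exact_mod_cast Nat.lt_succ_iff.mp j.2
    constructor
    · show 0 < τ * ((j : ℕ) + 1) / (n + 2)
      positivity
    · show τ * ((j : ℕ) + 1) / (n + 2) < τ
      rw [div_lt_iff₀ (by positivity)]
      nlinarith
  · rw [← Polynomial.eval_finsetSum, Lagrange.sum_basis hv Finset.univ_nonempty]
    simp
  · intro p hp
    have hdeg : p.degree < (Finset.univ : Finset (Fin (n + 1))).card := by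
      refine lt_of_le_of_lt Polynomial.degree_le_natDegree ?_
      simp only [Finset.card_univ, Fintype.card_fin]
      exact_mod_cast Nat.lt_succ_of_le hp
    have h1 := Lagrange.eq_interpolate_of_eval_eq (fun j => p.eval (v j)) hv hdeg (fun i _ => rfl)
    conv_lhs => rw [h1]
    rw [Lagrange.interpolate_apply, Polynomial.eval_finsetSum]
    refine Finset.sum_congr rfl (fun j _ => ?_)
    simp [mul_comm]

end Poly

section Retract

variable {X : Type*} [NormedAddCommGroup X] [NormedSpace ℝ X]

theorem lipschitz_glue {K : ℝ≥0} {ψ : X → X} (h1 : LipschitzOnWith K ψ (closedBall 0 1))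
    (h0 : ∀ x, 1 ≤ ‖x‖ → ψ x = 0) : LipschitzWith K ψ := by
  have key : ∀ x y : X, ‖x‖ ≤ 1 → 1 ≤ ‖y‖ → dist (ψ x) (ψ y) ≤ K * dist x y := by
    intro x y hx hy
    have hcont : ContinuousOn (fun s : ℝ => ‖x + s • (y - x)‖) (Icc 0 1) := by fun_prop
    have hivt := intermediate_value_Icc (zero_le_one (α := ℝ)) hcont
    have hmem : (1 : ℝ) ∈ Icc (‖x + (0 : ℝ) • (y - x)‖) (‖x + (1 : ℝ) • (y - x)‖) := by
      constructor
      · simpa using hx
      · simpa using hy
    obtain ⟨s, hs, hs1⟩ := hivt hmem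
    have hs1' : ‖x + s • (y - x)‖ = 1 := hs1
    have e1 : ψ y = ψ (x + s • (y - x)) := by
      rw [h0 y hy, h0 _ hs1'.ge]
    rw [e1]
    refine (h1.dist_le_mul x (by simpa using hx) _ (by simpa using hs1'.le)).trans ?_
    refine mul_le_mul_of_nonneg_left ?_ K.2
    rw [dist_eq_norm, dist_eq_norm]
    have e2 : x - (x + s • (y - x)) = s • (x - y) := by
      simp only [smul_sub]; abel
    rw [e2, norm_smul, Real.norm_of_nonneg hs.1]
    have := norm_nonneg (x - y)
    nlinarith [hs.2]
  refine LipschitzWith.of_dist_le_mul (fun x y => ?_)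
  rcases le_total ‖x‖ 1 with hx | hx <;> rcases le_total ‖y‖ 1 with hy | hy
  · exact h1.dist_le_mul x (by simpa using hx) y (by simpa using hy)
  · exact key x y hx hy
  · rw [dist_comm, dist_comm x]; exact key y x hy hx
  · rw [h0 x hx, h0 y hy, dist_self]; positivity

theorem det_pos_of_small [FiniteDimensional ℝ X] {A : X →L[ℝ] X} {t : ℝ} (ht : 0 ≤ t)
    (hA : t * ‖A‖ < 1) : 0 < (ContinuousLinearMap.id ℝ X + t • A).det := by
  have hne : ∀ s ∈ Icc (0 : ℝ) t, (ContinuousLinearMap.id ℝ X + s • A).det ≠ 0 := by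
    intro s hs h0
    have hinj : Function.Injective (ContinuousLinearMap.id ℝ X + s • A) := by
      rw [injective_iff_map_eq_zero]
      intro x hx
      have h1 : x = -(s • A x) := by
        have : x + s • A x = 0 := by simpa using hx
        exact eq_neg_of_add_eq_zero_left this
      have h2 : ‖x‖ = s * ‖A x‖ := by
        conv_lhs => rw [h1]
        rw [norm_neg, norm_smul, Real.norm_of_nonneg hs.1]
      have h3 := A.le_opNorm x
      have h4 : s * ‖A‖ ≤ t * ‖A‖ := mul_le_mul_of_nonneg_right hs.2 (norm_nonneg _)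
      by_contra hx0
      have h5 : 0 < ‖x‖ := norm_pos_iff.mpr hx0
      have h6 : s * ‖A x‖ ≤ s * (‖A‖ * ‖x‖) := mul_le_mul_of_nonneg_left h3 hs.1
      nlinarith
    have hu : IsUnit (LinearMap.det ((ContinuousLinearMap.id ℝ X + s • A : X →L[ℝ] X) : X →ₗ[ℝ] X)) := by
      rw [← LinearMap.isUnit_iff_isUnit_det, LinearMap.isUnit_iff_ker_eq_bot]
      exact LinearMap.ker_eq_bot.mpr hinj
    exact hu.ne_zero h0
  by_contra hcon
  push Not at hcon
  have hcont : ContinuousOn (fun s : ℝ => (ContinuousLinearMap.id ℝ X + s • A).det) (Icc 0 t) :=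
    (ContinuousLinearMap.continuous_det.comp (by fun_prop)).continuousOn
  have hivt := intermediate_value_Icc' ht hcont
  have hmem : (0 : ℝ) ∈ Icc ((ContinuousLinearMap.id ℝ X + t • A).det)
      ((ContinuousLinearMap.id ℝ X + (0 : ℝ) • A).det) := by
    refine ⟨hcon, ?_⟩
    simp [ContinuousLinearMap.det]
  obtain ⟨s, hs, hs0⟩ := hivt hmem
  exact hne s hs hs0

/-- the small perturbations of the identity -/
theorem perturb_bijective [FiniteDimensional ℝ X] {L : ℝ≥0} {ψ : X → X} (hψ : LipschitzWith L ψ)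
    {t : ℝ} (ht : 0 ≤ t) (htL : t * L < 1) :
    Function.Bijective (fun x => x + t • ψ x) := by
  have hap : ApproximatesLinearOn (fun x => x + t • ψ x)
      ((ContinuousLinearEquiv.refl ℝ X : X ≃L[ℝ] X) : X →L[ℝ] X) univ (⟨t, ht⟩ * L) := by
    intro x _ y _
    have e1 : x + t • ψ x - (y + t • ψ y) -
        ((ContinuousLinearEquiv.refl ℝ X : X ≃L[ℝ] X) : X →L[ℝ] X) (x - y) =
        t • (ψ x - ψ y) := by
      simp [smul_sub]; abel
    rw [e1, norm_smul, Real.norm_of_nonneg ht]
    have := hψ.dist_le_mul x y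
    rw [dist_eq_norm, dist_eq_norm] at this
    have h3 : ((⟨t, ht⟩ * L : ℝ≥0) : ℝ) = t * L := rfl
    rw [h3]
    nlinarith
  have hc : Subsingleton X ∨ (⟨t, ht⟩ * L : ℝ≥0) <
      ‖((ContinuousLinearEquiv.refl ℝ X).symm : X →L[ℝ] X)‖₊⁻¹ := by
    rcases subsingleton_or_nontrivial X with h | h
    · exact Or.inl h
    · right
      have h1 : ‖((ContinuousLinearEquiv.refl ℝ X).symm : X →L[ℝ] X)‖₊ = 1 := by
        have : ((ContinuousLinearEquiv.refl ℝ X).symm : X →L[ℝ] X) =
          ContinuousLinearMap.id ℝ X := rfl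
        rw [this]
        exact ContinuousLinearMap.nnnorm_id
      rw [h1, inv_one]
      exact htL
  exact (hap.toHomeomorph _ hc).bijective

theorem no_lipschitz_retraction [FiniteDimensional ℝ X] [Nontrivial X] {K : ℝ≥0} (r : X → X)
    (hr : LipschitzOnWith K r (closedBall 0 1)) (hid : ∀ x, ‖x‖ = 1 → r x = x)
    (hs : ∀ x, ‖x‖ ≤ 1 → ‖r x‖ = 1) : False := by
  classical
  borelize X
  let μ : Measure X := μH[finrank ℝ X]
  let B : Set X := closedBall 0 1
  have hBm : MeasurableSet B := isClosed_closedBall.measurableSet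
  have hBfin : μ B ≠ ∞ := measure_closedBall_lt_top.ne
  have hBpos : 0 < μ B := measure_closedBall_pos μ 0 one_pos
  let ψ : X → X := fun x => if ‖x‖ ≤ 1 then r x - x else 0
  have hψin : ∀ x, ‖x‖ ≤ 1 → ψ x = r x - x := fun x hx => by simp [ψ, hx]
  have hψout : ∀ x, 1 ≤ ‖x‖ → ψ x = 0 := by
    intro x hx
    rcases hx.eq_or_lt with h | h
    · rw [hψin x h.ge, hid x h.symm, sub_self]
    · simp [ψ, not_le.mpr h]
  have hψL : LipschitzWith (K + 1) ψ := by
    refine lipschitz_glue ?_ hψout
    refine LipschitzOnWith.of_dist_le_mul (fun x hx y hy => ?_)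
    rw [hψin x (by simpa using hx), hψin y (by simpa using hy)]
    have h1 := hr.dist_le_mul x hx y hy
    rw [dist_eq_norm] at h1 ⊢
    have e1 : r x - x - (r y - y) = (r x - r y) - (x - y) := by abel
    rw [e1]
    refine (norm_sub_le _ _).trans ?_
    rw [← dist_eq_norm x y]
    push_cast
    linarith
  set L : ℝ≥0 := K + 1 with hL
  have hLpos : (0 : ℝ) < L := by rw [hL]; push_cast; positivity
  let A : X → X →L[ℝ] X := fun x => fderiv ℝ ψ x
  have hAn : ∀ x, ‖A x‖ ≤ L := fun x => norm_fderiv_le_of_lipschitz ℝ hψL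
  let D : ℝ → X → ℝ := fun t x => (ContinuousLinearMap.id ℝ X + t • A x).det
  have hDm : ∀ t, Measurable (D t) := by
    intro t
    have h1 : Measurable A := measurable_fderiv ℝ ψ
    have h2 : Continuous (fun T : X →L[ℝ] X => (ContinuousLinearMap.id ℝ X + t • T).det) :=
      ContinuousLinearMap.continuous_det.comp (by fun_prop)
    exact h2.measurable.comp h1
  -- small parameters
  have hsmall : ∀ t : ℝ, 0 < t → t < 1 / (L + 1) → ∫ x in B, D t x ∂μ = μ.real B := by
    intro t ht htL
    have htL' : t * L < 1 := by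
      rw [lt_div_iff₀ (by positivity)] at htL
      nlinarith
    have ht1 : t ≤ 1 := by
      rw [lt_div_iff₀ (by positivity)] at htL
      nlinarith
    let h : X → X := fun x => x + t • ψ x
    have hbij : Function.Bijective h := perturb_bijective hψL ht.le htL'
    have himg : h '' B = B := by
      apply Subset.antisymm
      · rintro _ ⟨x, hx, rfl⟩
        have hx1 : ‖x‖ ≤ 1 := by simpa [B] using hx
        have h2 := hs x hx1
        show x + t • ψ x ∈ B
        rw [hψin x hx1]
        have e1 : x + t • (r x - x) = (1 - t) • x + t • r x := by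
          rw [smul_sub, sub_smul, one_smul]; abel
        rw [e1]
        have h3 : ‖(1 - t) • x + t • r x‖ ≤ (1 - t) * ‖x‖ + t * ‖r x‖ := by
          refine (norm_add_le _ _).trans ?_
          rw [norm_smul, norm_smul, Real.norm_of_nonneg ht.le,
            Real.norm_of_nonneg (by linarith : (0:ℝ) ≤ 1 - t)]
        have h4 : ‖(1 - t) • x + t • r x‖ ≤ 1 := by
          rw [h2] at h3; nlinarith
        simpa [B] using h4
      · intro y hy
        obtain ⟨x, hx⟩ := hbij.2 y
        refine ⟨x, ?_, hx⟩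
        by_contra hxB
        have hx1 : 1 < ‖x‖ := by simpa [B] using hxB
        have h1 : h x = x := by
          show x + t • ψ x = x
          rw [hψout x hx1.le, smul_zero, add_zero]
        rw [h1] at hx
        rw [← hx] at hy
        exact hxB hy
    have hhL : LipschitzWith (1 + ⟨t, ht.le⟩ * L) h := by
      have h1 : LipschitzWith (⟨t, ht.le⟩ * L) (fun x => t • ψ x) := by
        refine LipschitzWith.of_dist_le_mul (fun x y => ?_)
        rw [dist_eq_norm, ← smul_sub, norm_smul, Real.norm_of_nonneg ht.le, ← dist_eq_norm]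
        have := hψL.dist_le_mul x y
        have h3 : ((⟨t, ht.le⟩ * L : ℝ≥0) : ℝ) = t * L := rfl
        rw [h3, mul_assoc]
        exact mul_le_mul_of_nonneg_left this ht.le
      exact LipschitzWith.id.add h1
    have hder : ∀ᵐ x ∂μ, ENNReal.ofReal |(fderiv ℝ h x).det| = ENNReal.ofReal (D t x) := by
      have : ∀ᵐ x ∂μ, DifferentiableAt ℝ ψ x := hψL.ae_differentiableAt
      filter_upwards [this] with x hx
      have h1 : HasFDerivAt h (ContinuousLinearMap.id ℝ X + t • A x) x :=
        (hasFDerivAt_id x).add (hx.hasFDerivAt.const_smul t)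
      rw [h1.fderiv]
      have h2 : 0 < D t x := by
        apply det_pos_of_small ht.le
        have := mul_le_mul_of_nonneg_left (hAn x) ht.le
        linarith
      show ENNReal.ofReal |D t x| = _
      rw [abs_of_pos h2]
    have harea := area_eq μ hhL hBm hbij.1.injOn
    rw [himg, lintegral_congr_ae (ae_restrict_of_ae hder)] at harea
    rw [integral_eq_lintegral_of_nonneg_ae, harea]
    · rfl
    · refine Eventually.of_forall (fun x => ?_)
      apply le_of_lt
      apply det_pos_of_small ht.le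
      have := mul_le_mul_of_nonneg_left (hAn x) ht.le
      linarith
    · exact (hDm t).aestronglyMeasurable
  -- interpolation
  obtain ⟨v, w, hv, hw, hp⟩ := exists_nodes (finrank ℝ X) (τ := 1 / (L + 1)) (by positivity)
  have hinterp : ∀ x, D 1 x = ∑ j, w j * D (v j) x := by
    intro x
    obtain ⟨p, hpd, hpe⟩ := exists_poly_det (A x)
    have := hp p hpd
    simp only [hpe] at this
    exact this
  have hint : ∀ j, IntegrableOn (D (v j)) B μ := by
    intro j
    by_contra hcon
    have h1 := hsmall (v j) (hv j).1 (hv j).2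
    rw [integral_undef hcon] at h1
    have h2 : 0 < μ.real B := ENNReal.toReal_pos hBpos.ne' hBfin
    linarith
  have h1 : ∫ x in B, D 1 x ∂μ = μ.real B := by
    have e1 : ∫ x in B, D 1 x ∂μ = ∫ x in B, ∑ j, w j * D (v j) x ∂μ := by
      apply integral_congr_ae
      exact Eventually.of_forall hinterp
    rw [e1, integral_finsetSum]
    · simp_rw [integral_const_mul]
      rw [Finset.sum_congr rfl (fun j _ => by rw [hsmall (v j) (hv j).1 (hv j).2]),
        ← Finset.sum_mul, hw, one_mul]
    · intro j _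
      exact (hint j).const_mul _
  -- the derivative of `r` is singular
  have h0 : ∫ x in B, D 1 x ∂μ = 0 := by
    have hnull : ∀ᵐ x ∂μ, x ∈ B → D 1 x = 0 := by
      have h2 : ∀ᵐ x ∂μ, DifferentiableAt ℝ ψ x := hψL.ae_differentiableAt
      have h3 : ∀ᵐ x ∂μ, x ∉ sphere (0 : X) 1 := by
        rw [ae_iff]; simp only [not_not, ofPred_mem_eq]
        exact addHaar_sphere μ 0 1
      filter_upwards [h2, h3] with x hx hxs hxB
      have hx1 : ‖x‖ < 1 := by
        have h4 : ‖x‖ ≤ 1 := by simpa [B] using hxB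
        have h5 : ‖x‖ ≠ 1 := by simpa using hxs
        exact lt_of_le_of_ne h4 h5
      by_contra hdet
      have hd : HasFDerivAt (fun y => y + ψ y) (ContinuousLinearMap.id ℝ X + A x) x :=
        (hasFDerivAt_id x).add hx.hasFDerivAt
      have hdet' : (ContinuousLinearMap.id ℝ X + A x).det ≠ 0 := by
        simpa [D] using hdet
      have hsurj : Function.Surjective (ContinuousLinearMap.id ℝ X + A x) := by
        have hu : IsUnit (LinearMap.det ((ContinuousLinearMap.id ℝ X + A x : X →L[ℝ] X) : X →ₗ[ℝ] X)) :=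
          isUnit_iff_ne_zero.mpr hdet'
        rw [← LinearMap.isUnit_iff_isUnit_det, LinearMap.isUnit_iff_range_eq_top] at hu
        exact LinearMap.range_eq_top.mp hu
      obtain ⟨u, hu⟩ := hsurj (x + ψ x)
      have hR : ∀ y, ‖y‖ ≤ 1 → ‖y + ψ y‖ = 1 := by
        intro y hy
        rw [hψin y hy]
        have : y + (r y - y) = r y := by abel
        rw [this]; exact hs y hy
      -- directional derivative along u
      have hline : HasDerivAt (fun t : ℝ => (x + t • u) + ψ (x + t • u)) (x + ψ x) 0 := by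
        have hg : HasDerivAt (fun t : ℝ => x + t • u) u 0 := by
          simpa using ((hasDerivAt_id (0 : ℝ)).smul_const u).const_add x
        have hd' : HasFDerivAt (fun y => y + ψ y) (ContinuousLinearMap.id ℝ X + A x)
            (x + (0 : ℝ) • u) := by simpa using hd
        have := hd'.comp_hasDerivAt (0 : ℝ) hg
        rw [hu] at this
        exact this
      rw [hasDerivAt_iff_isLittleO_nhds_zero] at hline
      have hb := hline.def (c := 1 / 2) (by norm_num)
      have hnear : ∀ᶠ t : ℝ in 𝓝 0, ‖x + t • u‖ < 1 := by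
        have hc : ContinuousAt (fun t : ℝ => ‖x + t • u‖) 0 := by fun_prop
        have : (fun t : ℝ => ‖x + t • u‖) 0 < 1 := by simpa using hx1
        exact hc.eventually_lt continuousAt_const this
      obtain ⟨δ, hδ, hball⟩ := Metric.eventually_nhds_iff.mp (hb.and hnear)
      have hpos : 0 < δ / 2 := by linarith
      obtain ⟨h6, h7⟩ := @hball (δ / 2) (by rw [Real.dist_eq, sub_zero, abs_of_pos hpos]; linarith)
      simp only [zero_add, zero_smul, add_zero] at h6
      have h8 := hR _ h7.le
      have h9 := hR x hx1.le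
      have e2 : (x + (δ / 2) • u) + ψ (x + (δ / 2) • u) =
          (1 + δ / 2) • (x + ψ x) + ((x + (δ / 2) • u) + ψ (x + (δ / 2) • u) - (x + ψ x) -
            (δ / 2) • (x + ψ x)) := by
        rw [add_smul, one_smul]; abel
      have h10 : ‖(1 + δ / 2) • (x + ψ x)‖ = 1 + δ / 2 := by
        rw [norm_smul, h9, mul_one, Real.norm_of_nonneg (by linarith)]
      have h11 : ‖(1 + δ / 2) • (x + ψ x)‖ ≤ ‖(x + (δ / 2) • u) + ψ (x + (δ / 2) • u)‖ +
          ‖((x + (δ / 2) • u) + ψ (x + (δ / 2) • u) - (x + ψ x) - (δ / 2) • (x + ψ x))‖ := by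
        have e3 : (1 + δ / 2) • (x + ψ x) = ((x + (δ / 2) • u) + ψ (x + (δ / 2) • u)) -
          ((x + (δ / 2) • u) + ψ (x + (δ / 2) • u) - (x + ψ x) -
            (δ / 2) • (x + ψ x)) := by
          rw [add_smul, one_smul]; abel
        conv_lhs => rw [e3]
        exact norm_sub_le _ _
      rw [h8, h10] at h11
      have h12 : ‖δ / 2‖ = δ / 2 := Real.norm_of_nonneg hpos.le
      rw [h12] at h6
      linarith
    have : ∀ᵐ x ∂(μ.restrict B), D 1 x = 0 := (ae_restrict_iff' hBm).mpr hnull
    rw [integral_congr_ae this]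
    simp
  rw [h0] at h1
  have h2 : 0 < μ.real B := ENNReal.toReal_pos hBpos.ne' hBfin
  linarith

end Retract

end Crest.Agent.R074
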