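import Crest.Agent.R074.Base
import Crest.Agent.R074.FDRetract

/-!
Row 74 (S0099), finite-dimensional case, part 3: every Lipschitz extension to the unit ball of a
sphere isometry covers the unit ball; equality of dimensions.
-/

set_option autoImplicit false

namespace Crest.Agent.R074

open MeasureTheory MeasureTheory.Measure Metric Set Module Filter
open scoped NNReal ENNReal Topology

section Cover

variable {X Y : Type*} [NormedAddCommGroup X] [NormedSpace ℝ X] [NormedAddCommGroup Y]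
  [NormedSpace ℝ Y]

omit [NormedSpace ℝ Y] in
theorem SI.nontrivial {f : X → Y} {g : Y → X} (h : SI f g) [Nontrivial X] : Nontrivial Y := by
  obtain ⟨x, hx⟩ := exists_norm_eq X (zero_le_one (α := ℝ))
  have h1 := h.map x hx
  refine ⟨f x, 0, ?_⟩
  intro h0
  rw [h0, norm_zero] at h1
  exact zero_ne_one h1

/-- radial projection from an interior point -/
theorem exists_radial (y0 : Y) (hy0 : ‖y0‖ < 1) {δ : ℝ} (hδ : 0 < δ) :
    ∃ (π : Y → Y) (K : ℝ≥0), (∀ y, ‖y‖ = 1 → π y = y) ∧ (∀ y, y ≠ y0 → ‖π y‖ = 1) ∧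
      LipschitzOnWith K π {y | δ ≤ ‖y - y0‖} := by
  classical
  let s : Set Y := ball (-y0) 1
  have hsc : Convex ℝ s := convex_ball _ _
  have hs0 : s ∈ 𝓝 (0 : Y) := by
    apply isOpen_ball.mem_nhds
    simpa [s] using hy0
  have hsub : s ⊆ closedBall 0 2 := by
    intro w hw
    have h1 : ‖w + y0‖ < 1 := by simpa [s, dist_eq_norm] using hw
    have h2 : ‖w‖ ≤ ‖w + y0‖ + ‖y0‖ := by
      have : w = (w + y0) - y0 := by abel
      conv_lhs => rw [this]
      exact norm_sub_le _ _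
    simpa using by linarith
  obtain ⟨C, hC⟩ := hsc.lipschitz_gauge hs0
  have hfr : frontier s = sphere (-y0) 1 := frontier_ball (-y0) one_ne_zero
  have hlow : ∀ w : Y, ‖w‖ / 2 ≤ gauge s w := fun w =>
    le_gauge_of_subset_closedBall (absorbent_nhds_zero hs0) (by norm_num) hsub
  let π : Y → Y := fun y => y0 + (gauge s (y - y0))⁻¹ • (y - y0)
  have hK : ∃ K : ℝ≥0, (K : ℝ) = (2 / δ) * (1 + 2 * C) := by
    refine ⟨⟨(2 / δ) * (1 + 2 * C), by positivity⟩, rfl⟩
  obtain ⟨K, hK⟩ := hK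
  refine ⟨π, K, ?_, ?_, ?_⟩
  · intro y hy
    have h1 : gauge s (y - y0) = 1 := by
      rw [gauge_eq_one_iff_mem_frontier hsc hs0, hfr, mem_sphere_iff_norm]
      simpa using hy
    simp [π, h1]
  · intro y hy
    have h0 : 0 < gauge s (y - y0) := by
      have h1 := hlow (y - y0)
      have h2 : 0 < ‖y - y0‖ := norm_pos_iff.mpr (sub_ne_zero.mpr hy)
      linarith
    have h1 : gauge s ((gauge s (y - y0))⁻¹ • (y - y0)) = 1 := by
      rw [gauge_smul_of_nonneg (inv_nonneg.mpr h0.le), smul_eq_mul, inv_mul_cancel₀ h0.ne']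
    rw [gauge_eq_one_iff_mem_frontier hsc hs0, hfr, mem_sphere_iff_norm] at h1
    have h2 : (gauge s (y - y0))⁻¹ • (y - y0) - -y0 = π y := by
      simp [π]; abel
    rw [h2] at h1
    exact h1
  · refine LipschitzOnWith.of_dist_le_mul (fun y hy y' hy' => ?_)
    set v := y - y0 with hv
    set v' := y' - y0 with hv'
    have hvd : δ ≤ ‖v‖ := hy
    have hvd' : δ ≤ ‖v'‖ := hy'
    have g1 := hlow v
    have g2 := hlow v'
    set γ := gauge s v with hγ
    set γ' := gauge s v' with hγ'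
    have γpos : 0 < γ := by linarith
    have γpos' : 0 < γ' := by linarith
    have hlip : |γ - γ'| ≤ C * ‖v - v'‖ := by
      have := hC.dist_le_mul v v'
      rwa [Real.dist_eq, dist_eq_norm] at this
    have e1 : π y - π y' = γ⁻¹ • (v - v') + (γ⁻¹ - γ'⁻¹) • v' := by
      show (y0 + γ⁻¹ • v) - (y0 + γ'⁻¹ • v') = _
      rw [smul_sub γ⁻¹ v v', sub_smul γ⁻¹ γ'⁻¹ v']; abel
    have hvv : v - v' = y - y' := by rw [hv, hv']; abel
    rw [dist_eq_norm, e1, dist_eq_norm, hK, ← hvv]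
    refine (norm_add_le _ _).trans ?_
    rw [norm_smul, norm_smul, Real.norm_of_nonneg (inv_nonneg.mpr γpos.le), Real.norm_eq_abs]
    have b1 : γ⁻¹ ≤ 2 / δ := by
      rw [inv_eq_one_div, div_le_div_iff₀ γpos hδ]
      linarith
    have b2 : |γ⁻¹ - γ'⁻¹| * ‖v'‖ ≤ (2 / δ) * (2 * C) * ‖v - v'‖ := by
      have e2 : γ⁻¹ - γ'⁻¹ = (γ' - γ) * γ⁻¹ * γ'⁻¹ := by
        field_simp
      rw [e2, abs_mul, abs_mul, abs_of_pos (inv_pos.mpr γpos), abs_of_pos (inv_pos.mpr γpos'),
        abs_sub_comm]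
      have b3 : γ'⁻¹ * ‖v'‖ ≤ 2 := by
        rw [inv_mul_le_iff₀ γpos']; linarith
      have b3' : 0 ≤ γ'⁻¹ * ‖v'‖ := by positivity
      have b4 : |γ - γ'| * γ⁻¹ ≤ (C * ‖v - v'‖) * (2 / δ) :=
        mul_le_mul hlip b1 (inv_nonneg.mpr γpos.le) (by positivity)
      calc |γ - γ'| * γ⁻¹ * γ'⁻¹ * ‖v'‖ = (|γ - γ'| * γ⁻¹) * (γ'⁻¹ * ‖v'‖) := by ring
        _ ≤ ((C * ‖v - v'‖) * (2 / δ)) * 2 := mul_le_mul b4 b3 b3' (by positivity)
        _ = _ := by ring
    have b5 : γ⁻¹ * ‖v - v'‖ ≤ (2 / δ) * ‖v - v'‖ :=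
      mul_le_mul_of_nonneg_right b1 (norm_nonneg _)
    calc γ⁻¹ * ‖v - v'‖ + |γ⁻¹ - γ'⁻¹| * ‖v'‖ ≤
        (2 / δ) * ‖v - v'‖ + (2 / δ) * (2 * C) * ‖v - v'‖ := add_le_add b5 b2
      _ = _ := by ring

theorem cover [FiniteDimensional ℝ X] [Nontrivial X] {f : X → Y} {g : Y → X} (h : SI f g)
    {K : ℝ≥0} {G : X → Y} (hG : LipschitzOnWith K G (closedBall 0 1))
    (hGf : ∀ x, ‖x‖ = 1 → G x = f x) :
    closedBall (0 : Y) 1 ⊆ G '' closedBall 0 1 := by
  intro y0 hy0
  by_contra hcon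
  have hy1 : ‖y0‖ ≤ 1 := by simpa using hy0
  have hy1' : ‖y0‖ < 1 := by
    rcases hy1.eq_or_lt with h1 | h1
    · exfalso
      apply hcon
      refine ⟨g y0, ?_, ?_⟩
      · simpa using (h.imap y0 h1).le
      · rw [hGf _ (h.imap y0 h1), h.right y0 h1]
    · exact h1
  have hcomp : IsCompact (G '' closedBall (0 : X) 1) :=
    (isCompact_closedBall 0 1).image_of_continuousOn hG.continuousOn
  have hopen : (G '' closedBall (0 : X) 1)ᶜ ∈ 𝓝 y0 :=
    hcomp.isClosed.isOpen_compl.mem_nhds hcon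
  obtain ⟨δ, hδ, hball⟩ := Metric.mem_nhds_iff.mp hopen
  have hfar : ∀ x, ‖x‖ ≤ 1 → δ ≤ ‖G x - y0‖ := by
    intro x hx
    by_contra hlt
    push Not at hlt
    have : G x ∈ ball y0 δ := by rw [mem_ball, dist_eq_norm]; exact hlt
    exact hball this ⟨x, by simpa using hx, rfl⟩
  obtain ⟨π, K', hπ1, hπ2, hπL⟩ := exists_radial y0 hy1' hδ
  have hne : ∀ x, ‖x‖ ≤ 1 → G x ≠ y0 := by
    intro x hx h0
    have := hfar x hx
    rw [h0, sub_self, norm_zero] at this
    linarith
  refine no_lipschitz_retraction (K := K' * K) (fun x => g (π (G x))) ?_ ?_ ?_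
  · refine LipschitzOnWith.of_dist_le_mul (fun x hx x' hx' => ?_)
    have hx1 : ‖x‖ ≤ 1 := by simpa using hx
    have hx1' : ‖x'‖ ≤ 1 := by simpa using hx'
    rw [dist_eq_norm, h.symm.dist _ _ (hπ2 _ (hne x hx1)) (hπ2 _ (hne x' hx1')),
      ← dist_eq_norm]
    refine (hπL.dist_le_mul _ (hfar x hx1) _ (hfar x' hx1')).trans ?_
    push_cast
    rw [mul_assoc]
    exact mul_le_mul_of_nonneg_left (hG.dist_le_mul x hx x' hx') K'.2
  · intro x hx
    show g (π (G x)) = x
    rw [hGf x hx, hπ1 _ (h.map x hx), h.left x hx]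
  · intro x hx
    exact h.imap _ (hπ2 _ (hne x hx))

theorem SI.finiteDimensional [FiniteDimensional ℝ X] [Nontrivial X] {f : X → Y} {g : Y → X}
    (h : SI f g) : FiniteDimensional ℝ Y := by
  have hcont : ContinuousOn f (sphere (0 : X) 1) := by
    have : LipschitzOnWith 1 f (sphere (0 : X) 1) := by
      refine LipschitzOnWith.of_dist_le_mul (fun x hx y hy => ?_)
      rw [dist_eq_norm, dist_eq_norm, h.dist x y (by simpa using hx) (by simpa using hy)]
      simp
    exact this.continuousOn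
  have hS : IsCompact (sphere (0 : Y) 1) := by
    have h1 : sphere (0 : Y) 1 = f '' sphere (0 : X) 1 := by
      ext y
      constructor
      · intro hy
        have hy1 : ‖y‖ = 1 := by simpa using hy
        exact ⟨g y, by simpa using h.imap y hy1, h.right y hy1⟩
      · rintro ⟨x, hx, rfl⟩
        simpa using h.map x (by simpa using hx)
    rw [h1]
    exact (isCompact_sphere 0 1).image_of_continuousOn hcont
  have hB : IsCompact (closedBall (0 : Y) 1) := by
    have h2 : closedBall (0 : Y) 1 ⊆ (fun p : ℝ × Y => p.1 • p.2) '' (Icc 0 1 ×ˢ sphere (0 : Y) 1) := by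
      intro y hy
      have hy1 : ‖y‖ ≤ 1 := by simpa using hy
      rcases eq_or_ne y 0 with rfl | hy0
      · have := h.nontrivial
        obtain ⟨z, hz⟩ := exists_norm_eq Y (zero_le_one (α := ℝ))
        exact ⟨(0, z), ⟨⟨le_refl _, zero_le_one⟩, by simpa using hz⟩, by simp⟩
      · refine ⟨(‖y‖, ‖y‖⁻¹ • y), ⟨⟨norm_nonneg _, hy1⟩, ?_⟩, ?_⟩
        · simp [norm_smul, hy0]
        · simp [smul_smul, hy0]
    refine IsCompact.of_isClosed_subset ?_ isClosed_closedBall h2
    exact (isCompact_Icc.prod hS).image (by fun_prop)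
  exact FiniteDimensional.of_isCompact_closedBall₀ ℝ one_pos hB

theorem SI.finrank_le [FiniteDimensional ℝ X] [Nontrivial X] {f : X → Y} {g : Y → X}
    (h : SI f g) : finrank ℝ Y ≤ finrank ℝ X := by
  have := h.finiteDimensional
  have hL : LipschitzOnWith 1 f (sphere (0 : X) 1) := by
    refine LipschitzOnWith.of_dist_le_mul (fun x hx y hy => ?_)
    rw [dist_eq_norm, dist_eq_norm, h.dist x y (by simpa using hx) (by simpa using hy)]
    simp
  obtain ⟨G, hG, hGf⟩ := hL.extend_finite_dimension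
  have hc := cover h hG.lipschitzOnWith (fun x hx => (hGf (by simpa using hx)).symm)
  have h1 : dimH (closedBall (0 : Y) 1) = finrank ℝ Y := by
    apply Real.dimH_of_mem_nhds
    exact closedBall_mem_nhds 0 one_pos
  have h2 : dimH (closedBall (0 : X) 1) = finrank ℝ X := by
    apply Real.dimH_of_mem_nhds
    exact closedBall_mem_nhds 0 one_pos
  have h3 : dimH (closedBall (0 : Y) 1) ≤ dimH (closedBall (0 : X) 1) :=
    (dimH_mono hc).trans (hG.dimH_image_le _)
  rw [h1, h2] at h3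
  exact_mod_cast h3

theorem SI.finrank_eq [FiniteDimensional ℝ X] [Nontrivial X] {f : X → Y} {g : Y → X}
    (h : SI f g) : finrank ℝ X = finrank ℝ Y := by
  have := h.finiteDimensional
  have := h.nontrivial
  exact le_antisymm h.symm.finrank_le h.finrank_le

end Cover

end Crest.Agent.R074
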