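import Mathlib

/-!
Row 74 (S0099), finite-dimensional case, part 4: D-optimal (John) inner product.
-/

set_option autoImplicit false

namespace Crest.Agent.R074

open Metric Set Module Filter
open scoped NNReal ENNReal Topology Matrix MatrixOrder

section Hull

/-- In finite dimension the convex hull of a compact set is compact. -/
theorem isCompact_convexHull_fd {V : Type*} [AddCommGroup V] [Module ℝ V] [TopologicalSpace V]
    [ContinuousAdd V] [ContinuousSMul ℝ V] [FiniteDimensional ℝ V] {s : Set V}
    (hs : IsCompact s) : IsCompact (convexHull ℝ s) := by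
  classical
  rcases s.eq_empty_or_nonempty with rfl | ⟨s0, hs0⟩
  · simp
  let d := finrank ℝ V
  let K : Set ((Fin (d + 1) → ℝ) × (Fin (d + 1) → V)) :=
    stdSimplex ℝ (Fin (d + 1)) ×ˢ (Set.univ.pi fun _ => s)
  have hK : IsCompact K := (isCompact_stdSimplex ℝ _).prod (isCompact_univ_pi fun _ => hs)
  let Φ : ((Fin (d + 1) → ℝ) × (Fin (d + 1) → V)) → V := fun p => ∑ i, p.1 i • p.2 i
  have hΦ : Continuous Φ := by
    show Continuous (fun p : (Fin (d + 1) → ℝ) × (Fin (d + 1) → V) => ∑ i, p.1 i • p.2 i)
    fun_prop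
  have himg : convexHull ℝ s = Φ '' K := by
    apply Subset.antisymm
    · intro x hx
      obtain ⟨ι, hι, z, w, hz, haff, hw, hw1, hx'⟩ := eq_pos_convex_span_of_mem_convexHull hx
      have hcard : Fintype.card ι ≤ d + 1 := by
        refine haff.card_le_finrank_succ.trans ?_
        have := Submodule.finrank_le (vectorSpan ℝ (Set.range z))
        omega
      obtain ⟨e⟩ : Nonempty (ι ↪ Fin (d + 1)) := by
        apply Function.Embedding.nonempty_of_card_le
        simpa using hcard
      refine ⟨(Function.extend e w 0, Function.extend e z (fun _ => s0)), ⟨⟨?_, ?_⟩, ?_⟩, ?_⟩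
      · intro j
        show 0 ≤ Function.extend e w 0 j
        by_cases hj : ∃ i, e i = j
        · obtain ⟨i, rfl⟩ := hj
          rw [e.injective.extend_apply]
          exact (hw i).le
        · rw [Function.extend_apply' _ _ _ hj]
          simp
      · rw [← hw1]
        symm
        apply Fintype.sum_of_injective e e.injective
        · intro j hj
          show Function.extend e w 0 j = 0
          rw [Function.extend_apply' _ _ _ hj]
          simp
        · intro i
          show w i = Function.extend e w 0 (e i)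
          rw [e.injective.extend_apply]
      · intro j _
        show Function.extend e z (fun _ => s0) j ∈ s
        by_cases hj : ∃ i, e i = j
        · obtain ⟨i, rfl⟩ := hj
          rw [e.injective.extend_apply]
          exact hz ⟨i, rfl⟩
        · rw [Function.extend_apply' _ _ _ hj]
          exact hs0
      · rw [← hx']
        symm
        apply Fintype.sum_of_injective e e.injective
        · intro j hj
          show Function.extend e w 0 j • _ = _
          rw [Function.extend_apply' _ _ _ hj]
          simp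
        · intro i
          show _ = Function.extend e w 0 (e i) • Function.extend e z (fun _ => s0) (e i)
          rw [e.injective.extend_apply, e.injective.extend_apply]
    · rintro _ ⟨⟨w, z⟩, ⟨⟨hw0, hw1⟩, hz⟩, rfl⟩
      exact (convex_convexHull ℝ s).sum_mem (fun i _ => hw0 i) hw1
        (fun i _ => subset_convexHull ℝ s (hz i (mem_univ i)))
  rw [himg]
  exact hK.image hΦ

end Hull

section PSD

/-- AM-GM for PSD matrices with the equality case. -/
theorem psd_det_le {n : ℕ} {P : Matrix (Fin n) (Fin n) ℝ} (hP : P.PosSemidef)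
    (htr : P.trace ≤ n) : P.det ≤ 1 ∧ (P.det = 1 → P = 1) := by
  classical
  have hH := hP.1
  set lam := hH.eigenvalues with hlam
  have hlam0 : ∀ i, 0 ≤ lam i := hP.eigenvalues_nonneg
  have hdet : P.det = ∏ i, lam i := by simpa using hH.det_eq_prod_eigenvalues
  have htrace : P.trace = ∑ i, lam i := by simpa using hH.trace_eq_sum_eigenvalues
  by_cases h0 : ∃ i, lam i = 0
  · obtain ⟨i, hi⟩ := h0
    have : P.det = 0 := by
      rw [hdet]
      exact Finset.prod_eq_zero (Finset.mem_univ i) hi
    rw [this]
    exact ⟨zero_le_one, fun h => absurd h zero_ne_one⟩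
  · push Not at h0
    have hpos : ∀ i, 0 < lam i := fun i => lt_of_le_of_ne (hlam0 i) (Ne.symm (h0 i))
    have hdpos : 0 < P.det := by
      rw [hdet]; exact Finset.prod_pos (fun i _ => hpos i)
    have hlog : Real.log P.det = ∑ i, Real.log (lam i) := by
      rw [hdet, Real.log_prod (fun i _ => (hpos i).ne')]
    have hle : ∀ i, Real.log (lam i) ≤ lam i - 1 := fun i => Real.log_le_sub_one_of_pos (hpos i)
    have hsum : ∑ i, (lam i - 1) ≤ 0 := by
      rw [Finset.sum_sub_distrib, ← htrace]
      simp
      linarith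
    have hsum' : ∑ i, Real.log (lam i) ≤ ∑ i, (lam i - 1) := Finset.sum_le_sum (fun i _ => hle i)
    constructor
    · have h1 : Real.log P.det ≤ 0 := by rw [hlog]; linarith
      exact (Real.log_nonpos_iff hdpos.le).mp h1
    · intro hd1
      have h2 : ∑ i, Real.log (lam i) = 0 := by rw [← hlog, hd1, Real.log_one]
      have h3 : ∑ i, (lam i - 1) = ∑ i, Real.log (lam i) := by linarith
      have h4 : ∀ i ∈ Finset.univ, Real.log (lam i) = lam i - 1 := by
        refine (Finset.sum_eq_sum_iff_of_le (fun i _ => hle i)).mp h3.symm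
      have h5 : ∀ i, lam i = 1 := by
        intro i
        by_contra hne
        have := Real.log_lt_sub_one_of_pos (hpos i) hne
        rw [h4 i (Finset.mem_univ i)] at this
        exact lt_irrefl _ this
      have h6 := hH.spectral_theorem
      rw [h6]
      have h7 : (RCLike.ofReal ∘ hH.eigenvalues : Fin n → ℝ) = fun _ => 1 := by
        ext i
        simp only [Function.comp_apply]
        rw [← hlam, h5 i]
        simp
      rw [h7]
      simp

end PSD

section John

variable {X : Type*} [NormedAddCommGroup X] [NormedSpace ℝ X] [FiniteDimensional ℝ X]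

/-- D-optimal designs give an inner product (John position) on a finite-dimensional space:
`⟪φ x, φ y⟫ = ∑ cᵢ kᵢ(x) kᵢ(y)` with `‖kᵢ‖ ≤ 1`, `∑ cᵢ = 1`, and every functional of norm at
most one has Euclidean norm at most `√n`. -/
theorem john {n : ℕ} (hn : finrank ℝ X = n) (hn0 : 0 < n) :
    ∃ (φ : X ≃L[ℝ] EuclideanSpace ℝ (Fin n)) (ι : Type) (_ : Fintype ι) (c : ι → ℝ)
      (k : ι → X →L[ℝ] ℝ),
      (∀ i, 0 ≤ c i) ∧ ∑ i, c i = 1 ∧ (∀ i, ‖k i‖ ≤ 1) ∧
      (∀ x y, inner ℝ (φ x) (φ y) = ∑ i, c i * (k i x * k i y)) ∧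
      (∀ w : X →L[ℝ] ℝ, ‖w‖ ≤ 1 →
        ∑ j, (w (φ.symm (EuclideanSpace.single j 1))) ^ 2 ≤ n) := by
  classical
  let e : X ≃L[ℝ] EuclideanSpace ℝ (Fin n) := ContinuousLinearEquiv.ofFinrankEq (by simp [hn])
  let v : (X →L[ℝ] ℝ) → (Fin n → ℝ) := fun p j => p (e.symm (EuclideanSpace.single j 1))
  have hvc : Continuous v := by
    apply continuous_pi
    intro j
    show Continuous (fun p : X →L[ℝ] ℝ => p (e.symm (EuclideanSpace.single j 1)))
    fun_prop
  have hvx : ∀ (p : X →L[ℝ] ℝ) (x : X), p x = ∑ j, e x j * v p j := by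
    intro p x
    have h1 : x = ∑ j, e x j • e.symm (EuclideanSpace.single j 1) := by
      apply e.injective
      rw [map_sum]
      simp only [map_smul, ContinuousLinearEquiv.apply_symm_apply]
      ext i
      simp [Pi.single_apply, Finset.sum_apply]
    conv_lhs => rw [h1]
    rw [map_sum]
    simp only [map_smul, smul_eq_mul]
    rfl
  let R : Set (Matrix (Fin n) (Fin n) ℝ) :=
    (fun p : X →L[ℝ] ℝ => Matrix.vecMulVec (v p) (v p)) '' closedBall 0 1
  have hR : IsCompact R := by
    have : ProperSpace (X →L[ℝ] ℝ) := FiniteDimensional.proper ℝ _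
    refine (isCompact_closedBall 0 1).image ?_
    exact hvc.matrix_vecMulVec hvc
  have hQ : IsCompact (convexHull ℝ R) := isCompact_convexHull_fd hR
  have hQne : (convexHull ℝ R).Nonempty := by
    refine Set.Nonempty.convexHull ?_
    exact ⟨_, 0, by simp, rfl⟩
  obtain ⟨M, hMQ, hMmax⟩ := hQ.exists_isMaxOn hQne
    (f := fun M => M.det) (continuous_id.matrix_det).continuousOn
  have hMmax' : ∀ N ∈ convexHull ℝ R, N.det ≤ M.det := fun N hN => hMmax hN
  -- the maximum is positive
  have hMpos : 0 < M.det := by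
    let p : Fin n → (X →L[ℝ] ℝ) := fun j => (EuclideanSpace.proj j).comp (e : X →L[ℝ] _)
    let C : ℝ := ∑ j, ‖p j‖ + 1
    have hC : 0 < C := by positivity
    have hpC : ∀ j, ‖C⁻¹ • p j‖ ≤ 1 := by
      intro j
      rw [norm_smul, Real.norm_of_nonneg (inv_nonneg.mpr hC.le), inv_mul_le_iff₀ hC, mul_one]
      have := Finset.single_le_sum (f := fun j => ‖p j‖) (fun i _ => norm_nonneg _)
        (Finset.mem_univ j)
      linarith
    have hvp : ∀ j, v (C⁻¹ • p j) = C⁻¹ • Pi.single j 1 := by
      intro j
      ext i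
      simp [v, p, Pi.single_apply, eq_comm]
    have hmem : ∑ j : Fin n, (1 / (n : ℝ)) • Matrix.vecMulVec (v (C⁻¹ • p j)) (v (C⁻¹ • p j)) ∈
        convexHull ℝ R := by
      refine (convex_convexHull ℝ R).sum_mem (fun j _ => by positivity) ?_ ?_
      · simp
        field_simp
      · intro j _
        exact subset_convexHull ℝ R ⟨_, by simpa using hpC j, rfl⟩
    have hval : ∑ j : Fin n, (1 / (n : ℝ)) • Matrix.vecMulVec (v (C⁻¹ • p j)) (v (C⁻¹ • p j)) =
        ((1 / (n : ℝ)) * (C⁻¹ * C⁻¹)) • (1 : Matrix (Fin n) (Fin n) ℝ) := by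
      ext i l
      rw [Matrix.sum_apply]
      simp only [hvp, Matrix.smul_apply, Matrix.vecMulVec_apply, Pi.smul_apply, smul_eq_mul,
        Pi.single_apply, Matrix.one_apply]
      by_cases hil : i = l
      · subst hil
        rw [Finset.sum_eq_single i]
        · simp; 
        · intro b _ hb
          simp [hb.symm]
        · simp
      · rw [Finset.sum_eq_zero]
        · simp [hil]
        · intro b _
          by_cases hb : i = b
          · subst hb
            have : ¬ l = i := fun h => hil h.symm
            simp [this]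
          · simp [hb]
    rw [hval] at hmem
    have h1 := hMmax' _ hmem
    rw [Matrix.det_smul, Matrix.det_one, mul_one] at h1
    refine lt_of_lt_of_le ?_ h1
    positivity
  obtain ⟨ι, hι, c, z, hc0, hc1, hz, hzM⟩ := mem_convexHull_iff_exists_fintype.mp hMQ
  have hz' : ∀ i, ∃ p : X →L[ℝ] ℝ, ‖p‖ ≤ 1 ∧ Matrix.vecMulVec (v p) (v p) = z i := by
    intro i
    obtain ⟨p, hp, hp2⟩ := hz i
    exact ⟨p, by simpa using hp, hp2⟩
  choose k hk1 hk2 using hz'
  have hMsum : M = ∑ i, c i • Matrix.vecMulVec (v (k i)) (v (k i)) := by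
    rw [← hzM]
    exact Finset.sum_congr rfl (fun i _ => by rw [hk2 i])
  have hPSD : M.PosSemidef := by
    rw [hMsum]
    refine Matrix.posSemidef_sum _ (fun i _ => ?_)
    have h1 := Matrix.posSemidef_vecMulVec_self_star (v (k i))
    rw [star_trivial] at h1
    exact h1.smul (hc0 i)
  obtain ⟨B, hB⟩ := CStarAlgebra.nonneg_iff_eq_star_mul_self.mp hPSD.nonneg
  have hBt : M = Bᵀ * B := by
    rw [hB, Matrix.star_eq_conjTranspose, Matrix.conjTranspose_eq_transpose_of_trivial]
  have hdetB : B.det ≠ 0 := by
    intro h0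
    rw [hBt, Matrix.det_mul, h0, mul_zero] at hMpos
    exact lt_irrefl _ hMpos
  -- the Euclidean coordinates
  let T : EuclideanSpace ℝ (Fin n) →ₗ[ℝ] EuclideanSpace ℝ (Fin n) := Matrix.toEuclideanLin B
  have hTapp : ∀ a i, T a i = (B *ᵥ a.ofLp) i := fun a i => by
    simp [T, Matrix.toEuclideanLin]
  have hTinj : Function.Injective T := by
    rw [injective_iff_map_eq_zero]
    intro a ha
    have h1 : B *ᵥ a.ofLp = 0 := by
      ext i
      rw [← hTapp, ha]; rfl
    have h2 := Matrix.eq_zero_of_mulVec_eq_zero hdetB h1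
    ext i
    rw [h2]; rfl
  let Te : EuclideanSpace ℝ (Fin n) ≃ₗ[ℝ] EuclideanSpace ℝ (Fin n) :=
    LinearEquiv.ofInjectiveEndo T hTinj
  have hTe : ∀ a, Te a = T a := fun a => rfl
  let φ : X ≃L[ℝ] EuclideanSpace ℝ (Fin n) := e.trans Te.toContinuousLinearEquiv
  have hφ : ∀ x i, φ x i = (B *ᵥ (e x).ofLp) i := by
    intro x i
    show Te (e x) i = _
    rw [hTe, hTapp]
  refine ⟨φ, ι, hι, c, k, hc0, hc1, hk1, ?_, ?_⟩
  · intro x y
    have h1 : inner ℝ (φ x) (φ y) = ((e x).ofLp) ⬝ᵥ (M *ᵥ (e y).ofLp) := by
      rw [hBt, ← Matrix.mulVec_mulVec, Matrix.dotProduct_mulVec, Matrix.vecMul_transpose]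
      simp only [PiLp.inner_apply, dotProduct, hφ]
      refine Finset.sum_congr rfl (fun i _ => ?_)
      simp [mul_comm]
    rw [h1, hMsum, Matrix.sum_mulVec, dotProduct_sum]
    refine Finset.sum_congr rfl (fun i _ => ?_)
    rw [Matrix.smul_mulVec, dotProduct_smul, smul_eq_mul, Matrix.vecMulVec_mulVec,
      hvx (k i) x, hvx (k i) y]
    congr 1
    simp only [dotProduct, op_smul_eq_smul, Pi.smul_apply, smul_eq_mul]
    rw [Finset.sum_mul]
    refine Finset.sum_congr rfl (fun j _ => ?_)
    rw [Finset.sum_congr rfl (fun l _ => mul_comm (v (k i) l) ((e y) l))]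
    ring
  · intro w hw
    let z : Fin n → ℝ := fun j => w (φ.symm (EuclideanSpace.single j 1))
    have hzv : v w = Bᵀ *ᵥ z := by
      ext j
      have h1 : e.symm (EuclideanSpace.single j 1) =
          ∑ i, B i j • φ.symm (EuclideanSpace.single i 1) := by
        apply φ.injective
        rw [map_sum]
        simp only [map_smul, ContinuousLinearEquiv.apply_symm_apply]
        ext i
        rw [hφ]
        simp [Pi.single_apply, Finset.sum_apply, Matrix.mulVec, dotProduct]
      show w (e.symm (EuclideanSpace.single j 1)) = _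
      rw [h1, map_sum]
      simp only [map_smul, smul_eq_mul, Matrix.mulVec, dotProduct, Matrix.transpose_apply]
      rfl
    set S : ℝ := ∑ j, (z j) ^ 2 with hS
    have key : ∀ t : ℝ, 0 < t → t < 1 → (1 - t) ^ n * (1 + t / (1 - t) * S) ≤ 1 := by
      intro t ht ht1
      have h1t : 0 < 1 - t := by linarith
      have hmem : (1 - t) • M + t • Matrix.vecMulVec (v w) (v w) ∈ convexHull ℝ R := by
        refine (convex_convexHull ℝ R) hMQ ?_ h1t.le ht.le (by ring)
        exact subset_convexHull ℝ R ⟨w, by simpa using hw, rfl⟩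
      have h1 := hMmax' _ hmem
      have h2 : (1 - t) • M + t • Matrix.vecMulVec (v w) (v w) =
          Bᵀ * ((1 - t) • (1 + Matrix.replicateCol Unit ((t / (1 - t)) • z) *
            Matrix.replicateRow Unit z)) * B := by
        rw [hzv, hBt]
        have h3 : Matrix.vecMulVec (Bᵀ *ᵥ z) (Bᵀ *ᵥ z) = Bᵀ * Matrix.vecMulVec z z * B := by
          rw [Matrix.mul_vecMulVec, Matrix.vecMulVec_mul, Matrix.mulVec_transpose]
        have h4 : Matrix.replicateCol Unit ((t / (1 - t)) • z) * Matrix.replicateRow Unit z =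
            (t / (1 - t)) • Matrix.vecMulVec z z := by
          rw [← Matrix.vecMulVec_eq, Matrix.smul_vecMulVec]
        rw [h3, h4, smul_add, smul_smul, mul_div_cancel₀ _ h1t.ne']
        rw [Matrix.mul_add, Matrix.add_mul]
        simp [Matrix.mul_assoc]
      rw [h2, Matrix.det_mul, Matrix.det_mul, Matrix.det_transpose, Matrix.det_smul,
        Matrix.det_one_add_replicateCol_mul_replicateRow, Fintype.card_fin, dotProduct_smul,
        smul_eq_mul] at h1
      have h5 : z ⬝ᵥ z = S := by
        simp only [dotProduct, hS, sq]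
      have h6 : M.det = B.det * B.det := by
        rw [hBt, Matrix.det_mul, Matrix.det_transpose]
      rw [h5, h6] at h1
      have h7 : 0 < B.det * B.det := by rw [← h6]; exact hMpos
      have h8 : B.det * ((1 - t) ^ n * (1 + t / (1 - t) * S)) * B.det =
          (B.det * B.det) * ((1 - t) ^ n * (1 + t / (1 - t) * S)) := by ring
      rw [h8] at h1
      exact le_of_mul_le_mul_left (by rw [mul_one]; exact h1) h7
    by_contra hcon
    push Not at hcon
    obtain ⟨m, rfl⟩ : ∃ m, n = m + 1 := ⟨n - 1, by omega⟩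
    push_cast at hcon
    have hm0 : (0 : ℝ) ≤ m := by positivity
    set t : ℝ := (S - 1 - m) / (2 * (m + 1) * (S - 1)) with ht
    have hS1 : 0 < S - 1 := by linarith
    have hSm : 0 < S - 1 - m := by linarith
    have ht0 : 0 < t := by positivity
    have ht1 : t ≤ 1 / 2 := by
      rw [ht, div_le_div_iff₀ (by positivity) (by norm_num)]
      nlinarith
    have hkey := key t ht0 (by linarith)
    have h1t : 0 < 1 - t := by linarith
    have e1 : (1 - t) ^ (m + 1) * (1 + t / (1 - t) * S) = (1 - t) ^ m * ((1 - t) + t * S) := by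
      field_simp
      ring
    rw [e1] at hkey
    have hbern : 1 - m * t ≤ (1 - t) ^ m := by
      have := one_add_mul_le_pow (a := -t) (by linarith) m
      calc 1 - m * t = 1 + m * (-t) := by ring
        _ ≤ (1 + -t) ^ m := this
        _ = _ := by ring
    have hpos : 0 < (1 - t) + t * S := by nlinarith
    have h9 : (1 - m * t) * ((1 - t) + t * S) ≤ 1 :=
      (mul_le_mul_of_nonneg_right hbern hpos.le).trans hkey
    have h10 : t * (S - 1 - m) ≤ t * (m * t * (S - 1)) := by nlinarith
    have h11 : S - 1 - m ≤ m * t * (S - 1) := le_of_mul_le_mul_left h10 ht0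
    have h12 : m * t * (S - 1) = m * (S - 1 - m) / (2 * (m + 1)) := by
      rw [ht]; field_simp
    rw [h12, le_div_iff₀ (by positivity)] at h11
    nlinarith

end John

end Crest.Agent.R074
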