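import Crest.Agent.R074.FDJohn

/-!
Row 74 (S0099), finite-dimensional case, part 5: Lipschitz constants from a.e. derivative bounds,
and the linear algebra of the AM-GM inequality.
-/

set_option autoImplicit false

namespace Crest.Agent.R074

open MeasureTheory MeasureTheory.Measure Metric Set Module Filter
open scoped NNReal ENNReal Topology Matrix MatrixOrder

section Lip

variable {E F : Type*} [NormedAddCommGroup E] [NormedSpace ℝ E] [FiniteDimensional ℝ E]
  [MeasurableSpace E] [BorelSpace E] [NormedAddCommGroup F] [NormedSpace ℝ F]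


theorem norm_sub_le_of_ae_fderiv (μ : Measure E) [IsAddHaarMeasure μ] {K : ℝ≥0} {G : E → F}
    (hG : LipschitzWith K G) {U : Set E} (hU : IsOpen U) (hUc : Convex ℝ U)
    (hae : ∀ᵐ z ∂μ, z ∈ U → DifferentiableAt ℝ G z ∧ ‖fderiv ℝ G z‖ ≤ 1)
    {x y : E} (hx : x ∈ U) (hy : y ∈ U) : ‖G y - G x‖ ≤ ‖y - x‖ := by
  obtain ⟨ℓ, hℓ1, hℓ2⟩ := exists_dual_vector'' ℝ (G y - G x)
  simp only [RCLike.ofReal_real_eq_id, id_eq] at hℓ2
  set v := y - x with hv
  -- bad set
  let N : Set E := {z | ¬ (z ∈ U → DifferentiableAt ℝ G z ∧ ‖fderiv ℝ G z‖ ≤ 1)}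
  have hN : μ N = 0 := ae_iff.mp hae
  let N' := toMeasurable μ N
  have hN'm : MeasurableSet N' := measurableSet_toMeasurable μ N
  have hN' : μ N' = 0 := by rw [measure_toMeasurable]; exact hN
  have hNN' : N ⊆ N' := subset_toMeasurable μ N
  have h1 : ∀ᵐ h ∂μ, ∀ᵐ t ∂(volume : Measure ℝ), x + h + t • v ∉ N' := by
    rw [Measure.ae_ae_comm]
    · refine Eventually.of_forall (fun t => ?_)
      have : μ ((fun h => h + (x + t • v)) ⁻¹' N') = 0 := by
        rw [measure_preimage_add_right]; exact hN'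
      rw [ae_iff]
      convert! this using 2
      ext h
      have e1 : x + h + t • v = h + (x + t • v) := by abel
      show (¬ x + h + t • v ∉ N') ↔ h + (x + t • v) ∈ N'
      rw [not_not, e1]
    · have hmeas : Measurable (fun p : E × ℝ => x + p.1 + p.2 • v) := by
        apply Continuous.measurable
        fun_prop
      exact (hmeas hN'm).compl
  have h2 : ∀ᵐ h ∂μ, x + h ∈ U → y + h ∈ U → ℓ (G (y + h)) - ℓ (G (x + h)) ≤ ‖v‖ := by
    filter_upwards [h1] with h hh hxU hyU
    let φ : ℝ → ℝ := fun t => ℓ (G (x + h + t • v))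
    have hφL : LipschitzWith (‖ℓ‖₊ * (K * ‖v‖₊)) φ := by
      refine ℓ.lipschitz.comp (hG.comp ?_)
      refine LipschitzWith.of_dist_le_mul (fun s t => ?_)
      rw [dist_eq_norm, dist_eq_norm]
      have e1 : x + h + s • v - (x + h + t • v) = (s - t) • v := by rw [sub_smul]; abel
      rw [e1, norm_smul, mul_comm]
      rfl
    have hac : AbsolutelyContinuousOnInterval φ 0 1 :=
      hφL.lipschitzOnWith.absolutelyContinuousOnInterval
    have hftc := hac.integral_deriv_eq_sub
    have hbound : ∀ᵐ t, t ∈ uIoc (0 : ℝ) 1 → ‖deriv φ t‖ ≤ ‖v‖ := by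
      filter_upwards [hh] with t ht htI
      have ht01 : t ∈ Icc (0 : ℝ) 1 := by
        rw [uIoc_of_le zero_le_one] at htI
        exact ⟨htI.1.le, htI.2⟩
      have hzU : x + h + t • v ∈ U := by
        have := hUc hxU hyU (by linarith [ht01.2] : (0 : ℝ) ≤ 1 - t) ht01.1 (by ring)
        convert! this using 1
        rw [hv, smul_add, smul_add, smul_sub, sub_smul, sub_smul, one_smul, one_smul]
        abel
      have hz := ht
      have hz' : x + h + t • v ∉ N := fun hc => hz (hNN' hc)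
      have hz'' : DifferentiableAt ℝ G (x + h + t • v) ∧ ‖fderiv ℝ G (x + h + t • v)‖ ≤ 1 := by
        by_contra hcon
        exact hz' (fun hi => hcon (hi hzU))
      obtain ⟨hd, hn⟩ := hz''
      have hline : HasDerivAt (fun t : ℝ => x + h + t • v) v t := by
        simpa using ((hasDerivAt_id t).smul_const v).const_add (x + h)
      have hder : HasDerivAt φ (ℓ (fderiv ℝ G (x + h + t • v) v)) t :=
        (ℓ.hasFDerivAt.comp_hasDerivAt t (hd.hasFDerivAt.comp_hasDerivAt t hline))
      rw [hder.deriv]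
      calc ‖ℓ (fderiv ℝ G (x + h + t • v) v)‖ ≤ ‖ℓ‖ * ‖fderiv ℝ G (x + h + t • v) v‖ := ℓ.le_opNorm _
        _ ≤ 1 * ‖fderiv ℝ G (x + h + t • v) v‖ := mul_le_mul_of_nonneg_right hℓ1 (norm_nonneg _)
        _ ≤ 1 * (‖fderiv ℝ G (x + h + t • v)‖ * ‖v‖) := by
            gcongr; exact ContinuousLinearMap.le_opNorm _ _
        _ ≤ 1 * (1 * ‖v‖) := by gcongr
        _ = ‖v‖ := by ring
    have h3 := intervalIntegral.norm_integral_le_of_norm_le_const_ae hbound
    rw [hftc] at h3
    have e2 : φ 1 = ℓ (G (y + h)) := by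
      show ℓ (G (x + h + (1 : ℝ) • v)) = _
      congr 2
      rw [hv, one_smul]; abel
    have e3 : φ 0 = ℓ (G (x + h)) := by
      show ℓ (G (x + h + (0 : ℝ) • v)) = _
      congr 2
      rw [zero_smul, add_zero]
    rw [e2, e3] at h3
    simp only [sub_zero, abs_one, mul_one] at h3
    exact (Real.le_norm_self _).trans h3
  -- density
  have hdense := Measure.dense_of_ae h2
  let W : Set E := {h | x + h ∈ U ∧ y + h ∈ U}
  have hW : IsOpen W := by
    have a1 : IsOpen ((fun h => x + h) ⁻¹' U) := hU.preimage (by fun_prop)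
    have a2 : IsOpen ((fun h => y + h) ⁻¹' U) := hU.preimage (by fun_prop)
    exact a1.inter a2
  have h0W : (0 : E) ∈ W := by
    constructor
    · simpa using hx
    · simpa using hy
  have hcl : IsClosed {h : E | ℓ (G (y + h)) - ℓ (G (x + h)) ≤ ‖v‖} := by
    have hGc := hG.continuous
    apply isClosed_le
    · fun_prop
    · fun_prop
  have hsub : W ⊆ {h : E | ℓ (G (y + h)) - ℓ (G (x + h)) ≤ ‖v‖} := by
    refine (hdense.open_subset_closure_inter hW).trans ?_
    apply closure_minimal _ hcl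
    rintro h ⟨hW1, hW2⟩
    exact hW2 hW1.1 hW1.2
  have h4 := hsub h0W
  have h4' : ℓ (G (y + 0)) - ℓ (G (x + 0)) ≤ ‖v‖ := h4
  rw [add_zero, add_zero, ← map_sub, hℓ2] at h4'
  exact h4'

end Lip

section LA

theorem hs_det {n : ℕ} (A : EuclideanSpace ℝ (Fin n) →L[ℝ] EuclideanSpace ℝ (Fin n))
    (h : ∑ j, ‖A (EuclideanSpace.single j 1)‖ ^ 2 ≤ n) :
    |A.det| ≤ 1 ∧ (|A.det| = 1 → ∀ v, ‖A v‖ = ‖v‖) := by
  classical
  let M : Matrix (Fin n) (Fin n) ℝ := Matrix.of fun i j => A (EuclideanSpace.single j 1) i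
  have hMv : ∀ v i, A v i = (M *ᵥ v.ofLp) i := by
    intro v i
    have h1 : v = ∑ j, v j • EuclideanSpace.single j (1 : ℝ) := by
      ext i
      simp [Pi.single_apply, Finset.sum_apply]
    conv_lhs => rw [h1]
    rw [_root_.map_sum]
    simp only [map_smul]
    simp [M, Matrix.mulVec, dotProduct, Finset.sum_apply, mul_comm]
  have hdet : A.det = M.det := by
    have h1 : (A : EuclideanSpace ℝ (Fin n) →ₗ[ℝ] EuclideanSpace ℝ (Fin n)) = Matrix.toEuclideanLin M := by
      ext v i
      simp [hMv, Matrix.toEuclideanLin]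
    rw [ContinuousLinearMap.det, h1, Matrix.toEuclideanLin_eq_toLin_orthonormal, LinearMap.det_toLin]
  have hPSD : (Mᵀ * M).PosSemidef := by
    have := Matrix.posSemidef_conjTranspose_mul_self M
    rwa [Matrix.conjTranspose_eq_transpose_of_trivial] at this
  have htr : (Mᵀ * M).trace = ∑ j, ‖A (EuclideanSpace.single j 1)‖ ^ 2 := by
    rw [Matrix.trace]
    refine Finset.sum_congr rfl (fun j _ => ?_)
    rw [EuclideanSpace.norm_sq_eq, Matrix.diag_apply, Matrix.mul_apply]
    refine Finset.sum_congr rfl (fun i _ => ?_)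
    rw [Matrix.transpose_apply, Real.norm_eq_abs, sq_abs, sq]
    rfl
  obtain ⟨h1, h2⟩ := psd_det_le hPSD (by rw [htr]; exact h)
  have hdd : (Mᵀ * M).det = A.det ^ 2 := by
    rw [Matrix.det_mul, Matrix.det_transpose, hdet]; ring
  rw [hdd] at h1 h2
  constructor
  · exact abs_le_one_iff_mul_self_le_one.mpr (by nlinarith)
  · intro habs v
    have h3 : A.det ^ 2 = 1 := by rw [← sq_abs, habs, one_pow]
    have h4 := h2 h3
    have h5 : ‖A v‖ ^ 2 = ‖v‖ ^ 2 := by
      rw [EuclideanSpace.norm_sq_eq, EuclideanSpace.norm_sq_eq]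
      have e1 : ∑ i, ‖A v i‖ ^ 2 = (M *ᵥ v.ofLp) ⬝ᵥ (M *ᵥ v.ofLp) := by
        simp only [dotProduct]
        refine Finset.sum_congr rfl (fun i _ => ?_)
        rw [hMv, Real.norm_eq_abs, sq_abs, sq]
      have e2 : ∑ i, ‖v i‖ ^ 2 = v.ofLp ⬝ᵥ v.ofLp := by
        simp only [dotProduct]
        refine Finset.sum_congr rfl (fun i _ => ?_)
        rw [Real.norm_eq_abs, sq_abs, sq]
      rw [e1, e2]
      rw [Matrix.dotProduct_mulVec, ← Matrix.mulVec_transpose, Matrix.mulVec_mulVec, h4,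
        Matrix.one_mulVec]
    exact (sq_eq_sq₀ (norm_nonneg _) (norm_nonneg _)).mp h5

end LA

end Crest.Agent.R074
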