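import Crest.Agent.R074.Odd
import Crest.Agent.R074.FDCover
import Crest.Agent.R074.FDLip

/-!
Row 74 (S0099), finite-dimensional case, part 6: Tingley's problem in finite dimension.
-/

set_option autoImplicit false

namespace Crest.Agent.R074

open MeasureTheory MeasureTheory.Measure Metric Set Module Filter
open scoped NNReal ENNReal Topology

section Main

variable {X Y : Type*} [NormedAddCommGroup X] [NormedSpace ℝ X] [NormedAddCommGroup Y]
  [NormedSpace ℝ Y]

/-- the data produced by `john` -/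
structure JohnData (X : Type*) [NormedAddCommGroup X] [NormedSpace ℝ X] (n : ℕ) where
  φ : X ≃L[ℝ] EuclideanSpace ℝ (Fin n)
  ι : Type
  fin : Fintype ι
  c : ι → ℝ
  k : ι → X →L[ℝ] ℝ
  c_nonneg : ∀ i, 0 ≤ c i
  c_sum : ∑ i, c i = 1
  k_norm : ∀ i, ‖k i‖ ≤ 1
  inner_eq : ∀ x y, inner ℝ (φ x) (φ y) = ∑ i, c i * (k i x * k i y)
  dual_le : ∀ w : X →L[ℝ] ℝ, ‖w‖ ≤ 1 →
        ∑ j, (w (φ.symm (EuclideanSpace.single j 1))) ^ 2 ≤ n

attribute [instance] JohnData.fin

theorem nonempty_johnData [FiniteDimensional ℝ X] {n : ℕ} (hn : finrank ℝ X = n) (hn0 : 0 < n) :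
    Nonempty (JohnData X n) := by
  obtain ⟨φ, ι, hι, c, k, h1, h2, h3, h4, h5⟩ := john (X := X) hn hn0
  exact ⟨⟨φ, ι, hι, c, k, h1, h2, h3, h4, h5⟩⟩

/-- McShane extension in John coordinates. -/
theorem exists_G [FiniteDimensional ℝ X] {n : ℕ} {f : X → Y} {g : Y → X} (h : SI f g)
    (a : JohnData X n) (b : JohnData Y n) :
    ∃ (K : ℝ≥0) (G : EuclideanSpace ℝ (Fin n) → EuclideanSpace ℝ (Fin n)), LipschitzWith K G ∧
      (∀ x, ‖x‖ = 1 → G (a.φ x) = b.φ (f x)) ∧
      (∀ᵐ z ∂(volume : Measure (EuclideanSpace ℝ (Fin n))),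
        DifferentiableAt ℝ G z ∧ ∑ j, ‖fderiv ℝ G z (EuclideanSpace.single j 1)‖ ^ 2 ≤ n) := by
  classical
  -- real-valued extensions
  have hF : ∀ i : b.ι, ∃ F : X → ℝ, LipschitzWith 1 F ∧
      EqOn (fun x => b.k i (f x)) F (sphere 0 1) := by
    intro i
    apply LipschitzOnWith.extend_real
    refine LipschitzOnWith.of_dist_le_mul (fun x hx y hy => ?_)
    rw [dist_eq_norm, ← map_sub, dist_eq_norm]
    have h1 := (b.k i).le_opNorm (f x - f y)
    rw [h.dist x y (by simpa using hx) (by simpa using hy)] at h1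
    have h2 := mul_le_mul_of_nonneg_right (b.k_norm i) (norm_nonneg (x - y))
    simp only [NNReal.coe_one]
    linarith
  choose F hFL hFf using hF
  -- Riesz vectors
  let r : b.ι → EuclideanSpace ℝ (Fin n) := fun i =>
    (InnerProductSpace.toDual ℝ (EuclideanSpace ℝ (Fin n))).symm
      ((b.k i).comp (b.φ.symm : EuclideanSpace ℝ (Fin n) →L[ℝ] Y))
  have hr : ∀ i y, inner ℝ (r i) (b.φ y) = b.k i y := by
    intro i y
    show inner ℝ ((InnerProductSpace.toDual ℝ (EuclideanSpace ℝ (Fin n))).symm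
      ((b.k i).comp (b.φ.symm : EuclideanSpace ℝ (Fin n) →L[ℝ] Y))) (b.φ y) = _
    rw [InnerProductSpace.toDual_symm_apply]
    simp
  let L : (b.ι → ℝ) →L[ℝ] EuclideanSpace ℝ (Fin n) :=
    ∑ i, (ContinuousLinearMap.proj (R := ℝ) (φ := fun _ : b.ι => ℝ) i).smulRight (b.c i • r i)
  have hL : ∀ u, L u = ∑ i, (b.c i * u i) • r i := by
    intro u
    simp only [L, _root_.sum_apply, ContinuousLinearMap.smulRight_apply,
      ContinuousLinearMap.proj_apply, smul_smul]
    exact Finset.sum_congr rfl (fun i _ => by rw [mul_comm])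
  let P : EuclideanSpace ℝ (Fin n) → (b.ι → ℝ) := fun z i => F i (a.φ.symm z)
  have hPL : LipschitzWith ‖(a.φ.symm : EuclideanSpace ℝ (Fin n) →L[ℝ] X)‖₊ P := by
    refine LipschitzWith.of_dist_le_mul (fun z z' => ?_)
    rw [dist_pi_le_iff (by positivity)]
    intro i
    have h1 := (hFL i).dist_le_mul (a.φ.symm z) (a.φ.symm z')
    have h2 := (a.φ.symm : EuclideanSpace ℝ (Fin n) →L[ℝ] X).lipschitz.dist_le_mul z z'
    simp only [NNReal.coe_one, one_mul] at h1
    exact h1.trans h2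
  let G : EuclideanSpace ℝ (Fin n) → EuclideanSpace ℝ (Fin n) := fun z => L (P z)
  have hGL := L.lipschitz.comp hPL
  refine ⟨_, G, hGL, ?_, ?_⟩
  · intro x hx
    have h1 : ∀ i, P (a.φ x) i = b.k i (f x) := by
      intro i
      show F i (a.φ.symm (a.φ x)) = _
      rw [a.φ.symm_apply_apply]
      exact (hFf i (by simpa using hx)).symm
    show L (P (a.φ x)) = _
    rw [hL]
    have h2 : ∀ y, inner ℝ (∑ i, (b.c i * P (a.φ x) i) • r i) (b.φ y) =
        inner ℝ (b.φ (f x)) (b.φ y) := by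
      intro y
      rw [sum_inner, b.inner_eq]
      refine Finset.sum_congr rfl (fun i _ => ?_)
      rw [real_inner_smul_left, hr, h1]
      ring
    refine ext_inner_right ℝ (fun v => ?_)
    have h3 := h2 (b.φ.symm v)
    rwa [b.φ.apply_symm_apply] at h3
  · have hae : ∀ᵐ z ∂(volume : Measure (EuclideanSpace ℝ (Fin n))), DifferentiableAt ℝ P z :=
      hPL.ae_differentiableAt
    filter_upwards [hae] with z hz
    have hGd : HasFDerivAt G (L.comp (fderiv ℝ P z)) z := L.hasFDerivAt.comp z hz.hasFDerivAt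
    refine ⟨hGd.differentiableAt, ?_⟩
    rw [hGd.fderiv]
    -- derivatives of the pieces
    let w : b.ι → X →L[ℝ] ℝ := fun i =>
      ((ContinuousLinearMap.proj (R := ℝ) (φ := fun _ : b.ι => ℝ) i).comp (fderiv ℝ P z)).comp
        (a.φ : X →L[ℝ] EuclideanSpace ℝ (Fin n))
    have hw : ∀ i, ‖w i‖ ≤ 1 := by
      intro i
      have h1 : HasFDerivAt (F i) (w i) (a.φ.symm z) := by
        have h2 : HasFDerivAt (fun z => P z i)
            ((ContinuousLinearMap.proj (R := ℝ) (φ := fun _ : b.ι => ℝ) i).comp (fderiv ℝ P z)) z :=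
          (ContinuousLinearMap.proj (R := ℝ) (φ := fun _ : b.ι => ℝ) i).hasFDerivAt.comp z
            hz.hasFDerivAt
        have h3 : HasFDerivAt (fun x => P (a.φ x) i) (w i) (a.φ.symm z) := by
          have h4 : HasFDerivAt (fun z => P z i)
            ((ContinuousLinearMap.proj (R := ℝ) (φ := fun _ : b.ι => ℝ) i).comp (fderiv ℝ P z))
              (a.φ (a.φ.symm z)) := by rwa [a.φ.apply_symm_apply]
          exact h4.comp (a.φ.symm z) a.φ.hasFDerivAt
        have h5 : (fun x => P (a.φ x) i) = F i := by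
          funext x
          show F i (a.φ.symm (a.φ x)) = _
          rw [a.φ.symm_apply_apply]
        rwa [h5] at h3
      have h6 := h1.le_of_lipschitz (hFL i)
      simpa using h6
    have hwD : ∀ i v, fderiv ℝ P z v i = w i (a.φ.symm v) := by
      intro i v
      simp [w]
    have hpt : ∀ v, ‖L (fderiv ℝ P z v)‖ ^ 2 ≤ ∑ i, b.c i * (w i (a.φ.symm v)) ^ 2 := by
      intro v
      set u := b.φ.symm (L (fderiv ℝ P z v)) with hu
      have hu' : b.φ u = L (fderiv ℝ P z v) := by rw [hu, b.φ.apply_symm_apply]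
      have e1 : ‖L (fderiv ℝ P z v)‖ ^ 2 = ∑ i, b.c i * (w i (a.φ.symm v) * b.k i u) := by
        rw [← real_inner_self_eq_norm_sq]
        conv_lhs => rw [← hu']
        rw [hu', hL, ← hL, ← hu']
        conv_lhs => enter [2]; rw [hu', hL]
        rw [sum_inner]
        refine Finset.sum_congr rfl (fun i _ => ?_)
        rw [real_inner_smul_left, hr, hwD]
        ring
      have e2 : ‖L (fderiv ℝ P z v)‖ ^ 2 = ∑ i, b.c i * (b.k i u * b.k i u) := by
        rw [← real_inner_self_eq_norm_sq, ← hu', b.inner_eq]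
      have e3 : ∑ i, b.c i * (w i (a.φ.symm v) * b.k i u) ≤
          ∑ i, (b.c i * (w i (a.φ.symm v)) ^ 2 / 2 + b.c i * (b.k i u * b.k i u) / 2) := by
        refine Finset.sum_le_sum (fun i _ => ?_)
        have := b.c_nonneg i
        nlinarith [sq_nonneg (w i (a.φ.symm v) - b.k i u),
          mul_nonneg this (sq_nonneg (w i (a.φ.symm v) - b.k i u))]
      rw [Finset.sum_add_distrib, ← Finset.sum_div, ← Finset.sum_div, ← e2, ← e1] at e3
      linarith
    calc ∑ j, ‖(L.comp (fderiv ℝ P z)) (EuclideanSpace.single j 1)‖ ^ 2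
        ≤ ∑ j, ∑ i, b.c i * (w i (a.φ.symm (EuclideanSpace.single j 1))) ^ 2 :=
          Finset.sum_le_sum (fun j _ => hpt _)
      _ = ∑ i, b.c i * ∑ j, (w i (a.φ.symm (EuclideanSpace.single j 1))) ^ 2 := by
          rw [Finset.sum_comm]
          simp_rw [Finset.mul_sum]
      _ ≤ ∑ i, b.c i * n :=
          Finset.sum_le_sum (fun i _ => mul_le_mul_of_nonneg_left (a.dual_le _ (hw i)) (b.c_nonneg i))
      _ = n := by rw [← Finset.sum_mul, b.c_sum, one_mul]

theorem volume_le [FiniteDimensional ℝ X] [Nontrivial X] {n : ℕ} {f : X → Y} {g : Y → X}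
    (h : SI f g) (a : JohnData X n) (b : JohnData Y n) {K : ℝ≥0}
    {G : EuclideanSpace ℝ (Fin n) → EuclideanSpace ℝ (Fin n)} (hG : LipschitzWith K G)
    (hGf : ∀ x, ‖x‖ = 1 → G (a.φ x) = b.φ (f x)) :
    (volume : Measure (EuclideanSpace ℝ (Fin n))) (b.φ '' closedBall 0 1) ≤
      ∫⁻ z in a.φ '' closedBall 0 1, ENNReal.ofReal |(fderiv ℝ G z).det| := by
  have hmeas : MeasurableSet (a.φ '' closedBall (0 : X) 1) :=
    ((isCompact_closedBall (0 : X) 1).image a.φ.continuous).isClosed.measurableSet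
  refine le_trans (measure_mono ?_) (area_le volume hG hmeas)
  have hL : LipschitzWith (‖(b.φ.symm : EuclideanSpace ℝ (Fin n) →L[ℝ] Y)‖₊ *
      (K * ‖(a.φ : X →L[ℝ] EuclideanSpace ℝ (Fin n))‖₊)) (fun x => b.φ.symm (G (a.φ x))) :=
    (b.φ.symm : EuclideanSpace ℝ (Fin n) →L[ℝ] Y).lipschitz.comp
      (hG.comp (a.φ : X →L[ℝ] EuclideanSpace ℝ (Fin n)).lipschitz)
  have hc := cover h (G := fun x => b.φ.symm (G (a.φ x))) hL.lipschitzOnWith
    (fun x hx => by simp only [hGf x hx, ContinuousLinearEquiv.symm_apply_apply])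
  rintro _ ⟨y, hy, rfl⟩
  obtain ⟨x, hx, hxy⟩ := hc hy
  refine ⟨a.φ x, ⟨x, hx, rfl⟩, ?_⟩
  rw [← hxy]
  simp

theorem volume_le' [FiniteDimensional ℝ X] [Nontrivial X] {n : ℕ} {f : X → Y} {g : Y → X}
    (h : SI f g) (a : JohnData X n) (b : JohnData Y n) :
    (volume : Measure (EuclideanSpace ℝ (Fin n))) (b.φ '' closedBall 0 1) ≤
      (volume : Measure (EuclideanSpace ℝ (Fin n))) (a.φ '' closedBall 0 1) := by
  obtain ⟨K, G, hG, hGf, hae⟩ := exists_G h a b
  refine (volume_le h a b hG hGf).trans ?_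
  have h1 : ∫⁻ z in a.φ '' closedBall 0 1, ENNReal.ofReal |(fderiv ℝ G z).det| ≤
      ∫⁻ z in a.φ '' closedBall (0 : X) 1, 1 := by
    apply lintegral_mono_ae
    filter_upwards [ae_restrict_of_ae hae] with z hz
    rw [← ENNReal.ofReal_one]
    exact ENNReal.ofReal_le_ofReal (hs_det _ hz.2).1
  refine h1.trans ?_
  simp

theorem euclid_le [FiniteDimensional ℝ X] [Nontrivial X] {n : ℕ} {f : X → Y} {g : Y → X}
    (h : SI f g) (a : JohnData X n) (b : JohnData Y n) {x x' : X} (hx : ‖x‖ = 1) (hx' : ‖x'‖ = 1) :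
    ‖b.φ (f x) - b.φ (f x')‖ ≤ ‖a.φ x - a.φ x'‖ := by
  have := h.finiteDimensional
  have := h.nontrivial
  obtain ⟨K, G, hG, hGf, hae⟩ := exists_G h a b
  have hcompact : IsCompact (a.φ '' closedBall (0 : X) 1) :=
    (isCompact_closedBall (0 : X) 1).image a.φ.continuous
  have hmeas : MeasurableSet (a.φ '' closedBall (0 : X) 1) := hcompact.isClosed.measurableSet
  have hvol : (volume : Measure (EuclideanSpace ℝ (Fin n))) (a.φ '' closedBall 0 1) ≤
      ∫⁻ z in a.φ '' closedBall 0 1, ENNReal.ofReal |(fderiv ℝ G z).det| :=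
    (volume_le' h.symm b a).trans (volume_le h a b hG hGf)
  have hone : ∀ᵐ z ∂((volume : Measure (EuclideanSpace ℝ (Fin n))).restrict
      (a.φ '' closedBall 0 1)), ENNReal.ofReal |(fderiv ℝ G z).det| ≤ 1 := by
    filter_upwards [ae_restrict_of_ae hae] with z hz
    rw [← ENNReal.ofReal_one]
    exact ENNReal.ofReal_le_ofReal (hs_det _ hz.2).1
  have heq : (fun z => ENNReal.ofReal |(fderiv ℝ G z).det|)
      =ᵐ[(volume : Measure (EuclideanSpace ℝ (Fin n))).restrict (a.φ '' closedBall 0 1)]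
      (fun _ => (1 : ℝ≥0∞)) := by
    refine ae_eq_of_ae_le_of_lintegral_le hone ?_ aemeasurable_const ?_
    · have h1 : ∫⁻ z in a.φ '' closedBall 0 1, ENNReal.ofReal |(fderiv ℝ G z).det| ≤
          ∫⁻ z in a.φ '' closedBall (0 : X) 1, 1 := lintegral_mono_ae hone
      refine ne_top_of_le_ne_top ?_ h1
      simp only [lintegral_const, MeasurableSet.univ, Measure.restrict_apply, univ_inter, one_mul]
      exact hcompact.measure_ne_top
    · simpa using hvol
  have hiso : ∀ᵐ z ∂(volume : Measure (EuclideanSpace ℝ (Fin n))), z ∈ a.φ '' ball (0 : X) 1 →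
      DifferentiableAt ℝ G z ∧ ‖fderiv ℝ G z‖ ≤ 1 := by
    rw [Filter.EventuallyEq, ae_restrict_iff' hmeas] at heq
    filter_upwards [heq, hae] with z hz1 hz2 hzU
    refine ⟨hz2.1, ?_⟩
    have hzB : z ∈ a.φ '' closedBall (0 : X) 1 := image_mono ball_subset_closedBall hzU
    have h1 := hz1 hzB
    rw [ENNReal.ofReal_eq_one] at h1
    have h2 := (hs_det _ hz2.2).2 h1
    refine ContinuousLinearMap.opNorm_le_bound _ zero_le_one (fun v => ?_)
    rw [h2 v, one_mul]
  have hopen : IsOpen (a.φ '' ball (0 : X) 1) :=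
    a.φ.toHomeomorph.isOpenMap _ isOpen_ball
  have hconv : Convex ℝ (a.φ '' ball (0 : X) 1) :=
    (convex_ball (0 : X) 1).linear_image (a.φ : X →ₗ[ℝ] EuclideanSpace ℝ (Fin n))
  have hin : ∀ u u' : X, ‖u‖ < 1 → ‖u'‖ < 1 → ‖G (a.φ u) - G (a.φ u')‖ ≤ ‖a.φ u - a.φ u'‖ := by
    intro u u' hu hu'
    exact norm_sub_le_of_ae_fderiv volume hG hopen hconv hiso ⟨u', by simpa using hu', rfl⟩
      ⟨u, by simpa using hu, rfl⟩
  rw [← hGf x hx, ← hGf x' hx']
  -- limit from the inside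
  have ht : Tendsto (fun m : ℕ => (1 - 1 / ((m : ℝ) + 1))) atTop (𝓝 1) := by
    have := (tendsto_one_div_add_atTop_nhds_zero_nat (𝕜 := ℝ)).const_sub 1
    simpa using this
  have hGc := hG.continuous
  have hφc := a.φ.continuous
  have l1 : Tendsto (fun m : ℕ => ‖G (a.φ ((1 - 1 / ((m : ℝ) + 1)) • x)) -
      G (a.φ ((1 - 1 / ((m : ℝ) + 1)) • x'))‖) atTop (𝓝 ‖G (a.φ x) - G (a.φ x')‖) := by
    have hc : Continuous (fun t : ℝ => ‖G (a.φ (t • x)) - G (a.φ (t • x'))‖) := by fun_prop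
    have := (hc.tendsto 1).comp ht
    simp only [one_smul] at this
    exact this
  have l2 : Tendsto (fun m : ℕ => ‖a.φ ((1 - 1 / ((m : ℝ) + 1)) • x) -
      a.φ ((1 - 1 / ((m : ℝ) + 1)) • x')‖) atTop (𝓝 ‖a.φ x - a.φ x'‖) := by
    have hc : Continuous (fun t : ℝ => ‖a.φ (t • x) - a.φ (t • x')‖) := by fun_prop
    have := (hc.tendsto 1).comp ht
    simp only [one_smul] at this
    exact this
  refine le_of_tendsto_of_tendsto' l1 l2 (fun m => ?_)
  have hm : ∀ z : X, ‖z‖ = 1 → ‖(1 - 1 / ((m : ℝ) + 1)) • z‖ < 1 := by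
    intro z hz
    have h1 : (0 : ℝ) < 1 / ((m : ℝ) + 1) := by positivity
    have h2 : 1 / ((m : ℝ) + 1) ≤ 1 := by
      rw [div_le_one (by positivity)]
      have : (0 : ℝ) ≤ m := by positivity
      linarith
    rw [norm_smul, hz, mul_one, Real.norm_of_nonneg (by linarith)]
    linarith
  exact hin _ _ (hm x hx) (hm x' hx')

/-- **Tingley's problem in finite dimension.** -/
theorem tingley_findim [FiniteDimensional ℝ X] [Nontrivial X] {f : X → Y} {g : Y → X}
    (h : SI f g) : ∃ T : X ≃ₗᵢ[ℝ] Y, ∀ x, ‖x‖ = 1 → T x = f x := by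
  have hfY := h.finiteDimensional
  have hnY := h.nontrivial
  have hsX : TopologicalSpace.SeparableSpace X := inferInstance
  have hsY : TopologicalSpace.SeparableSpace Y := inferInstance
  have hcX : CompleteSpace X := FiniteDimensional.complete ℝ X
  have hn0 : 0 < finrank ℝ X := finrank_pos
  obtain ⟨a⟩ := nonempty_johnData (X := X) rfl hn0
  obtain ⟨b⟩ := nonempty_johnData (X := Y) h.finrank_eq.symm hn0
  have hodd : ∀ x, ‖x‖ = 1 → f (-x) = -f x := fun x hx => h.odd hx
  have hdist : ∀ x x', ‖x‖ = 1 → ‖x'‖ = 1 → ‖b.φ (f x) - b.φ (f x')‖ = ‖a.φ x - a.φ x'‖ := by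
    intro x x' hx hx'
    refine le_antisymm (euclid_le h a b hx hx') ?_
    have h1 := euclid_le h.symm b a (h.map x hx) (h.map x' hx')
    rwa [h.left x hx, h.left x' hx'] at h1
  have hinner1 : ∀ x x', ‖x‖ = 1 → ‖x'‖ = 1 →
      inner ℝ (b.φ (f x)) (b.φ (f x')) = inner ℝ (a.φ x) (a.φ x') := by
    intro x x' hx hx'
    have h1 := hdist x x' hx hx'
    have h2 := hdist x (-x') hx (by rw [norm_neg]; exact hx')
    rw [hodd x' hx', map_neg, map_neg, sub_neg_eq_add, sub_neg_eq_add] at h2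
    have p1 := real_inner_eq_norm_add_mul_self_sub_norm_mul_self_sub_norm_mul_self_div_two
      (b.φ (f x)) (b.φ (f x'))
    have p2 := real_inner_eq_norm_mul_self_add_norm_mul_self_sub_norm_sub_mul_self_div_two
      (b.φ (f x)) (b.φ (f x'))
    have q1 := real_inner_eq_norm_add_mul_self_sub_norm_mul_self_sub_norm_mul_self_div_two
      (a.φ x) (a.φ x')
    have q2 := real_inner_eq_norm_mul_self_add_norm_mul_self_sub_norm_sub_mul_self_div_two
      (a.φ x) (a.φ x')
    rw [h2] at p1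
    rw [h1] at p2
    linarith
  -- homogeneous extension
  let F : X → Y := fun x => ‖x‖ • f (‖x‖⁻¹ • x)
  have hF0 : F 0 = 0 := by simp [F]
  have hunit : ∀ x : X, x ≠ 0 → ‖‖x‖⁻¹ • x‖ = 1 := by
    intro x hx
    rw [norm_smul, norm_inv, norm_norm, inv_mul_cancel₀ (norm_ne_zero_iff.mpr hx)]
  have hunitY : ∀ x : Y, x ≠ 0 → ‖‖x‖⁻¹ • x‖ = 1 := by
    intro x hx
    rw [norm_smul, norm_inv, norm_norm, inv_mul_cancel₀ (norm_ne_zero_iff.mpr hx)]
  have hinner : ∀ x x', inner ℝ (b.φ (F x)) (b.φ (F x')) = inner ℝ (a.φ x) (a.φ x') := by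
    intro x x'
    rcases eq_or_ne x 0 with rfl | hx
    · rw [hF0]; simp
    rcases eq_or_ne x' 0 with rfl | hx'
    · rw [hF0]; simp
    show inner ℝ (b.φ (‖x‖ • f (‖x‖⁻¹ • x))) (b.φ (‖x'‖ • f (‖x'‖⁻¹ • x'))) = _
    rw [map_smul, map_smul, real_inner_smul_left, real_inner_smul_right,
      hinner1 _ _ (hunit x hx) (hunit x' hx'), map_smul, map_smul, real_inner_smul_left,
      real_inner_smul_right]
    have h1 : ‖x‖ ≠ 0 := norm_ne_zero_iff.mpr hx
    have h2 : ‖x'‖ ≠ 0 := norm_ne_zero_iff.mpr hx'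
    field_simp
  have hzero : ∀ y : Y, inner ℝ (b.φ y) (b.φ y) = (0 : ℝ) → y = 0 := by
    intro y hy
    have := inner_self_eq_zero.mp hy
    exact b.φ.map_eq_zero_iff.mp this
  have hadd : ∀ x x', F (x + x') = F x + F x' := by
    intro x x'
    have h1 : F (x + x') - F x - F x' = 0 := by
      apply hzero
      simp only [map_sub, inner_sub_left, inner_sub_right, hinner, map_add, inner_add_left,
        inner_add_right]
      ring
    have h2 : F (x + x') = F x + F x' := by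
      rw [sub_sub, sub_eq_zero] at h1
      exact h1
    exact h2
  have hsmul : ∀ (t : ℝ) x, F (t • x) = t • F x := by
    intro t x
    have h1 : F (t • x) - t • F x = 0 := by
      apply hzero
      simp only [map_sub, map_smul, inner_sub_left, inner_sub_right, real_inner_smul_left,
        real_inner_smul_right, hinner]
      ring
    rwa [sub_eq_zero] at h1
  have hFs : ∀ x, ‖x‖ = 1 → F x = f x := by
    intro x hx
    simp [F, hx]
  have hFn : ∀ x, ‖F x‖ = ‖x‖ := by
    intro x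
    rcases eq_or_ne x 0 with rfl | hx
    · rw [hF0, norm_zero, norm_zero]
    · show ‖‖x‖ • f (‖x‖⁻¹ • x)‖ = _
      rw [norm_smul, norm_norm, h.map _ (hunit x hx), mul_one]
  let Fl : X →ₗ[ℝ] Y := { toFun := F, map_add' := hadd, map_smul' := hsmul }
  let Fi : X →ₗᵢ[ℝ] Y := { Fl with norm_map' := hFn }
  have hsurj : Function.Surjective Fi := by
    intro y
    rcases eq_or_ne y 0 with rfl | hy
    · exact ⟨0, map_zero Fi⟩
    · refine ⟨‖y‖ • g (‖y‖⁻¹ • y), ?_⟩
      rw [map_smul]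
      have h1 : Fi (g (‖y‖⁻¹ • y)) = f (g (‖y‖⁻¹ • y)) := hFs _ (h.imap _ (hunitY y hy))
      rw [h1, h.right _ (hunitY y hy), smul_smul, mul_inv_cancel₀ (norm_ne_zero_iff.mpr hy),
        one_smul]
  refine ⟨LinearIsometryEquiv.ofSurjective Fi hsurj, ?_⟩
  intro x hx
  rw [LinearIsometryEquiv.coe_ofSurjective]
  exact hFs x hx

end Main

end Crest.Agent.R074
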