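import Crest.Agent.R074.Cross

/-!
Row 74 (S0099): facet dichotomy. If a unit-sum pair over `u` with `‖a - b‖ = 2` is not a limit of
unit-sum pairs over `u` with `‖a - b‖ < 2`, then `u` is interior to a facet.
-/

set_option autoImplicit false

namespace Crest.Agent.R074

open Metric Set Filter Topology

section Facet

variable {X : Type*} [NormedAddCommGroup X] [NormedSpace ℝ X]

/-- openness of the set of unit-sum `u`-pairs with respect to the base point -/
theorem exists_unitSum_base {a b u : X} (ha : ‖a‖ = 1) (hb : ‖b‖ = 1) (hab : ‖a + b‖ = 1)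
    (hu : ‖u‖ = 1) {r : ℝ} (hr : 0 < r) (h : a - b = r • u) {ε : ℝ} (hε : 0 < ε) :
    ∃ δ : ℝ, 0 < δ ∧ ∀ k : X, ‖k‖ < δ → ∃ lam : ℝ, 1 / 2 ≤ lam ∧ lam ≤ 3 / 2 ∧
      ‖(lam / 2) • (a + b + k)‖ < 1 ∧
      ‖top u ((lam / 2) • (a + b + k)) + top (-u) ((lam / 2) • (a + b + k))‖ = 1 ∧
      ‖top u ((lam / 2) • (a + b + k)) - a‖ < ε ∧
      ‖top (-u) ((lam / 2) • (a + b + k)) - b‖ < ε := by
  have hu' : ‖-u‖ = 1 := by rw [norm_neg]; exact hu
  set z := a + b with hz
  have hmid := chord_eq_top ha hb (by rw [hab]; norm_num : ‖a + b‖ < 2) hr.le h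
  rw [← hz] at hmid
  have hz1 : ‖(1 / 2 : ℝ) • z‖ < 1 := by
    rw [norm_smul, hab, Real.norm_of_nonneg (by norm_num)]; norm_num
  have hAc := Metric.continuousOn_iff.mp (continuousOn_top_right hu) ((1 / 2 : ℝ) • z)
    (mem_ball_zero_iff.mpr hz1) ε hε
  have hBc := Metric.continuousOn_iff.mp (continuousOn_top_right hu') ((1 / 2 : ℝ) • z)
    (mem_ball_zero_iff.mpr hz1) ε hε
  obtain ⟨δ₁, hδ₁, hcA⟩ := hAc
  obtain ⟨δ₂, hδ₂, hcB⟩ := hBc
  set η : ℝ := min (1 / 2) (min (δ₁ / 2) (δ₂ / 2)) with hη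
  have hη0 : 0 < η := lt_min (by norm_num) (lt_min (by positivity) (by positivity))
  have hη1 : η ≤ 1 / 2 := min_le_left _ _
  have hη2 : η ≤ δ₁ / 2 := (min_le_right _ _).trans (min_le_left _ _)
  have hη3 : η ≤ δ₂ / 2 := (min_le_right _ _).trans (min_le_right _ _)
  set F : X → ℝ := fun v => ‖top u v + top (-u) v‖ with hF
  have hFc : ContinuousOn F (ball 0 1) :=
    ((continuousOn_top_right hu).add (continuousOn_top_right hu')).norm
  have hlo : F (((1 - η) / 2) • z) < 1 := by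
    have := cross_le ha hb hab hu hr h (lam := 1 - η) (by linarith) (by linarith)
    have h3 : F (((1 - η) / 2) • z) ≤ (1 + (1 - η)) / 2 := this
    linarith
  have hhi : 1 < F (((1 + η) / 2) • z) := by
    have := cross_ge ha hb hab hu hr h (lam := 1 + η) (by linarith) (by linarith)
    have h3 : (1 + (1 + η)) / 2 ≤ F (((1 + η) / 2) • z) := this
    linarith
  have hm1 : ((1 - η) / 2) • z ∈ ball (0 : X) 1 := by
    rw [mem_ball_zero_iff, norm_smul, hab, Real.norm_of_nonneg (by linarith)]; linarith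
  have hm2 : ((1 + η) / 2) • z ∈ ball (0 : X) 1 := by
    rw [mem_ball_zero_iff, norm_smul, hab, Real.norm_of_nonneg (by linarith)]; linarith
  obtain ⟨δ₃, hδ₃, hcl3⟩ := Metric.continuousOn_iff.mp hFc _ hm1 (1 - F (((1 - η) / 2) • z))
    (by linarith)
  obtain ⟨δ₄, hδ₄, hcl4⟩ := Metric.continuousOn_iff.mp hFc _ hm2 (F (((1 + η) / 2) • z) - 1)
    (by linarith)
  refine ⟨min (min (δ₁ / 2) (δ₂ / 2)) (min (min δ₃ δ₄) (1 / 8)), lt_min
    (lt_min (by positivity) (by positivity)) (lt_min (lt_min hδ₃ hδ₄) (by norm_num)), ?_⟩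
  intro k hk
  have hk1 : ‖k‖ < δ₁ / 2 := hk.trans_le ((min_le_left _ _).trans (min_le_left _ _))
  have hk2 : ‖k‖ < δ₂ / 2 := hk.trans_le ((min_le_left _ _).trans (min_le_right _ _))
  have hk3 : ‖k‖ < δ₃ :=
    hk.trans_le ((min_le_right _ _).trans ((min_le_left _ _).trans (min_le_left _ _)))
  have hk4 : ‖k‖ < δ₄ :=
    hk.trans_le ((min_le_right _ _).trans ((min_le_left _ _).trans (min_le_right _ _)))
  have hk5 : ‖k‖ < 1 / 8 := hk.trans_le ((min_le_right _ _).trans (min_le_right _ _))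
  have hin : ∀ lam ∈ Icc (1 - η) (1 + η), ‖(lam / 2) • (z + k)‖ < 1 := by
    intro lam hlam
    have h0 : 0 ≤ lam / 2 := by linarith [hlam.1]
    rw [norm_smul, Real.norm_of_nonneg h0]
    have h1 := norm_add_le z k
    rw [hab] at h1
    have h2 : lam / 2 ≤ 3 / 4 := by linarith [hlam.2]
    nlinarith [norm_nonneg (z + k)]
  have hdist : ∀ lam ∈ Icc (1 - η) (1 + η), ∀ lam' : ℝ,
      ‖(lam / 2) • (z + k) - (lam' / 2) • z‖ ≤ |lam - lam'| / 2 + ‖k‖ := by
    intro lam hlam lam'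
    have e : (lam / 2) • (z + k) - (lam' / 2) • z = ((lam - lam') / 2) • z + (lam / 2) • k := by
      module
    rw [e]
    refine (norm_add_le _ _).trans ?_
    have h0 : 0 ≤ lam / 2 := by linarith [hlam.1]
    rw [norm_smul, norm_smul, hab, Real.norm_of_nonneg h0, mul_one, Real.norm_eq_abs, abs_div,
      abs_of_pos (by norm_num : (0 : ℝ) < 2)]
    have h2 : lam / 2 ≤ 1 := by linarith [hlam.2]
    nlinarith [norm_nonneg k]
  have hmem1 : (1 - η) ∈ Icc (1 - η) (1 + η) := ⟨le_rfl, by linarith⟩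
  have hmem2 : (1 + η) ∈ Icc (1 - η) (1 + η) := ⟨by linarith, le_rfl⟩
  have hlo' : F (((1 - η) / 2) • (z + k)) < 1 := by
    have h1 := hdist _ hmem1 (1 - η)
    rw [sub_self, abs_zero, zero_div, zero_add] at h1
    have := hcl3 _ (mem_ball_zero_iff.mpr (hin _ hmem1)) (by
      rw [dist_eq_norm]; exact h1.trans_lt hk3)
    rw [Real.dist_eq, abs_lt] at this
    linarith [this.2]
  have hhi' : 1 < F (((1 + η) / 2) • (z + k)) := by
    have h1 := hdist _ hmem2 (1 + η)
    rw [sub_self, abs_zero, zero_div, zero_add] at h1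
    have := hcl4 _ (mem_ball_zero_iff.mpr (hin _ hmem2)) (by
      rw [dist_eq_norm]; exact h1.trans_lt hk4)
    rw [Real.dist_eq, abs_lt] at this
    linarith [this.1]
  have hcont : ContinuousOn (fun lam : ℝ => F ((lam / 2) • (z + k))) (Icc (1 - η) (1 + η)) := by
    have h1 : ContinuousOn (fun lam : ℝ => (lam / 2) • (z + k)) (Icc (1 - η) (1 + η)) := by
      fun_prop
    exact hFc.comp h1 (fun lam hlam => mem_ball_zero_iff.mpr (hin lam hlam))
  obtain ⟨lam, hlam, hlam1⟩ := intermediate_value_Icc (by linarith : 1 - η ≤ 1 + η) hcont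
    (show (1 : ℝ) ∈ Icc _ _ from ⟨hlo'.le, hhi'.le⟩)
  have hd1 := hdist lam hlam 1
  have habs : |lam - 1| ≤ η := by
    rw [_root_.abs_le]; constructor <;> linarith [hlam.1, hlam.2]
  refine ⟨lam, by linarith [hlam.1], by linarith [hlam.2], hin lam hlam, hlam1, ?_, ?_⟩
  · have := hcA _ (mem_ball_zero_iff.mpr (hin lam hlam)) (by
      rw [dist_eq_norm]; exact hd1.trans_lt (by linarith))
    rw [dist_eq_norm, ← hmid.1] at this
    exact this
  · have := hcB _ (mem_ball_zero_iff.mpr (hin lam hlam)) (by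
      rw [dist_eq_norm]; exact hd1.trans_lt (by linarith))
    rw [dist_eq_norm, ← hmid.2] at this
    exact this

/-- ends of a chord of length two in direction `u` with support functional `p` -/
theorem chord_two {u a b : X} {p : X →L[ℝ] ℝ} (hp : ‖p‖ ≤ 1) (hpu : p u = 1)
    (ha : ‖a‖ = 1) (hb : ‖b‖ = 1) (h : a - b = (2 : ℝ) • u) :
    a = (1 / 2 : ℝ) • (a + b) + u ∧ b = (1 / 2 : ℝ) • (a + b) - u ∧ p (a + b) = 0 := by
  have h1 : u = (1 / 2 : ℝ) • (a - b) := by rw [h, smul_smul]; norm_num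
  have hle : ∀ x : X, p x ≤ ‖x‖ := by
    intro x
    have h2 := p.le_opNorm x
    rw [Real.norm_eq_abs] at h2
    have h3 := le_abs_self (p x)
    have h4 : ‖p‖ * ‖x‖ ≤ 1 * ‖x‖ := mul_le_mul_of_nonneg_right hp (norm_nonneg _)
    linarith
  refine ⟨by rw [h1]; module, by rw [h1]; module, ?_⟩
  have h2 : p a - p b = 2 := by rw [← map_sub, h, map_smul, hpu, smul_eq_mul, mul_one]
  have h3 := hle a
  have h4 := hle (-b)
  rw [norm_neg, map_neg] at h4
  rw [map_add]
  rw [ha] at h3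
  rw [hb] at h4
  linarith

/-- FACET DICHOTOMY -/
theorem facet_of_isolated {u a b : X} (hu : ‖u‖ = 1) {p : X →L[ℝ] ℝ} (hp : ‖p‖ ≤ 1)
    (hpu : p u = 1) (ha : ‖a‖ = 1) (hb : ‖b‖ = 1) (hab : ‖a + b‖ = 1)
    (hdir : a - b = (2 : ℝ) • u) {ε : ℝ} (hε : 0 < ε)
    (hall : ∀ (a' b' : X) (r : ℝ), ‖a'‖ = 1 → ‖b'‖ = 1 → ‖a' + b'‖ = 1 → 0 < r →
      a' - b' = r • u → ‖a' - a‖ < ε → ‖b' - b‖ < ε → ‖a' - b'‖ = 2) :
    ∃ δ : ℝ, 0 < δ ∧ ∀ h : X, ‖h‖ ≤ δ → ‖u + h‖ = p (u + h) := by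
  have hu' : ‖-u‖ = 1 := by rw [norm_neg]; exact hu
  have hle : ∀ x : X, p x ≤ ‖x‖ := by
    intro x
    have h2 := p.le_opNorm x
    rw [Real.norm_eq_abs] at h2
    have h3 := le_abs_self (p x)
    have h4 : ‖p‖ * ‖x‖ ≤ 1 * ‖x‖ := mul_le_mul_of_nonneg_right hp (norm_nonneg _)
    linarith
  obtain ⟨ha', hb', hpz⟩ := chord_two hp hpu ha hb hdir
  obtain ⟨δ₁, hδ₁, hbase⟩ := exists_unitSum_base ha hb hab hu (by norm_num : (0 : ℝ) < 2) hdir hε
  set z := a + b with hz
  -- ‖u + (1/4)(z + k)‖ ≤ 1 for k in ker p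
  have h4 : ∀ k : X, p k = 0 → ‖k‖ < δ₁ → ‖u + (1 / 4 : ℝ) • (z + k)‖ ≤ 1 := by
    intro k hpk hk
    obtain ⟨lam, hl1, hl2, hv, hsum, hc1, hc2⟩ := hbase k hk
    set v := (lam / 2) • (z + k) with hv'
    clear_value v
    have hA := norm_top hu hv
    have hB := norm_top hu' hv
    have hpos := add_pos (tau_pos hu hv) (tau_pos hu' hv)
    have h2 := hall _ _ _ hA hB hsum hpos (top_sub_top u v) hc1 hc2
    rw [norm_top_sub_top hu hv] at h2
    have hdir' : top u v - top (-u) v = (2 : ℝ) • u := by rw [top_sub_top, h2]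
    obtain ⟨e1, -, e3⟩ := chord_two hp hpu hA hB hdir'
    have hpv : p v = 0 := by rw [hv', map_smul, map_add, hpz, hpk]; simp
    rw [top_add_top, map_add, map_smul, map_smul, hpv, hpu, smul_eq_mul, smul_eq_mul,
      mul_zero, mul_one, zero_add] at e3
    have hτ : tau u v = 1 := by linarith
    have e4 : ‖u + v‖ = 1 := by
      have := norm_top hu hv
      unfold top at this
      rw [hτ, one_smul, add_comm] at this
      exact this
    have e5 : u + (1 / 4 : ℝ) • (z + k) = (1 - 1 / (2 * lam)) • u + (1 / (2 * lam)) • (u + v) := by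
      have e6 : (1 / (2 * lam)) • v = (1 / 4 : ℝ) • (z + k) := by
        rw [hv', smul_smul]; congr 1; field_simp; norm_num
      rw [← e6]
      module
    have h5 : 1 / (2 * lam) ≤ 1 := by
      rw [div_le_one (by linarith)]; linarith
    have h6 : 0 ≤ 1 / (2 * lam) := by positivity
    rw [e5]
    refine (norm_add_le _ _).trans ?_
    rw [norm_smul, norm_smul, hu, e4, Real.norm_of_nonneg (by linarith), Real.norm_of_nonneg h6]
    linarith
  have h5 : ‖u - (1 / 4 : ℝ) • z‖ ≤ 1 := by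
    have e1 : u - (1 / 4 : ℝ) • z = (1 / 2 : ℝ) • u + (1 / 2 : ℝ) • (-b) := by
      have e2 : -b = u - (1 / 2 : ℝ) • z := by rw [hb']; abel
      rw [e2]; module
    rw [e1]
    refine (norm_add_le _ _).trans ?_
    rw [norm_smul, norm_smul, hu, norm_neg, hb, Real.norm_of_nonneg (by norm_num)]
    norm_num
  have h6 : ∀ k : X, p k = 0 → ‖k‖ < δ₁ / 8 → ‖u + k‖ ≤ 1 := by
    intro k hpk hk
    have h7 := h4 ((8 : ℝ) • k) (by rw [map_smul, hpk, smul_zero]) (by
      rw [norm_smul, Real.norm_of_nonneg (by norm_num)]; linarith)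
    have e1 : u + k = (1 / 2 : ℝ) • (u + (1 / 4 : ℝ) • (z + (8 : ℝ) • k))
        + (1 / 2 : ℝ) • (u - (1 / 4 : ℝ) • z) := by module
    rw [e1]
    refine (norm_add_le _ _).trans ?_
    rw [norm_smul, norm_smul, Real.norm_of_nonneg (by norm_num)]
    linarith
  refine ⟨min (1 / 2) (δ₁ / 64), lt_min (by norm_num) (by positivity), ?_⟩
  intro h hh
  have hh1 : ‖h‖ ≤ 1 / 2 := hh.trans (min_le_left _ _)
  have hh2 : ‖h‖ ≤ δ₁ / 64 := hh.trans (min_le_right _ _)
  refine le_antisymm ?_ (hle _)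
  set s := p h with hs
  have hs1 : |s| ≤ ‖h‖ := by
    rw [_root_.abs_le]
    constructor
    · have := hle (-h); rw [map_neg, norm_neg] at this; linarith
    · exact hle h
  have hs2 := (_root_.abs_le.mp hs1).1
  have hs3 := (_root_.abs_le.mp hs1).2
  have hs0 : 0 < 1 + s := by linarith
  set k := (1 + s)⁻¹ • (h - s • u) with hk
  have hpk : p k = 0 := by
    rw [hk, map_smul, map_sub, map_smul, hpu, ← hs]; simp
  have hkn : ‖k‖ < δ₁ / 8 := by
    rw [hk, norm_smul, norm_inv, Real.norm_of_nonneg hs0.le, inv_mul_lt_iff₀ hs0]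
    have h7 := norm_sub_le h (s • u)
    rw [norm_smul, hu, mul_one, Real.norm_eq_abs] at h7
    nlinarith
  have h8 := h6 k hpk hkn
  have e1 : u + h = (1 + s) • (u + k) := by
    rw [smul_add, hk, smul_smul, mul_inv_cancel₀ hs0.ne', one_smul]
    module
  have e2 : p (u + h) = 1 + s := by rw [map_add, hpu]
  rw [e2, e1, norm_smul, Real.norm_of_nonneg hs0.le]
  nlinarith

end Facet

end Crest.Agent.R074
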