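import Crest.Agent.R074.CanonSlice
import Crest.Agent.R074.Blowup

/-!
Row 74 (S0099): Theorem A at directions interior to a facet (`V = ⊤` in the slice lemma).
-/

set_option autoImplicit false

namespace Crest.Agent.R074

open Metric Set Filter Topology

variable {X Y : Type*} [NormedAddCommGroup X] [NormedSpace ℝ X] [NormedAddCommGroup Y]
  [NormedSpace ℝ Y] {f : X → Y} {g : Y → X}

/-- `f` transports a functional which is the norm near a unit vector `u` with `f u` smooth:
`J (f u) (f x) = p x` on the whole sphere. -/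
theorem SI.facet_lta_of [TopologicalSpace.SeparableSpace X] [TopologicalSpace.SeparableSpace Y]
    [CompleteSpace X] (h : SI f g) (ho : ∀ x, ‖x‖ = 1 → f (-x) = -f x)
    {p : X →L[ℝ] ℝ} (hp : ‖p‖ ≤ 1) {u : X} (hu : ‖u‖ = 1) (hsf : Smooth (f u)) {ε : ℝ}
    (hε : 0 < ε) (hF : ∀ v : X, ‖v‖ ≤ ε → p (u + v) = ‖u + v‖) :
    ∀ x : X, ‖x‖ = 1 → J (f u) (f x) = p x := by
  obtain ⟨q, s, hq⟩ := h.slice ho (fun y hy hs => h.symm.midAt (h.odd_symm ho) hy hs) hp
    (V := ⊤) (c := u) Submodule.mem_top hu hε (fun v _ hv => hF v hv) 0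
    (by rw [norm_zero]; norm_num)
  have hrel : ∀ x : X, ‖x‖ = 1 → p x - q (f x) = s := fun x hx => hq.rel x hx Submodule.mem_top
  have h1 := hrel u hu
  have h2 := hrel (-u) (by rw [norm_neg]; exact hu)
  rw [map_neg, ho u hu, map_neg] at h2
  have hs0 : s = 0 := by linarith
  have hpu : p u = 1 := by
    have := hF 0 (by rw [norm_zero]; exact hε.le)
    rw [add_zero, hu] at this
    exact this
  have hqu : q (f u) = ‖f u‖ := by
    rw [h.map u hu]
    linarith
  have hqJ : q = J (f u) := hsf.eq_J ⟨hq.norm_le, hqu⟩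
  intro x hx
  have := hrel x hx
  rw [hs0, hqJ] at this
  linarith

/-- Theorem A at a direction interior to a facet. -/
theorem SI.facet_lta [TopologicalSpace.SeparableSpace X] [TopologicalSpace.SeparableSpace Y]
    [CompleteSpace X] (h : SI f g) (ho : ∀ x, ‖x‖ = 1 → f (-x) = -f x) {u : X}
    (hu : ‖u‖ = 1) (hsf : Smooth (f u)) {ε : ℝ} (hε : 0 < ε)
    (hF : ∀ v : X, ‖v‖ ≤ ε → J u (u + v) = ‖u + v‖) :
    ∀ x : X, ‖x‖ = 1 → J (f u) (f x) = J u x :=
  h.facet_lta_of ho (J_norm_le u) hu hsf hε hF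

end Crest.Agent.R074
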