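import Crest.Agent.R074.Base

/-!
Row 74 (S0099): normalisation, exactification of approximate unit sums (Lemma AH), and the
approximate version of (H).
-/

set_option autoImplicit false

namespace Crest.Agent.R074

open Metric Set Filter Topology

namespace Far

section Norm

variable {X : Type*} [NormedAddCommGroup X] [NormedSpace ℝ X]

/-- radial projection on the unit sphere -/
noncomputable def nu (x : X) : X := ‖x‖⁻¹ • x

theorem norm_nu {x : X} (hx : x ≠ 0) : ‖nu x‖ = 1 := by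
  unfold nu
  rw [norm_smul, norm_inv, norm_norm, inv_mul_cancel₀ (norm_ne_zero_iff.mpr hx)]

theorem norm_sub_nu {x : X} (hx : x ≠ 0) : ‖x - nu x‖ = |‖x‖ - 1| := by
  have hn : 0 < ‖x‖ := norm_pos_iff.mpr hx
  have e : x - nu x = (1 - ‖x‖⁻¹) • x := by unfold nu; rw [sub_smul, one_smul]
  rw [e, norm_smul, Real.norm_eq_abs]
  have e2 : ‖x‖ - 1 = (1 - ‖x‖⁻¹) * ‖x‖ := by
    rw [sub_mul, one_mul, inv_mul_cancel₀ hn.ne']
  rw [e2, abs_mul, abs_norm]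

theorem nu_of_norm {x : X} (hx : ‖x‖ = 1) : nu x = x := by
  unfold nu; rw [hx]; simp

theorem continuousOn_nu : ContinuousOn (nu : X → X) {x | x ≠ 0} := by
  unfold nu
  exact (continuousOn_id.norm.inv₀ fun x hx => norm_ne_zero_iff.mpr hx).smul continuousOn_id

theorem norm_comb_le {x y : X} {α β η : ℝ} (hx : ‖x‖ = 1) (hy : ‖y‖ = 1)
    (hxy : ‖x + y‖ ≤ 1 + η) (hα : 0 ≤ α) (hβ : 0 ≤ β) (hη : 0 ≤ η)
    (h1 : α * (1 + η) ≤ 1) (h2 : β * (1 + η) ≤ 1) : ‖α • x + β • y‖ ≤ 1 := by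
  rcases le_total β α with h | h
  · have e : α • x + β • y = β • (x + y) + (α - β) • x := by module
    rw [e]
    refine (norm_add_le _ _).trans ?_
    rw [norm_smul, norm_smul, Real.norm_of_nonneg hβ, Real.norm_of_nonneg (sub_nonneg.mpr h), hx]
    nlinarith [mul_le_mul_of_nonneg_left hxy hβ, mul_le_mul_of_nonneg_right h hη]
  · have e : α • x + β • y = α • (x + y) + (β - α) • y := by module
    rw [e]
    refine (norm_add_le _ _).trans ?_
    rw [norm_smul, norm_smul, Real.norm_of_nonneg hα, Real.norm_of_nonneg (sub_nonneg.mpr h), hy]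
    nlinarith [mul_le_mul_of_nonneg_left hxy hα, mul_le_mul_of_nonneg_right h hη]

theorem le_norm_comb {x y : X} {α β η : ℝ} (hx : ‖x‖ = 1) (hy : ‖y‖ = 1)
    (hxy : 1 - η ≤ ‖x + y‖) (hα : 0 ≤ α) (hβ : 0 ≤ β)
    (h1 : 1 ≤ β - α * η) (h2 : 1 ≤ α - β * η) : 1 ≤ ‖α • x + β • y‖ := by
  rcases le_total β α with h | h
  · have e : α • (x + y) = (α • x + β • y) + (α - β) • y := by module
    have h3 := norm_add_le (α • x + β • y) ((α - β) • y)
    rw [← e, norm_smul, norm_smul, Real.norm_of_nonneg hα,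
      Real.norm_of_nonneg (sub_nonneg.mpr h), hy] at h3
    nlinarith [mul_le_mul_of_nonneg_left hxy hα]
  · have e : β • (x + y) = (α • x + β • y) + (β - α) • x := by module
    have h3 := norm_add_le (α • x + β • y) ((β - α) • x)
    rw [← e, norm_smul, norm_smul, Real.norm_of_nonneg hβ,
      Real.norm_of_nonneg (sub_nonneg.mpr h), hx] at h3
    nlinarith [mul_le_mul_of_nonneg_left hxy hβ]

/-- common continuity part of the exactification -/
theorem exactify_aux {x y : X} (hx : ‖x‖ = 1) (hy : ‖y‖ = 1) {c s : ℝ} (hc : |c| ≤ 1)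
    (hs1 : s < 1) :
    ContinuousOn (fun t : ℝ => ‖nu (x + (c * t) • y) + nu (y + (c * t) • x)‖) (Icc 0 s) := by
  have key : ∀ {a b : X}, ‖a‖ = 1 → ‖b‖ = 1 →
      ContinuousOn (fun t : ℝ => nu (a + (c * t) • b)) (Icc 0 s) := by
    intro a b ha hb
    refine continuousOn_nu.comp (by fun_prop) ?_
    intro t ht h0'
    have h0 : a + (c * t) • b = 0 := h0'
    have h1 : ‖a‖ ≤ ‖a + (c * t) • b‖ + ‖(c * t) • b‖ := by
      have := norm_sub_le (a + (c * t) • b) ((c * t) • b)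
      rwa [add_sub_cancel_right] at this
    rw [h0, norm_zero, norm_smul, hb, ha, Real.norm_eq_abs, abs_mul, abs_of_nonneg ht.1] at h1
    nlinarith [ht.2, mul_le_mul_of_nonneg_right hc ht.1]
  exact ((key hx hy).add (key hy hx)).norm

theorem norm_sub_nu_le {x y : X} (hx : ‖x‖ = 1) (hy : ‖y‖ = 1) {c : ℝ} (hc : |c| < 1) :
    ‖x - nu (x + c • y)‖ ≤ 2 * |c| := by
  have hn : ‖c • y‖ = |c| := by rw [norm_smul, hy, mul_one, Real.norm_eq_abs]
  have h1 : |‖x + c • y‖ - 1| ≤ |c| := by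
    rw [← hx, ← hn]
    have := abs_norm_sub_norm_le (x + c • y) x
    rwa [add_sub_cancel_left] at this
  have h0 : x + c • y ≠ 0 := by
    intro h0
    rw [h0, norm_zero] at h1
    norm_num at h1
    linarith
  have h2 : x - nu (x + c • y) = (x + c • y - nu (x + c • y)) - c • y := by abel
  rw [h2]
  refine (norm_sub_le _ _).trans ?_
  rw [norm_sub_nu h0, hn]
  linarith

theorem real_aux1 {κ : ℝ} (hκ0 : 0 ≤ κ) (hκ8 : κ ≤ 1 / 8) {m m' : ℝ} (hm : 0 < m)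
    (hm' : 0 < m') (h1 : 1 - 2 * κ * κ ≤ m) (h2 : m ≤ 1 + 2 * κ)
    (h3 : 1 - 2 * κ * κ ≤ m') (h4 : m' ≤ 1 + 2 * κ) :
    0 ≤ m⁻¹ + m'⁻¹ * -(2 * κ) ∧ (m⁻¹ + m'⁻¹ * -(2 * κ)) * (1 + κ) ≤ 1 := by
  have p1 : 0 < 1 + 2 * κ := by linarith
  have p2 : 0 < 1 - 2 * κ * κ := by nlinarith
  have e1 : (1 + 2 * κ)⁻¹ ≤ m⁻¹ := inv_anti₀ hm h2
  have e2 : m⁻¹ ≤ (1 - 2 * κ * κ)⁻¹ := inv_anti₀ p2 h1
  have e3 : (1 + 2 * κ)⁻¹ ≤ m'⁻¹ := inv_anti₀ hm' h4
  have e4 : m'⁻¹ ≤ (1 - 2 * κ * κ)⁻¹ := inv_anti₀ p2 h3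
  constructor
  · have e5 : (1 - 2 * κ * κ)⁻¹ * (2 * κ) ≤ (1 + 2 * κ)⁻¹ := by
      rw [inv_mul_le_iff₀ p2, ← div_eq_mul_inv, le_div_iff₀ p1]
      nlinarith
    nlinarith [mul_le_mul_of_nonneg_right e4 (by linarith : (0:ℝ) ≤ 2 * κ)]
  · have e6 : m⁻¹ + m'⁻¹ * -(2 * κ) ≤ (1 - 2 * κ * κ)⁻¹ - (1 + 2 * κ)⁻¹ * (2 * κ) := by
      nlinarith [mul_le_mul_of_nonneg_right e3 (by linarith : (0:ℝ) ≤ 2 * κ)]
    have e7 : ((1 - 2 * κ * κ)⁻¹ - (1 + 2 * κ)⁻¹ * (2 * κ)) * (1 + κ) ≤ 1 := by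
      have e8 : (1 - 2 * κ * κ)⁻¹ - (1 + 2 * κ)⁻¹ * (2 * κ) =
          (1 + 4 * κ ^ 3) / ((1 - 2 * κ * κ) * (1 + 2 * κ)) := by
        have q1 := p1.ne'
        have q2 := p2.ne'
        rw [eq_div_iff (mul_pos p2 p1).ne', sub_mul]
        have r1 : (1 - 2 * κ * κ)⁻¹ * ((1 - 2 * κ * κ) * (1 + 2 * κ)) = 1 + 2 * κ := by
          rw [← mul_assoc, inv_mul_cancel₀ q2, one_mul]
        have r2 : (1 + 2 * κ)⁻¹ * (2 * κ) * ((1 - 2 * κ * κ) * (1 + 2 * κ)) =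
            (2 * κ) * (1 - 2 * κ * κ) := by
          calc _ = ((1 + 2 * κ)⁻¹ * (1 + 2 * κ)) * ((2 * κ) * (1 - 2 * κ * κ)) := by ring
            _ = _ := by rw [inv_mul_cancel₀ q1, one_mul]
        rw [r1, r2]
        ring
      rw [e8, div_mul_eq_mul_div, div_le_one (mul_pos p2 p1)]
      nlinarith [mul_nonneg hκ0 hκ0, mul_nonneg (mul_nonneg hκ0 hκ0) hκ0,
        mul_nonneg (mul_nonneg hκ0 hκ0) (mul_nonneg hκ0 hκ0),
        mul_nonneg hκ0 (by linarith : (0:ℝ) ≤ 1 / 8 - κ),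
        mul_nonneg (mul_nonneg hκ0 hκ0) (by linarith : (0:ℝ) ≤ 1 / 8 - κ),
        mul_nonneg (mul_nonneg (mul_nonneg hκ0 hκ0) hκ0) (by linarith : (0:ℝ) ≤ 1 / 8 - κ)]
    exact (mul_le_mul_of_nonneg_right e6 (by linarith)).trans e7

theorem real_aux3 {κ : ℝ} (hκ0 : 0 ≤ κ) (hκ8 : κ ≤ 1 / 8) {m m' : ℝ} (hm : 0 < m)
    (hm' : 0 < m') (h2 : m ≤ 1) (h3 : 1 - 2 * κ ≤ m')
    (h1 : 1 - 2 * κ ≤ m) (h4 : m' ≤ 1) :
    1 ≤ (m⁻¹ + m'⁻¹ * (2 * κ)) - (m'⁻¹ + m⁻¹ * (2 * κ)) * κ := by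
  have p2 : 0 < 1 - 2 * κ := by linarith
  have e1 : 1 ≤ m⁻¹ := (one_le_inv₀ hm).mpr h2
  have e3 : 1 ≤ m'⁻¹ := (one_le_inv₀ hm').mpr h4
  have e : (m⁻¹ + m'⁻¹ * (2 * κ)) - (m'⁻¹ + m⁻¹ * (2 * κ)) * κ =
      m⁻¹ * (1 - 2 * κ * κ) + m'⁻¹ * κ := by ring
  rw [e]
  have e5 : 1 * (1 - 2 * κ * κ) ≤ m⁻¹ * (1 - 2 * κ * κ) :=
    mul_le_mul_of_nonneg_right e1 (by nlinarith)
  have e6 : 1 * κ ≤ m'⁻¹ * κ := mul_le_mul_of_nonneg_right e3 hκ0
  nlinarith

/-- **Lemma AH** (exactification) -/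
theorem exactify {x y : X} {η : ℝ} (hx : ‖x‖ = 1) (hy : ‖y‖ = 1) (h : |‖x + y‖ - 1| ≤ η)
    (hη : η ≤ 1 / 8) : ∃ x' y' : X, ‖x'‖ = 1 ∧ ‖y'‖ = 1 ∧ ‖x' + y'‖ = 1 ∧
      ‖x - x'‖ ≤ 4 * η ∧ ‖y - y'‖ ≤ 4 * η := by
  have hne : ∀ {a b : X} {c : ℝ}, ‖a‖ = 1 → ‖b‖ = 1 → |c| < 1 → a + c • b ≠ 0 := by
    intro a b c ha hb hc h0
    have h1 : ‖a‖ = ‖c • b‖ := by
      rw [← norm_neg (c • b)]
      congr 1
      exact eq_neg_of_add_eq_zero_left h0
    rw [ha, norm_smul, hb, mul_one, Real.norm_eq_abs] at h1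
    linarith
  rw [abs_le] at h
  have hη0 : 0 ≤ η := by linarith [h.1, h.2]
  -- the common end of the argument
  have fin : ∀ (c : ℝ) (κ : ℝ), |c| = 1 → 0 ≤ κ → κ ≤ η →
      (1 : ℝ) ∈ uIcc ‖nu (x + (c * 0) • y) + nu (y + (c * 0) • x)‖
        ‖nu (x + (c * (2 * κ)) • y) + nu (y + (c * (2 * κ)) • x)‖ →
      ∃ x' y' : X, ‖x'‖ = 1 ∧ ‖y'‖ = 1 ∧ ‖x' + y'‖ = 1 ∧
      ‖x - x'‖ ≤ 4 * η ∧ ‖y - y'‖ ≤ 4 * η := by
    intro c κ hc hκ0 hκ hmem
    have hcont := exactify_aux (c := c) hx hy hc.le (s := 2 * κ) (by linarith)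
    have hivt := intermediate_value_uIcc
      (f := fun t : ℝ => ‖nu (x + (c * t) • y) + nu (y + (c * t) • x)‖)
      (a := 0) (b := 2 * κ) (by rw [uIcc_of_le (by linarith)]; exact hcont)
    obtain ⟨t, ht, hval⟩ := hivt hmem
    rw [uIcc_of_le (by linarith)] at ht
    have hct : |c * t| ≤ 2 * η := by
      rw [abs_mul, hc, one_mul, abs_of_nonneg ht.1]; linarith [ht.2]
    have hct1 : |c * t| < 1 := by linarith
    refine ⟨_, _, norm_nu (hne hx hy hct1), norm_nu (hne hy hx hct1), hval, ?_, ?_⟩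
    · exact (norm_sub_nu_le hx hy hct1).trans (by linarith)
    · exact (norm_sub_nu_le hy hx hct1).trans (by linarith)
  have hnu : ∀ {a b : X} {c : ℝ}, nu (a + c • b) = (‖a + c • b‖)⁻¹ • (a + c • b) := fun {_ _ _} => rfl
  have hcomb : ∀ c : ℝ, nu (x + c • y) + nu (y + c • x) =
      (‖x + c • y‖⁻¹ + ‖y + c • x‖⁻¹ * c) • x + (‖y + c • x‖⁻¹ + ‖x + c • y‖⁻¹ * c) • y := by
    intro c
    unfold nu
    module
  rcases le_total 1 ‖x + y‖ with h1 | h1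
  · -- the sum is too long: move apart
    set κ := ‖x + y‖ - 1 with hκ
    have hκ0 : 0 ≤ κ := by linarith
    have hκη : κ ≤ η := h.2
    have hκ8 : κ ≤ 1 / 8 := by linarith
    refine fin (-1) κ (by norm_num) hκ0 hκη ?_
    rw [mem_uIcc]
    right
    constructor
    · -- value at `2κ` is at most one
      have hs : (-1 : ℝ) * (2 * κ) = -(2 * κ) := by ring
      rw [hs, hcomb]
      have hm : ∀ {a b : X}, ‖a‖ = 1 → ‖b‖ = 1 → ‖a + b‖ = 1 + κ →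
          1 - 2 * κ * κ ≤ ‖a + (-(2 * κ)) • b‖ ∧ ‖a + (-(2 * κ)) • b‖ ≤ 1 + 2 * κ := by
        intro a b ha hb hab
        constructor
        · have e : (1 + 2 * κ) • a = (a + (-(2 * κ)) • b) + (2 * κ) • (a + b) := by module
          have := norm_add_le (a + (-(2 * κ)) • b) ((2 * κ) • (a + b))
          rw [← e, norm_smul, norm_smul, Real.norm_of_nonneg (by linarith : (0:ℝ) ≤ 1 + 2 * κ),
            Real.norm_of_nonneg (by linarith : (0:ℝ) ≤ 2 * κ), ha, hab] at this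
          nlinarith
        · refine (norm_add_le _ _).trans ?_
          rw [norm_smul, ha, hb, norm_neg, Real.norm_of_nonneg (by linarith : (0:ℝ) ≤ 2 * κ)]
          linarith
      obtain ⟨m1l, m1u⟩ := hm hx hy (by rw [hκ]; ring)
      obtain ⟨m2l, m2u⟩ := hm hy hx (by rw [add_comm y x, hκ]; ring)
      set m1 := ‖x + (-(2 * κ)) • y‖
      set m2 := ‖y + (-(2 * κ)) • x‖
      have hm1 : 0 < m1 := by nlinarith
      have hm2 : 0 < m2 := by nlinarith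
      have a1 := real_aux1 hκ0 hκ8 hm1 hm2 m1l m1u m2l m2u
      have a2 := real_aux1 hκ0 hκ8 hm2 hm1 m2l m2u m1l m1u
      exact norm_comb_le hx hy (η := κ) (by rw [hκ]; linarith) a1.1 a2.1 hκ0 a1.2 a2.2
    · rw [mul_zero, zero_smul, zero_smul, add_zero, add_zero, nu_of_norm hx, nu_of_norm hy]
      exact h1
  · -- the sum is too short: move together
    set κ := 1 - ‖x + y‖ with hκ
    have hκ0 : 0 ≤ κ := by linarith
    have hκη : κ ≤ η := by linarith [h.1]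
    have hκ8 : κ ≤ 1 / 8 := by linarith
    refine fin 1 κ (by norm_num) hκ0 hκη ?_
    rw [mem_uIcc]
    left
    constructor
    · rw [mul_zero, zero_smul, zero_smul, add_zero, add_zero, nu_of_norm hx, nu_of_norm hy]
      exact h1
    · rw [one_mul, hcomb]
      have hm : ∀ {a b : X}, ‖a‖ = 1 → ‖b‖ = 1 → ‖a + b‖ = 1 - κ →
          1 - 2 * κ ≤ ‖a + (2 * κ) • b‖ ∧ ‖a + (2 * κ) • b‖ ≤ 1 := by
        intro a b ha hb hab
        constructor
        · have := norm_sub_le (a + (2 * κ) • b) ((2 * κ) • b)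
          rw [add_sub_cancel_right, norm_smul, ha, hb,
            Real.norm_of_nonneg (by linarith : (0:ℝ) ≤ 2 * κ)] at this
          linarith
        · have e : a + (2 * κ) • b = (1 - 2 * κ) • a + (2 * κ) • (a + b) := by module
          rw [e]
          refine (norm_add_le _ _).trans ?_
          rw [norm_smul, norm_smul, Real.norm_of_nonneg (by linarith : (0:ℝ) ≤ 1 - 2 * κ),
            Real.norm_of_nonneg (by linarith : (0:ℝ) ≤ 2 * κ), ha, hab]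
          nlinarith
      obtain ⟨m1l, m1u⟩ := hm hx hy (by rw [hκ]; ring)
      obtain ⟨m2l, m2u⟩ := hm hy hx (by rw [add_comm y x, hκ]; ring)
      set m1 := ‖x + (2 * κ) • y‖
      set m2 := ‖y + (2 * κ) • x‖
      have hm1 : 0 < m1 := by linarith
      have hm2 : 0 < m2 := by linarith
      have p2 : 0 < 1 - 2 * κ := by linarith
      have a1 : 0 ≤ m1⁻¹ + m2⁻¹ * (2 * κ) := by positivity
      have a2 : 0 ≤ m2⁻¹ + m1⁻¹ * (2 * κ) := by positivity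
      exact le_norm_comb hx hy (η := κ) (by rw [hκ]; linarith) a1 a2
        (real_aux3 hκ0 hκ8 hm2 hm1 m2u m1l m2l m1u)
        (real_aux3 hκ0 hκ8 hm1 hm2 m1u m2l m1l m2u)

end Norm

section ApproxH

variable {X Y : Type*} [NormedAddCommGroup X] [NormedSpace ℝ X]
  [NormedAddCommGroup Y] [NormedSpace ℝ Y] {f : X → Y} {g : Y → X}

omit [NormedSpace ℝ X] in
theorem nu_near {x : X} {η : ℝ} (h : |‖x‖ - 1| ≤ η) (hη : η < 1) : x ≠ 0 := by
  intro h0
  rw [h0, norm_zero] at h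
  norm_num at h
  linarith

/-- approximate form of (H) -/
theorem approxH (h : SI f g)
    (hH : ∀ z w : X, ‖z‖ = 1 → ‖w‖ = 1 → ‖z + w‖ = 1 → f (z + w) = f z + f w)
    {x y : X} {η : ℝ} (hη : η ≤ 1 / 24) (hx : |‖x‖ - 1| ≤ η) (hy : |‖y‖ - 1| ≤ η)
    (hxy : |‖x + y‖ - 1| ≤ η) :
    ‖f (nu x) + f (nu y) - f (nu (x + y))‖ ≤ 60 * η := by
  have hη0 : 0 ≤ η := (abs_nonneg _).trans hx
  have hη1 : η < 1 := by linarith
  have hx0 := nu_near hx hη1
  have hy0 := nu_near hy hη1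
  have hxy0 := nu_near hxy hη1
  have dx : ‖x - nu x‖ ≤ η := by rw [norm_sub_nu hx0]; exact hx
  have dy : ‖y - nu y‖ ≤ η := by rw [norm_sub_nu hy0]; exact hy
  have dxy : ‖(x + y) - nu (x + y)‖ ≤ η := by rw [norm_sub_nu hxy0]; exact hxy
  have h1 : |‖nu x + nu y‖ - 1| ≤ 3 * η := by
    have e : nu x + nu y - (x + y) = -((x - nu x) + (y - nu y)) := by abel
    have h2 : |‖nu x + nu y‖ - ‖x + y‖| ≤ 2 * η := by
      refine (abs_norm_sub_norm_le _ _).trans ?_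
      rw [e, norm_neg]
      exact (norm_add_le _ _).trans (by linarith)
    rw [abs_le] at h2 hxy ⊢
    constructor <;> linarith [h2.1, h2.2, hxy.1, hxy.2]
  obtain ⟨x', y', hx', hy', hxy', d1, d2⟩ := exactify (norm_nu hx0) (norm_nu hy0) h1
    (by linarith)
  have e1 := hH x' y' hx' hy' hxy'
  have e2 : ‖f (nu x) - f x'‖ ≤ 12 * η := by
    rw [h.dist _ _ (norm_nu hx0) hx']; linarith
  have e3 : ‖f (nu y) - f y'‖ ≤ 12 * η := by
    rw [h.dist _ _ (norm_nu hy0) hy']; linarith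
  have e4 : ‖f (x' + y') - f (nu (x + y))‖ ≤ 27 * η := by
    rw [h.dist _ _ hxy' (norm_nu hxy0)]
    have e : x' + y' - nu (x + y) = -(nu x - x') + -(nu y - y') + -(x - nu x) + -(y - nu y) +
        ((x + y) - nu (x + y)) := by abel
    rw [e]
    refine (norm_add_le _ _).trans ?_
    have n1 := norm_add_le (-(nu x - x') + -(nu y - y') + -(x - nu x)) (-(y - nu y))
    have n2 := norm_add_le (-(nu x - x') + -(nu y - y')) (-(x - nu x))
    have n3 := norm_add_le (-(nu x - x')) (-(nu y - y'))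
    simp only [norm_neg] at n1 n2 n3
    linarith
  have e5 : f (nu x) + f (nu y) - f (nu (x + y)) =
      (f (nu x) - f x') + (f (nu y) - f y') + (f (x' + y') - f (nu (x + y))) := by
    rw [e1]; abel
  rw [e5]
  refine (norm_add_le _ _).trans ?_
  have n1 := norm_add_le (f (nu x) - f x') (f (nu y) - f y')
  linarith

end ApproxH

end Far

end Crest.Agent.R074
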