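import Crest.Agent.R074.FarA
import Crest.Agent.Lib.BorsukUlam

/-!
Row 74 (S0099): far planes.  In an infinite-dimensional normed space, for every compact set `K`
and every `ε > 0` there is a plane `W` such that `‖y + w‖` and `‖y - w‖` are `ε`-close for all
`y ∈ K` and all `w ∈ W` with `‖w‖ ≤ 3` (two applications of Borsuk–Ulam).
-/

set_option autoImplicit false

namespace Crest.Agent.R074

open Metric Set Filter Topology

namespace Far

variable {X : Type*} [NormedAddCommGroup X] [NormedSpace ℝ X]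

theorem nu_neg (x : X) : nu (-x) = -nu x := by
  unfold nu; rw [norm_neg, smul_neg]

/-- finitely many evenness conditions can be met exactly -/
theorem exists_even_vec {ι : Type*} [Fintype ι] (E : Submodule ℝ X) [FiniteDimensional ℝ E]
    (hE : Fintype.card ι < Module.finrank ℝ E) (y : ι → X) (β : ι → ℝ) :
    ∃ v ∈ E, ‖v‖ = 1 ∧ ∀ i, ‖y i + β i • v‖ = ‖y i - β i • v‖ := by
  have hc : ContinuousOn (fun z : E => nu (z : X)) {x | x ≠ 0} :=
    continuousOn_nu.comp continuous_subtype_val.continuousOn (fun z hz => by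
      simpa using hz)
  obtain ⟨z, hz, h0⟩ := Crest.Agent.Lib.BorsukUlam.exists_zero_of_odd (W := E) (E := ι → ℝ)
    (by simpa using hE)
    (fun z => fun i => ‖y i + β i • nu (z : X)‖ - ‖y i - β i • nu (z : X)‖)
    (by
      rw [continuousOn_pi]
      intro i
      exact ((continuousOn_const.add (hc.const_smul (β i))).norm).sub
        ((continuousOn_const.sub (hc.const_smul (β i))).norm))
    (by
      intro x _
      funext i
      have e : nu (((-x : E)) : X) = -nu (x : X) := by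
        rw [Submodule.coe_neg, nu_neg]
      show ‖y i + β i • nu (((-x : E)) : X)‖ - ‖y i - β i • nu (((-x : E)) : X)‖ =
        -(‖y i + β i • nu (x : X)‖ - ‖y i - β i • nu (x : X)‖)
      rw [e, smul_neg, sub_neg_eq_add, ← sub_eq_add_neg]
      ring)
  refine ⟨nu (z : X), E.smul_mem _ z.2, norm_nu (by simpa using hz), fun i => ?_⟩
  have h1 : ‖y i + β i • nu (z : X)‖ - ‖y i - β i • nu (z : X)‖ = 0 := congrFun h0 i
  linarith

theorem exists_finrank_gt (hX : ¬ FiniteDimensional ℝ X) (n : ℕ) :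
    ∃ E : Submodule ℝ X, FiniteDimensional ℝ E ∧ n < Module.finrank ℝ E := by
  have h1 : ((n + 1 : ℕ) : Cardinal) ≤ Module.rank ℝ X := by
    by_contra hcon
    push Not at hcon
    apply hX
    rw [FiniteDimensional, ← Module.rank_lt_aleph0_iff]
    exact hcon.trans Cardinal.natCast_lt_aleph0
  obtain ⟨s, hs, hli⟩ := le_rank_iff_exists_linearIndependent_finset.mp h1
  refine ⟨Submodule.span ℝ (s : Set X), inferInstance, ?_⟩
  rw [finrank_span_finset_eq_card hli, hs]
  omega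

omit [NormedSpace ℝ X] in
theorem abs_norm_diff_le {a a' b b' : X} {δ : ℝ} (h1 : ‖a - a'‖ ≤ δ) (h2 : ‖b - b'‖ ≤ δ)
    (h : ‖a'‖ = ‖b'‖) : |‖a‖ - ‖b‖| ≤ 2 * δ := by
  have h3 := abs_norm_sub_norm_le a a'
  have h4 := abs_norm_sub_norm_le b b'
  rw [abs_le] at h3 h4 ⊢
  constructor <;> linarith [h3.1, h3.2, h4.1, h4.2]

/-- compactly many evenness conditions can be met up to `ε`, uniformly over `2`-Lipschitz
families of conditions. -/
theorem exists_even_bound {Z : Type*} [PseudoMetricSpace Z] {Q : Set Z} (hQ : IsCompact Q)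
    {ε : ℝ} (hε : 0 < ε) : ∃ n : ℕ, ∀ (E : Submodule ℝ X) [FiniteDimensional ℝ E],
      n < Module.finrank ℝ E → ∀ (u : Z → X) (b : Z → ℝ),
      (∀ p q, ‖u p - u q‖ ≤ 2 * dist p q) → (∀ p q, |b p - b q| ≤ 2 * dist p q) →
      ∃ v ∈ E, ‖v‖ = 1 ∧ ∀ p ∈ Q, |‖u p + b p • v‖ - ‖u p - b p • v‖| ≤ ε := by
  obtain ⟨t, -, ht, hcov⟩ := hQ.finite_cover_balls (show (0 : ℝ) < ε / 8 by positivity)
  refine ⟨ht.toFinset.card, fun E _ hE u b hu hb => ?_⟩
  obtain ⟨v, hvE, hv1, hv⟩ := exists_even_vec (ι := {x // x ∈ ht.toFinset}) E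
    (by rw [Fintype.card_coe]; exact hE) (fun i => u i) (fun i => b i)
  refine ⟨v, hvE, hv1, fun p hp => ?_⟩
  obtain ⟨q, hq, hpq⟩ := mem_iUnion₂.mp (hcov hp)
  rw [mem_ball] at hpq
  have h1 := hv ⟨q, by rw [Set.Finite.mem_toFinset]; exact hq⟩
  have h2 : ‖b p • v - b q • v‖ ≤ ε / 4 := by
    rw [← sub_smul, norm_smul, hv1, mul_one, Real.norm_eq_abs]
    have := hb p q
    linarith
  have h3 : ‖u p - u q‖ ≤ ε / 4 := by
    have := hu p q
    linarith
  have h4 := abs_norm_diff_le (a := u p + b p • v) (a' := u q + b q • v)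
    (b := u p - b p • v) (b' := u q - b q • v) (δ := ε / 2)
    (by
      have e : u p + b p • v - (u q + b q • v) = (u p - u q) + (b p • v - b q • v) := by abel
      rw [e]
      exact (norm_add_le _ _).trans (by linarith))
    (by
      have e : u p - b p • v - (u q - b q • v) = (u p - u q) - (b p • v - b q • v) := by abel
      rw [e]
      exact (norm_sub_le _ _).trans (by linarith)) h1
  linarith

/-- far plane, coordinate form -/
theorem exists_farPair (hX : ¬ FiniteDimensional ℝ X) {K : Set X} (hK : IsCompact K)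
    (h0 : (0 : X) ∈ K) {ε : ℝ} (hε : 0 < ε) :
    ∃ v₁ v₂ : X, ∀ α β : ℝ, |α| ≤ 4 → |β| ≤ 4 →
      (|α| ≤ ‖α • v₁ + β • v₂‖ + ε ∧ |β| ≤ ‖α • v₁ + β • v₂‖ + ε) ∧
      ∀ y ∈ K, |‖y + (α • v₁ + β • v₂)‖ - ‖y - (α • v₁ + β • v₂)‖| ≤ ε := by
  have hIcc : ∀ {α : ℝ}, |α| ≤ 4 → α ∈ Icc (-4 : ℝ) 4 := fun h => abs_le.mp h
  have hε2 : 0 < ε / 2 := by positivity
  obtain ⟨n2, hn2⟩ := exists_even_bound (X := X)
    (hK.prod ((isCompact_Icc (a := (-4 : ℝ)) (b := 4)).prod
      (isCompact_Icc (a := (-4 : ℝ)) (b := 4)))) hε2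
  obtain ⟨E2, hE2, hrk2⟩ := exists_finrank_gt hX n2
  have hB : IsCompact ((fun z : E2 => (z : X)) '' closedBall (0 : E2) 4) :=
    (isCompact_closedBall (0 : E2) 4).image continuous_subtype_val
  obtain ⟨n1, hn1⟩ := exists_even_bound (X := X)
    ((hK.add hB).prod (isCompact_Icc (a := (-4 : ℝ)) (b := 4))) hε2
  obtain ⟨E1, hE1, hrk1⟩ := exists_finrank_gt hX n1
  obtain ⟨v₁, -, hv1, he1⟩ := hn1 E1 hrk1 Prod.fst Prod.snd
    (fun p q => by
      have : dist p.1 q.1 ≤ dist p q := le_max_left _ _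
      rw [dist_eq_norm] at this
      linarith [dist_nonneg (x := p) (y := q)])
    (fun p q => by
      have : dist p.2 q.2 ≤ dist p q := le_max_right _ _
      rw [Real.dist_eq] at this
      linarith [dist_nonneg (x := p) (y := q)])
  obtain ⟨v₂, hv2E, hv2, he2⟩ := hn2 E2 hrk2 (fun p => p.1 + p.2.1 • v₁) (fun p => p.2.2)
    (fun p q => by
      have d1 : dist p.1 q.1 ≤ dist p q := le_max_left _ _
      have d2 : dist p.2.1 q.2.1 ≤ dist p q :=
        (le_max_left _ _ : dist p.2.1 q.2.1 ≤ dist p.2 q.2).trans (le_max_right _ _)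
      rw [dist_eq_norm] at d1
      rw [Real.dist_eq] at d2
      have e : p.1 + p.2.1 • v₁ - (q.1 + q.2.1 • v₁) = (p.1 - q.1) + (p.2.1 - q.2.1) • v₁ := by
        rw [sub_smul]; abel
      rw [e]
      refine (norm_add_le _ _).trans ?_
      rw [norm_smul, hv1, mul_one, Real.norm_eq_abs]
      linarith)
    (fun p q => by
      have d2 : dist p.2.2 q.2.2 ≤ dist p q :=
        (le_max_right _ _ : dist p.2.2 q.2.2 ≤ dist p.2 q.2).trans (le_max_right _ _)
      rw [Real.dist_eq] at d2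
      linarith [dist_nonneg (x := p) (y := q)])
  refine ⟨v₁, v₂, fun α β hα hβ => ?_⟩
  have hA : ∀ y ∈ K, |‖y + α • v₁ + β • v₂‖ - ‖y + α • v₁ - β • v₂‖| ≤ ε / 2 := by
    intro y hy
    exact he2 (y, α, β) ⟨hy, hIcc hα, hIcc hβ⟩
  have hBB : ∀ y ∈ K, |‖y - β • v₂ + α • v₁‖ - ‖y - β • v₂ - α • v₁‖| ≤ ε / 2 := by
    intro y hy
    refine he1 (y - β • v₂, α) ⟨?_, hIcc hα⟩
    rw [sub_eq_add_neg]
    refine Set.add_mem_add hy ⟨⟨-(β • v₂), E2.neg_mem (E2.smul_mem _ hv2E)⟩, ?_, rfl⟩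
    rw [mem_closedBall, dist_zero_right]
    show ‖-(β • v₂)‖ ≤ 4
    rw [norm_neg, norm_smul, hv2, mul_one]
    exact hβ
  have hLB : |‖α • v₁ + β • v₂‖ - ‖α • v₁ - β • v₂‖| ≤ ε / 2 := by
    have := hA 0 h0
    rwa [zero_add] at this
  rw [abs_le] at hLB
  refine ⟨⟨?_, ?_⟩, fun y hy => ?_⟩
  · have e : (2 * α) • v₁ = (α • v₁ + β • v₂) + (α • v₁ - β • v₂) := by module
    have h1 := norm_add_le (α • v₁ + β • v₂) (α • v₁ - β • v₂)
    rw [← e, norm_smul, hv1, mul_one, Real.norm_eq_abs, abs_mul, abs_two] at h1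
    linarith [hLB.1, hLB.2]
  · have e : (2 * β) • v₂ = (α • v₁ + β • v₂) - (α • v₁ - β • v₂) := by module
    have h1 := norm_sub_le (α • v₁ + β • v₂) (α • v₁ - β • v₂)
    rw [← e, norm_smul, hv2, mul_one, Real.norm_eq_abs, abs_mul, abs_two] at h1
    linarith [hLB.1, hLB.2]
  · have h1 := hA y hy
    have h2 := hBB y hy
    have e1 : y + α • v₁ + β • v₂ = y + (α • v₁ + β • v₂) := by abel
    have e2 : y - β • v₂ + α • v₁ = y + α • v₁ - β • v₂ := by abel
    have e3 : y - β • v₂ - α • v₁ = y - (α • v₁ + β • v₂) := by abel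
    rw [e1] at h1
    rw [e2, e3] at h2
    rw [abs_le] at h1 h2 ⊢
    constructor <;> linarith [h1.1, h1.2, h2.1, h2.2]

/-- **Far plane** -/
theorem exists_farPlane (hX : ¬ FiniteDimensional ℝ X) {K : Set X} (hK : IsCompact K)
    {ε : ℝ} (hε : 0 < ε) :
    ∃ W : Submodule ℝ X, 1 < Module.rank ℝ W ∧
      ∀ y ∈ K, ∀ w ∈ W, ‖w‖ ≤ 3 → |‖y + w‖ - ‖y - w‖| ≤ ε := by
  set ε' := min ε 1 with hε'
  have hε'0 : 0 < ε' := lt_min hε one_pos
  have hε'1 : ε' ≤ 1 := min_le_right _ _
  obtain ⟨v₁, v₂, h⟩ := exists_farPair hX (hK.insert (0 : X)) (mem_insert _ _) hε'0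
  -- coefficient bound
  have key : ∀ a b : ℝ, max |a| |b| * 3 ≤ 4 * ‖a • v₁ + b • v₂‖ := by
    intro a b
    set M := max |a| |b| with hM
    have hM0 : 0 ≤ M := le_max_of_le_left (abs_nonneg _)
    rcases hM0.eq_or_lt with hM1 | hM1
    · rw [← hM1, zero_mul]; positivity
    · have hs : 0 < 4 / M := by positivity
      have ha : |4 / M * a| ≤ 4 := by
        rw [abs_mul, abs_of_pos hs, div_mul_eq_mul_div, div_le_iff₀ hM1]
        have : |a| ≤ M := le_max_left _ _
        linarith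
      have hb : |4 / M * b| ≤ 4 := by
        rw [abs_mul, abs_of_pos hs, div_mul_eq_mul_div, div_le_iff₀ hM1]
        have : |b| ≤ M := le_max_right _ _
        linarith
      have h1 := (h _ _ ha hb).1
      have e : (4 / M * a) • v₁ + (4 / M * b) • v₂ = (4 / M) • (a • v₁ + b • v₂) := by
        rw [smul_add, smul_smul, smul_smul]
      rw [e, norm_smul, Real.norm_of_nonneg hs.le, abs_mul, abs_mul, abs_of_pos hs] at h1
      have h2 : 4 / M * M = 4 := div_mul_cancel₀ _ hM1.ne'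
      have h3 : 4 / M * M ≤ 4 / M * ‖a • v₁ + b • v₂‖ + ε' := by
        rcases max_choice |a| |b| with h4 | h4
        · rw [← hM] at h4
          nth_rewrite 2 [h4]
          exact h1.1
        · rw [← hM] at h4
          nth_rewrite 2 [h4]
          exact h1.2
      rw [h2] at h3
      have h5 : 3 ≤ 4 / M * ‖a • v₁ + b • v₂‖ := by linarith
      rw [div_mul_eq_mul_div, le_div_iff₀ hM1] at h5
      linarith
  refine ⟨Submodule.span ℝ {v₁, v₂}, ?_, ?_⟩
  · have hli : LinearIndependent ℝ ![v₁, v₂] := by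
      rw [LinearIndependent.pair_iff]
      intro s t hst
      have h1 := key s t
      rw [hst, norm_zero, mul_zero] at h1
      have h2 : |s| ≤ max |s| |t| := le_max_left _ _
      have h3 : |t| ≤ max |s| |t| := le_max_right _ _
      constructor
      · exact abs_eq_zero.mp (le_antisymm (by linarith) (abs_nonneg _))
      · exact abs_eq_zero.mp (le_antisymm (by linarith) (abs_nonneg _))
    have h2 := finrank_span_eq_card hli
    have e : range ![v₁, v₂] = {v₁, v₂} := by
      rw [Matrix.range_cons, Matrix.range_cons, Matrix.range_empty, union_empty]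
      rfl
    rw [e, Fintype.card_fin] at h2
    haveI : FiniteDimensional ℝ (Submodule.span ℝ ({v₁, v₂} : Set X)) :=
      FiniteDimensional.span_of_finite ℝ (Set.toFinite _)
    have h3 : ((Module.finrank ℝ (Submodule.span ℝ ({v₁, v₂} : Set X)) : ℕ) : Cardinal) =
        Module.rank ℝ (Submodule.span ℝ ({v₁, v₂} : Set X)) := Module.finrank_eq_rank _ _
    rw [← h3, h2]
    norm_num
  · intro y hy w hw hw3
    obtain ⟨a, b, rfl⟩ := Submodule.mem_span_pair.mp hw
    have h1 := key a b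
    have h2 : |a| ≤ max |a| |b| := le_max_left _ _
    have h3 : |b| ≤ max |a| |b| := le_max_right _ _
    have h4 := (h a b (by linarith) (by linarith)).2 y (mem_insert_of_mem _ hy)
    exact h4.trans (min_le_left _ _)

end Far

end Crest.Agent.R074
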