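import Crest.Agent.R074.FarB

/-!
Row 74 (S0099): radii of the unit sphere seen from an interior point, the intermediate value
argument in a far plane, and additivity of `a + b ↦ f a + f b`.
-/

set_option autoImplicit false

namespace Crest.Agent.R074

open Metric Set Filter Topology

namespace Far

section Rad

variable {X : Type*} [NormedAddCommGroup X] [NormedSpace ℝ X]

/-- distance from `p` to the unit sphere in direction `d`, in units of `d` -/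
noncomputable def rad (p d : X) : ℝ := (gauge (closedBall (-p) 1) d)⁻¹

omit [NormedSpace ℝ X] in
theorem closedBall_nhds {p : X} (hp : ‖p‖ < 1) : closedBall (-p) 1 ∈ 𝓝 (0 : X) := by
  refine mem_of_superset (ball_mem_nhds (0 : X) (show 0 < 1 - ‖p‖ by linarith)) ?_
  intro z hz
  rw [mem_ball, dist_zero_right] at hz
  rw [mem_closedBall, dist_eq_norm, sub_neg_eq_add]
  exact (norm_add_le _ _).trans (by linarith)

theorem gauge_closedBall_pos {p d : X} (hp : ‖p‖ < 1) (hd : d ≠ 0) :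
    0 < gauge (closedBall (-p) 1) d := by
  rw [gauge_pos (absorbent_nhds_zero (closedBall_nhds hp))
    (NormedSpace.isVonNBounded_closedBall ℝ X 1 |> fun _ =>
      (NormedSpace.isVonNBounded_iff ℝ).mpr isBounded_closedBall)]
  exact hd

theorem rad_pos {p d : X} (hp : ‖p‖ < 1) (hd : d ≠ 0) : 0 < rad p d :=
  inv_pos.mpr (gauge_closedBall_pos hp hd)

theorem norm_add_rad {p d : X} (hp : ‖p‖ < 1) (hd : d ≠ 0) : ‖p + rad p d • d‖ = 1 := by
  have h1 := gauge_closedBall_pos hp hd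
  have h2 : gauge (closedBall (-p) 1) (rad p d • d) = 1 := by
    rw [gauge_smul_of_nonneg (rad_pos hp hd).le, smul_eq_mul]
    exact inv_mul_cancel₀ h1.ne'
  rw [gauge_eq_one_iff_mem_frontier (convex_closedBall _ _) (closedBall_nhds hp),
    frontier_closedBall _ one_ne_zero, mem_sphere, dist_eq_norm, sub_neg_eq_add, add_comm] at h2
  exact h2

theorem continuousOn_rad {p : X} (hp : ‖p‖ < 1) : ContinuousOn (rad p) {d | d ≠ 0} :=
  (continuous_gauge (convex_closedBall _ _) (closedBall_nhds hp)).continuousOn.inv₀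
    fun _ hd => (gauge_closedBall_pos hp hd).ne'

/-- every vector of norm at most one is the sum of two unit vectors -/
theorem exists_unit_decomp (hX : 1 < Module.rank ℝ X) {v : X} (hv : ‖v‖ ≤ 1) :
    ∃ a b : X, ‖a‖ = 1 ∧ ‖b‖ = 1 ∧ a + b = v := by
  set p : X := (1 / 2 : ℝ) • v with hp
  have hp1 : ‖p‖ < 1 := by
    rw [hp, norm_smul, Real.norm_of_nonneg (by norm_num)]; linarith
  have hconn := (isConnected_compl_singleton_of_one_lt_rank hX (0 : X)).isPreconnected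
  obtain ⟨d₀, hd₀⟩ := (isConnected_compl_singleton_of_one_lt_rank hX (0 : X)).nonempty
  have hd₀' : -d₀ ∈ ({0}ᶜ : Set X) := by simpa using hd₀
  have hcont : ContinuousOn (fun d => rad p d - rad p (-d)) ({0}ᶜ : Set X) := by
    refine ContinuousOn.sub (continuousOn_rad hp1) ?_
    refine (continuousOn_rad hp1).comp continuous_neg.continuousOn ?_
    intro d hd
    simpa using hd
  obtain ⟨d, hd, hd2⟩ : ∃ d ∈ ({0}ᶜ : Set X), rad p d - rad p (-d) = 0 := by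
    rcases le_total (rad p d₀ - rad p (-d₀)) 0 with h1 | h1
    · have := hconn.intermediate_value hd₀ hd₀' hcont
      obtain ⟨d, hd, hd2⟩ := this ⟨h1, by show 0 ≤ rad p (-d₀) - rad p (- -d₀); rw [neg_neg]; linarith⟩
      exact ⟨d, hd, hd2⟩
    · have := hconn.intermediate_value hd₀' hd₀ hcont
      obtain ⟨d, hd, hd2⟩ := this ⟨by show rad p (-d₀) - rad p (- -d₀) ≤ 0; rw [neg_neg]; linarith, h1⟩
      exact ⟨d, hd, hd2⟩
  have hd0 : d ≠ 0 := hd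
  refine ⟨p + rad p d • d, p + rad p (-d) • (-d), norm_add_rad hp1 hd0,
    norm_add_rad hp1 (neg_ne_zero.mpr hd0), ?_⟩
  rw [← sub_eq_zero.mp hd2, hp]
  module

/-- The intermediate value argument in a far plane. -/
theorem ivt {W : Submodule ℝ X} (hr : 1 < Module.rank ℝ W) {ε c : ℝ} (hε0 : 0 ≤ ε)
    (hε : ε ≤ 1 / 20) (hc0 : 0 ≤ c) (hc : c ≤ 1 / 5) {p q : X} (hp : ‖p‖ ≤ 1 / 2) (hq : ‖q‖ ≤ 1 / 2)
    (hEp : ∀ w ∈ W, ‖w‖ ≤ 3 → |‖p + w‖ - ‖p - w‖| ≤ ε)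
    (hEq : ∀ w ∈ W, ‖w‖ ≤ 3 → |‖q + w‖ - ‖q - w‖| ≤ ε)
    {w : X} (hw : w ∈ W) (h1 : 1 / 2 - c ≤ ‖w‖) (h2 : ‖w‖ ≤ 1 + c) :
    ∃ w₁ ∈ W, ‖p + w₁‖ = 1 ∧ |‖q + (w - w₁)‖ - 1| ≤ c + ε := by
  have hp1 : ‖p‖ < 1 := by linarith
  -- general facts
  have hbound : ∀ {y : X}, (∀ w ∈ W, ‖w‖ ≤ 3 → |‖y + w‖ - ‖y - w‖| ≤ ε) → ∀ z ∈ W, ‖z‖ ≤ 3 →
      2 * ‖z‖ ≤ 2 * ‖y + z‖ + ε := by
    intro y hy z hz hz3
    have e1 := hy z hz hz3
    rw [abs_le] at e1
    have e2 : (2 : ℝ) • z = (y + z) - (y - z) := by module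
    have e3 := norm_sub_le (y + z) (y - z)
    rw [← e2, norm_smul, Real.norm_of_nonneg (by norm_num : (0:ℝ) ≤ 2)] at e3
    linarith [e1.1]
  have hrho : ∀ z ∈ W, ‖p + z‖ = 1 → 1 / 2 ≤ ‖z‖ ∧ ‖z‖ ≤ 1 + ε / 2 := by
    intro z hz hz1
    have e1 := norm_add_le p z
    have e2 : ‖z‖ ≤ 3 := by
      have := norm_sub_le (p + z) p
      rw [add_sub_cancel_left] at this
      linarith
    have e3 := hbound hEp z hz e2
    constructor <;> linarith
  have hw0 : w ≠ 0 := by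
    intro h0
    rw [h0, norm_zero] at h1
    linarith
  -- the function on the punctured plane
  have hcont : ContinuousOn (fun d : W => ‖q + (w - rad p (d : X) • (d : X))‖) ({0}ᶜ : Set W) := by
    have hc : ContinuousOn (fun d : W => rad p (d : X)) ({0}ᶜ : Set W) :=
      (continuousOn_rad hp1).comp continuous_subtype_val.continuousOn (fun d hd => by
        simpa using hd)
    exact (continuousOn_const.add (continuousOn_const.sub
      (hc.smul continuous_subtype_val.continuousOn))).norm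
  have hconn := (isConnected_compl_singleton_of_one_lt_rank hr (0 : W)).isPreconnected
  have hmem1 : (⟨w, hw⟩ : W) ∈ ({0}ᶜ : Set W) := by
    simpa using hw0
  have hmem2 : (-⟨w, hw⟩ : W) ∈ ({0}ᶜ : Set W) := by
    simpa using hw0
  have hres : ∀ d ∈ ({0}ᶜ : Set W), |‖q + (w - rad p (d : X) • (d : X))‖ - 1| ≤ c + ε →
      ∃ w₁ ∈ W, ‖p + w₁‖ = 1 ∧ |‖q + (w - w₁)‖ - 1| ≤ c + ε := by
    intro d hd h
    exact ⟨rad p (d : X) • (d : X), W.smul_mem _ d.2, norm_add_rad hp1 (by simpa using hd), h⟩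
  -- value at `w`
  have hv1 : ‖q + (w - rad p w • w)‖ ≤ 1 + (c + ε) := by
    have r0 := rad_pos hp1 hw0
    have r1 := hrho (rad p w • w) (W.smul_mem _ hw) (norm_add_rad hp1 hw0)
    have e1 : w - rad p w • w = (1 - rad p w) • w := by rw [sub_smul, one_smul]
    rw [norm_smul, Real.norm_of_nonneg r0.le] at r1
    have e2 : ‖w - rad p w • w‖ ≤ 1 / 2 + (c + ε) := by
      rw [e1, norm_smul, Real.norm_eq_abs]
      have e3 : |1 - rad p w| * ‖w‖ = |‖w‖ - rad p w * ‖w‖| := by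
        rw [← abs_of_nonneg (norm_nonneg w), ← abs_mul, abs_norm, sub_mul, one_mul]
      rw [e3, abs_le]
      constructor <;> linarith [r1.1, r1.2]
    exact (norm_add_le _ _).trans (by linarith)
  -- value at `-w`
  have hv2 : 1 - (c + ε) ≤ ‖q + (w - rad p (-w) • (-w))‖ := by
    have hw0' : -w ≠ 0 := neg_ne_zero.mpr hw0
    have r0 := rad_pos hp1 hw0'
    have r1 := hrho (rad p (-w) • (-w)) (W.smul_mem _ (W.neg_mem hw)) (norm_add_rad hp1 hw0')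
    have e1 : w - rad p (-w) • (-w) = (1 + rad p (-w)) • w := by
      rw [add_smul, one_smul, smul_neg, sub_neg_eq_add]
    rw [norm_smul, Real.norm_of_nonneg r0.le, norm_neg] at r1
    have e2 : ‖(1 + rad p (-w)) • w‖ = ‖w‖ + rad p (-w) * ‖w‖ := by
      rw [norm_smul, Real.norm_of_nonneg (by linarith), add_mul, one_mul]
    have e3 := hbound hEq ((1 + rad p (-w)) • w) (W.smul_mem _ hw) (by rw [e2]; linarith [r1.2])
    rw [e1]
    rw [e2] at e3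
    linarith [r1.1]
  rcases le_or_gt 1 ‖q + (w - rad p w • w)‖ with h3 | h3
  · refine hres ⟨w, hw⟩ hmem1 ?_
    rw [abs_le]
    constructor <;> linarith
  rcases le_or_gt ‖q + (w - rad p (-w) • (-w))‖ 1 with h4 | h4
  · refine hres (-⟨w, hw⟩) hmem2 ?_
    show |‖q + (w - rad p (-w) • (-w))‖ - 1| ≤ c + ε
    rw [abs_le]
    constructor <;> linarith
  · obtain ⟨d, hd, hd2⟩ := hconn.intermediate_value hmem1 hmem2 hcont
      (show (1 : ℝ) ∈ Icc _ _ from ⟨h3.le, h4.le⟩)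
    refine hres d hd ?_
    have hd3 : ‖q + (w - rad p (d : X) • (d : X))‖ = 1 := hd2
    rw [hd3, sub_self, abs_zero]
    linarith

end Rad

section Add

variable {X Y : Type*} [NormedAddCommGroup X] [NormedSpace ℝ X]
  [NormedAddCommGroup Y] [NormedSpace ℝ Y] {f : X → Y} {g : Y → X}

theorem sum_lemma (h : SI f g)
    (hH : ∀ z w : X, ‖z‖ = 1 → ‖w‖ = 1 → ‖z + w‖ = 1 → f (z + w) = f z + f w)
    {x x' w w' : X} {η : ℝ} (hη : η ≤ 1 / 24) (h1 : |‖x + w‖ - 1| ≤ η) (h2 : |‖x - w‖ - 1| ≤ η)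
    (h3 : |‖x' + w'‖ - 1| ≤ η) (h4 : |‖x' - w'‖ - 1| ≤ η)
    (h5 : |‖(x + x') + (w + w')‖ - 1| ≤ η) (h6 : |‖(x + x') - (w + w')‖ - 1| ≤ η) :
    ‖(f (nu (x + w)) + f (nu (x - w))) + (f (nu (x' + w')) + f (nu (x' - w'))) -
      (f (nu ((x + x') + (w + w'))) + f (nu ((x + x') - (w + w'))))‖ ≤ 120 * η := by
  have e1 : (x + x') + (w + w') = (x + w) + (x' + w') := by abel
  have e2 : (x + x') - (w + w') = (x - w) + (x' - w') := by abel
  rw [e1] at h5 ⊢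
  rw [e2] at h6 ⊢
  have a1 := approxH h hH hη h1 h3 h5
  have a2 := approxH h hH hη h2 h4 h6
  have e3 : (f (nu (x + w)) + f (nu (x - w))) + (f (nu (x' + w')) + f (nu (x' - w'))) -
      (f (nu ((x + w) + (x' + w'))) + f (nu ((x - w) + (x' - w')))) =
      (f (nu (x + w)) + f (nu (x' + w')) - f (nu ((x + w) + (x' + w')))) +
      (f (nu (x - w)) + f (nu (x' - w')) - f (nu ((x - w) + (x' - w')))) := by abel
  rw [e3]
  exact (norm_add_le _ _).trans (by linarith)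

theorem unit_lemma (h : SI f g)
    (hH : ∀ z w : X, ‖z‖ = 1 → ‖w‖ = 1 → ‖z + w‖ = 1 → f (z + w) = f z + f w)
    {a w : X} {η : ℝ} (hη0 : 0 ≤ η) (hη : η ≤ 1 / 24) (ha : ‖a‖ = 1)
    (h1 : |‖(1 / 2 : ℝ) • a + w‖ - 1| ≤ η) (h2 : |‖(1 / 2 : ℝ) • a - w‖ - 1| ≤ η) :
    ‖f (nu ((1 / 2 : ℝ) • a + w)) + f (nu ((1 / 2 : ℝ) • a - w)) - f a‖ ≤ 60 * η := by
  have e : ((1 / 2 : ℝ) • a + w) + ((1 / 2 : ℝ) • a - w) = a := by module
  have a1 := approxH h hH hη h1 h2 (by rw [e, ha, sub_self, abs_zero]; exact hη0)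
  rw [e, nu_of_norm ha] at a1
  exact a1

omit [NormedSpace ℝ X] in
theorem even_near {c w : X} {ε δ : ℝ} (h1 : |‖c + w‖ - ‖c - w‖| ≤ ε) (h2 : |‖c + w‖ - 1| ≤ δ) :
    |‖c - w‖ - 1| ≤ δ + ε := by
  rw [abs_le] at h1 h2 ⊢
  constructor <;> linarith [h1.1, h1.2, h2.1, h2.2]

/-- the key comparison: `f a + f b` is read off from the far vector `w` -/
theorem key (h : SI f g)
    (hH : ∀ z w : X, ‖z‖ = 1 → ‖w‖ = 1 → ‖z + w‖ = 1 → f (z + w) = f z + f w)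
    {W : Submodule ℝ X} (hr : 1 < Module.rank ℝ W) {ε : ℝ} (hε0 : 0 ≤ ε) (hε : ε ≤ 1 / 200)
    {a b w : X} (ha : ‖a‖ = 1) (hb : ‖b‖ = 1) (hab : ‖a + b‖ ≤ 1)
    (hEa : ∀ w ∈ W, ‖w‖ ≤ 3 → |‖(1 / 2 : ℝ) • a + w‖ - ‖(1 / 2 : ℝ) • a - w‖| ≤ ε)
    (hEb : ∀ w ∈ W, ‖w‖ ≤ 3 → |‖(1 / 2 : ℝ) • b + w‖ - ‖(1 / 2 : ℝ) • b - w‖| ≤ ε)
    (hEab : ∀ w ∈ W, ‖w‖ ≤ 3 →
      |‖(1 / 2 : ℝ) • (a + b) + w‖ - ‖(1 / 2 : ℝ) • (a + b) - w‖| ≤ ε)
    (hw : w ∈ W) (hwn : |‖(1 / 2 : ℝ) • (a + b) + w‖ - 1| ≤ 2 * ε) :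
    ‖(f (nu ((1 / 2 : ℝ) • (a + b) + w)) + f (nu ((1 / 2 : ℝ) • (a + b) - w))) -
      (f a + f b)‖ ≤ 1440 * ε := by
  have hhalf : ∀ x : X, ‖(1 / 2 : ℝ) • x‖ = 1 / 2 * ‖x‖ := fun x => by
    rw [norm_smul, Real.norm_of_nonneg (by norm_num)]
  have hp : ‖(1 / 2 : ℝ) • a‖ = 1 / 2 := by rw [hhalf, ha, mul_one]
  have hq : ‖(1 / 2 : ℝ) • b‖ = 1 / 2 := by rw [hhalf, hb, mul_one]
  have hpq : ‖(1 / 2 : ℝ) • (a + b)‖ ≤ 1 / 2 := by rw [hhalf]; linarith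
  have hwn' := abs_le.mp hwn
  have n1 : ‖w‖ ≤ ‖(1 / 2 : ℝ) • (a + b) + w‖ + ‖(1 / 2 : ℝ) • (a + b)‖ := by
    have := norm_sub_le ((1 / 2 : ℝ) • (a + b) + w) ((1 / 2 : ℝ) • (a + b))
    rwa [add_sub_cancel_left] at this
  have n2 := norm_add_le ((1 / 2 : ℝ) • (a + b)) w
  have hw3 : ‖w‖ ≤ 3 := by linarith [hwn'.1, hwn'.2]
  have hev := hEab w hw hw3
  have hmin := even_near hev hwn
  have hmin' := abs_le.mp hmin
  have n3 : 2 * ‖w‖ ≤ ‖(1 / 2 : ℝ) • (a + b) + w‖ + ‖(1 / 2 : ℝ) • (a + b) - w‖ := by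
    have e2 : (2 : ℝ) • w = ((1 / 2 : ℝ) • (a + b) + w) - ((1 / 2 : ℝ) • (a + b) - w) := by
      module
    have e3 := norm_sub_le ((1 / 2 : ℝ) • (a + b) + w) ((1 / 2 : ℝ) • (a + b) - w)
    rwa [← e2, norm_smul, Real.norm_of_nonneg (by norm_num : (0:ℝ) ≤ 2)] at e3
  obtain ⟨w₁, hw₁, hpw, hqw⟩ := ivt hr hε0 (by linarith) (c := 3 * ε) (by linarith)
    (by linarith) hp.le hq.le hEa hEb hw (by linarith [hwn'.1]) (by linarith [hwn'.2, hmin'.2])
  have n4 : ‖w₁‖ ≤ 3 / 2 := by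
    have := norm_sub_le ((1 / 2 : ℝ) • a + w₁) ((1 / 2 : ℝ) • a)
    rw [add_sub_cancel_left] at this
    linarith
  have n5 : ‖w - w₁‖ ≤ 3 := by
    refine (norm_sub_le _ _).trans ?_
    linarith [hwn'.2, hmin'.2]
  have hww : w - w₁ ∈ W := W.sub_mem hw hw₁
  have a1 : |‖(1 / 2 : ℝ) • a + w₁‖ - 1| ≤ 6 * ε := by
    rw [hpw, sub_self, abs_zero]; linarith
  have a2 : |‖(1 / 2 : ℝ) • a - w₁‖ - 1| ≤ 6 * ε := by
    have := even_near (hEa w₁ hw₁ (by linarith)) (δ := 0) (by rw [hpw, sub_self, abs_zero])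
    linarith
  have a3 : |‖(1 / 2 : ℝ) • b + (w - w₁)‖ - 1| ≤ 6 * ε := by linarith
  have a4 : |‖(1 / 2 : ℝ) • b - (w - w₁)‖ - 1| ≤ 6 * ε := by
    have := even_near (hEb (w - w₁) hww n5) hqw
    linarith
  have e1 : (1 / 2 : ℝ) • a + (1 / 2 : ℝ) • b = (1 / 2 : ℝ) • (a + b) := by rw [smul_add]
  have e2 : w₁ + (w - w₁) = w := by abel
  have s1 := sum_lemma h hH (x := (1 / 2 : ℝ) • a) (x' := (1 / 2 : ℝ) • b) (w := w₁)
    (w' := w - w₁) (η := 6 * ε) (by linarith) a1 a2 a3 a4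
    (by rw [e1, e2]; linarith) (by rw [e1, e2]; linarith)
  rw [e1, e2] at s1
  have s2 := unit_lemma h hH (by linarith) (by linarith) ha a1 a2
  have s3 := unit_lemma h hH (by linarith) (by linarith) hb a3 a4
  have e3 : (f (nu ((1 / 2 : ℝ) • (a + b) + w)) + f (nu ((1 / 2 : ℝ) • (a + b) - w))) -
      (f a + f b) =
      (f (nu ((1 / 2 : ℝ) • a + w₁)) + f (nu ((1 / 2 : ℝ) • a - w₁)) - f a) +
      (f (nu ((1 / 2 : ℝ) • b + (w - w₁))) + f (nu ((1 / 2 : ℝ) • b - (w - w₁))) - f b) -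
      ((f (nu ((1 / 2 : ℝ) • a + w₁)) + f (nu ((1 / 2 : ℝ) • a - w₁))) +
      (f (nu ((1 / 2 : ℝ) • b + (w - w₁))) + f (nu ((1 / 2 : ℝ) • b - (w - w₁)))) -
      (f (nu ((1 / 2 : ℝ) • (a + b) + w)) + f (nu ((1 / 2 : ℝ) • (a + b) - w)))) := by
    abel
  rw [e3]
  refine (norm_sub_le _ _).trans ?_
  have s4 := norm_add_le
    (f (nu ((1 / 2 : ℝ) • a + w₁)) + f (nu ((1 / 2 : ℝ) • a - w₁)) - f a)
    (f (nu ((1 / 2 : ℝ) • b + (w - w₁))) + f (nu ((1 / 2 : ℝ) • b - (w - w₁))) - f b)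
  linarith

/-- additivity of `a + b ↦ f a + f b` on the unit ball -/
theorem add_unit (h : SI f g)
    (hH : ∀ z w : X, ‖z‖ = 1 → ‖w‖ = 1 → ‖z + w‖ = 1 → f (z + w) = f z + f w)
    (hX : ¬ FiniteDimensional ℝ X)
    {a b a' b' a'' b'' : X} (ha : ‖a‖ = 1) (hb : ‖b‖ = 1) (ha' : ‖a'‖ = 1) (hb' : ‖b'‖ = 1)
    (ha'' : ‖a''‖ = 1) (hb'' : ‖b''‖ = 1) (hab : ‖a + b‖ ≤ 1) (hab' : ‖a' + b'‖ ≤ 1)
    (hab'' : ‖a'' + b''‖ ≤ 1) (hsum : (a + b) + (a' + b') = a'' + b'') :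
    (f a + f b) + (f a' + f b') = f a'' + f b'' := by
  have main : ∀ ε : ℝ, 0 < ε → ε ≤ 1 / 200 →
      ‖(f a + f b) + (f a' + f b') - (f a'' + f b'')‖ ≤ 6000 * ε := by
    intro ε hε0 hε
    set K : Set X := {(1 / 2 : ℝ) • a, (1 / 2 : ℝ) • b, (1 / 2 : ℝ) • (a + b),
      (1 / 2 : ℝ) • a', (1 / 2 : ℝ) • b', (1 / 2 : ℝ) • (a' + b'),
      (1 / 2 : ℝ) • a'', (1 / 2 : ℝ) • b'', (1 / 2 : ℝ) • (a'' + b'')} with hK
    have hKc : IsCompact K := (Set.toFinite K).isCompact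
    obtain ⟨W, hr, hE⟩ := exists_farPlane hX hKc hε0
    have hhalf : ∀ x : X, ‖x‖ ≤ 1 → ‖(1 / 2 : ℝ) • x‖ ≤ 1 / 2 := fun x hx => by
      rw [norm_smul, Real.norm_of_nonneg (by norm_num)]; linarith
    have hp := hhalf _ hab
    have hp' := hhalf _ hab'
    have hp'' := hhalf _ hab''
    have Ea := hE ((1 / 2 : ℝ) • a) (by simp [hK])
    have Eb := hE ((1 / 2 : ℝ) • b) (by simp [hK])
    have Eab := hE ((1 / 2 : ℝ) • (a + b)) (by simp only [hK]; simp)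
    have Ea' := hE ((1 / 2 : ℝ) • a') (by simp [hK])
    have Eb' := hE ((1 / 2 : ℝ) • b') (by simp [hK])
    have Eab' := hE ((1 / 2 : ℝ) • (a' + b')) (by simp only [hK]; simp)
    have Ea'' := hE ((1 / 2 : ℝ) • a'') (by simp [hK])
    have Eb'' := hE ((1 / 2 : ℝ) • b'') (by simp [hK])
    have Eab'' := hE ((1 / 2 : ℝ) • (a'' + b'')) (by simp only [hK]; simp)
    -- the vector `w` for `a + b`
    obtain ⟨d, hd⟩ := (isConnected_compl_singleton_of_one_lt_rank hr (0 : W)).nonempty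
    have hd0 : (d : X) ≠ 0 := by simpa using hd
    set p : X := (1 / 2 : ℝ) • (a + b) with hpdef
    have hp1 : ‖p‖ < 1 := by linarith
    obtain ⟨w, hwW, hwn⟩ : ∃ w ∈ W, ‖p + w‖ = 1 :=
      ⟨rad p (d : X) • (d : X), W.smul_mem _ d.2, norm_add_rad hp1 hd0⟩
    have m1 : 1 / 2 ≤ ‖w‖ := by
      have := norm_add_le p w
      linarith
    have m2 : ‖w‖ ≤ 3 / 2 := by
      have := norm_sub_le (p + w) p
      rw [add_sub_cancel_left] at this
      linarith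
    have m3 := even_near (Eab w hwW (by linarith)) (δ := 0) (by rw [hwn, sub_self, abs_zero])
    have m3' := abs_le.mp m3
    have m4 : 2 * ‖w‖ ≤ ‖p + w‖ + ‖p - w‖ := by
      have e2 : (2 : ℝ) • w = (p + w) - (p - w) := by module
      have e3 := norm_sub_le (p + w) (p - w)
      rwa [← e2, norm_smul, Real.norm_of_nonneg (by norm_num : (0:ℝ) ≤ 2)] at e3
    -- the vector `w₁` for `a' + b'`
    obtain ⟨w₁, hw₁, hpw, hqw⟩ := ivt hr hε0.le (by linarith) (c := ε) hε0.le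
      (by linarith) hp' hp'' Eab' Eab'' hwW (by linarith) (by linarith [m3'.2])
    have n4 : ‖w₁‖ ≤ 3 / 2 := by
      have := norm_sub_le ((1 / 2 : ℝ) • (a' + b') + w₁) ((1 / 2 : ℝ) • (a' + b'))
      rw [add_sub_cancel_left] at this
      linarith
    have n5 : ‖w - w₁‖ ≤ 3 := by
      refine (norm_sub_le _ _).trans ?_
      linarith
    have hww : w - w₁ ∈ W := W.sub_mem hwW hw₁
    have k1 := key h hH hr hε0.le hε ha hb hab Ea Eb Eab hwW
      (by rw [hwn, sub_self, abs_zero]; linarith)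
    have k2 := key h hH hr hε0.le hε ha' hb' hab' Ea' Eb' Eab' hw₁
      (by rw [hpw, sub_self, abs_zero]; linarith)
    have k3 := key h hH hr hε0.le hε ha'' hb'' hab'' Ea'' Eb'' Eab'' hww (by linarith)
    have q1 := even_near (Eab' w₁ hw₁ (by linarith)) (δ := 0) (by rw [hpw, sub_self, abs_zero])
    have q2 := even_near (Eab'' (w - w₁) hww n5) hqw
    have e1 : p + (1 / 2 : ℝ) • (a' + b') = (1 / 2 : ℝ) • (a'' + b'') := by
      rw [hpdef, ← smul_add, hsum]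
    have e2 : w + -w₁ = w - w₁ := by abel
    have s1 := sum_lemma h hH (x := p) (x' := (1 / 2 : ℝ) • (a' + b')) (w := w)
      (w' := -w₁) (η := 6 * ε) (by linarith)
      (by rw [hwn, sub_self, abs_zero]; linarith) (by linarith)
      (by rw [← sub_eq_add_neg]; linarith)
      (by rw [sub_neg_eq_add, hpw, sub_self, abs_zero]; linarith)
      (by rw [e1, e2]; linarith) (by rw [e1, e2]; linarith)
    rw [e1, e2, ← sub_eq_add_neg, sub_neg_eq_add] at s1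
    have e3 : (f a + f b) + (f a' + f b') - (f a'' + f b'') =
        ((f (nu (p + w)) + f (nu (p - w))) +
          (f (nu ((1 / 2 : ℝ) • (a' + b') - w₁)) + f (nu ((1 / 2 : ℝ) • (a' + b') + w₁))) -
          (f (nu ((1 / 2 : ℝ) • (a'' + b'') + (w - w₁))) +
            f (nu ((1 / 2 : ℝ) • (a'' + b'') - (w - w₁))))) +
        ((f (nu ((1 / 2 : ℝ) • (a'' + b'') + (w - w₁))) +
            f (nu ((1 / 2 : ℝ) • (a'' + b'') - (w - w₁)))) - (f a'' + f b'')) -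
        ((f (nu (p + w)) + f (nu (p - w))) - (f a + f b)) -
        ((f (nu ((1 / 2 : ℝ) • (a' + b') + w₁)) + f (nu ((1 / 2 : ℝ) • (a' + b') - w₁))) -
          (f a' + f b')) := by
      abel
    rw [e3]
    refine (norm_sub_le _ _).trans ?_
    have t1 := norm_sub_le
      (((f (nu (p + w)) + f (nu (p - w))) +
          (f (nu ((1 / 2 : ℝ) • (a' + b') - w₁)) + f (nu ((1 / 2 : ℝ) • (a' + b') + w₁))) -
          (f (nu ((1 / 2 : ℝ) • (a'' + b'') + (w - w₁))) +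
            f (nu ((1 / 2 : ℝ) • (a'' + b'') - (w - w₁))))) +
        ((f (nu ((1 / 2 : ℝ) • (a'' + b'') + (w - w₁))) +
            f (nu ((1 / 2 : ℝ) • (a'' + b'') - (w - w₁)))) - (f a'' + f b'')))
      ((f (nu (p + w)) + f (nu (p - w))) - (f a + f b))
    have t2 := norm_add_le
      ((f (nu (p + w)) + f (nu (p - w))) +
          (f (nu ((1 / 2 : ℝ) • (a' + b') - w₁)) + f (nu ((1 / 2 : ℝ) • (a' + b') + w₁))) -
          (f (nu ((1 / 2 : ℝ) • (a'' + b'') + (w - w₁))) +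
            f (nu ((1 / 2 : ℝ) • (a'' + b'') - (w - w₁)))))
      ((f (nu ((1 / 2 : ℝ) • (a'' + b'') + (w - w₁))) +
            f (nu ((1 / 2 : ℝ) • (a'' + b'') - (w - w₁)))) - (f a'' + f b''))
    linarith
  by_contra hne
  have hpos : 0 < ‖(f a + f b) + (f a' + f b') - (f a'' + f b'')‖ :=
    norm_pos_iff.mpr (sub_ne_zero.mpr hne)
  set D := ‖(f a + f b) + (f a' + f b') - (f a'' + f b'')‖ with hD
  have h1 := main (min (1 / 200) (D / 12000)) (lt_min (by norm_num) (by positivity))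
    (min_le_left _ _)
  have h2 : min (1 / 200) (D / 12000) ≤ D / 12000 := min_le_right _ _
  linarith

end Add

end Far

end Crest.Agent.R074
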