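import Crest.Agent.R074.Sep
import Crest.Agent.R074.HLin
import Crest.Agent.R074.FDMain

/-!
Row 74 (S0099), separable reduction, part 2: the theorem of Tingley for all real Banach spaces
follows from the property (H) (additivity on unit triangles) for separable infinite-dimensional
spaces.
-/

set_option autoImplicit false

namespace Crest.Agent.R074

open Metric Set Filter Topology TopologicalSpace

universe u v

/-- The separable infinite-dimensional problem, in the universes of `X` and `Y`: every surjective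
sphere isometry between separable infinite-dimensional Banach spaces is additive on unit
triangles. -/
def SepH : Prop :=
  ∀ (X : Type u) (Y : Type v) [NormedAddCommGroup X] [NormedSpace ℝ X] [CompleteSpace X]
    [SeparableSpace X] [NormedAddCommGroup Y] [NormedSpace ℝ Y] [CompleteSpace Y]
    [SeparableSpace Y] (f : X → Y) (g : Y → X), ¬ FiniteDimensional ℝ X →
    ¬ FiniteDimensional ℝ Y → SI f g →
    ∀ z w : X, ‖z‖ = 1 → ‖w‖ = 1 → ‖z + w‖ = 1 → f (z + w) = f z + f w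

/-- sufficient: a linear extension in the separable infinite-dimensional case -/
theorem sepH_of_linear
    (H : ∀ (X : Type u) (Y : Type v) [NormedAddCommGroup X] [NormedSpace ℝ X] [CompleteSpace X]
      [SeparableSpace X] [NormedAddCommGroup Y] [NormedSpace ℝ Y] [CompleteSpace Y]
      [SeparableSpace Y] (f : X → Y) (g : Y → X), ¬ FiniteDimensional ℝ X →
      ¬ FiniteDimensional ℝ Y → SI f g → ∃ T : X ≃ₗᵢ[ℝ] Y, ∀ x, ‖x‖ = 1 → T x = f x) :
    SepH.{u, v} := by
  intro X Y _ _ _ _ _ _ _ _ f g hX hY h z w hz hw hzw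
  obtain ⟨T, hT⟩ := H X Y f g hX hY h
  rw [← hT _ hzw, ← hT _ hz, ← hT _ hw, map_add]

/-- a sphere isometry with a finite-dimensional target has a finite-dimensional source -/
theorem SI.infdim {X : Type u} {Y : Type v} [NormedAddCommGroup X] [NormedSpace ℝ X]
    [NormedAddCommGroup Y] [NormedSpace ℝ Y] {f : X → Y} {g : Y → X} (h : SI f g)
    (hX : ¬ FiniteDimensional ℝ X) : ¬ FiniteDimensional ℝ Y := by
  intro hY
  have hne : Nontrivial X := by
    by_contra hcon
    rw [not_nontrivial_iff_subsingleton] at hcon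
    exact hX inferInstance
  obtain ⟨x0, hx0⟩ := exists_ne (0 : X)
  have hx0' : ‖‖x0‖⁻¹ • x0‖ = 1 := by
    rw [norm_smul, norm_inv, norm_norm, inv_mul_cancel₀ (norm_ne_zero_iff.mpr hx0)]
  have hne' : Nontrivial Y := by
    refine ⟨⟨f (‖x0‖⁻¹ • x0), 0, ?_⟩⟩
    intro h0
    have := h.map _ hx0'
    rw [h0, norm_zero] at this
    exact zero_ne_one this
  obtain ⟨T, -⟩ := tingley_findim h.symm
  exact hX (LinearEquiv.finiteDimensional T.toLinearEquiv)

/-- (H) for all infinite-dimensional Banach spaces from the separable ones -/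
theorem SepH.additive (H : SepH.{u, v}) {X : Type u} {Y : Type v} [NormedAddCommGroup X]
    [NormedSpace ℝ X] [CompleteSpace X] [NormedAddCommGroup Y] [NormedSpace ℝ Y]
    [CompleteSpace Y] {f : X → Y} {g : Y → X} (h : SI f g) (hX : ¬ FiniteDimensional ℝ X)
    {z w : X} (hz : ‖z‖ = 1) (hw : ‖w‖ = 1) (hzw : ‖z + w‖ = 1) : f (z + w) = f z + f w := by
  obtain ⟨A, hA, hAinf⟩ := exists_countable_infdim hX
  have hA' : IsSeparable (A ∪ {z, w}) :=
    (hA.union (Set.Finite.countable (by simp))).isSeparable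
  obtain ⟨P, Q, hAP, hPc, hQc, hPs, hQs, h0, cf, -⟩ := h.exists_separable_restr hA'
  have hPinf : ¬ FiniteDimensional ℝ P := hAinf P (subset_union_left.trans hAP)
  have hzP : z ∈ P := hAP (Or.inr (Or.inl rfl))
  have hwP : w ∈ P := hAP (Or.inr (Or.inr rfl))
  have key := H P Q (restr f P Q) (restr g Q P) hPinf (h0.infdim hPinf) h0 ⟨z, hzP⟩ ⟨w, hwP⟩
    hz hw hzw
  have key' := congrArg (fun q : Q => (q : Y)) key
  simp only [Submodule.coe_add] at key'
  rw [cf ⟨z, hzP⟩ hz, cf ⟨w, hwP⟩ hw, cf (⟨z, hzP⟩ + ⟨w, hwP⟩) hzw] at key'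
  exact key'

/-- Tingley's theorem for all real Banach spaces, in the form of `SI`, from the separable
infinite-dimensional case -/
theorem SepH.tingley (H : SepH.{u, v}) {X : Type u} {Y : Type v} [NormedAddCommGroup X]
    [NormedSpace ℝ X] [CompleteSpace X] [Nontrivial X] [NormedAddCommGroup Y] [NormedSpace ℝ Y]
    [CompleteSpace Y] {f : X → Y} {g : Y → X} (h : SI f g) :
    ∃ T : X ≃ₗᵢ[ℝ] Y, ∀ x, ‖x‖ = 1 → T x = f x := by
  by_cases hX : FiniteDimensional ℝ X
  · exact tingley_findim h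
  · exact Far.hlin h (fun z w hz hw hzw => H.additive h hX hz hw hzw) hX

/-- a surjective isometry of unit spheres as an `SI` pair of ambient functions -/
theorem SepH.exists_SI {X : Type u} {Y : Type v} [NormedAddCommGroup X] [NormedAddCommGroup Y]
    (f : Metric.sphere (0 : X) 1 → Metric.sphere (0 : Y) 1) (hf₁ : Isometry f)
    (hf₂ : Function.Surjective f) :
    ∃ (F : X → Y) (G : Y → X), SI F G ∧ ∀ x : Metric.sphere (0 : X) 1, F x = f x := by
  classical
  have hn : ∀ {Z : Type _} [NormedAddCommGroup Z] {x : Z}, ‖x‖ = 1 →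
      x ∈ Metric.sphere (0 : Z) 1 := fun {Z} _ {x} hx => by simpa using hx
  have hnY : ∀ {x : Y}, ‖x‖ = 1 → x ∈ Metric.sphere (0 : Y) 1 := fun {x} hx => by simpa using hx
  obtain ⟨k, hk⟩ : ∃ k : Metric.sphere (0 : Y) 1 → Metric.sphere (0 : X) 1,
      Function.RightInverse k f := hf₂.hasRightInverse
  have hkl : Function.LeftInverse k f := fun x => hf₁.injective (hk (f x))
  let F : X → Y := fun x => if h : ‖x‖ = 1 then (f ⟨x, hn h⟩ : Y) else 0
  let G : Y → X := fun y => if h : ‖y‖ = 1 then (k ⟨y, hnY h⟩ : X) else 0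
  have hF : ∀ x (h : ‖x‖ = 1), F x = (f ⟨x, hn h⟩ : Y) := fun x h => dif_pos h
  have hG : ∀ y (h : ‖y‖ = 1), G y = (k ⟨y, hnY h⟩ : X) := fun y h => dif_pos h
  have n1 : ∀ x : Metric.sphere (0 : X) 1, ‖(x : X)‖ = 1 := fun x => by simp
  have n2 : ∀ x : Metric.sphere (0 : Y) 1, ‖(x : Y)‖ = 1 := fun x => by simp
  have mF : ∀ x, ‖x‖ = 1 → ‖F x‖ = 1 := fun x hx => by rw [hF x hx]; exact n2 _
  have mG : ∀ y, ‖y‖ = 1 → ‖G y‖ = 1 := fun y hy => by rw [hG y hy]; exact n1 _
  refine ⟨F, G, ⟨mF, mG, ?_, ?_, ?_⟩, ?_⟩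
  · intro x hx
    rw [hG _ (mF x hx)]
    have : (⟨F x, hnY (mF x hx)⟩ : Metric.sphere (0 : Y) 1) = f ⟨x, hn hx⟩ :=
      Subtype.ext (hF x hx)
    rw [this, hkl]
  · intro y hy
    rw [hF _ (mG y hy)]
    have : (⟨G y, hn (mG y hy)⟩ : Metric.sphere (0 : X) 1) = k ⟨y, hnY hy⟩ :=
      Subtype.ext (hG y hy)
    rw [this, hk]
  · intro x x' hx hx'
    rw [hF x hx, hF x' hx', ← dist_eq_norm, ← dist_eq_norm]
    exact hf₁.dist_eq ⟨x, hn hx⟩ ⟨x', hn hx'⟩
  · intro x
    rw [hF _ (n1 x)]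

/-- S0099 in the form of the template, from the separable infinite-dimensional case -/
theorem SepH.final (H : SepH.{u, v}) {X : Type u} {Y : Type v} [NormedAddCommGroup X]
    [NormedSpace ℝ X] [CompleteSpace X] [Nontrivial X] [NormedAddCommGroup Y] [NormedSpace ℝ Y]
    [CompleteSpace Y]
    (f : Metric.sphere (0 : X) 1 → Metric.sphere (0 : Y) 1) (hf₁ : Isometry f)
    (hf₂ : Function.Surjective f) :
    ∃ T : X ≃ₗᵢ[ℝ] Y, (∀ x : Metric.sphere (0 : X) 1, T x = f x) ∧
      ∀ T' : X →ₗ[ℝ] Y, (∀ x : Metric.sphere (0 : X) 1, T' x = f x) → ∀ x : X, T' x = T x := by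
  obtain ⟨F, G, hFG, hF⟩ := SepH.exists_SI f hf₁ hf₂
  obtain ⟨T, hT⟩ := H.tingley hFG
  have n1 : ∀ x : Metric.sphere (0 : X) 1, ‖(x : X)‖ = 1 := fun x => by simp
  have hTf : ∀ x : Metric.sphere (0 : X) 1, T x = f x := fun x => by
    rw [hT _ (n1 x), hF x]
  refine ⟨T, hTf, fun T' hT' x => ?_⟩
  by_cases hx : x = 0
  · rw [hx, map_zero, map_zero]
  · have hx0 : ‖x‖ ≠ 0 := norm_ne_zero_iff.mpr hx
    have hs : ‖‖x‖⁻¹ • x‖ = 1 := by
      rw [norm_smul, norm_inv, norm_norm, inv_mul_cancel₀ hx0]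
    have hs' : ‖x‖⁻¹ • x ∈ Metric.sphere (0 : X) 1 := by simpa using hs
    have e1 := hT' ⟨_, hs'⟩
    rw [← hTf ⟨_, hs'⟩] at e1
    have e2 : x = ‖x‖ • (‖x‖⁻¹ • x) := by rw [smul_smul, mul_inv_cancel₀ hx0, one_smul]
    calc T' x = ‖x‖ • T' (‖x‖⁻¹ • x) := by rw [← map_smul, ← e2]
      _ = ‖x‖ • T (‖x‖⁻¹ • x) := by rw [show T' (‖x‖⁻¹ • x) = T (‖x‖⁻¹ • x) from e1]
      _ = T x := by rw [← map_smul, ← e2]

end Crest.Agent.R074
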