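import Crest.Agent.R074.Asm
import Crest.Agent.R074.SepMain

/-!
Row 74 (S0099): the separable reduction in the form used by `Asm.lean`.
-/

set_option autoImplicit false

universe u v

namespace Crest.Agent.R074

/-- the separable reduction -/
theorem sepRed : SepRedStatement.{u, v} := by
  intro H X Y _ _ _ _ _ _ f g h
  have H' : SepH.{u, v} := sepH_of_linear fun X Y _ _ _ _ _ _ _ _ f g _ _ h => H X Y f g h
  rcases subsingleton_or_nontrivial X with hX | hX
  · exact ext_of_subsingleton h
  · exact H'.tingley h

end Crest.Agent.R074
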