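import Crest.Agent.R074.LTAStmt
import Crest.Agent.R074.CaseBFin
import Crest.Agent.R074.SepRed

/-!
Row 74 (S0099): everything except the mixed case.
-/

set_option autoImplicit false

universe u v

namespace Crest.Agent.R074

theorem final_of_caseC (hC : CaseCStatement.{u, v}) {X : Type u} {Y : Type v}
    [NormedAddCommGroup X] [NormedSpace ℝ X] [CompleteSpace X] [Nontrivial X]
    [NormedAddCommGroup Y] [NormedSpace ℝ Y] [CompleteSpace Y] [Nontrivial Y]
    (f : Metric.sphere (0 : X) 1 → Metric.sphere (0 : Y) 1) (hf₁ : Isometry f)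
    (hf₂ : Function.Surjective f) :
    ∃ T : X ≃ₗᵢ[ℝ] Y, (∀ x : Metric.sphere (0 : X) 1, T x = f x) ∧
      ∀ T' : X →ₗ[ℝ] Y, (∀ x : Metric.sphere (0 : X) 1, T' x = f x) → ∀ x : X, T' x = T x :=
  assembly ltaStatement caseBStatement hC sepRed f hf₁ hf₂

end Crest.Agent.R074
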