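import Crest.Agent.R074.Trans

/-!
Row 74 (S0099): genericity along chords. For a fixed end `x` of a nondegenerate chord, the
direction map `y ↦ nu (y - x)` is continuous and open, so residual sets of directions pull back to
residual sets of points.
-/

set_option autoImplicit false

namespace Crest.Agent.R074

open Metric Set Filter Topology

section General

/-- preimages of residual sets under a map which is continuous and open on an open set `D` -/
theorem residual_preimage_of_openAt {Z W : Type*} [TopologicalSpace Z] [TopologicalSpace W]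
    {φ : Z → W} {D : Set Z} (hD : IsOpen D) (hc : ContinuousOn φ D)
    (hop : ∀ z ∈ D, ∀ N ∈ 𝓝 z, φ '' N ∈ 𝓝 (φ z)) {R : Set W} (hR : R ∈ residual W) :
    {z | z ∈ D → φ z ∈ R} ∈ residual Z := by
  rw [mem_residual_iff] at hR
  obtain ⟨S, hSo, hSd, hSc, hS⟩ := hR
  have hmem : (⋂ t ∈ S, {z | z ∈ D → φ z ∈ t}) ∈ residual Z := by
    rw [countable_bInter_mem hSc]
    intro t ht
    have hA : IsOpen (D ∩ φ ⁻¹' t) := hc.isOpen_inter_preimage hD (hSo t ht)
    have hB : IsOpen (closure D)ᶜ := isClosed_closure.isOpen_compl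
    have hdense : Dense (D ∩ φ ⁻¹' t ∪ (closure D)ᶜ) := by
      rw [dense_iff_inter_open]
      intro N hN hNne
      by_cases hND : (N ∩ D).Nonempty
      · obtain ⟨z, hzN, hzD⟩ := hND
        have h1 : φ '' (N ∩ D) ∈ 𝓝 (φ z) := hop z hzD _ ((hN.inter hD).mem_nhds ⟨hzN, hzD⟩)
        obtain ⟨O, hO1, hO2, hO3⟩ := mem_nhds_iff.mp h1
        obtain ⟨w, hwO, hwt⟩ := (hSd t ht).inter_open_nonempty O hO2 ⟨_, hO3⟩
        obtain ⟨z', ⟨hz'N, hz'D⟩, hz'⟩ := hO1 hwO
        refine ⟨z', hz'N, Or.inl ⟨hz'D, ?_⟩⟩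
        show φ z' ∈ t
        rw [hz']; exact hwt
      · obtain ⟨z, hz⟩ := hNne
        refine ⟨z, hz, Or.inr ?_⟩
        intro hzc
        exact hND (mem_closure_iff.mp hzc N hN hz)
    refine Filter.mem_of_superset (residual_of_dense_open (hA.union hB) hdense) ?_
    rintro z (⟨-, hz⟩ | hz) hzD
    · exact hz
    · exact absurd (subset_closure hzD) hz
  refine Filter.mem_of_superset hmem ?_
  intro z hz hzD
  apply hS
  intro t ht
  have := mem_iInter₂.mp hz t ht
  exact this hzD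

end General

section Ends

variable {X : Type*} [NormedAddCommGroup X] [NormedSpace ℝ X]

/-- for every direction `u` near the direction of a nondegenerate chord `(y, x)` there is a chord
`(y', x)` of direction `u` with `y'` near `y`. -/
theorem exists_end_of_dir {x y : X} (hx : ‖x‖ = 1) (hy : ‖y‖ = 1) (hlt : ‖y + x‖ < 2)
    (hne : y ≠ x) {ε : ℝ} (hε : 0 < ε) :
    ∃ δ > 0, ∀ u : X, ‖u‖ = 1 → ‖u - nu (y - x)‖ < δ → ∃ y' : X, ‖y' - y‖ < ε ∧ UChord u y' x := by
  have hne' : y - x ≠ 0 := sub_ne_zero.mpr hne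
  set u₀ := nu (y - x) with hu₀
  have hu₀n : ‖u₀‖ = 1 := norm_nu hne'
  set s : ℝ := ‖y - x‖ / 2 with hs
  have hs0 : 0 < s := by
    have := norm_pos_iff.mpr hne'
    positivity
  -- the middle of the chord
  have hm : x + s • u₀ = (1 / 2 : ℝ) • (y + x) := by
    have h1 : s • u₀ = (1 / 2 : ℝ) • (y - x) := by
      rw [hs, hu₀, nu, smul_smul]
      congr 1
      have := norm_pos_iff.mpr hne'
      field_simp
    rw [h1]
    module
  have hmlt : ‖x + s • u₀‖ < 1 := by
    rw [hm, norm_smul, Real.norm_of_nonneg (by norm_num)]; linarith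
  have hy_top : top u₀ (x + s • u₀) = y := by
    symm
    apply eq_top hmlt hy hs0.le
    rw [hm]
    have h1 : s • u₀ = (1 / 2 : ℝ) • (y - x) := by
      rw [hs, hu₀, nu, smul_smul]
      congr 1
      have := norm_pos_iff.mpr hne'
      field_simp
    rw [h1]
    module
  -- continuity of u ↦ top u (x + s u)
  have hcont : ContinuousWithinAt (fun u : X => top u (x + s • u))
      {u : X | ‖u‖ = 1 ∧ ‖x + s • u‖ < 1} u₀ := by
    have h1 := (continuousOn_top (X := X)) (u₀, x + s • u₀) ⟨hu₀n, hmlt⟩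
    have h2 : ContinuousWithinAt (fun u : X => ((u, x + s • u) : X × X))
        {u : X | ‖u‖ = 1 ∧ ‖x + s • u‖ < 1} u₀ := by fun_prop
    exact ContinuousWithinAt.comp (g := fun q : X × X => top q.1 q.2)
      (f := fun u : X => ((u, x + s • u) : X × X)) h1 h2 (fun u hu => hu)
  have hev : ∀ᶠ u : X in 𝓝 u₀, ‖x + s • u‖ < 1 := by
    have : ContinuousAt (fun u : X => ‖x + s • u‖) u₀ := by fun_prop
    exact this.eventually_lt_const hmlt
  rw [Metric.continuousWithinAt_iff] at hcont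
  obtain ⟨δ₁, hδ₁, h1⟩ := hcont ε hε
  obtain ⟨δ₂, hδ₂, h2⟩ := Metric.eventually_nhds_iff.mp hev
  refine ⟨min δ₁ δ₂, lt_min hδ₁ hδ₂, ?_⟩
  intro u hu huu
  have hu1 : dist u u₀ < δ₁ := by
    rw [dist_eq_norm]; exact huu.trans_le (min_le_left _ _)
  have hu2 : dist u u₀ < δ₂ := by
    rw [dist_eq_norm]; exact huu.trans_le (min_le_right _ _)
  have h3 := h2 hu2
  have h4 := h1 ⟨hu, h3⟩ hu1
  rw [hy_top, dist_eq_norm] at h4
  refine ⟨top u (x + s • u), h4, ?_⟩
  have h5 := uchord_top hu h3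
  have h6 : top (-u) (x + s • u) = x := by
    symm
    apply eq_top h3 hx hs0.le
    rw [smul_neg, add_neg_cancel_right]
  rwa [h6] at h5

/-- GENERICITY: near any `y₀` forming a nondegenerate chord with a fixed `x` there is `y`, jointly
smooth, whose direction from `x` is in a given residual set. -/
theorem SI.exists_gen {Y : Type*} [NormedAddCommGroup Y] [NormedSpace ℝ Y]
    [TopologicalSpace.SeparableSpace X] [TopologicalSpace.SeparableSpace Y] [CompleteSpace X]
    {f : X → Y} {g : Y → X} (h : SI f g) {R : Set X}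
    (hR : {u : sphere (0 : X) 1 | (u : X) ∈ R} ∈ residual (sphere (0 : X) 1))
    {x y₀ : X} (hx : ‖x‖ = 1) (hy₀ : ‖y₀‖ = 1) (hlt : ‖y₀ + x‖ < 2) (hne : y₀ ≠ x)
    {ε : ℝ} (hε : 0 < ε) :
    ∃ y : X, ‖y‖ = 1 ∧ ‖y - y₀‖ < ε ∧ ‖y + x‖ < 2 ∧ y ≠ x ∧ Smooth y ∧ Smooth (f y) ∧
      nu (y - x) ∈ R := by
  classical
  have : CompleteSpace (sphere (0 : X) 1) := isClosed_sphere.completeSpace_coe
  set D : Set (sphere (0 : X) 1) := {y | ‖(y : X) + x‖ < 2 ∧ (y : X) ≠ x} with hDdef
  have hD : IsOpen D := by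
    have h1 : IsOpen {y : sphere (0 : X) 1 | ‖(y : X) + x‖ < 2} :=
      isOpen_lt (by fun_prop) continuous_const
    have h2 : IsOpen {y : sphere (0 : X) 1 | (y : X) ≠ x} :=
      isOpen_ne_fun continuous_subtype_val continuous_const
    exact h1.inter h2
  -- the direction map
  let φ : sphere (0 : X) 1 → sphere (0 : X) 1 := fun y =>
    if hy : (y : X) - x ≠ 0 then ⟨nu ((y : X) - x), by simpa using norm_nu hy⟩ else y
  have hφ : ∀ y : sphere (0 : X) 1, (y : X) ≠ x → (φ y : X) = nu ((y : X) - x) := by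
    intro y hy
    have hy' : (y : X) - x ≠ 0 := sub_ne_zero.mpr hy
    show ((if hy : (y : X) - x ≠ 0 then (⟨nu ((y : X) - x), by simpa using norm_nu hy⟩ :
      sphere (0 : X) 1) else y : sphere (0 : X) 1) : X) = nu ((y : X) - x)
    rw [dif_pos hy']
  have hcφ : ContinuousOn φ D := by
    rw [Topology.IsInducing.subtypeVal.continuousOn_iff]
    have h1 : ContinuousOn (fun y : sphere (0 : X) 1 => nu ((y : X) - x)) D := by
      intro y hy
      have hy' : (y : X) - x ≠ 0 := sub_ne_zero.mpr hy.2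
      have h2 : ContinuousAt (fun y : sphere (0 : X) 1 => nu ((y : X) - x)) y :=
        ContinuousAt.comp (g := (nu : X → X)) (f := fun y : sphere (0 : X) 1 => (y : X) - x)
          (tr_continuousAt_nu hy') (by fun_prop)
      exact h2.continuousWithinAt
    refine h1.congr ?_
    intro y hy
    exact hφ y hy.2
  have hop : ∀ z ∈ D, ∀ N ∈ 𝓝 z, φ '' N ∈ 𝓝 (φ z) := by
    intro z hz N hN
    obtain ⟨ε', hε', hball⟩ := Metric.mem_nhds_iff.mp hN
    have hzn : ‖(z : X)‖ = 1 := by simp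
    obtain ⟨δ, hδ, h1⟩ := exists_end_of_dir hx hzn hz.1 hz.2 hε'
    rw [Metric.mem_nhds_iff]
    refine ⟨δ, hδ, ?_⟩
    intro w hw
    have hwn : ‖(w : X)‖ = 1 := by simp
    rw [mem_ball, Subtype.dist_eq, dist_eq_norm, hφ z hz.2] at hw
    obtain ⟨y', hy'1, hy'2⟩ := h1 w hwn hw
    have hy'n : ‖y'‖ = 1 := hy'2.1
    refine ⟨⟨y', by simpa using hy'n⟩, hball ?_, ?_⟩
    · rw [mem_ball, Subtype.dist_eq, dist_eq_norm]; exact hy'1
    · apply Subtype.ext
      rw [hφ _ hy'2.ne]
      exact hy'2.nu_eq hwn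
  have hres := Filter.inter_mem (residual_preimage_of_openAt hD hcφ hop hR) h.residual_joint
  have hd : Dense _ := dense_of_mem_residual hres
  -- use density in the open set D ∩ ball
  have hopen : IsOpen (D ∩ {y : sphere (0 : X) 1 | ‖(y : X) - y₀‖ < ε}) :=
    hD.inter (isOpen_lt (by fun_prop) continuous_const)
  obtain ⟨y, ⟨hyD, hyε⟩, hyR, hys⟩ := hd.inter_open_nonempty _ hopen
    ⟨⟨y₀, by simpa using hy₀⟩, ⟨hlt, hne⟩, by simpa using hε⟩
  refine ⟨y, by simp, hyε, hyD.1, hyD.2, hys.1, hys.2, ?_⟩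
  have := hyR hyD
  rw [mem_ofPred_eq, hφ y hyD.2] at this
  exact this

end Ends

end Crest.Agent.R074
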