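import Crest.Agent.R074.KU
import Crest.Agent.R074.Cross

/-!
Row 74 (S0099): density of good unit triangles over a generic direction `u`.
-/

set_option autoImplicit false

namespace Crest.Agent.R074

open Metric Set Filter Topology

/-- a good unit triangle `(a, b)` -/
structure GoodT {X Y : Type*} [NormedAddCommGroup X] [NormedSpace ℝ X] [NormedAddCommGroup Y]
    [NormedSpace ℝ Y] (f : X → Y) (a b : X) : Prop where
  ha : ‖a‖ = 1
  hb : ‖b‖ = 1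
  hab : ‖a + b‖ = 1
  lt : ‖a - b‖ < 2
  sz : Smooth (a + b)
  sZ : Smooth (f (a + b))
  or : (Smooth (f a) ∧ Smooth ((2 : ℝ) • f a - f (a + b))) ∨
    (Smooth (f b) ∧ Smooth ((2 : ℝ) • f b - f (a + b)))

section Dens

variable {X Y : Type*} [NormedAddCommGroup X] [NormedSpace ℝ X] [NormedAddCommGroup Y]
  [NormedSpace ℝ Y] {f : X → Y} {g : Y → X}

theorem dens_sum {a b : X} (ha : ‖a‖ = 1) (hb : ‖b‖ = 1) (hab : ‖a + b‖ = 1)
    (h2 : ‖a - b‖ < 2) (v : X) {ε η : ℝ} (hε : 0 < ε) (hη : 0 < η) :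
    ∃ a' b' : X, ‖a'‖ = 1 ∧ ‖b'‖ = 1 ∧ ‖a' + b'‖ = 1 ∧ ‖a' - a‖ < η ∧ ‖b' - b‖ < η ∧
      a' + b' ∈ OV v ε := by
  obtain ⟨δ, hδ, h⟩ := exists_unitSum_sum ha hb hab h2 hη
  obtain ⟨z', hz1, hz2, hz3⟩ := exists_OV_sphere hab v hε hδ
  obtain ⟨a', b', h1, h3, h4, h5, h6⟩ := h z' hz1 hz2
  exact ⟨a', b', h1, h3, by rw [h4]; exact hz1, h5, h6, by rw [h4]; exact hz3⟩

theorem SI.dens_fsum (hf : SI f g) {a b : X} (ha : ‖a‖ = 1) (hb : ‖b‖ = 1) (hab : ‖a + b‖ = 1)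
    (h2 : ‖a - b‖ < 2) (v : Y) {ε η : ℝ} (hε : 0 < ε) (hη : 0 < η) :
    ∃ a' b' : X, ‖a'‖ = 1 ∧ ‖b'‖ = 1 ∧ ‖a' + b'‖ = 1 ∧ ‖a' - a‖ < η ∧ ‖b' - b‖ < η ∧
      f (a' + b') ∈ OV v ε := by
  obtain ⟨δ, hδ, h⟩ := exists_unitSum_sum ha hb hab h2 hη
  obtain ⟨Z', hz1, hz2, hz3⟩ := exists_OV_sphere (hf.map _ hab) v hε hδ
  have hgz := hf.imap _ hz1
  have hd : ‖g Z' - (a + b)‖ < δ := by
    rw [← hf.dist _ _ hgz hab, hf.right _ hz1]; exact hz2
  obtain ⟨a', b', h1, h3, h4, h5, h6⟩ := h (g Z') hgz hd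
  exact ⟨a', b', h1, h3, by rw [h4]; exact hgz, h5, h6, by rw [h4, hf.right _ hz1]; exact hz3⟩

theorem SI.dens_fst (hf : SI f g) {a b : X} (ha : ‖a‖ = 1) (hb : ‖b‖ = 1) (hab : ‖a + b‖ = 1)
    (h2 : ‖a + (2 : ℝ) • b‖ < 2) (v : Y) {ε η : ℝ} (hε : 0 < ε) (hη : 0 < η) :
    ∃ a' b' : X, ‖a'‖ = 1 ∧ ‖b'‖ = 1 ∧ ‖a' + b'‖ = 1 ∧ ‖a' - a‖ < η ∧ ‖b' - b‖ < η ∧
      f a' ∈ OV v ε := by
  obtain ⟨δ, hδ, h⟩ := exists_unitSum_fst ha hb hab h2 hη
  obtain ⟨A', hz1, hz2, hz3⟩ := exists_OV_sphere (hf.map _ ha) v hε (lt_min hδ hη)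
  have hgz := hf.imap _ hz1
  have hd : ‖g A' - a‖ < min δ η := by
    rw [← hf.dist _ _ hgz ha, hf.right _ hz1]; exact hz2
  obtain ⟨b', h1, h3, h4⟩ := h (g A') hgz (hd.trans_le (min_le_left _ _))
  exact ⟨g A', b', hgz, h1, h3, hd.trans_le (min_le_right _ _), h4,
    by rw [hf.right _ hz1]; exact hz3⟩

theorem SI.dens_snd (hf : SI f g) {a b : X} (ha : ‖a‖ = 1) (hb : ‖b‖ = 1) (hab : ‖a + b‖ = 1)
    (h2 : ‖(2 : ℝ) • a + b‖ < 2) (v : Y) {ε η : ℝ} (hε : 0 < ε) (hη : 0 < η) :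
    ∃ a' b' : X, ‖a'‖ = 1 ∧ ‖b'‖ = 1 ∧ ‖a' + b'‖ = 1 ∧ ‖a' - a‖ < η ∧ ‖b' - b‖ < η ∧
      f b' ∈ OV v ε := by
  obtain ⟨b', a', h1, h3, h4, h5, h6, h7⟩ := hf.dens_fst hb ha (by rw [add_comm]; exact hab)
    (by rw [add_comm]; exact h2) v hε hη
  exact ⟨a', b', h3, h1, by rw [add_comm]; exact h4, h6, h5, h7⟩

/-- `(a, b) ↦ 2 f a - f (a + b)` is open in direction -/
theorem SI.dens_dirfst (hf : SI f g) {a b : X} (ha : ‖a‖ = 1) (hb : ‖b‖ = 1)
    (hab : ‖a + b‖ = 1) (v : Y) {ε η : ℝ} (hε : 0 < ε) (hη : 0 < η) :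
    ∃ a' b' : X, ‖a'‖ = 1 ∧ ‖b'‖ = 1 ∧ ‖a' + b'‖ = 1 ∧ ‖a' - a‖ < η ∧ ‖b' - b‖ < η ∧
      (2 : ℝ) • f a' - f (a' + b') ∈ OV v ε := by
  set A := f a with hA
  set Z := f (a + b) with hZ
  have hAn : ‖A‖ = 1 := hf.map _ ha
  have hZn : ‖Z‖ = 1 := hf.map _ hab
  have hBn : ‖Z - A‖ = 1 := by
    rw [hZ, hA, hf.dist _ _ hab ha, add_sub_cancel_left]; exact hb
  have hsum : ‖A + (Z - A)‖ = 1 := by rw [add_sub_cancel]; exact hZn
  have h1le : 1 ≤ ‖A - (Z - A)‖ := one_le_norm_sub hAn hsum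
  set r := ‖A - (Z - A)‖ with hr
  have hr0 : 0 < r := by linarith
  set ω : Y := r⁻¹ • (A - (Z - A)) with hω
  have hωn : ‖ω‖ = 1 := by
    rw [hω, norm_smul, norm_inv, Real.norm_of_nonneg hr0.le, ← hr, inv_mul_cancel₀ hr0.ne']
  have hrω : A - (Z - A) = r • ω := by
    rw [hω, smul_smul, mul_inv_cancel₀ hr0.ne', one_smul]
  obtain ⟨δ, hδ, h⟩ := exists_unitSum_dir hAn hBn hsum hωn hr0 hrω
    (show (0 : ℝ) < η / 3 by positivity)
  obtain ⟨ω', hω1, hω2, hω3⟩ := exists_OV_sphere hωn v hε hδ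
  obtain ⟨A', B', r', hA', hB', hAB', hr', hdir, hcA, hcB⟩ := h ω' hω1 hω2
  have hgA := hf.imap _ hA'
  have hgZ := hf.imap _ hAB'
  refine ⟨g A', g (A' + B') - g A', hgA, ?_, by rw [add_sub_cancel]; exact hgZ, ?_, ?_, ?_⟩
  · rw [hf.symm.dist _ _ hAB' hA', add_sub_cancel_left]; exact hB'
  · rw [← hf.dist _ _ hgA ha, hf.right _ hA']
    linarith
  · have e : g (A' + B') - g A' - b = (g (A' + B') - (a + b)) - (g A' - a) := by abel
    rw [e]
    refine (norm_sub_le _ _).trans_lt ?_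
    rw [← hf.dist _ _ hgA ha, hf.right _ hA', ← hf.dist _ _ hgZ hab, hf.right _ hAB']
    have e2 : A' + B' - Z = (A' - A) + (B' - (Z - A)) := by abel
    have h4 := norm_add_le (A' - A) (B' - (Z - A))
    rw [← e2] at h4
    have h5 : ‖A' + B' - f (a + b)‖ < η / 3 + η / 3 := by
      rw [← hZ]; linarith
    linarith
  · rw [add_sub_cancel, hf.right _ hA', hf.right _ hAB']
    have e3 : (2 : ℝ) • A' - (A' + B') = A' - B' := by rw [two_smul]; abel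
    rw [e3, hdir]
    exact OV_smul hω3 hr'

theorem SI.dens_dirsnd (hf : SI f g) {a b : X} (ha : ‖a‖ = 1) (hb : ‖b‖ = 1)
    (hab : ‖a + b‖ = 1) (v : Y) {ε η : ℝ} (hε : 0 < ε) (hη : 0 < η) :
    ∃ a' b' : X, ‖a'‖ = 1 ∧ ‖b'‖ = 1 ∧ ‖a' + b'‖ = 1 ∧ ‖a' - a‖ < η ∧ ‖b' - b‖ < η ∧
      (2 : ℝ) • f b' - f (a' + b') ∈ OV v ε := by
  obtain ⟨b', a', h1, h3, h4, h5, h6, h7⟩ := hf.dens_dirfst hb ha (by rw [add_comm]; exact hab)
    v hε hη
  exact ⟨a', b', h3, h1, by rw [add_comm]; exact h4, h6, h5, by rw [add_comm a' b']; exact h7⟩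

end Dens

section UTri

/-- the space of unit triangles -/
def UTri (X : Type*) [NormedAddCommGroup X] : Set (X × X) :=
  {T | ‖T.1‖ = 1 ∧ ‖T.2‖ = 1 ∧ ‖T.1 + T.2‖ = 1}

variable {X Y : Type*} [NormedAddCommGroup X] [NormedSpace ℝ X] [NormedAddCommGroup Y]
  [NormedSpace ℝ Y] {f : X → Y} {g : Y → X}

theorem isClosed_UTri : IsClosed (UTri X) := by
  have h1 : IsClosed {T : X × X | ‖T.1‖ = 1} := isClosed_eq (by fun_prop) continuous_const
  have h2 : IsClosed {T : X × X | ‖T.2‖ = 1} := isClosed_eq (by fun_prop) continuous_const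
  have h3 : IsClosed {T : X × X | ‖T.1 + T.2‖ = 1} := isClosed_eq (by fun_prop) continuous_const
  exact h1.inter (h2.inter h3)

theorem UTri_sub_ne (T : UTri X) : 0 < ‖T.1.1 - T.1.2‖ := by
  have := one_le_norm_sub T.2.1 T.2.2.2
  linarith

/-- direction of a unit triangle -/
noncomputable def dirT (T : UTri X) : sphere (0 : X) 1 :=
  ⟨‖T.1.1 - T.1.2‖⁻¹ • (T.1.1 - T.1.2), by
    rw [mem_sphere_zero_iff_norm, norm_smul, norm_inv, norm_norm,
      inv_mul_cancel₀ (UTri_sub_ne T).ne']⟩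

theorem dirT_spec (T : UTri X) : T.1.1 - T.1.2 = ‖T.1.1 - T.1.2‖ • (dirT T : X) := by
  show _ = ‖T.1.1 - T.1.2‖ • (‖T.1.1 - T.1.2‖⁻¹ • (T.1.1 - T.1.2))
  rw [smul_smul, mul_inv_cancel₀ (UTri_sub_ne T).ne', one_smul]

theorem dirT_eq {T : UTri X} {u : sphere (0 : X) 1} {r : ℝ} (hr : 0 < r)
    (h : T.1.1 - T.1.2 = r • (u : X)) : dirT T = u := by
  apply Subtype.ext
  show ‖T.1.1 - T.1.2‖⁻¹ • (T.1.1 - T.1.2) = u
  have hu : ‖(u : X)‖ = 1 := by simp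
  rw [h, norm_smul, hu, mul_one, Real.norm_of_nonneg hr.le, smul_smul, inv_mul_cancel₀ hr.ne',
    one_smul]

theorem continuous_dirT : Continuous (dirT : UTri X → sphere (0 : X) 1) := by
  apply Continuous.subtype_mk
  have h1 : Continuous (fun T : UTri X => T.1.1 - T.1.2) := by fun_prop
  exact (h1.norm.inv₀ (fun T => (UTri_sub_ne T).ne')).smul h1

theorem isOpenMap_dirT : IsOpenMap (dirT : UTri X → sphere (0 : X) 1) := by
  rw [isOpenMap_iff_nhds_le]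
  intro T
  intro V hV
  obtain ⟨ε, hε, hball⟩ := Metric.mem_nhds_iff.mp (mem_map.mp hV)
  obtain ⟨δ, hδ, h⟩ := exists_unitSum_dir T.2.1 T.2.2.1 T.2.2.2
    (show ‖(dirT T : X)‖ = 1 by simp) (UTri_sub_ne T) (dirT_spec T) hε
  refine Metric.mem_nhds_iff.mpr ⟨δ, hδ, ?_⟩
  intro u hu
  have hu1 : ‖(u : X)‖ = 1 := by simp
  rw [mem_ball, Subtype.dist_eq, dist_eq_norm] at hu
  obtain ⟨a', b', r', ha', hb', hab', hr', hdir, hca, hcb⟩ := h u hu1 hu
  set T' : UTri X := ⟨(a', b'), ha', hb', hab'⟩ with hT'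
  have h1 : dirT T' = u := dirT_eq hr' hdir
  rw [← h1]
  apply hball
  rw [mem_ball, Subtype.dist_eq, Prod.dist_eq, max_lt_iff, dist_eq_norm, dist_eq_norm]
  exact ⟨hca, hcb⟩

theorem SI.continuous_comp (hf : SI f g) {Z : Type*} [TopologicalSpace Z] {φ : Z → X}
    (hφ : Continuous φ) (h1 : ∀ z, ‖φ z‖ = 1) : Continuous (fun z => f (φ z)) := by
  have h2 : Continuous (fun z => (⟨φ z, by simpa using h1 z⟩ : sphere (0 : X) 1)) :=
    Continuous.subtype_mk hφ _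
  exact hf.continuous.comp h2

theorem mem_closure_UTri {T : UTri X} {P : X → X → Prop}
    (h : ∀ η : ℝ, 0 < η → ∃ a' b' : X, ‖a'‖ = 1 ∧ ‖b'‖ = 1 ∧ ‖a' + b'‖ = 1 ∧
      ‖a' - T.1.1‖ < η ∧ ‖b' - T.1.2‖ < η ∧ P a' b') :
    T ∈ closure {T' : UTri X | P T'.1.1 T'.1.2} := by
  rw [Metric.mem_closure_iff]
  intro η hη
  obtain ⟨a', b', h1, h2, h3, h4, h5, h6⟩ := h η hη
  refine ⟨⟨(a', b'), h1, h2, h3⟩, h6, ?_⟩
  rw [dist_comm, Subtype.dist_eq, Prod.dist_eq, max_lt_iff, dist_eq_norm, dist_eq_norm]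
  exact ⟨h4, h5⟩

/-- good triangles are residual off `‖a - b‖ = 2` -/
theorem SI.residual_good (hf : SI f g) [TopologicalSpace.SeparableSpace X]
    [TopologicalSpace.SeparableSpace Y] :
    {T : UTri X | ‖T.1.1 - T.1.2‖ < 2 → GoodT f T.1.1 T.1.2} ∈ residual (UTri X) := by
  have hW : IsOpen {T : UTri X | ‖T.1.1 - T.1.2‖ < 2} :=
    isOpen_lt (by fun_prop) continuous_const
  have hWa : IsOpen {T : UTri X | ‖T.1.1 + (2 : ℝ) • T.1.2‖ < 2} :=
    isOpen_lt (by fun_prop) continuous_const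
  have hWb : IsOpen {T : UTri X | ‖(2 : ℝ) • T.1.1 + T.1.2‖ < 2} :=
    isOpen_lt (by fun_prop) continuous_const
  have R1 : {T : UTri X | T ∈ {T : UTri X | ‖T.1.1 - T.1.2‖ < 2} → Smooth (T.1.1 + T.1.2)}
      ∈ residual (UTri X) := by
    refine residual_smooth_of_local hW (fun T : UTri X => T.1.1 + T.1.2) (by fun_prop) ?_
    intro v ε hε T hT
    exact mem_closure_UTri (P := fun a b => a + b ∈ OV v ε)
      (fun η hη => dens_sum T.2.1 T.2.2.1 T.2.2.2 hT v hε hη)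
  have R2 : {T : UTri X | T ∈ {T : UTri X | ‖T.1.1 - T.1.2‖ < 2} → Smooth (f (T.1.1 + T.1.2))}
      ∈ residual (UTri X) := by
    refine residual_smooth_of_local hW (fun T : UTri X => f (T.1.1 + T.1.2))
      (hf.continuous_comp (by fun_prop) (fun T => T.2.2.2)) ?_
    intro v ε hε T hT
    exact mem_closure_UTri (P := fun a b => f (a + b) ∈ OV v ε)
      (fun η hη => hf.dens_fsum T.2.1 T.2.2.1 T.2.2.2 hT v hε hη)
  have R3 : {T : UTri X | T ∈ {T : UTri X | ‖T.1.1 + (2 : ℝ) • T.1.2‖ < 2} → Smooth (f T.1.1)}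
      ∈ residual (UTri X) := by
    refine residual_smooth_of_local hWa (fun T : UTri X => f T.1.1)
      (hf.continuous_comp (by fun_prop) (fun T => T.2.1)) ?_
    intro v ε hε T hT
    exact mem_closure_UTri (P := fun a b => f a ∈ OV v ε)
      (fun η hη => hf.dens_fst T.2.1 T.2.2.1 T.2.2.2 hT v hε hη)
  have R5 : {T : UTri X | T ∈ {T : UTri X | ‖(2 : ℝ) • T.1.1 + T.1.2‖ < 2} → Smooth (f T.1.2)}
      ∈ residual (UTri X) := by
    refine residual_smooth_of_local hWb (fun T : UTri X => f T.1.2)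
      (hf.continuous_comp (by fun_prop) (fun T => T.2.2.1)) ?_
    intro v ε hε T hT
    exact mem_closure_UTri (P := fun a b => f b ∈ OV v ε)
      (fun η hη => hf.dens_snd T.2.1 T.2.2.1 T.2.2.2 hT v hε hη)
  have hcz : Continuous (fun T : UTri X => f (T.1.1 + T.1.2)) :=
    hf.continuous_comp (by fun_prop) (fun T => T.2.2.2)
  have hca : Continuous (fun T : UTri X => f T.1.1) :=
    hf.continuous_comp (by fun_prop) (fun T => T.2.1)
  have hcb : Continuous (fun T : UTri X => f T.1.2) :=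
    hf.continuous_comp (by fun_prop) (fun T => T.2.2.1)
  have R4 : {T : UTri X | T ∈ (univ : Set (UTri X)) →
      Smooth ((2 : ℝ) • f T.1.1 - f (T.1.1 + T.1.2))} ∈ residual (UTri X) := by
    refine residual_smooth_of_local isOpen_univ
      (fun T : UTri X => (2 : ℝ) • f T.1.1 - f (T.1.1 + T.1.2)) ((hca.const_smul _).sub hcz) ?_
    intro v ε hε T hT
    exact mem_closure_UTri (P := fun a b => (2 : ℝ) • f a - f (a + b) ∈ OV v ε)
      (fun η hη => hf.dens_dirfst T.2.1 T.2.2.1 T.2.2.2 v hε hη)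
  have R6 : {T : UTri X | T ∈ (univ : Set (UTri X)) →
      Smooth ((2 : ℝ) • f T.1.2 - f (T.1.1 + T.1.2))} ∈ residual (UTri X) := by
    refine residual_smooth_of_local isOpen_univ
      (fun T : UTri X => (2 : ℝ) • f T.1.2 - f (T.1.1 + T.1.2)) ((hcb.const_smul _).sub hcz) ?_
    intro v ε hε T hT
    exact mem_closure_UTri (P := fun a b => (2 : ℝ) • f b - f (a + b) ∈ OV v ε)
      (fun η hη => hf.dens_dirsnd T.2.1 T.2.2.1 T.2.2.2 v hε hη)
  filter_upwards [R1, R2, R3, R4, R5, R6] with T h1 h2 h3 h4 h5 h6 hlt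
  have hz := h1 hlt
  refine ⟨T.2.1, T.2.2.1, T.2.2.2, hlt, hz, h2 hlt, ?_⟩
  by_cases hA : ‖T.1.1 + (2 : ℝ) • T.1.2‖ < 2
  · exact Or.inl ⟨h3 hA, h4 (mem_univ _)⟩
  · by_cases hB : ‖(2 : ℝ) • T.1.1 + T.1.2‖ < 2
    · exact Or.inr ⟨h5 hB, h6 (mem_univ _)⟩
    · exfalso
      push Not at hA hB
      have hzn := T.2.2.2
      -- a norming functional of `z + b` norms both `z` and `b`
      have key : ∀ c : X, ‖c‖ = 1 → 2 ≤ ‖(T.1.1 + T.1.2) + c‖ → J (T.1.1 + T.1.2) c = 1 := by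
        intro c hc h2c
        set q := J ((T.1.1 + T.1.2) + c) with hq
        have e1 : q (T.1.1 + T.1.2) + q c = ‖(T.1.1 + T.1.2) + c‖ := by
          rw [← map_add, hq, J_self]
        have e2 : q (T.1.1 + T.1.2) ≤ 1 := by rw [← hzn]; exact J_le _ _
        have e3 : q c ≤ 1 := by rw [← hc]; exact J_le _ _
        have e4 : Norming q (T.1.1 + T.1.2) := ⟨J_norm_le _, by rw [hzn]; linarith⟩
        rw [← hz.eq_J e4]
        linarith
      have ka := key T.1.1 T.2.1 (by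
        have e : (T.1.1 + T.1.2) + T.1.1 = (2 : ℝ) • T.1.1 + T.1.2 := by rw [two_smul]; abel
        rw [e]; exact hB)
      have kb := key T.1.2 T.2.2.1 (by
        have e : (T.1.1 + T.1.2) + T.1.2 = T.1.1 + (2 : ℝ) • T.1.2 := by rw [two_smul]; abel
        rw [e]; exact hA)
      have kz := J_self (T.1.1 + T.1.2)
      rw [map_add, ka, kb, hzn] at kz
      norm_num at kz

/-- GOOD TRIANGLES OVER A GENERIC DIRECTION: for residually many directions `u`, every unit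
triangle `(a,b)` with `a - b ∈ ℝ₊ u`, `‖a - b‖ < 2` is a limit of good triangles with the same
direction. -/
theorem SI.residual_goodT (hf : SI f g) [CompleteSpace X] [TopologicalSpace.SeparableSpace X]
    [TopologicalSpace.SeparableSpace Y] :
    {u : sphere (0 : X) 1 | ∀ (a b : X) (r : ℝ), ‖a‖ = 1 → ‖b‖ = 1 → ‖a + b‖ = 1 →
      ‖a - b‖ < 2 → 0 < r → a - b = r • (u : X) → ∀ ε : ℝ, 0 < ε →
      ∃ (a' b' : X) (r' : ℝ), GoodT f a' b' ∧ 0 < r' ∧ a' - b' = r' • (u : X) ∧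
        ‖a' - a‖ < ε ∧ ‖b' - b‖ < ε} ∈ residual (sphere (0 : X) 1) := by
  have : SecondCountableTopology X := UniformSpace.secondCountable_of_separable X
  have : CompleteSpace (UTri X) := isClosed_UTri.completeSpace_coe
  have hfib : ∀ u : sphere (0 : X) 1, BaireSpace {z : UTri X // dirT z = u} := by
    intro u
    have hcl : IsClosed {z : UTri X | dirT z = u} := isClosed_eq continuous_dirT continuous_const
    have : CompleteSpace {z : UTri X | dirT z = u} := hcl.completeSpace_coe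
    exact (inferInstance : BaireSpace {z : UTri X | dirT z = u})
  have hku := ku (π := (dirT : UTri X → sphere (0 : X) 1)) isOpenMap_dirT continuous_dirT hfib
    hf.residual_good
  filter_upwards [hku] with u hu
  intro a b r ha hb hab hlt hr hdir ε hε
  set T : UTri X := ⟨(a, b), ha, hb, hab⟩ with hT
  have hTu : dirT T = u := dirT_eq hr hdir
  set ε' := min ε (min 1 ((2 - ‖a - b‖) / 2)) with hε'
  have hε'0 : 0 < ε' := lt_min hε (lt_min one_pos (by linarith))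
  obtain ⟨T', hT'1, hT'2⟩ := hu (ball T ε') isOpen_ball ⟨T, mem_ball_self hε'0, hTu⟩
  have hb' := hT'1.1
  rw [mem_ball, Subtype.dist_eq, Prod.dist_eq, max_lt_iff, dist_eq_norm, dist_eq_norm] at hb'
  have h1 : ‖T'.1.1 - a‖ < ε' := hb'.1
  have h2 : ‖T'.1.2 - b‖ < ε' := hb'.2
  have h3 : ε' ≤ (2 - ‖a - b‖) / 2 := (min_le_right _ _).trans (min_le_right _ _)
  have hlt' : ‖T'.1.1 - T'.1.2‖ < 2 := by
    have e : T'.1.1 - T'.1.2 = (a - b) + ((T'.1.1 - a) - (T'.1.2 - b)) := by abel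
    rw [e]
    have h4 := norm_add_le (a - b) ((T'.1.1 - a) - (T'.1.2 - b))
    have h5 := norm_sub_le (T'.1.1 - a) (T'.1.2 - b)
    linarith
  refine ⟨T'.1.1, T'.1.2, ‖T'.1.1 - T'.1.2‖, hT'1.2 hlt', UTri_sub_ne T', ?_, ?_, ?_⟩
  · rw [← hT'2]; exact dirT_spec T'
  · exact h1.trans_le (min_le_left _ _)
  · exact h2.trans_le (min_le_left _ _)

end UTri

end Crest.Agent.R074
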