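import Crest.Agent.R074.Blowup
import Crest.Agent.R074.Doubling

/-!
Row 74 (S0099): the bridge from the midpoint form of the blow-up (`MidAt`) to homogeneity
along rays (`Hom`), by a closed-subgroup argument (helper29).
-/

set_option autoImplicit false

namespace Crest.Agent.R074

open Metric Set Filter Topology Asymptotics

namespace HM

variable {X Y : Type*} [NormedAddCommGroup X] [NormedSpace ℝ X] [NormedAddCommGroup Y]
  [NormedSpace ℝ Y] {f : X → Y} {g : Y → X}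

/-- displacement of `g` along the ray `y + r t α` -/
noncomputable def FF (g : Y → X) (y α : Y) (r t : ℝ) : X :=
  g (Crest.Agent.R074.nu (y + (t * r) • α)) - g y

/-- `FF r t = t FF r 1 + o(r)` -/
def PP1 (g : Y → X) (y α : Y) (t : ℝ) : Prop :=
  ∀ ε : ℝ, 0 < ε → ∃ δ > 0, ∀ r : ℝ, 0 < r → r < δ →
    ‖FF g y α r t - t • FF g y α r 1‖ ≤ ε * r

theorem mid_rel {y α : Y} (hα : J y α = 0) (hmid : MidAt g y) (a b : ℝ) {ε : ℝ} (hε : 0 < ε) :
    ∃ δ > 0, ∀ r : ℝ, 0 < r → r < δ →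
      ‖FF g y α r ((a + b) / 2) - (1 / 2 : ℝ) • (FF g y α r a + FF g y α r b)‖ ≤ ε * r := by
  obtain ⟨δ, hδ, hd⟩ := hmid (a • α) (b • α) (by rw [map_smul, hα, smul_zero])
    (by rw [map_smul, hα, smul_zero]) ε hε
  refine ⟨δ, hδ, fun r hr hrδ => ?_⟩
  have h1 := hd r hr hrδ
  have e1 : y + r • ((1 / 2 : ℝ) • (a • α + b • α)) = y + ((a + b) / 2 * r) • α := by
    rw [← add_smul, smul_smul, smul_smul]; congr 2; ring
  have e2 : ∀ c : ℝ, y + r • (c • α) = y + (c * r) • α := fun c => by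
    rw [smul_smul, mul_comm]
  rw [e1, e2, e2] at h1
  refine le_trans (le_of_eq ?_) h1
  congr 1
  unfold FF
  set A := g (Crest.Agent.R074.nu (y + ((a + b) / 2 * r) • α))
  set B := g (Crest.Agent.R074.nu (y + (a * r) • α))
  set C := g (Crest.Agent.R074.nu (y + (b * r) • α))
  have e3 : g y = (1 / 2 : ℝ) • g y + (1 / 2 : ℝ) • g y := by rw [← add_smul]; norm_num
  calc A - g y - (1 / 2 : ℝ) • (B - g y + (C - g y))
      = A - g y - ((1 / 2 : ℝ) • (B + C) - ((1 / 2 : ℝ) • g y + (1 / 2 : ℝ) • g y)) := by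
        congr 1
        rw [smul_add, smul_sub, smul_sub, smul_add]; abel
    _ = A - (1 / 2 : ℝ) • (B + C) := by rw [← e3]; abel

theorem pp_mid {y α : Y} (hα : J y α = 0) (hmid : MidAt g y) {a b : ℝ} (ha : PP1 g y α a)
    (hb : PP1 g y α b) : PP1 g y α ((a + b) / 2) := by
  intro ε hε
  obtain ⟨δ1, hδ1, h1⟩ := ha (ε / 2) (by linarith)
  obtain ⟨δ2, hδ2, h2⟩ := hb (ε / 2) (by linarith)
  obtain ⟨δ3, hδ3, h3⟩ := mid_rel hα hmid a b (ε := ε / 2) (by linarith)
  refine ⟨min δ1 (min δ2 δ3), lt_min hδ1 (lt_min hδ2 hδ3), fun r hr hrδ => ?_⟩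
  have k1 := h1 r hr (hrδ.trans_le (min_le_left _ _))
  have k2 := h2 r hr (hrδ.trans_le ((min_le_right _ _).trans (min_le_left _ _)))
  have k3 := h3 r hr (hrδ.trans_le ((min_le_right _ _).trans (min_le_right _ _)))
  set A := FF g y α r a
  set B := FF g y α r b
  set C := FF g y α r ((a + b) / 2)
  set D := FF g y α r 1
  have e : C - ((a + b) / 2) • D = (C - (1 / 2 : ℝ) • (A + B)) + (1 / 2 : ℝ) • (A - a • D)
      + (1 / 2 : ℝ) • (B - b • D) := by
    rw [smul_add, smul_sub, smul_sub, smul_smul, smul_smul, add_div, add_smul]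
    have e1 : (1 / 2 * a : ℝ) = a / 2 := by ring
    have e2 : (1 / 2 * b : ℝ) = b / 2 := by ring
    rw [e1, e2]; abel
  rw [e]
  refine (norm_add_le _ _).trans ?_
  have h4 := norm_add_le (C - (1 / 2 : ℝ) • (A + B)) ((1 / 2 : ℝ) • (A - a • D))
  rw [norm_smul, Real.norm_of_nonneg (by norm_num : (0 : ℝ) ≤ 1 / 2)] at h4
  rw [norm_smul, Real.norm_of_nonneg (by norm_num : (0 : ℝ) ≤ 1 / 2)]
  linarith

theorem pp_refl {y α : Y} (hα : J y α = 0) (hmid : MidAt g y) {a b : ℝ} (ha : PP1 g y α a)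
    (hc : PP1 g y α ((a + b) / 2)) : PP1 g y α b := by
  intro ε hε
  obtain ⟨δ1, hδ1, h1⟩ := ha (ε / 3) (by linarith)
  obtain ⟨δ2, hδ2, h2⟩ := hc (ε / 6) (by linarith)
  obtain ⟨δ3, hδ3, h3⟩ := mid_rel hα hmid a b (ε := ε / 6) (by linarith)
  refine ⟨min δ1 (min δ2 δ3), lt_min hδ1 (lt_min hδ2 hδ3), fun r hr hrδ => ?_⟩
  have k1 := h1 r hr (hrδ.trans_le (min_le_left _ _))
  have k2 := h2 r hr (hrδ.trans_le ((min_le_right _ _).trans (min_le_left _ _)))
  have k3 := h3 r hr (hrδ.trans_le ((min_le_right _ _).trans (min_le_right _ _)))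
  set A := FF g y α r a
  set B := FF g y α r b
  set C := FF g y α r ((a + b) / 2)
  set D := FF g y α r 1
  have e : B - b • D = (2 : ℝ) • (C - ((a + b) / 2) • D) - (2 : ℝ) • (C - (1 / 2 : ℝ) • (A + B))
      - (A - a • D) := by
    rw [smul_sub, smul_sub, smul_smul, smul_smul]
    have e1 : (2 : ℝ) * ((a + b) / 2) = a + b := by ring
    have e2 : (2 : ℝ) * (1 / 2) = 1 := by norm_num
    rw [e1, e2, one_smul, add_smul]; abel
  rw [e]
  refine (norm_sub_le _ _).trans ?_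
  have h4 := norm_sub_le ((2 : ℝ) • (C - ((a + b) / 2) • D)) ((2 : ℝ) • (C - (1 / 2 : ℝ) • (A + B)))
  rw [norm_smul, norm_smul, Real.norm_of_nonneg (by norm_num : (0 : ℝ) ≤ 2)] at h4
  linarith

theorem ff_lip (h : SI f g) {y α : Y} (hy : ‖y‖ = 1) (hs : Smooth y) (hα : J y α = 0) (s t : ℝ)
    {ε : ℝ} (hε : 0 < ε) : ∃ δ > 0, ∀ r : ℝ, 0 < r → r < δ →
      ‖FF g y α r s - FF g y α r t‖ ≤ (|s - t| * ‖α‖ + ε) * r := by
  obtain ⟨δ1, hδ1, h1⟩ := hs.nu_approx hy (v := s • α) (by rw [map_smul, hα, smul_zero])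
    (ε := ε / 2) (by linarith)
  obtain ⟨δ2, hδ2, h2⟩ := hs.nu_approx hy (v := t • α) (by rw [map_smul, hα, smul_zero])
    (ε := ε / 2) (by linarith)
  refine ⟨min δ1 δ2, lt_min hδ1 hδ2, fun r hr hrδ => ?_⟩
  obtain ⟨n1, k1⟩ := h1 r hr (hrδ.trans_le (min_le_left _ _))
  obtain ⟨n2, k2⟩ := h2 r hr (hrδ.trans_le (min_le_right _ _))
  have e2 : ∀ c : ℝ, y + r • (c • α) = y + (c * r) • α := fun c => by
    rw [smul_smul, mul_comm]
  rw [e2] at n1 k1 n2 k2
  have e3 : FF g y α r s - FF g y α r t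
      = g (Crest.Agent.R074.nu (y + (s * r) • α)) - g (Crest.Agent.R074.nu (y + (t * r) • α)) := by
    unfold FF; abel
  rw [e3, h.symm.dist _ _ (Crest.Agent.R074.norm_nu n1) (Crest.Agent.R074.norm_nu n2)]
  set N1 := Crest.Agent.R074.nu (y + (s * r) • α)
  set N2 := Crest.Agent.R074.nu (y + (t * r) • α)
  have e4 : N1 - N2 = (N1 - (y + (s * r) • α)) - (N2 - (y + (t * r) • α)) + ((s - t) * r) • α := by
    rw [sub_mul, sub_smul]; abel
  rw [e4]
  have k3 := norm_add_le ((N1 - (y + (s * r) • α)) - (N2 - (y + (t * r) • α)))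
    (((s - t) * r) • α)
  have k4 := norm_sub_le (N1 - (y + (s * r) • α)) (N2 - (y + (t * r) • α))
  rw [norm_smul, Real.norm_eq_abs, abs_mul, abs_of_pos hr] at k3
  nlinarith

theorem pp_all (h : SI f g) {y α : Y} (hy : ‖y‖ = 1) (hs : Smooth y) (hα : J y α = 0)
    (hmid : MidAt g y) (t : ℝ) : PP1 g y α t := by
  have h0 : PP1 g y α 0 := by
    intro ε hε
    refine ⟨1, one_pos, fun r hr _ => ?_⟩
    have : FF g y α r 0 = 0 := by
      unfold FF
      rw [zero_mul, zero_smul, add_zero, Crest.Agent.R074.nu_of_norm_one hy, sub_self]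
    rw [this, zero_smul, sub_zero, norm_zero]
    positivity
  have h1 : PP1 g y α 1 := by
    intro ε hε
    refine ⟨1, one_pos, fun r hr _ => ?_⟩
    rw [one_smul, sub_self, norm_zero]
    positivity
  have hneg : ∀ a, PP1 g y α a → PP1 g y α (-a) := by
    intro a ha
    refine pp_refl hα hmid ha ?_
    rw [add_neg_cancel, zero_div]; exact h0
  have hhalf : ∀ a, PP1 g y α a → PP1 g y α (a / 2) := by
    intro a ha
    have := pp_mid hα hmid h0 ha
    rwa [zero_add] at this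
  have hadd : ∀ a b, PP1 g y α a → PP1 g y α b → PP1 g y α (a + b) := by
    intro a b ha hb
    refine pp_refl hα hmid h0 ?_
    rw [zero_add]
    exact pp_mid hα hmid ha hb
  let S : AddSubgroup ℝ :=
    { carrier := {t | PP1 g y α t}
      add_mem' := fun {a b} ha hb => hadd a b ha hb
      zero_mem' := h0
      neg_mem' := fun {a} ha => hneg a ha }
  have hpow : ∀ n : ℕ, ((1 : ℝ) / 2) ^ n ∈ S := by
    intro n
    induction n with
    | zero => rw [pow_zero]; exact h1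
    | succ n ih =>
      have := hhalf _ ih
      show PP1 g y α _
      rw [pow_succ]
      convert this using 1
      ring
  have hdense : Dense (S : Set ℝ) := by
    refine AddSubgroup.dense_of_not_isolated_zero S fun ε hε => ?_
    obtain ⟨n, hn⟩ := exists_pow_lt_of_lt_one hε (by norm_num : (1 : ℝ) / 2 < 1)
    exact ⟨_, hpow n, by positivity, hn⟩
  -- approximate `t`
  intro ε hε
  obtain ⟨δ3, hδ3, k3⟩ := ff_lip h hy hs hα 1 0 (ε := 1) one_pos
  set K : ℝ := ‖α‖ + 1 with hK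
  have hK0 : 0 < K := by positivity
  obtain ⟨s, hsS, hst⟩ := hdense.exists_dist_lt t (ε := ε / (4 * K)) (by positivity)
  rw [Real.dist_eq] at hst
  obtain ⟨δ1, hδ1, k1⟩ := (hsS : PP1 g y α s) (ε / 4) (by linarith)
  obtain ⟨δ2, hδ2, k2⟩ := ff_lip h hy hs hα t s (ε := ε / 4) (by linarith)
  refine ⟨min δ1 (min δ2 δ3), lt_min hδ1 (lt_min hδ2 hδ3), fun r hr hrδ => ?_⟩
  have j1 := k1 r hr (hrδ.trans_le (min_le_left _ _))
  have j2 := k2 r hr (hrδ.trans_le ((min_le_right _ _).trans (min_le_left _ _)))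
  have j3 := k3 r hr (hrδ.trans_le ((min_le_right _ _).trans (min_le_right _ _)))
  have hF0 : FF g y α r 0 = 0 := by
    unfold FF
    rw [zero_mul, zero_smul, add_zero, Crest.Agent.R074.nu_of_norm_one hy, sub_self]
  rw [hF0, sub_zero, sub_zero, abs_one, one_mul, ← hK] at j3
  set A := FF g y α r t
  set B := FF g y α r s
  set D := FF g y α r 1
  have e : A - t • D = (A - B) + (B - s • D) + (s - t) • D := by
    rw [sub_smul]; abel
  rw [e]
  have l1 := norm_add_le ((A - B) + (B - s • D)) ((s - t) • D)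
  have l2 := norm_add_le (A - B) (B - s • D)
  rw [norm_smul, Real.norm_eq_abs, abs_sub_comm s t] at l1
  have l3 : |t - s| * ‖D‖ ≤ ε / (4 * K) * (K * r) :=
    mul_le_mul hst.le j3 (norm_nonneg _) (by positivity)
  have l4 : ε / (4 * K) * (K * r) = ε / 4 * r := by field_simp
  have l5 : |t - s| * ‖α‖ ≤ ε / (4 * K) * K :=
    mul_le_mul hst.le (by rw [hK]; linarith) (norm_nonneg _) (by positivity)
  have l6 : ε / (4 * K) * K = ε / 4 := by field_simp
  have l7 : (|t - s| * ‖α‖ + ε / 4) * r ≤ (ε / 4 + ε / 4) * r :=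
    mul_le_mul_of_nonneg_right (by linarith) hr.le
  linarith

end HM

variable {X Y : Type*} [NormedAddCommGroup X] [NormedSpace ℝ X] [NormedAddCommGroup Y]
  [NormedSpace ℝ Y] {f : X → Y} {g : Y → X}

/-- homogeneity of the blow-up of `g` along rays at smooth points -/
theorem SI.homM (h : SI f g) (ho : ∀ x, ‖x‖ = 1 → f (-x) = -f x) {y : Y} (hy : ‖y‖ = 1)
    (hs : Smooth y) {α : Y} (hα : J y α = 0) : Hom g y α := by
  intro t
  rw [isLittleO_iff]
  intro ε hε
  obtain ⟨δ, hδ, hd⟩ := HM.pp_all h hy hs hα (h.symm.midAt (h.odd_symm ho) hy hs) t ε hε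
  filter_upwards [Ioo_mem_nhdsGT hδ] with r hr
  have h1 := hd r hr.1 hr.2
  rw [Real.norm_of_nonneg hr.1.le]
  unfold HM.FF at h1
  rw [one_mul] at h1
  exact h1

end Crest.Agent.R074
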