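import Crest.Agent.R074.Mazur

/-!
Row 74 (S0099): Kuratowski–Ulam theorem for continuous open maps, and a local genericity criterion
for smoothness.
-/

set_option autoImplicit false

namespace Crest.Agent.R074

open Metric Set Filter Topology

section KU

variable {Z U : Type*} [TopologicalSpace Z] [TopologicalSpace U]

/-- Kuratowski–Ulam for one dense open set. -/
theorem ku_open [SecondCountableTopology Z] {π : Z → U} (ho : IsOpenMap π) (hc : Continuous π)
    {D : Set Z} (hD : IsOpen D) (hd : Dense D) :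
    {u : U | ∀ O : Set Z, IsOpen O → (∃ z ∈ O, π z = u) → ∃ z ∈ O ∩ D, π z = u} ∈ residual U := by
  have hb := TopologicalSpace.isBasis_countableBasis Z
  have hcount := TopologicalSpace.countable_countableBasis Z
  have hsub : (⋂ B ∈ TopologicalSpace.countableBasis Z,
      (π '' (B ∩ D) ∪ (closure (π '' B))ᶜ)) ⊆
      {u : U | ∀ O : Set Z, IsOpen O → (∃ z ∈ O, π z = u) → ∃ z ∈ O ∩ D, π z = u} := by
    intro u hu O hO ⟨z, hz, hzu⟩
    obtain ⟨B, hB, hzB, hBO⟩ := hb.exists_subset_of_mem_open hz hO
    have h1 := mem_iInter₂.mp hu B hB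
    rcases h1 with h1 | h1
    · obtain ⟨w, hw, hwu⟩ := h1
      exact ⟨w, ⟨hBO hw.1, hw.2⟩, hwu⟩
    · have h2 : u ∈ π '' B := ⟨z, hzB, hzu⟩
      exact absurd (subset_closure h2) h1
  refine Filter.mem_of_superset ?_ hsub
  rw [countable_bInter_mem hcount]
  intro B hB
  have hBo : IsOpen B := hb.isOpen hB
  apply residual_of_dense_open
  · exact (ho _ (hBo.inter hD)).union isClosed_closure.isOpen_compl
  · intro u
    by_cases h : u ∈ closure (π '' B)
    · have h2 : π '' B ⊆ closure (π '' (B ∩ D)) := by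
        rintro _ ⟨z, hz, rfl⟩
        have h3 : z ∈ closure (B ∩ D) := hd.open_subset_closure_inter hBo hz
        exact image_closure_subset_closure_image hc ⟨z, h3, rfl⟩
      have h4 : closure (π '' B) ⊆ closure (π '' (B ∩ D)) :=
        closure_minimal h2 isClosed_closure
      exact closure_mono subset_union_left (h4 h)
    · exact subset_closure (Or.inr h)

/-- Kuratowski–Ulam theorem for a continuous open map with Baire fibres: for residually many `u`,
a residual set is dense in the fibre over `u`. -/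
theorem ku [SecondCountableTopology Z] {π : Z → U} (ho : IsOpenMap π) (hc : Continuous π)
    (hfib : ∀ u : U, BaireSpace {z : Z // π z = u}) {D : Set Z} (hD : D ∈ residual Z) :
    {u : U | ∀ O : Set Z, IsOpen O → (∃ z ∈ O, π z = u) → ∃ z ∈ O ∩ D, π z = u}
      ∈ residual U := by
  obtain ⟨S, hSo, hSd, hSc, hSD⟩ := mem_residual_iff.mp hD
  have h1 : (⋂ t ∈ S, {u : U | ∀ O : Set Z, IsOpen O → (∃ z ∈ O, π z = u) →
      ∃ z ∈ O ∩ t, π z = u}) ∈ residual U := by
    rw [countable_bInter_mem hSc]
    intro t ht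
    exact ku_open ho hc (hSo t ht) (hSd t ht)
  refine Filter.mem_of_superset h1 ?_
  intro u hu O hO ⟨z, hz, hzu⟩
  have := hfib u
  have hdense : Dense (⋂ t ∈ S, (Subtype.val ⁻¹' t : Set {z : Z // π z = u})) := by
    apply dense_biInter_of_isOpen
    · intro t ht
      exact (hSo t ht).preimage continuous_subtype_val
    · exact hSc
    · intro t ht
      rw [dense_iff_inter_open]
      rintro V hV ⟨w, hw⟩
      obtain ⟨O', hO', rfl⟩ := isOpen_induced_iff.mp hV
      obtain ⟨w', hw', hw'u⟩ := (mem_iInter₂.mp hu t ht) O' hO' ⟨w.1, hw, w.2⟩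
      exact ⟨⟨w', hw'u⟩, hw'.1, hw'.2⟩
  obtain ⟨w, hw1, hw2⟩ := dense_iff_inter_open.mp hdense (Subtype.val ⁻¹' O)
    (hO.preimage continuous_subtype_val) ⟨⟨z, hzu⟩, hz⟩
  refine ⟨w.1, ⟨hw1, hSD ?_⟩, w.2⟩
  rw [mem_sInter]
  intro t ht
  exact mem_iInter₂.mp hw2 t ht

/-- local version: an open set `O` dense in the open set `W` -/
theorem residual_of_local {W O : Set Z} (hW : IsOpen W) (hO : IsOpen O)
    (hd : ∀ z ∈ W, z ∈ closure O) : {z | z ∈ W → z ∈ O} ∈ residual Z := by
  have h1 : O ∩ W ∪ (closure W)ᶜ ∈ residual Z := by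
    apply residual_of_dense_open
    · exact (hO.inter hW).union isClosed_closure.isOpen_compl
    · intro z
      by_cases h : z ∈ closure W
      · have h2 : W ⊆ closure (O ∩ W) := by
          intro w hw
          have h3 := hd w hw
          rw [_root_.mem_closure_iff] at h3 ⊢
          intro V hV hwV
          obtain ⟨x, hx1, hx2⟩ := h3 (V ∩ W) (hV.inter hW) ⟨hwV, hw⟩
          exact ⟨x, hx1.1, hx2, hx1.2⟩
        exact closure_mono subset_union_left (closure_minimal h2 isClosed_closure h)
      · exact subset_closure (Or.inr h)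
  refine Filter.mem_of_superset h1 ?_
  rintro z (h | h)
  · exact fun _ => h.1
  · exact fun hz => absurd (subset_closure hz) h

variable {X : Type*} [NormedAddCommGroup X] [NormedSpace ℝ X]

/-- local genericity criterion for smoothness -/
theorem residual_smooth_of_local [TopologicalSpace.SeparableSpace X] {W : Set Z} (hW : IsOpen W)
    (φ : Z → X) (hφ : Continuous φ)
    (hd : ∀ (v : X) (ε : ℝ), 0 < ε → ∀ z ∈ W, z ∈ closure {z | φ z ∈ OV v ε}) :
    {z | z ∈ W → Smooth (φ z)} ∈ residual Z := by
  have : Nonempty X := ⟨0⟩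
  set D : ℕ → X := TopologicalSpace.denseSeq X with hDdef
  have hD : DenseRange D := TopologicalSpace.denseRange_denseSeq X
  have heq : {z | z ∈ W → Smooth (φ z)}
      = ⋂ n : ℕ, ⋂ m : ℕ, {z | z ∈ W → z ∈ {z | φ z ∈ OV (D n) (1 / ((m : ℝ) + 1))}} := by
    ext z
    simp only [mem_ofPred_eq, mem_iInter]
    constructor
    · intro h n m hz
      exact (smooth_iff_forall hD (φ z)).mp (h hz) n m
    · intro h hz
      exact (smooth_iff_forall hD (φ z)).mpr (fun n m => h n m hz)
  rw [heq, countable_iInter_mem]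
  intro n
  rw [countable_iInter_mem]
  intro m
  exact residual_of_local hW ((isOpen_OV _ _).preimage hφ) (hd _ _ (by positivity))

end KU

end Crest.Agent.R074
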