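import Crest.Agent.R074.KU
import Crest.Agent.R074.Cross
import Crest.Agent.R074.Centre

/-!
Row 74 (S0099): nice pairs. For a generic direction `u`, for generic `m` in the open ball, all
`u`-chords over `2⁻ⁿ m` have a smooth image difference.
-/

set_option autoImplicit false

namespace Crest.Agent.R074

open Metric Set Filter Topology

section KUprod

variable {A U : Type*} [TopologicalSpace A] [TopologicalSpace U]

/-- Kuratowski–Ulam for products, one dense open set -/
theorem ku_prod_open [SecondCountableTopology A] {t : Set (A × U)} (ho : IsOpen t) (hd : Dense t) :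
    {u : U | {a : A | (a, u) ∈ t} ∈ residual A} ∈ residual U := by
  have hb := TopologicalSpace.isBasis_countableBasis A
  have hcount := TopologicalSpace.countable_countableBasis A
  have hsub : (⋂ B ∈ TopologicalSpace.countableBasis A, {u : U | ∃ a ∈ B, (a, u) ∈ t}) ⊆
      {u : U | {a : A | (a, u) ∈ t} ∈ residual A} := by
    intro u hu
    apply residual_of_dense_open
    · exact ho.preimage (by fun_prop : Continuous (fun a : A => (a, u)))
    · rw [dense_iff_inter_open]
      rintro O hO ⟨a, ha⟩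
      obtain ⟨B, hB, haB, hBO⟩ := hb.exists_subset_of_mem_open ha hO
      obtain ⟨a', ha', hat⟩ := mem_iInter₂.mp hu B hB
      exact ⟨a', hBO ha', hat⟩
  refine Filter.mem_of_superset ?_ hsub
  rw [countable_bInter_mem hcount]
  intro B hB
  have hBo : IsOpen B := hb.isOpen hB
  have hBne : B.Nonempty := TopologicalSpace.nonempty_of_mem_countableBasis hB
  apply residual_of_dense_open
  · have e : {u : U | ∃ a ∈ B, (a, u) ∈ t} = Prod.snd '' (t ∩ B ×ˢ univ) := by
      ext u
      constructor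
      · rintro ⟨a, ha, hat⟩
        exact ⟨(a, u), ⟨hat, ha, mem_univ _⟩, rfl⟩
      · rintro ⟨⟨a, u'⟩, ⟨hat, ha, _⟩, rfl⟩
        exact ⟨a, ha, hat⟩
    rw [e]
    exact isOpenMap_snd _ (ho.inter (hBo.prod isOpen_univ))
  · rw [dense_iff_inter_open]
    rintro V hV ⟨u, hu⟩
    obtain ⟨a, ha⟩ := hBne
    obtain ⟨⟨a', u'⟩, h1, h2⟩ := dense_iff_inter_open.mp hd (B ×ˢ V) (hBo.prod hV) ⟨(a, u), ha, hu⟩
    exact ⟨u', h1.2, a', h1.1, h2⟩

/-- Kuratowski–Ulam for products -/
theorem ku_prod [SecondCountableTopology A] {R : Set (A × U)} (hR : R ∈ residual (A × U)) :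
    {u : U | {a : A | (a, u) ∈ R} ∈ residual A} ∈ residual U := by
  obtain ⟨S, hSo, hSd, hSc, hSR⟩ := mem_residual_iff.mp hR
  have h1 : (⋂ t ∈ S, {u : U | {a : A | (a, u) ∈ t} ∈ residual A}) ∈ residual U := by
    rw [countable_bInter_mem hSc]
    intro t ht
    exact ku_prod_open (hSo t ht) (hSd t ht)
  refine Filter.mem_of_superset h1 ?_
  intro u hu
  have h2 : (⋂ t ∈ S, {a : A | (a, u) ∈ t}) ∈ residual A := by
    rw [countable_bInter_mem hSc]
    intro t ht
    exact mem_iInter₂.mp hu t ht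
  refine Filter.mem_of_superset h2 ?_
  intro a ha
  apply hSR
  rw [mem_sInter]
  intro t ht
  exact mem_iInter₂.mp ha t ht

end KUprod

section Nice

variable {X Y : Type*} [NormedAddCommGroup X] [NormedSpace ℝ X] [NormedAddCommGroup Y]
  [NormedSpace ℝ Y] {f : X → Y} {g : Y → X}

/-- the image difference of the `u`-chord over `v` can be moved to an `ε`-smooth direction -/
theorem SI.dens_chord (hf : SI f g) (ho : ∀ x, ‖x‖ = 1 → f (-x) = -f x) {u v : X} (hu : ‖u‖ = 1)
    (hv : ‖v‖ < 1) (e : Y) {ε η : ℝ} (hε : 0 < ε) (hη : 0 < η) :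
    ∃ u' v' : X, ‖u'‖ = 1 ∧ ‖v'‖ < 1 ∧ ‖u' - u‖ < η ∧ ‖v' - v‖ < η ∧
      f (top u' v') - f (top (-u') v') ∈ OV e ε := by
  have hu' : ‖-u‖ = 1 := by rw [norm_neg]; exact hu
  set x := top u v with hx
  set w := top (-u) v with hw
  have hxn : ‖x‖ = 1 := norm_top hu hv
  have hwn : ‖w‖ = 1 := norm_top hu' hv
  set α := tau u v with hα
  set β := tau (-u) v with hβ
  have hα0 : 0 < α := tau_pos hu hv
  have hβ0 : 0 < β := tau_pos hu' hv
  have hxw : x - w = (α + β) • u := top_sub_top u v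
  have hxwn : ‖x - w‖ = α + β := norm_top_sub_top hu hv
  have hsumlt : ‖x + w‖ < 2 := norm_top_add_top_lt hu hv
  set A := f x with hA
  set W := f w with hW
  have hAn : ‖A‖ = 1 := hf.map _ hxn
  have hWn : ‖W‖ = 1 := hf.map _ hwn
  have hAW : ‖A + W‖ < 2 := by rw [hA, hW, hf.norm_add ho hxn hwn]; exact hsumlt
  have hAWn : ‖A - W‖ = α + β := by rw [hA, hW, hf.dist _ _ hxn hwn]; exact hxwn
  have hr0 : 0 < α + β := by linarith
  set ω : Y := (α + β)⁻¹ • (A - W) with hω
  have hωn : ‖ω‖ = 1 := by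
    rw [hω, norm_smul, norm_inv, Real.norm_of_nonneg hr0.le, hAWn, inv_mul_cancel₀ hr0.ne']
  have hAWω : A - W = (α + β) • ω := by
    rw [hω, smul_smul, mul_inv_cancel₀ hr0.ne', one_smul]
  obtain ⟨hAt, hWt⟩ := chord_eq_top hAn hWn hAW hr0.le hAWω
  set M : Y := (1 / 2 : ℝ) • (A + W) with hM
  have hMn : ‖M‖ < 1 := by
    rw [hM, norm_smul, Real.norm_of_nonneg (by norm_num)]; linarith
  -- error size
  set s : ℝ := β / (α + β) with hs
  have hs0 : 0 < s := by positivity
  have hs1 : s < 1 := by rw [hs, div_lt_one hr0]; linarith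
  have hv_eq : v = s • x + (1 - s) • w := by
    have e1 : x = v + α • u := rfl
    have e2 : w = v + β • (-u) := rfl
    rw [e1, e2]
    have e3 : s * α = (1 - s) * β := by
      rw [hs]; field_simp; ring
    have : s • (v + α • u) + (1 - s) • (v + β • (-u))
        = v + (s * α - (1 - s) * β) • u := by module
    rw [this, e3, sub_self, zero_smul, add_zero]
  set κ : ℝ := min (min (η / 2) ((1 - ‖v‖) / 2)) (min ((α + β) / 4) (η * (α + β) / 8)) with hκ
  have hκ0 : 0 < κ := by
    refine lt_min (lt_min (by positivity) ?_) (lt_min (by positivity) (by positivity))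
    linarith
  have hκ1 : κ ≤ η / 2 := (min_le_left _ _).trans (min_le_left _ _)
  have hκ2 : κ ≤ (1 - ‖v‖) / 2 := (min_le_left _ _).trans (min_le_right _ _)
  have hκ3 : κ ≤ (α + β) / 4 := (min_le_right _ _).trans (min_le_left _ _)
  have hκ4 : κ ≤ η * (α + β) / 8 := (min_le_right _ _).trans (min_le_right _ _)
  -- continuity of the ends in the direction
  have hc1 := Metric.continuousOn_iff.mp (continuousOn_top_left hMn) ω (by simpa using hωn) κ hκ0
  have hc2' : ContinuousOn (fun ω' : Y => top (-ω') M) (sphere 0 1) := by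
    have h1 : ContinuousOn (fun ω' : Y => -ω') (sphere 0 1) := by fun_prop
    refine (continuousOn_top_left hMn).comp h1 ?_
    intro ω' hω'
    simpa using hω'
  have hc2 := Metric.continuousOn_iff.mp hc2' ω (by simpa using hωn) κ hκ0
  obtain ⟨δ₁, hδ₁, hc1⟩ := hc1
  obtain ⟨δ₂, hδ₂, hc2⟩ := hc2
  obtain ⟨ω', hω1, hω2, hω3⟩ := exists_OV_sphere hωn e hε (lt_min hδ₁ hδ₂)
  have hω1' : ‖-ω'‖ = 1 := by rw [norm_neg]; exact hω1
  set A' := top ω' M with hA'
  set W' := top (-ω') M with hW'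
  have hA'n : ‖A'‖ = 1 := norm_top hω1 hMn
  have hW'n : ‖W'‖ = 1 := norm_top hω1' hMn
  have hA'c : ‖A' - A‖ < κ := by
    have := hc1 ω' (by simpa using hω1) (by
      rw [dist_eq_norm]; exact hω2.trans_le (min_le_left _ _))
    rw [dist_eq_norm, ← hAt] at this
    exact this
  have hW'c : ‖W' - W‖ < κ := by
    have := hc2 ω' (by simpa using hω1) (by
      rw [dist_eq_norm]; exact hω2.trans_le (min_le_right _ _))
    rw [dist_eq_norm, ← hWt] at this
    exact this
  have hdiff : A' - W' = (tau ω' M + tau (-ω') M) • ω' := top_sub_top _ _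
  have hpos : 0 < tau ω' M + tau (-ω') M := add_pos (tau_pos hω1 hMn) (tau_pos hω1' hMn)
  -- pull back
  set x' := g A' with hx'
  set w' := g W' with hw'
  have hx'n : ‖x'‖ = 1 := hf.imap _ hA'n
  have hw'n : ‖w'‖ = 1 := hf.imap _ hW'n
  have hfx' : f x' = A' := hf.right _ hA'n
  have hfw' : f w' = W' := hf.right _ hW'n
  have hx'c : ‖x' - x‖ < κ := by rw [← hf.dist _ _ hx'n hxn, hfx']; exact hA'c
  have hw'c : ‖w' - w‖ < κ := by rw [← hf.dist _ _ hw'n hwn, hfw']; exact hW'c
  set v' : X := s • x' + (1 - s) • w' with hv'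
  have hv'c : ‖v' - v‖ < κ := by
    have e1 : v' - v = s • (x' - x) + (1 - s) • (w' - w) := by
      rw [hv', smul_sub, smul_sub]
      conv_lhs => rw [hv_eq]
      abel
    rw [e1]
    refine (norm_add_le _ _).trans_lt ?_
    rw [norm_smul, norm_smul, Real.norm_of_nonneg hs0.le, Real.norm_of_nonneg (by linarith)]
    nlinarith
  have hv'n : ‖v'‖ < 1 := by
    have e1 : v' = v + (v' - v) := by abel
    rw [e1]
    refine (norm_add_le _ _).trans_lt ?_
    linarith
  set ρ := ‖x' - w'‖ with hρ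
  have hρc : |ρ - (α + β)| < 2 * κ := by
    rw [← hxwn, hρ]
    refine (abs_norm_sub_norm_le _ _).trans_lt ?_
    have e1 : x' - w' - (x - w) = (x' - x) - (w' - w) := by abel
    rw [e1]
    refine (norm_sub_le _ _).trans_lt ?_
    linarith
  have hρ0 : 0 < ρ := by
    have := (abs_lt.mp hρc).1
    linarith
  set u' : X := ρ⁻¹ • (x' - w') with hu'def
  have hu'n : ‖u'‖ = 1 := by
    rw [hu'def, norm_smul, norm_inv, Real.norm_of_nonneg hρ0.le, ← hρ, inv_mul_cancel₀ hρ0.ne']
  have hu'n' : ‖-u'‖ = 1 := by rw [norm_neg]; exact hu'n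
  have hx'w' : x' - w' = ρ • u' := by
    rw [hu'def, smul_smul, mul_inv_cancel₀ hρ0.ne', one_smul]
  have hu'c : ‖u' - u‖ < η := by
    have e1 : (α + β) • (u' - u) = ((α + β) - ρ) • u' + ((x' - x) - (w' - w)) := by
      have e2 : (x' - x) - (w' - w) = ρ • u' - (α + β) • u := by rw [← hx'w', ← hxw]; abel
      rw [e2]
      module
    have h1 : (α + β) * ‖u' - u‖ ≤ 4 * κ := by
      have h2 : ‖(α + β) • (u' - u)‖ = (α + β) * ‖u' - u‖ := by
        rw [norm_smul, Real.norm_of_nonneg hr0.le]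
      rw [← h2, e1]
      refine (norm_add_le _ _).trans ?_
      rw [norm_smul, hu'n, mul_one, Real.norm_eq_abs, abs_sub_comm]
      have h3 := norm_sub_le (x' - x) (w' - w)
      linarith
    have h4 : 4 * κ ≤ η * (α + β) / 2 := by linarith
    by_contra hcon
    push Not at hcon
    nlinarith
  have hxt : x' = top u' v' := by
    apply eq_top hv'n hx'n (mul_nonneg (by linarith : (0 : ℝ) ≤ 1 - s) hρ0.le)
    rw [mul_smul, ← hx'w', hv']
    module
  have hwt : w' = top (-u') v' := by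
    apply eq_top hv'n hw'n (mul_nonneg hs0.le hρ0.le)
    rw [smul_neg, mul_smul, ← hx'w', hv']
    module
  refine ⟨u', v', hu'n, hv'n, hu'c, by linarith, ?_⟩
  rw [← hxt, ← hwt, hfx', hfw', hdiff]
  exact OV_smul hω3 hpos

/-- the map `(m, u) ↦ f (top u (c m)) - f (top (-u) (c m))`, `0 < c ≤ 1` -/
theorem SI.residual_chord (hf : SI f g) (ho : ∀ x, ‖x‖ = 1 → f (-x) = -f x)
    [TopologicalSpace.SeparableSpace Y] {c : ℝ} (hc0 : 0 < c) (hc1 : c ≤ 1) :
    {q : ball (0 : X) 1 × sphere (0 : X) 1 |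
      Smooth (f (top (q.2 : X) (c • (q.1 : X))) - f (top (-(q.2 : X)) (c • (q.1 : X))))} ∈
      residual (ball (0 : X) 1 × sphere (0 : X) 1) := by
  have hin : ∀ q : ball (0 : X) 1 × sphere (0 : X) 1, ‖c • (q.1 : X)‖ < 1 := by
    intro q
    have h1 : ‖(q.1 : X)‖ < 1 := mem_ball_zero_iff.mp q.1.2
    rw [norm_smul, Real.norm_of_nonneg hc0.le]
    nlinarith [norm_nonneg (q.1 : X)]
  have hs1 : ∀ q : ball (0 : X) 1 × sphere (0 : X) 1, ‖(q.2 : X)‖ = 1 := fun q => by simp
  have hs2 : ∀ q : ball (0 : X) 1 × sphere (0 : X) 1, ‖-(q.2 : X)‖ = 1 := fun q => by simp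
  have hct : Continuous (fun q : ball (0 : X) 1 × sphere (0 : X) 1 =>
      top (q.2 : X) (c • (q.1 : X))) := by
    have h1 : Continuous (fun q : ball (0 : X) 1 × sphere (0 : X) 1 =>
        (((q.2 : X), c • (q.1 : X)) : X × X)) := by fun_prop
    exact (continuousOn_top (X := X)).comp_continuous h1 (fun q => ⟨hs1 q, hin q⟩)
  have hcb : Continuous (fun q : ball (0 : X) 1 × sphere (0 : X) 1 =>
      top (-(q.2 : X)) (c • (q.1 : X))) := by
    have h1 : Continuous (fun q : ball (0 : X) 1 × sphere (0 : X) 1 =>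
        ((-(q.2 : X), c • (q.1 : X)) : X × X)) := by fun_prop
    exact (continuousOn_top (X := X)).comp_continuous h1 (fun q => ⟨hs2 q, hin q⟩)
  have hlift : ∀ (φ : ball (0 : X) 1 × sphere (0 : X) 1 → X), Continuous φ →
      (∀ q, ‖φ q‖ = 1) → Continuous (fun q => f (φ q)) := by
    intro φ hφ h1
    have h2 : Continuous (fun z => (⟨φ z, by simpa using h1 z⟩ : sphere (0 : X) 1)) :=
      Continuous.subtype_mk hφ _
    exact hf.continuous.comp h2
  have hφc : Continuous (fun q : ball (0 : X) 1 × sphere (0 : X) 1 =>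
      f (top (q.2 : X) (c • (q.1 : X))) - f (top (-(q.2 : X)) (c • (q.1 : X)))) :=
    (hlift _ hct (fun q => norm_top (hs1 q) (hin q))).sub
      (hlift _ hcb (fun q => norm_top (hs2 q) (hin q)))
  refine residual_smooth_of_dense _ hφc ?_
  intro e ε hε
  rw [Metric.dense_iff]
  intro q η hη
  have hq1 : ‖(q.1 : X)‖ < 1 := mem_ball_zero_iff.mp q.1.2
  obtain ⟨u', v', hu', hv', hcu, hcv, hOV⟩ := hf.dens_chord ho (hs1 q) (hin q) e hε
    (show 0 < min η (c * min η (1 - ‖(q.1 : X)‖)) from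
      lt_min hη (mul_pos hc0 (lt_min hη (by linarith))))
  set m' : X := c⁻¹ • v' with hm'
  have hcm' : c • m' = v' := by rw [hm', smul_smul, mul_inv_cancel₀ hc0.ne', one_smul]
  have hm'c : ‖m' - (q.1 : X)‖ < min η (1 - ‖(q.1 : X)‖) := by
    have e1 : c • (m' - (q.1 : X)) = v' - c • (q.1 : X) := by rw [smul_sub, hcm']
    have h1 : c * ‖m' - (q.1 : X)‖ = ‖v' - c • (q.1 : X)‖ := by
      rw [← e1, norm_smul, Real.norm_of_nonneg hc0.le]
    have h2 : ‖v' - c • (q.1 : X)‖ < c * min η (1 - ‖(q.1 : X)‖) :=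
      hcv.trans_le (min_le_right _ _)
    rw [← h1] at h2
    exact lt_of_mul_lt_mul_left h2 hc0.le
  have hm'n : ‖m'‖ < 1 := by
    have e1 : m' = (q.1 : X) + (m' - (q.1 : X)) := by abel
    rw [e1]
    refine (norm_add_le _ _).trans_lt ?_
    have := hm'c.trans_le (min_le_right _ _)
    linarith
  have hmm : m' ∈ ball (0 : X) 1 := mem_ball_zero_iff.mpr hm'n
  have hum : u' ∈ sphere (0 : X) 1 := mem_sphere_zero_iff_norm.mpr hu'
  refine ⟨(⟨m', hmm⟩, ⟨u', hum⟩), ?_, ?_⟩
  · have g1 : Dist.dist (⟨m', hmm⟩ : ball (0 : X) 1) q.1 < η := by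
      rw [Subtype.dist_eq, dist_eq_norm]
      exact hm'c.trans_le (min_le_left _ _)
    have g2 : Dist.dist (⟨u', hum⟩ : sphere (0 : X) 1) q.2 < η := by
      rw [Subtype.dist_eq, dist_eq_norm]
      exact hcu.trans_le (min_le_left _ _)
    rw [mem_ball, Prod.dist_eq]
    exact max_lt g1 g2
  · show f (top u' (c • m')) - f (top (-u') (c • m')) ∈ OV e ε
    rw [hcm']
    exact hOV

/-- NICE PAIRS: for a generic direction `u`, generic `m`: the `u`-chords over all `2⁻ⁿ m` have
smooth image differences. -/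
theorem SI.residual_nice (hf : SI f g) (ho : ∀ x, ‖x‖ = 1 → f (-x) = -f x)
    [TopologicalSpace.SeparableSpace X] [TopologicalSpace.SeparableSpace Y] :
    {u : sphere (0 : X) 1 | {m : ball (0 : X) 1 | ∀ n : ℕ,
      Smooth (f (top (u : X) (((1 / 2 : ℝ) ^ n) • (m : X))) -
        f (top (-(u : X)) (((1 / 2 : ℝ) ^ n) • (m : X))))} ∈ residual (ball (0 : X) 1)} ∈
      residual (sphere (0 : X) 1) := by
  have : SecondCountableTopology X := UniformSpace.secondCountable_of_separable X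
  have h1 : ∀ n : ℕ, {u : sphere (0 : X) 1 | {m : ball (0 : X) 1 |
      (m, u) ∈ {q : ball (0 : X) 1 × sphere (0 : X) 1 |
      Smooth (f (top (q.2 : X) (((1 / 2 : ℝ) ^ n) • (q.1 : X))) -
        f (top (-(q.2 : X)) (((1 / 2 : ℝ) ^ n) • (q.1 : X))))}} ∈ residual (ball (0 : X) 1)} ∈
      residual (sphere (0 : X) 1) := by
    intro n
    exact ku_prod (hf.residual_chord ho (by positivity)
      (pow_le_one₀ (by norm_num) (by norm_num)))
  have h2 := countable_iInter_mem.mpr h1
  refine Filter.mem_of_superset h2 ?_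
  intro u hu
  have h3 : ∀ n : ℕ, {m : ball (0 : X) 1 | Smooth (f (top (u : X) (((1 / 2 : ℝ) ^ n) • (m : X))) -
        f (top (-(u : X)) (((1 / 2 : ℝ) ^ n) • (m : X))))} ∈ residual (ball (0 : X) 1) := by
    intro n
    exact mem_iInter.mp hu n
  have h4 := countable_iInter_mem.mpr h3
  refine Filter.mem_of_superset h4 ?_
  intro m hm
  exact fun n => mem_iInter.mp hm n

/-- metric form of `residual_nice` -/
theorem exists_nice [CompleteSpace X] {u : X} {P : X → Prop}
    (h : {m : ball (0 : X) 1 | P m} ∈ residual (ball (0 : X) 1)) {m : X} (hm : ‖m‖ < 1) {ε : ℝ}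
    (hε : 0 < ε) : ∃ m' : X, ‖m'‖ < 1 ∧ ‖m' - m‖ < ε ∧ P m' := by
  have : BaireSpace (ball (0 : X) 1) := isOpen_ball.baireSpace
  have hd := dense_of_mem_residual h
  rw [Metric.dense_iff] at hd
  obtain ⟨m', h1, h2⟩ := hd ⟨m, mem_ball_zero_iff.mpr hm⟩ ε hε
  refine ⟨m', mem_ball_zero_iff.mp m'.2, ?_, h2⟩
  rwa [mem_ball, Subtype.dist_eq, dist_eq_norm] at h1

end Nice

end Crest.Agent.R074
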