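import Crest.Agent.R074.LTAFin
import Crest.Agent.R074.HomM

/-!
Row 74 (S0099): the module statement `LTAStatement` of `Asm.lean` (helper29).
-/

set_option autoImplicit false

namespace Crest.Agent.R074

universe u v

/-- local Theorem A with a universal radius at every generic point -/
theorem ltaStatement : LTAStatement.{u, v} := by
  intro X Y _ _ _ _ _ _ _ _ f g h ho _
  exact ⟨1 / 64, by norm_num,
    genLTA_of_mid h ho (fun y hy hs => h.symm.midAt (h.odd_symm ho) hy hs)
      (fun y hy hs ζ hζ => h.homM ho hy hs hζ)⟩

end Crest.Agent.R074
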