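import Crest.Agent.R074.Centre

/-!
Row 74 (S0099): Mazur-Ulam for open balls: a surjective isometry between the balls of radius `ρ`
fixing `0` is the restriction of a linear isometry.
-/

set_option autoImplicit false
set_option linter.unusedSectionVars false

namespace Crest.Agent.R074

open Metric Set Filter Topology

section MUBall

variable {E F : Type*} [NormedAddCommGroup E] [NormedSpace ℝ E] [NormedAddCommGroup F]
  [NormedSpace ℝ F] {φ : E → F} {ψ : F → E} {ρ : ℝ}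

/-- isometric bijection between open balls of radius `ρ`, fixing `0`. -/
structure BallIso (ρ : ℝ) (φ : E → F) (ψ : F → E) : Prop where
  pos : 0 < ρ
  zero : φ 0 = 0
  imap : ∀ y, ‖y‖ < ρ → ‖ψ y‖ < ρ
  right : ∀ y, ‖y‖ < ρ → φ (ψ y) = y
  iso : ∀ x x', ‖x‖ < ρ → ‖x'‖ < ρ → ‖φ x - φ x'‖ = ‖x - x'‖

theorem BallIso.norm (h : BallIso ρ φ ψ) {x : E} (hx : ‖x‖ < ρ) : ‖φ x‖ = ‖x‖ := by
  have := h.iso x 0 hx (by rw [norm_zero]; exact h.pos)
  rwa [h.zero, sub_zero, sub_zero] at this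

theorem BallIso.left (h : BallIso ρ φ ψ) {x : E} (hx : ‖x‖ < ρ) : ψ (φ x) = x := by
  have h1 : ‖φ x‖ < ρ := by rw [h.norm hx]; exact hx
  have h2 := h.iso (ψ (φ x)) x (h.imap _ h1) hx
  rw [h.right _ h1, sub_self, norm_zero] at h2
  exact (sub_eq_zero.mp (norm_eq_zero.mp h2.symm))

theorem BallIso.symm (h : BallIso ρ φ ψ) : BallIso ρ ψ φ where
  pos := h.pos
  zero := by
    have := h.left (x := 0) (by rw [norm_zero]; exact h.pos)
    rwa [h.zero] at this
  imap := fun x hx => by rw [h.norm hx]; exact hx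
  right := fun x hx => h.left hx
  iso := fun y y' hy hy' => by
    have := h.iso _ _ (h.imap y hy) (h.imap y' hy')
    rw [h.right y hy, h.right y' hy'] at this
    exact this.symm

/-- the midpoint of `0` and `w` is preserved. -/
theorem BallIso.half (h : BallIso ρ φ ψ) {w : E} (hw : ‖w‖ < ρ) :
    φ w = (2 : ℝ) • φ ((1 / 2 : ℝ) • w) := by
  set U : Set E := {z | ‖z‖ = ‖w‖ / 2 ∧ ‖w - z‖ = ‖w‖ / 2} with hU
  have hlt : ‖w‖ / 2 < ρ := by have := norm_nonneg w; linarith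
  have hUρ : ∀ z ∈ U, ‖z‖ < ρ := fun z hz => by rw [hz.1]; exact hlt
  have hsub : ∀ z ∈ U, ‖φ w - φ z‖ = ‖w‖ / 2 := fun z hz => by
    rw [h.iso w z hw (hUρ z hz)]; exact hz.2
  have hsubρ : ∀ z ∈ U, ‖φ w - φ z‖ < ρ := fun z hz => by rw [hsub z hz]; exact hlt
  have hft : ∀ z ∈ U, φ (ψ (φ w - φ z)) = φ w - φ z := fun z hz => h.right _ (hsubρ z hz)
  have htρ : ∀ z ∈ U, ‖ψ (φ w - φ z)‖ < ρ := fun z hz => h.imap _ (hsubρ z hz)
  have htn : ∀ z ∈ U, ‖ψ (φ w - φ z)‖ = ‖w‖ / 2 := fun z hz => by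
    rw [← h.norm (htρ z hz), hft z hz, hsub z hz]
  have htU : ∀ z ∈ U, ψ (φ w - φ z) ∈ U := fun z hz => by
    refine ⟨htn z hz, ?_⟩
    rw [← h.iso _ _ hw (htρ z hz), hft z hz, sub_sub_cancel, h.norm (hUρ z hz), hz.1]
  have hs : Central U (fun z => w - z) :=
    { maps := fun x hx => ⟨hx.2, by show ‖w - (w - x)‖ = _; rw [sub_sub_cancel]; exact hx.1⟩
      iso := fun x _ y _ => by
        show Dist.dist (w - x) (w - y) = Dist.dist x y
        rw [dist_sub_left]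
      invol := fun x _ => by show w - (w - x) = x; rw [sub_sub_cancel]
      central := fun x _ y _ => by
        show 2 * Dist.dist x y ≤ Dist.dist x (w - x) + Dist.dist y (w - y)
        rw [dist_eq_norm, dist_eq_norm, dist_eq_norm]
        have e : (2 : ℝ) • (x - y) = (x - (w - x)) - (y - (w - y)) := by
          rw [two_smul]; abel
        have h1 : 2 * ‖x - y‖ = ‖(2 : ℝ) • (x - y)‖ := by
          rw [norm_smul, Real.norm_of_nonneg (by norm_num)]
        rw [h1, e]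
        exact norm_sub_le _ _ }
  have ht : Central U (fun z => ψ (φ w - φ z)) :=
    { maps := htU
      iso := fun x hx y hy => by
        show Dist.dist (ψ (φ w - φ x)) (ψ (φ w - φ y)) = Dist.dist x y
        rw [dist_eq_norm, dist_eq_norm, ← h.iso _ _ (htρ x hx) (htρ y hy), hft x hx, hft y hy,
          sub_sub_sub_cancel_left, h.iso _ _ (hUρ y hy) (hUρ x hx), norm_sub_rev]
      invol := fun x hx => by
        show ψ (φ w - φ (ψ (φ w - φ x))) = x
        rw [hft x hx, sub_sub_cancel, h.left (hUρ x hx)]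
      central := fun x hx y hy => by
        show 2 * Dist.dist x y ≤ Dist.dist x (ψ (φ w - φ x)) + Dist.dist y (ψ (φ w - φ y))
        rw [dist_eq_norm, dist_eq_norm, dist_eq_norm, ← h.iso _ _ (hUρ x hx) (hUρ y hy),
          ← h.iso _ _ (hUρ x hx) (htρ x hx), ← h.iso _ _ (hUρ y hy) (htρ y hy), hft x hx,
          hft y hy]
        have e : (2 : ℝ) • (φ x - φ y) = (φ x - (φ w - φ x)) - (φ y - (φ w - φ y)) := by
          rw [two_smul]; abel
        have h1 : 2 * ‖φ x - φ y‖ = ‖(2 : ℝ) • (φ x - φ y)‖ := by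
          rw [norm_smul, Real.norm_of_nonneg (by norm_num)]
        rw [h1, e]
        exact norm_sub_le _ _ }
  have hD : ∀ x ∈ U, ∀ y ∈ U, Dist.dist x y ≤ ‖w‖ := fun x hx y hy => by
    rw [dist_eq_norm]
    refine (norm_sub_le _ _).trans ?_
    rw [hx.1, hy.1]
    linarith
  have hmem : (1 / 2 : ℝ) • w ∈ U := by
    constructor
    · rw [norm_smul, Real.norm_of_nonneg (by norm_num)]; ring
    · have e : w - (1 / 2 : ℝ) • w = (1 / 2 : ℝ) • w := by
        rw [sub_eq_iff_eq_add, ← add_smul]; norm_num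
      rw [e, norm_smul, Real.norm_of_nonneg (by norm_num)]; ring
  have key := Central.eq hD hs ht hmem
  have e : w - (1 / 2 : ℝ) • w = (1 / 2 : ℝ) • w := by
    rw [sub_eq_iff_eq_add, ← add_smul]; norm_num
  simp only [e, dist_self] at key
  have key2 : (1 / 2 : ℝ) • w = ψ (φ w - φ ((1 / 2 : ℝ) • w)) := dist_eq_zero.mp key.symm
  have key3 := hft _ hmem
  rw [← key2] at key3
  rw [two_smul]
  exact (sub_eq_iff_eq_add.mp key3.symm)

theorem BallIso.half_pow (h : BallIso ρ φ ψ) {w : E} (hw : ‖w‖ < ρ) (n : ℕ) :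
    φ w = (2 : ℝ) ^ n • φ ((1 / 2 : ℝ) ^ n • w) := by
  induction n with
  | zero => simp
  | succ n ih =>
    have hn : ‖(1 / 2 : ℝ) ^ n • w‖ < ρ := by
      rw [norm_smul, Real.norm_of_nonneg (by positivity)]
      have h1 : (1 / 2 : ℝ) ^ n ≤ 1 := pow_le_one₀ (by norm_num) (by norm_num)
      have h2 := norm_nonneg w
      nlinarith
    rw [ih, h.half hn, smul_smul, smul_smul, ← pow_succ, mul_comm, ← pow_succ]

/-- global extension by homogeneity -/
noncomputable def hext (ρ : ℝ) (φ : E → F) (x : E) : F :=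
  open Classical in
  if h : ∃ n : ℕ, ‖(1 / 2 : ℝ) ^ n • x‖ < ρ then
    (2 : ℝ) ^ (Classical.choose h) • φ ((1 / 2 : ℝ) ^ (Classical.choose h) • x) else 0

theorem exists_half_pow {ρ : ℝ} (hρ : 0 < ρ) (x : E) : ∃ n : ℕ, ‖(1 / 2 : ℝ) ^ n • x‖ < ρ := by
  obtain ⟨n, hn⟩ := exists_pow_lt_of_lt_one (show 0 < ρ / (‖x‖ + 1) by
    have := norm_nonneg x; positivity) (show (1 / 2 : ℝ) < 1 by norm_num)
  refine ⟨n, ?_⟩
  rw [norm_smul, Real.norm_of_nonneg (by positivity)]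
  have h1 := norm_nonneg x
  rw [lt_div_iff₀ (by linarith)] at hn
  have h2 : 0 < (1 / 2 : ℝ) ^ n := by positivity
  nlinarith

theorem half_pow_lt_of_le {x : E} {n m : ℕ} (hnm : n ≤ m) (hn : ‖(1 / 2 : ℝ) ^ n • x‖ < ρ) :
    ‖(1 / 2 : ℝ) ^ m • x‖ < ρ := by
  refine lt_of_le_of_lt ?_ hn
  rw [norm_smul, norm_smul, Real.norm_of_nonneg (by positivity),
    Real.norm_of_nonneg (by positivity)]
  exact mul_le_mul_of_nonneg_right (pow_le_pow_of_le_one (by norm_num) (by norm_num) hnm)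
    (norm_nonneg _)

theorem BallIso.pow_eq (h : BallIso ρ φ ψ) {x : E} {n m : ℕ} (hnm : n ≤ m)
    (hn : ‖(1 / 2 : ℝ) ^ n • x‖ < ρ) :
    (2 : ℝ) ^ n • φ ((1 / 2 : ℝ) ^ n • x) = (2 : ℝ) ^ m • φ ((1 / 2 : ℝ) ^ m • x) := by
  obtain ⟨k, rfl⟩ := Nat.exists_eq_add_of_le hnm
  rw [h.half_pow hn k, smul_smul, smul_smul, ← pow_add, ← pow_add, add_comm k n]

theorem BallIso.hext_eq (h : BallIso ρ φ ψ) {x : E} {n : ℕ}
    (hn : ‖(1 / 2 : ℝ) ^ n • x‖ < ρ) :
    hext ρ φ x = (2 : ℝ) ^ n • φ ((1 / 2 : ℝ) ^ n • x) := by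
  have hex : ∃ n : ℕ, ‖(1 / 2 : ℝ) ^ n • x‖ < ρ := ⟨n, hn⟩
  unfold hext
  rw [dif_pos hex]
  rcases le_total (Classical.choose hex) n with h1 | h1
  · exact h.pow_eq h1 (Classical.choose_spec hex)
  · exact (h.pow_eq h1 hn).symm

theorem BallIso.hext_of_lt (h : BallIso ρ φ ψ) {x : E} (hx : ‖x‖ < ρ) : hext ρ φ x = φ x := by
  have := h.hext_eq (x := x) (n := 0) (by simpa using hx)
  simpa using this

theorem BallIso.hext_iso (h : BallIso ρ φ ψ) (x x' : E) :
    ‖hext ρ φ x - hext ρ φ x'‖ = ‖x - x'‖ := by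
  obtain ⟨n, hn⟩ := exists_half_pow h.pos x
  obtain ⟨m, hm⟩ := exists_half_pow h.pos x'
  have hn' := half_pow_lt_of_le (le_max_left n m) hn
  have hm' := half_pow_lt_of_le (le_max_right n m) hm
  rw [h.hext_eq hn', h.hext_eq hm', ← smul_sub, norm_smul, h.iso _ _ hn' hm', ← smul_sub,
    norm_smul, Real.norm_of_nonneg (by positivity), Real.norm_of_nonneg (by positivity),
    ← mul_assoc, ← mul_pow]
  norm_num

theorem BallIso.hext_right (h : BallIso ρ φ ψ) (y : F) : hext ρ φ (hext ρ ψ y) = y := by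
  obtain ⟨n, hn⟩ := exists_half_pow h.pos y
  have h2n : (1 / 2 : ℝ) ^ n * 2 ^ n = 1 := by rw [← mul_pow]; norm_num
  have h1 : (1 / 2 : ℝ) ^ n • (hext ρ ψ y) = ψ ((1 / 2 : ℝ) ^ n • y) := by
    rw [h.symm.hext_eq hn, smul_smul, h2n, one_smul]
  have h2 : ‖(1 / 2 : ℝ) ^ n • (hext ρ ψ y)‖ < ρ := by rw [h1]; exact h.imap _ hn
  rw [h.hext_eq h2, h1, h.right _ hn, smul_smul, mul_comm, h2n, one_smul]

/-- MAZUR-ULAM FOR BALLS -/
theorem BallIso.exists_linear (h : BallIso ρ φ ψ) :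
    ∃ L : E ≃ₗᵢ[ℝ] F, ∀ x, ‖x‖ < ρ → φ x = L x := by
  have hiso : Isometry (hext ρ φ) := Isometry.of_dist_eq (fun x y => by
    rw [dist_eq_norm, dist_eq_norm]; exact h.hext_iso x y)
  let e : E ≃ᵢ F := IsometryEquiv.mk' (hext ρ φ) (hext ρ ψ) h.hext_right hiso
  have he0 : e 0 = 0 := by
    show hext ρ φ 0 = 0
    rw [h.hext_of_lt (by rw [norm_zero]; exact h.pos), h.zero]
  refine ⟨e.toRealLinearIsometryEquivOfMapZero he0, fun x hx => ?_⟩
  rw [IsometryEquiv.coe_toRealLinearIsometryEquivOfMapZero]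
  show φ x = hext ρ φ x
  rw [h.hext_of_lt hx]

end MUBall

end Crest.Agent.R074
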