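import Crest.Agent.R074.Expo

/-!
Row 74 (S0099): propagation of local linearity along exposed smooth chords (P2).
-/

set_option autoImplicit false

namespace Crest.Agent.R074

open Metric Set Filter Topology

section Prop2

variable {X Y : Type*} [NormedAddCommGroup X] [NormedSpace ℝ X] [NormedAddCommGroup Y]
  [NormedSpace ℝ Y] {f : X → Y} {g : Y → X}

/-- `J x (x - y) > 0` for nondegenerate chords -/
theorem P2.J_pos {x y : X} (hx : ‖x‖ = 1) (hlt : ‖x + y‖ < 2) : 0 < J x (x - y) := by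
  have h1 := J_le x (x + y)
  rw [map_add, J_self, hx] at h1
  rw [map_sub, J_self, hx]
  linarith

/-- along a tangent ray, local linearity gives the tangent vector `T v` -/
theorem P2.tangent (_h : SI f g) {T : X →L[ℝ] Y} {τ : Y} {x : X} (hx : ‖x‖ = 1)
    (hsx : Smooth x) (hloc : ∃ ε : ℝ, 0 < ε ∧ ∀ x', ‖x'‖ = 1 → ‖x' - x‖ < ε → f x' = T x' + τ)
    {v : X} (hv : J x v = 0) {ε : ℝ} (hε : 0 < ε) : ∃ δ : ℝ, 0 < δ ∧ ∀ r : ℝ, 0 < r → r < δ →
      x + r • v ≠ 0 ∧ ‖nu (x + r • v) - (x + r • v)‖ ≤ ε * r ∧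
      f (nu (x + r • v)) = T (nu (x + r • v)) + τ ∧
      ‖f (nu (x + r • v)) - (f x + r • T v)‖ ≤ ‖T‖ * (ε * r) := by
  obtain ⟨ε₀, hε₀, hl⟩ := hloc
  obtain ⟨δ, hδ, hd⟩ := hsx.nu_approx hx hv hε
  have hc : 0 < 2 * ‖v‖ + 1 := by positivity
  refine ⟨min δ (ε₀ / (2 * ‖v‖ + 1)), lt_min hδ (div_pos hε₀ hc), fun r hr hrδ => ?_⟩
  obtain ⟨h0, h1⟩ := hd r hr (hrδ.trans_le (min_le_left _ _))
  have h2 : r < ε₀ / (2 * ‖v‖ + 1) := hrδ.trans_le (min_le_right _ _)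
  have h3 : f (nu (x + r • v)) = T (nu (x + r • v)) + τ := by
    apply hl _ (norm_nu h0)
    refine (norm_nu_sub_le h0 hx).trans_lt ?_
    rw [add_sub_cancel_left, norm_smul, Real.norm_of_nonneg hr.le]
    rw [lt_div_iff₀ hc] at h2
    linarith
  have hfx : f x = T x + τ := hl x hx (by simpa using hε₀)
  refine ⟨h0, h1, h3, ?_⟩
  have e : f (nu (x + r • v)) - (f x + r • T v) = T (nu (x + r • v) - (x + r • v)) := by
    rw [h3, hfx, map_sub, map_add, map_smul]; abel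
  rw [e]
  exact (T.le_opNorm _).trans (mul_le_mul_of_nonneg_left h1 (norm_nonneg _))

/-- `J (f x) ∘ T` vanishes on `ker J x` -/
theorem P2.J_T (h : SI f g) {T : X →L[ℝ] Y} {τ : Y} {x : X} (hx : ‖x‖ = 1)
    (hsx : Smooth x) (hloc : ∃ ε : ℝ, 0 < ε ∧ ∀ x', ‖x'‖ = 1 → ‖x' - x‖ < ε → f x' = T x' + τ)
    {v : X} (hv : J x v = 0) : J (f x) (T v) = 0 := by
  have hfx := h.map x hx
  have key : ∀ w : X, J x w = 0 → J (f x) (T w) ≤ 0 := by
    intro w hw
    apply le_of_forall_pos_le_add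
    intro ε hε
    have hT1 : 0 < ‖T‖ + 1 := by positivity
    obtain ⟨δ, hδ, hd⟩ := P2.tangent h hx hsx hloc hw (ε := ε / (‖T‖ + 1)) (by positivity)
    have hr : 0 < δ / 2 := by positivity
    obtain ⟨h0, -, -, h3⟩ := hd (δ / 2) hr (by linarith)
    have h4 := J_le (f x) (f (nu (x + (δ / 2) • w)))
    rw [h.map _ (norm_nu h0)] at h4
    have h5 := J_le (f x) (-(f (nu (x + (δ / 2) • w)) - (f x + (δ / 2) • T w)))
    rw [norm_neg, map_neg, map_sub, map_add, map_smul, J_self, hfx, smul_eq_mul] at h5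
    have h6 : ‖T‖ * (ε / (‖T‖ + 1) * (δ / 2)) ≤ ε * (δ / 2) := by
      have : ‖T‖ * (ε / (‖T‖ + 1) * (δ / 2)) = (‖T‖ / (‖T‖ + 1)) * (ε * (δ / 2)) := by
        field_simp
      rw [this]
      have h7 : ‖T‖ / (‖T‖ + 1) ≤ 1 := (div_le_one hT1).mpr (by linarith)
      calc (‖T‖ / (‖T‖ + 1)) * (ε * (δ / 2)) ≤ 1 * (ε * (δ / 2)) :=
            mul_le_mul_of_nonneg_right h7 (by positivity)
        _ = ε * (δ / 2) := one_mul _
    have h8 : (δ / 2) * J (f x) (T w) ≤ (δ / 2) * ε := by nlinarith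
    have := le_of_mul_le_mul_left h8 hr
    linarith
  apply le_antisymm (key v hv)
  have := key (-v) (by rw [map_neg, hv, neg_zero])
  rw [map_neg, map_neg] at this
  linarith

/-- `J (f x) ∘ T = J (f x) (T x) • J x` -/
theorem P2.J_T_eq (h : SI f g) {T : X →L[ℝ] Y} {τ : Y} {x : X} (hx : ‖x‖ = 1)
    (hsx : Smooth x) (hloc : ∃ ε : ℝ, 0 < ε ∧ ∀ x', ‖x'‖ = 1 → ‖x' - x‖ < ε → f x' = T x' + τ)
    (v : X) : J (f x) (T v) = J (f x) (T x) * J x v := by
  have hv : J x (v - (J x v) • x) = 0 := by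
    rw [map_sub, map_smul, J_self, hx, smul_eq_mul, mul_one, sub_self]
  have h1 := P2.J_T h hx hsx hloc hv
  rw [map_sub, map_smul, map_sub, map_smul, smul_eq_mul] at h1
  linarith

/-- orientation at the bottom of a chord -/
theorem SI.orient_bot (h : SI f g) (ho : ∀ x, ‖x‖ = 1 → f (-x) = -f x) {T : X →L[ℝ] Y}
    {τ : Y} {x y : X} (hx : ‖x‖ = 1) (hy : ‖y‖ = 1) (hlt : ‖x + y‖ < 2)
    (hsy : Smooth y) (hfx : f x = T x + τ)
    (hloc : ∃ ε : ℝ, 0 < ε ∧ ∀ y', ‖y'‖ = 1 → ‖y' - y‖ < ε → f y' = T y' + τ) :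
    0 < J (f y) (T y) := by
  have hfy : f y = T y + τ := by
    obtain ⟨ε, hε, hl⟩ := hloc
    exact hl y hy (by simpa using hε)
  have hlt' : ‖y + x‖ < 2 := by rw [add_comm]; exact hlt
  have h1 : 0 < J (f y) (f y - f x) := h.J_chord_pos ho hy hx hlt'
  have h2 : 0 < J y (y - x) := P2.J_pos hy hlt'
  have h3 : f y - f x = T (y - x) := by rw [hfx, hfy, map_sub]; abel
  rw [h3, P2.J_T_eq h hy hsy hloc] at h1
  exact (pos_iff_pos_of_mul_pos h1).mpr h2

/-- first order behaviour of `g` at `f x` along `T ξ` -/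
theorem P2.blow (h : SI f g) {T : X →L[ℝ] Y} {τ : Y} {x : X} (hx : ‖x‖ = 1)
    (hsx : Smooth x) (hsfx : Smooth (f x))
    (hloc : ∃ ε : ℝ, 0 < ε ∧ ∀ x', ‖x'‖ = 1 → ‖x' - x‖ < ε → f x' = T x' + τ)
    {ξ : X} (hξ : J x ξ = 0) {ε : ℝ} (hε : 0 < ε) : ∃ δ : ℝ, 0 < δ ∧ ∀ r : ℝ, 0 < r → r < δ →
      ‖g (nu (f x + r • T ξ)) - (x + r • ξ)‖ ≤ ε * r := by
  have hfx := h.map x hx
  have hT3 : 0 < ‖T‖ + 2 := by positivity
  set e := ε / (‖T‖ + 2) with he
  have he0 : 0 < e := by rw [he]; positivity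
  obtain ⟨δ₁, hδ₁, h1⟩ := P2.tangent h hx hsx hloc hξ he0
  obtain ⟨δ₂, hδ₂, h2⟩ := hsfx.nu_approx hfx (P2.J_T h hx hsx hloc hξ) he0
  refine ⟨min δ₁ δ₂, lt_min hδ₁ hδ₂, fun r hr hrδ => ?_⟩
  obtain ⟨a1, a2, a3, a4⟩ := h1 r hr (hrδ.trans_le (min_le_left _ _))
  obtain ⟨b1, b2⟩ := h2 r hr (hrδ.trans_le (min_le_right _ _))
  set y := nu (f x + r • T ξ) with hy
  set x' := nu (x + r • ξ) with hx'
  have hy1 : ‖y‖ = 1 := norm_nu b1
  have hx1 : ‖x'‖ = 1 := norm_nu a1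
  have h3 : ‖g y - x'‖ = ‖y - f x'‖ := by
    have := h.symm.dist y (f x') hy1 (h.map x' hx1)
    rwa [h.left x' hx1] at this
  have h4 : ‖y - f x'‖ ≤ e * r + ‖T‖ * (e * r) := by
    have e1 : y - f x' = (y - (f x + r • T ξ)) - (f x' - (f x + r • T ξ)) := by abel
    rw [e1]
    exact (norm_sub_le _ _).trans (add_le_add b2 a4)
  have h5 : ‖g y - (x + r • ξ)‖ ≤ ‖g y - x'‖ + ‖x' - (x + r • ξ)‖ := by
    have e1 : g y - (x + r • ξ) = (g y - x') + (x' - (x + r • ξ)) := by abel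
    rw [e1]; exact norm_add_le _ _
  have h6 : (‖T‖ + 2) * (e * r) = ε * r := by
    rw [he]; field_simp
  calc ‖g y - (x + r • ξ)‖ ≤ ‖g y - x'‖ + ‖x' - (x + r • ξ)‖ := h5
    _ ≤ (e * r + ‖T‖ * (e * r)) + e * r := by rw [h3]; exact add_le_add h4 a2
    _ = (‖T‖ + 2) * (e * r) := by ring
    _ = ε * r := h6

/-- (P2) propagation along exposed chords -/
theorem SI.propagate (h : SI f g) (ho : ∀ x, ‖x‖ = 1 → f (-x) = -f x)
    (hmf : ∀ x, ‖x‖ = 1 → Smooth x → MidAt f x)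
    {T : X →L[ℝ] Y} (hT : Function.Surjective T) {τ : Y} {x y : X} (hx : ‖x‖ = 1)
    (hy : ‖y‖ = 1) (hlt : ‖x + y‖ < 2) (hne : x ≠ y) (hsx : Smooth x) (hsfx : Smooth (f x))
    (hs : Smooth (x - y)) (hexp : ∀ c, ‖c‖ = 1 → J (x - y) c = 1 → c = nu (x - y))
    (hloc : ∃ ε : ℝ, 0 < ε ∧ ∀ x', ‖x'‖ = 1 → ‖x' - x‖ < ε → f x' = T x' + τ)
    (hor : 0 < J (f x) (T x))
    (hnorm : ∃ ε : ℝ, 0 < ε ∧ ∀ ξ : X, ‖ξ - nu (x - y)‖ < ε → ‖T ξ‖ = ‖ξ‖) :
    f y = T y + τ := by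
  have hfx := h.map x hx
  have hfy := h.map y hy
  have hxy0 : x - y ≠ 0 := sub_ne_zero.mpr hne
  have hr : 0 < ‖x - y‖ := norm_pos_iff.mpr hxy0
  have hdist : ‖f x - f y‖ = ‖x - y‖ := h.dist x y hx hy
  have hfxy0 : f x - f y ≠ 0 := by
    intro h0; rw [h0, norm_zero] at hdist; rw [← hdist] at hr; exact lt_irrefl _ hr
  set u := nu (x - y) with hu
  have hu1 : ‖u‖ = 1 := norm_nu hxy0
  set p := J (x - y) with hp
  have hp1 : ‖p‖ ≤ 1 := J_norm_le _
  have hpxy : p (x - y) = ‖x - y‖ := J_self _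
  have hpu : p u = 1 := by
    rw [hu, nu, map_smul, hpxy, smul_eq_mul, inv_mul_cancel₀ hr.ne']
  have hxu : x - y = ‖x - y‖ • u := (EP.norm_smul_nu hxy0).symm
  set d := J (f x) (T x) with hd
  have hJT : ∀ v, J (f x) (T v) = d * J x v := P2.J_T_eq h hx hsx hloc
  -- the blow-up of `g` at `f x`
  have hmid : MidAt g (f x) := by
    intro al be hal hbe ε hε
    obtain ⟨a, rfl⟩ := hT al
    obtain ⟨b, rfl⟩ := hT be
    rw [hJT] at hal hbe
    have ha : J x a = 0 := by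
      rcases mul_eq_zero.mp hal with h1 | h1
      · exact absurd h1 hor.ne'
      · exact h1
    have hb : J x b = 0 := by
      rcases mul_eq_zero.mp hbe with h1 | h1
      · exact absurd h1 hor.ne'
      · exact h1
    have hab : J x ((1 / 2 : ℝ) • (a + b)) = 0 := by
      rw [map_smul, map_add, ha, hb, add_zero, smul_zero]
    obtain ⟨δ₁, hδ₁, h1⟩ := P2.blow h hx hsx hsfx hloc ha (ε := ε / 2) (by positivity)
    obtain ⟨δ₂, hδ₂, h2⟩ := P2.blow h hx hsx hsfx hloc hb (ε := ε / 2) (by positivity)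
    obtain ⟨δ₃, hδ₃, h3⟩ := P2.blow h hx hsx hsfx hloc hab (ε := ε / 2) (by positivity)
    refine ⟨min δ₁ (min δ₂ δ₃), lt_min hδ₁ (lt_min hδ₂ hδ₃), fun r hr hrδ => ?_⟩
    have b1 := h1 r hr (hrδ.trans_le (min_le_left _ _))
    have b2 := h2 r hr (hrδ.trans_le ((min_le_right _ _).trans (min_le_left _ _)))
    have b3 := h3 r hr (hrδ.trans_le ((min_le_right _ _).trans (min_le_right _ _)))
    have e1 : (1 / 2 : ℝ) • (T a + T b) = T ((1 / 2 : ℝ) • (a + b)) := by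
      rw [map_smul, map_add]
    rw [e1]
    set A := g (nu (f x + r • T a))
    set B := g (nu (f x + r • T b))
    set C := g (nu (f x + r • T ((1 / 2 : ℝ) • (a + b))))
    have e2 : C - (1 / 2 : ℝ) • (A + B) = (C - (x + r • ((1 / 2 : ℝ) • (a + b))))
        - (1 / 2 : ℝ) • ((A - (x + r • a)) + (B - (x + r • b))) := by
      module
    rw [e2]
    refine (norm_sub_le _ _).trans ?_
    rw [norm_smul, Real.norm_of_nonneg (by norm_num : (0 : ℝ) ≤ 1 / 2)]
    have h4 := norm_add_le (A - (x + r • a)) (B - (x + r • b))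
    linarith
  obtain ⟨Φ, hΦ⟩ := h.exists_isPhi hp1 hfx hsfx hmid
  have hch : Chord p x y := ⟨hx, hy, hpxy, hlt⟩
  obtain ⟨q, hq, hqxy⟩ := h.exists_canon ho hp1 hch hsfx hΦ
  -- `Φ (T ξ) = p ξ`
  have hΦT : ∀ ξ, J x ξ = 0 → Φ (T ξ) = p ξ := by
    intro ξ hξ
    have hlim := hΦ.lim (T ξ) (by rw [hJT, hξ, mul_zero])
    refine tendsto_nhds_unique hlim ?_
    rw [Metric.tendsto_nhds]
    intro ε hε
    obtain ⟨δ, hδ, hb⟩ := P2.blow h hx hsx hsfx hloc hξ (ε := ε / 2) (by positivity)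
    refine eventually_rr hδ (P := fun r => Dist.dist (dq g p (f x) (T ξ) r) (p ξ) < ε) ?_
    intro r hr hrδ
    have h1 := hb r hr hrδ
    have h2 : dq g p (f x) (T ξ) r - p ξ = p (g (nu (f x + r • T ξ)) - (x + r • ξ)) / r := by
      unfold dq
      rw [h.left x hx, map_sub, map_add, map_smul, smul_eq_mul]
      field_simp
      ring
    rw [Real.dist_eq, h2, abs_div, abs_of_pos hr, div_lt_iff₀ hr]
    refine (abs_apply_le_of_norm_le_one hp1 _).trans_lt (h1.trans_lt ?_)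
    exact mul_lt_mul_of_pos_right (by linarith) hr
  -- `T` is isometric near `u`
  obtain ⟨ε₁, hε₁, hiso⟩ := hnorm
  have hTu : ‖T u‖ = 1 := by rw [hiso u (by simpa using hε₁), hu1]
  have hsu : Smooth u := by
    rw [hu, nu]; exact hs.smul (inv_pos.mpr hr)
  have hJu : J u = p := by
    rw [hu, nu]; exact hs.J_smul (inv_pos.mpr hr)
  -- functionals of norm `≤ 1` on `Y`
  have hsub : ∀ φ : Y →L[ℝ] ℝ, ‖φ‖ ≤ 1 → φ (T u) ≤ 1 := by
    intro φ hφ
    have := apply_le_of_norm_le_one hφ (T u)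
    rwa [hTu] at this
  -- for `q₀` norming `T u`, `q₀ ∘ T = p`
  have hq₀T : ∀ v, J (T u) (T v) = p v := by
    have key : ∀ v, J (T u) (T v) ≤ p v := by
      intro v
      apply le_of_forall_pos_le_add
      intro ε hε
      obtain ⟨δ, hδ, hder⟩ := hsu.deriv v hε
      have hv1 : 0 < ‖v‖ + 1 := by positivity
      set t := min δ (ε₁ / (‖v‖ + 1)) / 2 with ht
      have hm : 0 < min δ (ε₁ / (‖v‖ + 1)) := lt_min hδ (div_pos hε₁ hv1)
      have ht0 : 0 < t := by rw [ht]; linarith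
      have ht1 : t ≤ δ := by
        rw [ht]; have := min_le_left δ (ε₁ / (‖v‖ + 1)); linarith
      have ht2 : t < ε₁ / (‖v‖ + 1) := by
        rw [ht]; have := min_le_right δ (ε₁ / (‖v‖ + 1)); linarith
      have h1 := hder t (by rw [abs_of_pos ht0]; exact ht1)
      rw [abs_of_pos ht0, hu1, hJu] at h1
      have h2 : ‖T (u + t • v)‖ = ‖u + t • v‖ := by
        apply hiso
        rw [add_sub_cancel_left, norm_smul, Real.norm_of_nonneg ht0.le]
        rw [lt_div_iff₀ hv1] at ht2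
        nlinarith [norm_nonneg v]
      have h3 := J_le (T u) (T (u + t • v))
      rw [h2, map_add, map_add, map_smul, map_smul, J_self, hTu, smul_eq_mul] at h3
      have h4 : t * J (T u) (T v) ≤ t * (p v + ε) := by linarith
      exact le_of_mul_le_mul_left h4 ht0
    intro v
    apply le_antisymm (key v)
    have := key (-v)
    rw [map_neg, map_neg, map_neg] at this
    linarith
  -- `q ∘ T - p = c J x`
  set c := q (T x) - p x with hc
  have hqT : ∀ v, q (T v) = p v + c * J x v := by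
    intro v
    have hv : J x (v - (J x v) • x) = 0 := by
      rw [map_sub, map_smul, J_self, hx, smul_eq_mul, mul_one, sub_self]
    have h1 := hq.eq (T (v - (J x v) • x)) (by rw [hJT, hv, mul_zero])
    rw [hΦT _ hv] at h1
    rw [map_sub, map_smul, map_sub, map_smul, map_sub, map_smul, smul_eq_mul, smul_eq_mul] at h1
    rw [hc]
    linarith
  -- signs
  have hJxu : 0 < J x u := by
    have h1 := P2.J_pos hx hlt
    rw [hxu, map_smul, smul_eq_mul] at h1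
    exact (pos_iff_pos_of_mul_pos h1).mp hr
  have hc1 : c ≤ 0 := by
    have h1 := hsub q hq.norm_le
    rw [hqT, hpu] at h1
    by_contra hcon
    push Not at hcon
    have := mul_pos hcon hJxu
    linarith
  have hc2 : 0 ≤ c := by
    obtain ⟨ξ, hξ⟩ := hT (f x - f y)
    have h1 : 0 < J (f x) (f x - f y) := h.J_chord_pos ho hx hy hlt
    rw [← hξ, hJT] at h1
    have h2 : 0 < J x ξ := (pos_iff_pos_of_mul_pos h1).mp hor
    have h3 : J (T u) (T ξ) ≤ q (T ξ) := by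
      rw [hξ, hqxy, ← hdist]; exact J_le _ _
    rw [hq₀T, hqT] at h3
    by_contra hcon
    push Not at hcon
    have := mul_neg_of_neg_of_pos hcon h2
    linarith
  have hc0 : c = 0 := le_antisymm hc1 hc2
  have hqTu : q (T u) = 1 := by rw [hqT, hpu, hc0, zero_mul, add_zero]
  have hfin := h.exposed_transfer ho hmf hx hy hlt hne hsx hs hexp hq.norm_le hqxy (T u) hTu hqTu
  have h1 : f x - f y = T (x - y) := by
    rw [hxu, map_smul, hfin, ← hdist, EP.norm_smul_nu hfxy0]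
  have h2 : f x = T x + τ := by
    obtain ⟨ε, hε, hl⟩ := hloc
    exact hl x hx (by simpa using hε)
  have h3 : f y = f x - T (x - y) := by rw [← h1]; abel
  rw [h3, h2, map_sub]; abel

end Prop2

end Crest.Agent.R074
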