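import Crest.Agent.R074.MixedDefs
import Crest.Agent.R074.Prop2

/-!
Row 74 (S0099), mixed case (C): the end game. An affine piece `f = T + τ` (oriented) together with
an open set of directions on which `T` is isometric and where exposed smooth points are residual
gives the linear extension (transitivity of chords).
-/

set_option autoImplicit false

namespace Crest.Agent.R074

open Metric Set Filter Topology

section MixedEnd

variable {X Y : Type*} [NormedAddCommGroup X] [NormedSpace ℝ X] [NormedAddCommGroup Y]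
  [NormedSpace ℝ Y] {f : X → Y} {g : Y → X}

/-- `AffAt` is an open condition -/
theorem AffAt.nhds {T : X →L[ℝ] Y} {τ : Y} {x : X} (hA : AffAt f T τ x) :
    ∃ ε : ℝ, 0 < ε ∧ ∀ x' : X, ‖x'‖ = 1 → ‖x' - x‖ < ε → AffAt f T τ x' := by
  obtain ⟨ε, hε, h1⟩ := hA
  refine ⟨ε / 2, by positivity, fun x' _ hx'x => ⟨ε / 2, by positivity, fun x'' hx'' h2 => ?_⟩⟩
  apply h1 x'' hx''
  have e : x'' - x = (x'' - x') + (x' - x) := by abel
  rw [e]
  have := norm_add_le (x'' - x') (x' - x)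
  linarith

/-- `AffAt` and the antipode -/
theorem AffAt.neg (ho : ∀ x, ‖x‖ = 1 → f (-x) = -f x) {T : X →L[ℝ] Y} {τ : Y} {x : X}
    (hA : AffAt f T τ x) : AffAt f T (-τ) (-x) := by
  obtain ⟨ε, hε, h1⟩ := hA
  refine ⟨ε, hε, fun x' hx' hx'x => ?_⟩
  have hn : ‖-x'‖ = 1 := by rw [norm_neg]; exact hx'
  have hd : ‖-x' - x‖ < ε := by
    have e : -x' - x = -(x' - -x) := by abel
    rw [e, norm_neg]; exact hx'x
  obtain ⟨h2, h3⟩ := h1 (-x') hn hd
  rw [ho x' hx'] at h2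
  constructor
  · have : f x' = -(T (-x') + τ) := by rw [← h2, neg_neg]
    rw [this, map_neg]; abel
  · intro hs hsf
    have h4 := h3 hs.neg (by rw [ho x' hx']; exact hsf.neg)
    rw [ho x' hx', hsf.J_neg, map_neg, _root_.neg_apply, map_neg, neg_neg] at h4
    exact h4

/-- top to bottom along an exposed chord -/
theorem SI.affAt_bot [TopologicalSpace.SeparableSpace X] [TopologicalSpace.SeparableSpace Y]
    [CompleteSpace X] (h : SI f g) (ho : ∀ x, ‖x‖ = 1 → f (-x) = -f x)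
    (hmf : ∀ x, ‖x‖ = 1 → Smooth x → MidAt f x) {T : X →L[ℝ] Y} (hT : Function.Surjective T)
    {τ : Y} {u₀ : X} {ρ : ℝ}
    (hnorm : ∀ ξ, ‖ξ - u₀‖ < ρ → ‖T ξ‖ = ‖ξ‖)
    (hexp : ∀ᶠ u : sphere (0 : X) 1 in residual (sphere (0 : X) 1),
      ‖(u : X) - u₀‖ < ρ → Smooth (u : X) ∧ Expo (u : X))
    {u x y : X} (hc : UChord u x y) (hu : ‖u‖ = 1) (huρ : ‖u - u₀‖ < ρ)
    (hA : AffAt f T τ x) : AffAt f T τ y := by
  have hx := hc.1
  have hy := hc.2.1
  have hlt := hc.2.2.1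
  have hne := hc.ne
  have hne0 : x - y ≠ 0 := sub_ne_zero.mpr hne
  have hnu : nu (x - y) = u := hc.nu_eq hu
  obtain ⟨εA, hεA, hAA⟩ := hA.nhds
  -- continuity of the direction
  have hcont : ContinuousAt (fun p : X × X => nu (p.1 - p.2)) (x, y) :=
    ContinuousAt.comp (f := fun p : X × X => p.1 - p.2) (tr_continuousAt_nu hne0) (by fun_prop)
  have h1 : ∀ᶠ p : X × X in 𝓝 (x, y), ‖nu (p.1 - p.2) - u₀‖ < ρ := by
    have h2 : ContinuousAt (fun p : X × X => ‖nu (p.1 - p.2) - u₀‖) (x, y) :=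
      (hcont.sub continuousAt_const).norm
    apply h2.eventually_lt_const
    show ‖nu (x - y) - u₀‖ < ρ
    rw [hnu]; exact huρ
  have h2 : ∀ᶠ p : X × X in 𝓝 (x, y), ‖p.1 + p.2‖ < 2 := by
    have h3 : ContinuousAt (fun p : X × X => ‖p.1 + p.2‖) (x, y) := by fun_prop
    exact h3.eventually_lt_const hlt
  have h3 : ∀ᶠ p : X × X in 𝓝 (x, y), p.1 - p.2 ≠ 0 := by
    have h4 : ContinuousAt (fun p : X × X => p.1 - p.2) (x, y) := by fun_prop
    exact h4.eventually_ne hne0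
  obtain ⟨δ, hδ, h4⟩ := Metric.eventually_nhds_iff.mp (h1.and (h2.and h3))
  -- a good top end for every bottom near `y`
  have key : ∀ y' : X, ‖y'‖ = 1 → ‖y' - y‖ < δ → ∃ x' : X, ‖x'‖ = 1 ∧ ‖x' + y'‖ < 2 ∧
      f x' = T x' + τ ∧ f y' = T y' + τ := by
    intro y' hy' hyy
    have hxy' : Dist.dist (x, y') (x, y) < δ := by
      rw [Prod.dist_eq, dist_self, dist_eq_norm]
      exact max_lt hδ hyy
    obtain ⟨-, h6, h7⟩ := h4 hxy'
    obtain ⟨x', hx', hxx, hlt', hne', hsx', hsfx', hR⟩ := h.exists_gen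
      (R := {u : X | ‖u - u₀‖ < ρ → Smooth u ∧ Expo u}) hexp hy' hx h6 (sub_ne_zero.mp h7)
      (ε := min δ εA) (lt_min hδ hεA)
    have hd' : Dist.dist (x', y') (x, y) < δ := by
      rw [Prod.dist_eq, dist_eq_norm, dist_eq_norm]
      exact max_lt (hxx.trans_le (min_le_left _ _)) hyy
    obtain ⟨h8, -, h10⟩ := h4 hd'
    have h8' : ‖nu (x' - y') - u₀‖ < ρ := h8
    have h10' : x' - y' ≠ 0 := h10
    obtain ⟨hsu, heu⟩ := hR h8'
    have hAx' := hAA x' hx' (hxx.trans_le (min_le_right _ _))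
    obtain ⟨ε', hε', h11⟩ := hAx'
    have h12 := h11 x' hx' (by simpa using hε')
    have hr : 0 < ‖x' - y'‖ := norm_pos_iff.mpr h10'
    have hse : ‖x' - y'‖ • nu (x' - y') = x' - y' := EP.norm_smul_nu h10'
    have hs : Smooth (x' - y') := by
      rw [← hse]; exact hsu.smul hr
    have hJ : J (x' - y') = J (nu (x' - y')) := by
      rw [← hsu.J_smul hr, hse]
    refine ⟨x', hx', hlt', h12.1, ?_⟩
    apply h.propagate ho hmf hT hx' hy' hlt' hne' hsx' hsfx' hs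
    · intro c hc1 hc2
      rw [hJ] at hc2
      exact heu c hc1 hc2
    · exact ⟨ε', hε', fun x'' hx'' hd => (h11 x'' hx'' hd).1⟩
    · exact h12.2 hsx' hsfx'
    · refine ⟨ρ - ‖nu (x' - y') - u₀‖, by linarith, fun ξ hξ => ?_⟩
      apply hnorm
      have e : ξ - u₀ = (ξ - nu (x' - y')) + (nu (x' - y') - u₀) := by abel
      rw [e]
      have := norm_add_le (ξ - nu (x' - y')) (nu (x' - y') - u₀)
      linarith
  refine ⟨δ, hδ, fun y' hy' hyy => ?_⟩
  obtain ⟨x', hx', hlt', hfx', hfy'⟩ := key y' hy' hyy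
  refine ⟨hfy', fun hsy _ => ?_⟩
  apply h.orient_bot ho hx' hy' hlt' hsy hfx'
  refine ⟨δ - ‖y' - y‖, by linarith, fun y'' hy'' hd => ?_⟩
  have hdy : ‖y'' - y‖ < δ := by
    have e : y'' - y = (y'' - y') + (y' - y) := by abel
    rw [e]
    have := norm_add_le (y'' - y') (y' - y)
    linarith
  obtain ⟨-, -, -, -, h5⟩ := key y'' hy'' hdy
  exact h5

/-- the chord maps preserve `AffAt` -/
theorem SI.affAt_iff [TopologicalSpace.SeparableSpace X] [TopologicalSpace.SeparableSpace Y]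
    [CompleteSpace X] (h : SI f g) (ho : ∀ x, ‖x‖ = 1 → f (-x) = -f x)
    (hmf : ∀ x, ‖x‖ = 1 → Smooth x → MidAt f x) {T : X →L[ℝ] Y} (hT : Function.Surjective T)
    {τ : Y} {u₀ : X} {ρ : ℝ}
    (hnorm : ∀ ξ, ‖ξ - u₀‖ < ρ → ‖T ξ‖ = ‖ξ‖)
    (hexp : ∀ᶠ u : sphere (0 : X) 1 in residual (sphere (0 : X) 1),
      ‖(u : X) - u₀‖ < ρ → Smooth (u : X) ∧ Expo (u : X))
    {u x y : X} (hc : UChord u x y) (hu : ‖u‖ = 1) (huρ : ‖u - u₀‖ < ρ) :
    AffAt f T τ x ↔ AffAt f T τ y := by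
  constructor
  · exact h.affAt_bot ho hmf hT hnorm hexp hc hu huρ
  · intro hA
    have h1 := h.affAt_bot ho hmf hT hnorm hexp hc.neg hu huρ (hA.neg ho)
    have h2 := h1.neg ho
    rwa [neg_neg, neg_neg] at h2

/-- END GAME of the mixed case -/
theorem SI.mixed_end [TopologicalSpace.SeparableSpace X] [TopologicalSpace.SeparableSpace Y]
    [CompleteSpace X] (h : SI f g) (ho : ∀ x, ‖x‖ = 1 → f (-x) = -f x)
    (hmf : ∀ x, ‖x‖ = 1 → Smooth x → MidAt f x) {T : X →L[ℝ] Y} (hT : Function.Surjective T)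
    {τ : Y} {z u₀ : X} (hz : ‖z‖ = 1) (hzA : AffAt f T τ z) (hu₀ : ‖u₀‖ = 1) {ρ : ℝ}
    (hρ : 0 < ρ) (hnorm : ∀ ξ, ‖ξ - u₀‖ < ρ → ‖T ξ‖ = ‖ξ‖)
    (hexp : ∀ᶠ u : sphere (0 : X) 1 in residual (sphere (0 : X) 1),
      ‖(u : X) - u₀‖ < ρ → Smooth (u : X) ∧ Expo (u : X)) : Ext f := by
  set F : Set X := {x | AffAt f T τ x} with hF
  set O : Set X := {u | ‖u - u₀‖ < ρ} with hO
  have hFo : ∀ x ∈ F, ‖x‖ = 1 → ∃ ε : ℝ, 0 < ε ∧ ∀ y, ‖y‖ = 1 → ‖y - x‖ < ε → y ∈ F :=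
    fun x hx _ => AffAt.nhds hx
  have hOo : ∀ x ∈ O, ‖x‖ = 1 → ∃ ε : ℝ, 0 < ε ∧ ∀ y, ‖y‖ = 1 → ‖y - x‖ < ε → y ∈ O := by
    intro x hx _
    have hx' : ‖x - u₀‖ < ρ := hx
    refine ⟨ρ - ‖x - u₀‖, by linarith, fun y _ hyx => ?_⟩
    show ‖y - u₀‖ < ρ
    have e : y - u₀ = (y - x) + (x - u₀) := by abel
    rw [e]
    have := norm_add_le (y - x) (x - u₀)
    linarith
  have hinv : ∀ u ∈ O ∩ {u | ‖u‖ = 1}, ∀ x y, UChord u x y → (x ∈ F ↔ y ∈ F) := by
    rintro u ⟨hu, hu1⟩ x y hc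
    exact h.affAt_iff ho hmf hT hnorm hexp hc hu1 hu
  -- `f = T + τ` on the sphere
  have hall : ∀ b : X, ‖b‖ = 1 → f b = T b + τ := by
    intro b hb
    rw [← sub_eq_zero, ← norm_le_zero_iff]
    apply le_of_forall_pos_lt_add
    intro ε hε
    rw [zero_add]
    have hT1 : 0 < 2 + ‖T‖ := by positivity
    obtain ⟨y, hyF, hy, hyb⟩ := trans_dense hFo
      (O := O ∩ {u | ‖u‖ = 1})
      (by
        rintro x ⟨hx, -⟩ hx1
        obtain ⟨ε, hε, h1⟩ := hOo x hx hx1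
        exact ⟨ε, hε, fun y hy hyx => ⟨h1 y hy hyx, hy⟩⟩)
      hinv hz (show z ∈ F from hzA) hu₀ ⟨by show ‖u₀ - u₀‖ < ρ; simpa using hρ, hu₀⟩ hb
      (ε := ε / (2 + ‖T‖)) (by positivity)
    obtain ⟨ε', hε', h1⟩ := (show AffAt f T τ y from hyF)
    have h2 : f y = T y + τ := (h1 y hy (by simpa using hε')).1
    have e1 : f b - (T b + τ) = (f b - f y) + T (y - b) := by
      rw [h2, map_sub]; abel
    rw [e1]
    have n1 : ‖f b - f y‖ = ‖y - b‖ := by rw [h.dist b y hb hy, norm_sub_rev]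
    have n2 := T.le_opNorm (y - b)
    have n3 := norm_add_le (f b - f y) (T (y - b))
    rw [lt_div_iff₀ hT1] at hyb
    nlinarith [norm_nonneg (y - b), norm_nonneg T]
  -- `τ = 0`
  have hτ : τ = 0 := by
    have h1 := hall z hz
    have h2 := hall (-z) (by rw [norm_neg]; exact hz)
    rw [ho z hz, h1, map_neg] at h2
    have h3 : (2 : ℝ) • τ = 0 := by
      rw [two_smul]
      have : τ + τ = (-T z + τ) - (-(T z + τ)) := by abel
      rw [this, ← h2, sub_self]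
    rcases smul_eq_zero.mp h3 with h4 | h4
    · norm_num at h4
    · exact h4
  have hall' : ∀ b : X, ‖b‖ = 1 → T b = f b := by
    intro b hb
    rw [hall b hb, hτ, add_zero]
  -- `T` is norm preserving
  have hTn : ∀ x : X, ‖T x‖ = ‖x‖ := by
    intro x
    rcases eq_or_ne x 0 with rfl | hx
    · rw [map_zero, norm_zero, norm_zero]
    · have hn := norm_nu hx
      have h1 : ‖T (nu x)‖ = 1 := by rw [hall' _ hn]; exact h.map _ hn
      have h2 : x = ‖x‖ • nu x := (EP.norm_smul_nu hx).symm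
      rw [h2, map_smul, norm_smul, norm_smul, h1, hn]
  let L : X →ₗᵢ[ℝ] Y := { toLinearMap := T.toLinearMap, norm_map' := hTn }
  refine ⟨LinearIsometryEquiv.ofSurjective L hT, fun x hx => ?_⟩
  rw [← hall' x hx]
  rfl

end MixedEnd

end Crest.Agent.R074
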