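import Crest.Agent.R074.Asm
import Crest.Agent.R074.Flat
import Crest.Agent.R074.Canon

/-!
Row 74 (S0099): mixed case, initial step (i). If the functionals `J u`, `u` in the good set near
`y`, separate points, then `f` is linear near `y`.
-/

set_option autoImplicit false

namespace Crest.Agent.R074

open Metric Set Filter Topology

section InitOne

variable {X Y : Type*} [NormedAddCommGroup X] [NormedSpace ℝ X] [NormedAddCommGroup Y]
  [NormedSpace ℝ Y] {f : X → Y} {g : Y → X}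

/-- homogeneous extension -/
noncomputable def I1.F (f : X → Y) (z : X) : Y := ‖z‖ • f (nu z)

theorem I1.F_lip (h : SI f g) {z z' : X} (hz : z ≠ 0) (hz' : z' ≠ 0) :
    ‖I1.F f z - I1.F f z'‖ ≤ 3 * ‖z - z'‖ := by
  have h1 : ‖f (nu z) - f (nu z')‖ = ‖nu z - nu z'‖ := h.dist _ _ (norm_nu hz) (norm_nu hz')
  have h2 : ‖z'‖ * ‖nu z - nu z'‖ ≤ 2 * ‖z - z'‖ := by
    have e : ‖z'‖ • (nu z - nu z') = (‖z'‖ - ‖z‖) • nu z + (z - z') := by
      have e1 : ‖z‖ • nu z = z := by
        rw [nu, smul_smul, mul_inv_cancel₀ (norm_ne_zero_iff.mpr hz), one_smul]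
      have e2 : ‖z'‖ • nu z' = z' := by
        rw [nu, smul_smul, mul_inv_cancel₀ (norm_ne_zero_iff.mpr hz'), one_smul]
      rw [smul_sub, e2, sub_smul, e1]; abel
    have h3 : ‖z'‖ * ‖nu z - nu z'‖ = ‖‖z'‖ • (nu z - nu z')‖ := by
      rw [norm_smul, norm_norm]
    rw [h3, e]
    refine (norm_add_le _ _).trans ?_
    rw [norm_smul, norm_nu hz, mul_one, Real.norm_eq_abs]
    have := abs_norm_sub_norm_le z' z
    rw [norm_sub_rev z' z] at this
    linarith
  have e : I1.F f z - I1.F f z' = (‖z‖ - ‖z'‖) • f (nu z) + ‖z'‖ • (f (nu z) - f (nu z')) := by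
    unfold I1.F; module
  rw [e]
  refine (norm_add_le _ _).trans ?_
  rw [norm_smul, norm_smul, h.map _ (norm_nu hz), h1, mul_one, norm_norm, Real.norm_eq_abs]
  have := abs_norm_sub_norm_le z z'
  linarith

/-- the linear map determined by the local functionals -/
theorem I1.exists_T (h : SI f g) {y : X} (hy : ‖y‖ = 1) {R : ℝ} (hR : 0 < R)
    {K : Set ((X →L[ℝ] ℝ) × (Y →L[ℝ] ℝ))}
    (heq : ∀ k ∈ K, ∀ x, ‖x‖ = 1 → ‖x - y‖ < R → k.2 (f x) = k.1 x)
    (hK : ∀ w : Y, (∀ k ∈ K, k.2 w = 0) → w = 0) :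
    ∃ T : X →L[ℝ] Y, ∀ k ∈ K, ∀ v, k.2 (T v) = k.1 v := by
  classical
  -- `k.2 (F z) = k.1 z` near `y`
  have hF : ∀ k ∈ K, ∀ z : X, z ≠ 0 → ‖nu z - y‖ < R → k.2 (I1.F f z) = k.1 z := by
    intro k hk z hz hzy
    unfold I1.F
    rw [map_smul, heq k hk _ (norm_nu hz) hzy, ← map_smul, nu, smul_smul,
      mul_inv_cancel₀ (norm_ne_zero_iff.mpr hz), one_smul]
  set c : ℝ := min (1 / 2) (R / 4) with hc
  have hc0 : 0 < c := lt_min (by norm_num) (by positivity)
  have hc1 : c ≤ 1 / 2 := min_le_left _ _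
  have hc2 : c ≤ R / 4 := min_le_right _ _
  set t : X → ℝ := fun v => c / (‖v‖ + 1) with ht
  have ht0 : ∀ v, 0 < t v := fun v => by rw [ht]; have := norm_nonneg v; positivity
  have htv : ∀ v, ‖t v • v‖ < c := by
    intro v
    have hv := norm_nonneg v
    rw [norm_smul, Real.norm_of_nonneg (ht0 v).le, ht]
    have h1 : c / (‖v‖ + 1) * ‖v‖ = c * (‖v‖ / (‖v‖ + 1)) := by ring
    rw [h1]
    have h2 : ‖v‖ / (‖v‖ + 1) < 1 := (div_lt_one (by positivity)).mpr (by linarith)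
    nlinarith
  have hne : ∀ v : X, ‖v‖ < c → y + v ≠ 0 := by
    intro v hv h0
    have h1 : y = -v := eq_neg_of_add_eq_zero_left h0
    rw [h1, norm_neg] at hy
    linarith
  have hnu : ∀ v : X, ‖v‖ < c → ‖nu (y + v) - y‖ < R := by
    intro v hv
    refine (norm_nu_sub_le (hne v hv) hy).trans_lt ?_
    rw [add_sub_cancel_left]
    linarith
  have hy0 : y ≠ 0 := by
    intro h0; rw [h0, norm_zero] at hy; norm_num at hy
  set T₀ : X → Y := fun v => (t v)⁻¹ • (I1.F f (y + t v • v) - I1.F f y) with hT₀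
  have hFy : ∀ k ∈ K, k.2 (I1.F f y) = k.1 y := by
    intro k hk
    apply hF k hk y hy0
    rw [nu_of_norm_one hy, sub_self, norm_zero]; exact hR
  have hkT : ∀ k ∈ K, ∀ v, k.2 (T₀ v) = k.1 v := by
    intro k hk v
    rw [hT₀]
    simp only [map_smul, map_sub]
    rw [hF k hk _ (hne _ (htv v)) (hnu _ (htv v)), hFy k hk, map_add, add_sub_cancel_left,
      map_smul, smul_eq_mul, smul_eq_mul, ← mul_assoc, inv_mul_cancel₀ (ht0 v).ne', one_mul]
  have hadd : ∀ a b, T₀ (a + b) = T₀ a + T₀ b := by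
    intro a b
    rw [← sub_eq_zero]
    apply hK
    intro k hk
    rw [map_sub, map_add, hkT k hk, hkT k hk, hkT k hk, map_add, sub_self]
  have hsmul : ∀ (r : ℝ) (a : X), T₀ (r • a) = r • T₀ a := by
    intro r a
    rw [← sub_eq_zero]
    apply hK
    intro k hk
    have h1 := hkT k hk (r • a)
    have h2 := hkT k hk a
    have h3 : k.2 (r • T₀ a) = r • k.2 (T₀ a) := map_smul k.2 r (T₀ a)
    rw [map_sub, h1, h3, h2, map_smul, sub_self]
  let L : X →ₗ[ℝ] Y := { toFun := T₀, map_add' := hadd, map_smul' := hsmul }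
  refine ⟨L.mkContinuous 3 ?_, ?_⟩
  · intro v
    show ‖T₀ v‖ ≤ 3 * ‖v‖
    rw [hT₀]
    simp only
    rw [norm_smul, norm_inv, Real.norm_of_nonneg (ht0 v).le]
    have h1 := I1.F_lip h (hne _ (htv v)) hy0
    rw [add_sub_cancel_left, norm_smul, Real.norm_of_nonneg (ht0 v).le] at h1
    rw [inv_mul_le_iff₀ (ht0 v)]
    linarith
  · intro k hk v
    show k.2 (T₀ v) = k.1 v
    exact hkT k hk v

/-- INITIAL STEP (i). -/
theorem SI.init_one (h : SI f g) (ho : ∀ x, ‖x‖ = 1 → f (-x) = -f x) {ε : ℝ} (_hε : 0 < ε)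
    {y : X} (hy : ‖y‖ = 1) {r : ℝ} (hr : 0 < r) (hrε : r ≤ ε / 10)
    (hcl : ∀ s, ‖s‖ = 1 → ‖s - y‖ < r → s ∈ closure (GoodSet f ε))
    (hN : ∀ v : X, (∀ u ∈ GoodSet f ε, ‖u - y‖ < r → J u v = 0) → v = 0)
    {u₀ : X} (hu₀ : ‖u₀‖ = 1) (hu₀y : ‖u₀ - y‖ < ε / 10) :
    ∃ T : X →L[ℝ] Y, Function.Surjective T ∧
      (∃ ε' : ℝ, 0 < ε' ∧ ∀ x', ‖x'‖ = 1 → ‖x' - y‖ < ε' → f x' = T x' + 0 ∧
        (Smooth x' → Smooth (f x') → 0 < J (f x') (T x'))) ∧
      ∃ ρ : ℝ, 0 < ρ ∧ ∀ ξ : X, ‖ξ - u₀‖ < ρ → ‖T ξ‖ = ‖ξ‖ := by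
  classical
  set K : Set ((X →L[ℝ] ℝ) × (Y →L[ℝ] ℝ)) :=
    {k | ∃ u ∈ GoodSet f ε, ‖u - y‖ < r ∧ k = (J u, J (f u))} with hK
  have hEq : ∀ k ∈ K, ∀ x, ‖x‖ = 1 → ‖x - y‖ < ε - r → k.2 (f x) = k.1 x := by
    rintro _ ⟨u, hu, hur, rfl⟩ x hx hxy
    apply hu.2.2.2 x hx
    have e : x - u = (x - y) - (u - y) := by abel
    rw [e]
    exact (norm_sub_le _ _).trans_lt (by linarith)
  have hLA : LA f g y r K := by
    refine ⟨h, hy, ?_, ?_, ?_, ?_⟩
    · rintro _ ⟨u, hu, hur, rfl⟩; exact J_norm_le _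
    · rintro _ ⟨u, hu, hur, rfl⟩; exact J_norm_le _
    · intro k hk x hx hxy
      exact hEq k hk x hx (by linarith)
    · intro s hs hsr δ hδ
      obtain ⟨u, hu, hus⟩ := Metric.mem_closure_iff.mp (hcl s hs hsr)
        (min δ (r - ‖s - y‖)) (lt_min hδ (by linarith))
      rw [dist_eq_norm] at hus
      have h1 : ‖u - y‖ < r := by
        have e : u - y = (s - y) - (s - u) := by abel
        rw [e]
        have := hus.trans_le (min_le_right _ _)
        exact (norm_sub_le _ _).trans_lt (by linarith)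
      refine ⟨(J u, J (f u)), ⟨u, hu, h1, rfl⟩, ?_⟩
      show 1 - δ < J u s
      have h2 := J_le u (u - s)
      rw [map_sub, J_self, hu.1, norm_sub_rev] at h2
      have := hus.trans_le (min_le_left _ _)
      linarith
  have hkX : ∀ v ∈ kerX K, v = 0 := by
    intro v hv
    apply hN
    intro u hu hur
    exact hv (J u, J (f u)) ⟨u, hu, hur, rfl⟩
  have hkY : ∀ w : Y, (∀ k ∈ K, k.2 w = 0) → w = 0 := by
    intro w hw
    obtain ⟨L, -⟩ := hLA.exists_L hr
    have h1 := L.apply_symm_apply (⟨w, hw⟩ : kerY K)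
    have h2 : L.symm (⟨w, hw⟩ : kerY K) = 0 := by
      apply Subtype.ext
      exact hkX _ (L.symm (⟨w, hw⟩ : kerY K)).2
    rw [h2, map_zero] at h1
    have h3 := congrArg Subtype.val h1
    exact h3.symm
  have hR : 0 < ε - r := by linarith
  obtain ⟨T, hT⟩ := I1.exists_T h hy hR hEq hkY
  -- `f = T` near `y` and near `-y`
  have hfT : ∀ x, ‖x‖ = 1 → ‖x - y‖ < ε - r → f x = T x := by
    intro x hx hxy
    rw [← sub_eq_zero]
    apply hkY
    intro k hk
    rw [map_sub, hEq k hk x hx hxy, hT k hk, sub_self]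
  have hfT' : ∀ x, ‖x‖ = 1 → ‖x + y‖ < ε - r → f x = T x := by
    intro x hx hxy
    have hx' : ‖-x‖ = 1 := by rw [norm_neg]; exact hx
    have h1 := hfT (-x) hx' (by
      have e : -x - y = -(x + y) := by abel
      rw [e, norm_neg]; exact hxy)
    rw [ho x hx, map_neg] at h1
    exact neg_injective h1
  have hfy : f y = T y := hfT y hy (by rw [sub_self, norm_zero]; exact hR)
  refine ⟨T, ?_, ⟨ε - r, hR, ?_⟩, ?_⟩
  · -- surjectivity
    have hfy1 := h.map y hy
    have hrange : ∀ Z : Y, ‖Z‖ = 1 → ‖Z - f y‖ < ε - r → ∃ x, T x = Z := by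
      intro Z hZ hZy
      refine ⟨g Z, ?_⟩
      have h1 : ‖g Z - y‖ = ‖Z - f y‖ := by
        have := h.dist (g Z) y (h.imap Z hZ) hy
        rw [h.right Z hZ] at this
        exact this.symm
      rw [← hfT (g Z) (h.imap Z hZ) (by rw [h1]; exact hZy), h.right Z hZ]
    intro w
    have hw1 : 0 < ‖w‖ + 1 := by positivity
    set t : ℝ := min (1 / 2) ((ε - r) / 4) / (‖w‖ + 1) with ht
    have hm : 0 < min (1 / 2 : ℝ) ((ε - r) / 4) := lt_min (by norm_num) (by linarith)
    have ht0 : 0 < t := div_pos hm hw1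
    have htw : ‖t • w‖ < min (1 / 2 : ℝ) ((ε - r) / 4) := by
      rw [norm_smul, Real.norm_of_nonneg ht0.le, ht, div_mul_eq_mul_div, div_lt_iff₀ hw1]
      nlinarith [norm_nonneg w]
    have h1 : ‖t • w‖ < 1 / 2 := htw.trans_le (min_le_left _ _)
    have h2 : ‖t • w‖ < (ε - r) / 4 := htw.trans_le (min_le_right _ _)
    have hne : f y + t • w ≠ 0 := by
      intro h0
      have h3 : f y = -(t • w) := eq_neg_of_add_eq_zero_left h0
      rw [h3, norm_neg] at hfy1
      linarith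
    obtain ⟨x, hx⟩ := hrange (nu (f y + t • w)) (norm_nu hne) (by
      refine (norm_nu_sub_le hne hfy1).trans_lt ?_
      rw [add_sub_cancel_left]; linarith)
    refine ⟨t⁻¹ • (‖f y + t • w‖ • x - y), ?_⟩
    rw [map_smul, map_sub, map_smul, hx, ← hfy, nu, smul_smul,
      mul_inv_cancel₀ (norm_ne_zero_iff.mpr hne), one_smul, add_sub_cancel_left, smul_smul,
      inv_mul_cancel₀ ht0.ne', one_smul]
  · intro x' hx' hxy'
    have h1 := hfT x' hx' hxy'
    refine ⟨by rw [h1, add_zero], fun _ _ => ?_⟩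
    rw [← h1, J_self, h.map x' hx']
    exact one_pos
  · -- isometry near `u₀`
    have key : ∀ u : X, ‖u‖ = 1 → ‖u - y‖ < ε / 10 → ‖T u‖ = 1 := by
      intro u hu huy
      rcases le_or_gt ε (20 / 9) with hsmall | hbig
      · -- IVT
        have hlt1 : ‖u - y‖ < 1 := by linarith
        have hcont : ContinuousOn (fun l : ℝ => ‖y - l • u‖) (Icc 1 2) := by fun_prop
        have hv1 : ‖y - (1 : ℝ) • u‖ ≤ 1 := by
          rw [one_smul, norm_sub_rev]; exact hlt1.le
        have hv2 : 1 ≤ ‖y - (2 : ℝ) • u‖ := by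
          have := norm_sub_norm_le ((2 : ℝ) • u) y
          rw [norm_smul, hu, hy, norm_sub_rev] at this
          norm_num at this
          linarith
        obtain ⟨l, ⟨hl1, hl2⟩, hl⟩ := intermediate_value_Icc (by norm_num : (1 : ℝ) ≤ 2) hcont
          (show (1 : ℝ) ∈ Icc _ _ from ⟨hv1, hv2⟩)
        simp only at hl
        set x := y - l • u with hx
        have hl3 : 2 - l ≤ ‖u - y‖ := by
          have e : x = (y - u) - (l - 1) • u := by rw [hx]; module
          have h1 := norm_sub_le (y - u) ((l - 1) • u)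
          rw [← e, hl, norm_smul, hu, Real.norm_of_nonneg (by linarith), norm_sub_rev] at h1
          linarith
        have hxy : ‖x + y‖ < ε - r := by
          have e : x + y = (2 : ℝ) • (y - u) + (2 - l) • u := by rw [hx]; module
          have h1 := norm_add_le ((2 : ℝ) • (y - u)) ((2 - l) • u)
          rw [← e, norm_smul, norm_smul, hu, Real.norm_of_nonneg (by linarith : (0 : ℝ) ≤ 2 - l),
            Real.norm_of_nonneg (by norm_num : (0 : ℝ) ≤ 2), norm_sub_rev y u] at h1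
          linarith
        have hfx := hfT' x hl hxy
        have h1 := h.dist y x hy hl
        have e : y - x = l • u := by rw [hx]; abel
        rw [hfx, hfy, ← map_sub, e, map_smul, norm_smul, norm_smul, hu] at h1
        have hl0 : ‖l‖ ≠ 0 := by
          rw [Real.norm_of_nonneg (by linarith)]; linarith
        exact mul_left_cancel₀ hl0 h1
      · have h1 : ‖u - y‖ < ε - r := by
          have := norm_sub_le u y
          rw [hu, hy] at this
          linarith
        rw [← hfT u hu h1]; exact h.map u hu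
    set ρ : ℝ := min (1 / 2) ((ε / 10 - ‖u₀ - y‖) / 2) with hρ
    have hρ0 : 0 < ρ := lt_min (by norm_num) (by linarith)
    refine ⟨ρ, hρ0, fun ξ hξ => ?_⟩
    have h1 : ‖ξ - u₀‖ < 1 / 2 := hξ.trans_le (min_le_left _ _)
    have h2 : ‖ξ - u₀‖ < (ε / 10 - ‖u₀ - y‖) / 2 := hξ.trans_le (min_le_right _ _)
    have hξ0 : ξ ≠ 0 := by
      intro h0
      rw [h0, zero_sub, norm_neg, hu₀] at h1
      norm_num at h1
    have h3 : ‖nu ξ - y‖ < ε / 10 := by
      have h4 := norm_nu_sub_le hξ0 hu₀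
      have e : nu ξ - y = (nu ξ - u₀) + (u₀ - y) := by abel
      rw [e]
      exact (norm_add_le _ _).trans_lt (by linarith)
    have h5 := key (nu ξ) (norm_nu hξ0) h3
    have e : ξ = ‖ξ‖ • nu ξ := by
      rw [nu, smul_smul, mul_inv_cancel₀ (norm_ne_zero_iff.mpr hξ0), one_smul]
    conv_lhs => rw [e]
    rw [map_smul, norm_smul, h5, norm_norm, mul_one]

end InitOne

end Crest.Agent.R074
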