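import Crest.Agent.R074.Canon

/-!
Row 74 (S0099): parallel chords based at points of a common flat segment have a common norming
functional (in the image).
-/

set_option autoImplicit false

namespace Crest.Agent.R074

open Metric Set Filter Topology

section Parallel

variable {X Y : Type*} [NormedAddCommGroup X] [NormedSpace ℝ X] [NormedAddCommGroup Y]
  [NormedSpace ℝ Y] {f : X → Y} {g : Y → X}

/-- smoothness and the support functional are constant along a flat segment around a smooth
point -/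
theorem smooth_flat {y l : X} (hy : ‖y‖ = 1) (hs : Smooth y) {ρ : ℝ} (hρ : 0 < ρ)
    (hflat : ∀ t : ℝ, |t| < ρ → ‖y + t • l‖ = 1) {t : ℝ} (ht : |t| < ρ) :
    J y l = 0 ∧ Smooth (y + t • l) ∧ J (y + t • l) = J y := by
  have key : ∀ (s : ℝ) (P : X →L[ℝ] ℝ), |s| < ρ → Norming P (y + s • l) → P l = 0 := by
    intro s P hsρ hP
    have h1 : 0 < (ρ - |s|) / 2 := by linarith
    set d : ℝ := (ρ - |s|) / 2 with hd
    have hle1 : |s + d| < ρ := by
      have := abs_add_le s d
      rw [abs_of_pos h1] at this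
      linarith
    have hle2 : |s - d| < ρ := by
      have := abs_sub s d
      rw [abs_of_pos h1] at this
      linarith
    have h2 := hP.le (y + (s + d) • l)
    have h3 := hP.le (y + (s - d) • l)
    have h4 := hP.2
    rw [hflat _ hle1, map_add, map_smul, smul_eq_mul] at h2
    rw [hflat _ hle2, map_add, map_smul, smul_eq_mul] at h3
    rw [hflat _ hsρ, map_add, map_smul, smul_eq_mul] at h4
    have h5 : d * P l ≤ 0 := by nlinarith
    have h6 : 0 ≤ d * P l := by nlinarith
    have h7 : d * P l = 0 := le_antisymm h5 h6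
    rcases mul_eq_zero.mp h7 with h | h
    · exact absurd h h1.ne'
    · exact h
  have h0 : |(0 : ℝ)| < ρ := by rw [abs_zero]; exact hρ
  have hall : ∀ P : X →L[ℝ] ℝ, Norming P (y + t • l) → P = J y := by
    intro P hP
    have h1 := key t P ht hP
    apply hs.eq_J
    refine ⟨hP.1, ?_⟩
    have h2 := hP.2
    rw [hflat t ht, map_add, map_smul, h1, smul_zero, add_zero] at h2
    rw [h2, hy]
  refine ⟨?_, ?_, ?_⟩
  · apply key 0 (J y) h0
    rw [zero_smul, add_zero]
    exact J_norming y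
  · apply smooth_of_unique
    intro P Q hP hQ
    rw [hall P hP, hall Q hQ]
  · exact hall _ (J_norming _)

/-- the derivative functional of `p ∘ g` is (up to normalisation) the same at `f y` and at
`f (y + t v)` if `f (s + t v) = f s + t ℓ` for `s` near `y`. -/
theorem SI.isPhi_flat (h : SI f g) {p : X →L[ℝ] ℝ} (hp : ‖p‖ ≤ 1) {y v : X} {l : Y}
    (hy : ‖y‖ = 1) (hs : Smooth (f y)) {ρ : ℝ} (hρ : 0 < ρ)
    (hflat : ∀ s, ‖s‖ = 1 → ‖s - y‖ < ρ → ∀ t : ℝ, |t| < ρ →
      ‖s + t • v‖ = 1 ∧ f (s + t • v) = f s + t • l)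
    {Φ : Y →L[ℝ] ℝ} (hΦ : IsPhi g p (f y) Φ) {t : ℝ} (ht : |t| < ρ) :
    Smooth (f (y + t • v)) ∧ J (f (y + t • v)) = J (f y) ∧
      IsPhi g p (f (y + t • v)) (Φ - (Φ (f (y + t • v))) • J (f y)) := by
  have hfy := h.map y hy
  have hself : ∀ t : ℝ, |t| < ρ → ‖y + t • v‖ = 1 ∧ f (y + t • v) = f y + t • l :=
    hflat y hy (by rw [sub_self, norm_zero]; exact hρ)
  have hyt := (hself t ht).1
  have hft := (hself t ht).2
  have hflatY : ∀ t : ℝ, |t| < ρ → ‖f y + t • l‖ = 1 := by
    intro t ht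
    rw [← (hself t ht).2]
    exact h.map _ (hself t ht).1
  obtain ⟨hJl, hsm, hJ⟩ := smooth_flat hfy hs hρ hflatY ht
  rw [← hft] at hsm hJ
  refine ⟨hsm, hJ, ?_, ?_⟩
  · have h1 : J (f y) (f (y + t • v)) = 1 := by
      rw [hft, map_add, map_smul, hJl, J_self, hfy, smul_zero, add_zero]
    simp only [_root_.sub_apply, _root_.smul_apply, h1, smul_eq_mul, mul_one, sub_self]
  · intro al hal
    rw [hJ] at hal
    have hval : (Φ - (Φ (f (y + t • v))) • J (f y)) al = Φ al := by
      simp only [_root_.sub_apply, _root_.smul_apply, hal, smul_zero, sub_zero]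
    rw [hval]
    have h1 := hΦ.lim al hal
    have h2 : Tendsto (fun n => dq g p (f (y + t • v)) al (rr n) - dq g p (f y) al (rr n)) UU
        (𝓝 0) := by
      rw [Metric.tendsto_nhds]
      intro ε hε
      obtain ⟨δ1, hδ1, hd1⟩ := hs.nu_approx hfy hal (ε := ε / 3) (by positivity)
      obtain ⟨δ2, hδ2, hd2⟩ := hsm.nu_approx (h.map _ hyt) (v := al) (by rw [hJ]; exact hal)
        (ε := ε / 3) (by positivity)
      set δ3 : ℝ := ρ / (2 * ‖al‖ + 1) with hδ3
      have hδ3' : 0 < δ3 := by positivity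
      refine eventually_rr (δ := min (min δ1 δ2) δ3) (lt_min (lt_min hδ1 hδ2) hδ3')
        (P := fun r => Dist.dist (dq g p (f (y + t • v)) al r - dq g p (f y) al r) 0 < ε) ?_
      intro r hr hrδ
      have hr1 : r < δ1 := hrδ.trans_le ((min_le_left _ _).trans (min_le_left _ _))
      have hr2 : r < δ2 := hrδ.trans_le ((min_le_left _ _).trans (min_le_right _ _))
      have hr3 : r < δ3 := hrδ.trans_le (min_le_right _ _)
      obtain ⟨hne1, ha1⟩ := hd1 r hr hr1
      obtain ⟨hne2, ha2⟩ := hd2 r hr hr2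
      set y1 := nu (f y + r • al) with hy1
      set y2 := nu (f (y + t • v) + r • al) with hy2
      have hn1 : ‖y1‖ = 1 := norm_nu hne1
      have hn2 : ‖y2‖ = 1 := norm_nu hne2
      have hgn : ‖g y1‖ = 1 := h.imap _ hn1
      have hgy : ‖g y1 - y‖ < ρ := by
        have h3 := h.symm.dist y1 (f y) hn1 hfy
        rw [h.left y hy] at h3
        rw [h3]
        refine (norm_nu_sub_le hne1 hfy).trans_lt ?_
        rw [add_sub_cancel_left, norm_smul, Real.norm_of_nonneg hr.le]
        have h4 : r * (2 * ‖al‖ + 1) < ρ := by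
          rwa [hδ3, lt_div_iff₀ (by positivity)] at hr3
        nlinarith [norm_nonneg al]
      obtain ⟨h5, h6⟩ := hflat (g y1) hgn hgy t ht
      rw [h.right y1 hn1] at h6
      have h7 : ‖g y2 - (g y1 + t • v)‖ ≤ 2 * (ε / 3) * r := by
        have h8 : ‖g y2 - (g y1 + t • v)‖ = ‖y2 - (y1 + t • l)‖ := by
          have h9 := h.symm.dist y2 (y1 + t • l) hn2 (by rw [← h6]; exact h.map _ h5)
          rw [← h9, ← h6, h.left _ h5]
        rw [h8]
        have e : y2 - (y1 + t • l) = (y2 - (f (y + t • v) + r • al)) - (y1 - (f y + r • al)) := by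
          rw [hft]; abel
        rw [e]
        refine (norm_sub_le _ _).trans ?_
        linarith
      have h9 : dq g p (f (y + t • v)) al r - dq g p (f y) al r
          = p (g y2 - (g y1 + t • v)) / r := by
        unfold dq
        rw [h.left y hy, h.left _ hyt, ← sub_div]
        congr 1
        simp only [map_sub, map_add, map_smul, ← hy1, ← hy2]
        ring
      rw [Real.dist_eq, sub_zero, h9, abs_div, abs_of_pos hr, div_lt_iff₀ hr]
      refine (abs_apply_le_of_norm_le_one hp _).trans_lt ?_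
      refine h7.trans_lt ?_
      nlinarith
    have h3 := h1.add h2
    rw [add_zero] at h3
    refine h3.congr ?_
    intro n
    ring

/-- PARALLEL CHORDS: a common norming functional. -/
theorem SI.parallel_functional (h : SI f g) (ho : ∀ x, ‖x‖ = 1 → f (-x) = -f x)
    {p : X →L[ℝ] ℝ} (hp : ‖p‖ ≤ 1)
    {y x x' v : X} {l : Y} (hmg : MidAt g (f y)) (hsy : Smooth (f y)) (hc : Chord p y x)
    {ρ : ℝ} (hρ : 0 < ρ)
    (hflat : ∀ s, ‖s‖ = 1 → ‖s - y‖ < ρ → ∀ t : ℝ, |t| < ρ →
      ‖s + t • v‖ = 1 ∧ f (s + t • v) = f s + t • l)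
    {t : ℝ} (ht : |t| < ρ) (hc' : Chord p (y + t • v) x') :
    ∃ q : Y →L[ℝ] ℝ, ‖q‖ ≤ 1 ∧ q (f y - f x) = ‖y - x‖ ∧
      q (f (y + t • v) - f x') = ‖y + t • v - x'‖ := by
  have hy := hc.top
  have hfy := h.map y hy
  obtain ⟨Φ, hΦ⟩ := h.exists_isPhi hp hfy hsy hmg
  obtain ⟨hsm, hJ, hΦt⟩ := h.isPhi_flat hp hy hsy hρ hflat hΦ ht
  obtain ⟨q, hq, hqx⟩ := h.exists_canon ho hp hc hsy hΦ
  obtain ⟨q', hq', hqx'⟩ := h.exists_canon ho hp hc' hsm hΦt
  -- the difference is a multiple of J (f y)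
  have hdiff : ∀ z, (q - q') z = (q (f y) - q' (f y)) * J (f y) z := by
    intro z
    have hz : J (f y) (z - (J (f y) z) • f y) = 0 := by
      rw [map_sub, map_smul, J_self, hfy, smul_eq_mul, mul_one, sub_self]
    have h1 := hq.eq _ hz
    have h2 := hq'.eq _ (by rw [hJ]; exact hz)
    have h2' : q' (z - (J (f y) z) • f y) = Φ (z - (J (f y) z) • f y) := by
      rw [h2]
      simp only [_root_.sub_apply, _root_.smul_apply, hz, smul_zero, sub_zero]
    have h3 : q (z - (J (f y) z) • f y) = q' (z - (J (f y) z) • f y) := by rw [h1, h2']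
    simp only [map_sub, map_smul, smul_eq_mul] at h3
    rw [_root_.sub_apply]
    linarith
  have h1 : 0 ≤ (q (f y) - q' (f y)) * J (f y) (f y - f x) := by
    rw [← hdiff, _root_.sub_apply, hqx]
    have := apply_le_of_norm_le_one hq'.norm_le (f y - f x)
    rw [h.dist y x hy hc.bot] at this
    linarith
  have h2 : (q (f y) - q' (f y)) * J (f y) (f (y + t • v) - f x') ≤ 0 := by
    rw [← hdiff, _root_.sub_apply, hqx']
    have := apply_le_of_norm_le_one hq.norm_le (f (y + t • v) - f x')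
    rw [h.dist _ x' hc'.top hc'.bot] at this
    linarith
  have h3 := h.J_chord_pos ho hy hc.bot hc.lt
  have h4 := h.J_chord_pos ho hc'.top hc'.bot hc'.lt
  rw [hJ] at h4
  have h5 : 0 ≤ q (f y) - q' (f y) := by
    by_contra hcon
    push Not at hcon
    have := mul_neg_of_neg_of_pos hcon h3
    linarith
  have h6 : q (f y) - q' (f y) ≤ 0 := by
    by_contra hcon
    push Not at hcon
    have := mul_pos hcon h4
    linarith
  have h7 : q (f y) - q' (f y) = 0 := le_antisymm h6 h5
  refine ⟨q, hq.norm_le, hqx, ?_⟩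
  have h8 := hdiff (f (y + t • v) - f x')
  rw [h7, zero_mul, _root_.sub_apply] at h8
  linarith

end Parallel

end Crest.Agent.R074
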