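import Crest.Agent.R074.MixedDefs
import Crest.Agent.R074.Flat
import Crest.Agent.R074.Parallel
import Crest.Agent.R074.Prop2
import Crest.Agent.R074.AffLoc

/-!
Row 74 (S0099), mixed case (C), initial step (ii): from a flat direction `v` at `y₀` which is not
tangent at `x₀`, `f` is affine near `y₀` with a surjective linear part which is norm preserving
near the direction of the chord `(y₀, x₀)`.
-/

set_option autoImplicit false

namespace Crest.Agent.R074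

open Metric Set Filter Topology

section FlatVector

variable {X Y : Type*} [NormedAddCommGroup X] [NormedSpace ℝ X] [NormedAddCommGroup Y]
  [NormedSpace ℝ Y] {f : X → Y} {g : Y → X}

/-- the local family of pairs of functionals given by the good set -/
def KK (f : X → Y) (ε : ℝ) (y : X) (r : ℝ) : Set ((X →L[ℝ] ℝ) × (Y →L[ℝ] ℝ)) :=
  {k | ∃ u ∈ GoodSet f ε, ‖u - y‖ < r ∧ k = (J u, J (f u))}

theorem SI.la_of_good (h : SI f g) {ε : ℝ} {y : X} (hy : ‖y‖ = 1) {r : ℝ} (hrε : r ≤ ε / 2)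
    (hG : ∀ s, ‖s‖ = 1 → ‖s - y‖ < r → s ∈ closure (GoodSet f ε)) :
    LA f g y r (KK f ε y r) where
  si := h
  hy := hy
  n1 := by
    rintro k ⟨u, -, -, rfl⟩
    exact J_norm_le _
  n2 := by
    rintro k ⟨u, -, -, rfl⟩
    exact J_norm_le _
  eq := by
    rintro k ⟨u, hu, hur, rfl⟩ x hx hxr
    show J (f u) (f x) = J u x
    apply hu.2.2.2 x hx
    have e : x - u = (x - y) - (u - y) := by abel
    rw [e]
    refine (norm_sub_le _ _).trans_lt ?_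
    linarith
  dense := by
    intro s hs hsr δ hδ
    have hmem := hG s hs hsr
    rw [Metric.mem_closure_iff] at hmem
    have hpos : 0 < min δ (r - ‖s - y‖) := lt_min hδ (by linarith)
    obtain ⟨u, hu, hsu⟩ := hmem _ hpos
    rw [dist_eq_norm] at hsu
    have h1 : ‖s - u‖ < δ := hsu.trans_le (min_le_left _ _)
    have h2 : ‖s - u‖ < r - ‖s - y‖ := hsu.trans_le (min_le_right _ _)
    refine ⟨(J u, J (f u)), ⟨u, hu, ?_, rfl⟩, ?_⟩
    · have e : u - y = (s - y) - (s - u) := by abel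
      rw [e]
      refine (norm_sub_le _ _).trans_lt ?_
      linarith
    · show 1 - δ < J u s
      have h3 := J_le u (u - s)
      rw [map_sub, J_self, hu.1, norm_sub_rev] at h3
      linarith

/-- PART 1: along a flat direction, `f` is a translation with one vector `l`. -/
theorem SI.exists_flat_vector (h : SI f g) {ε : ℝ} (hε : 0 < ε) {y v : X} (hy : ‖y‖ = 1)
    {r : ℝ} (hr : 0 < r) (hG : ∀ s, ‖s‖ = 1 → ‖s - y‖ < r → s ∈ closure (GoodSet f ε))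
    (hv : VFlat v y) :
    ∃ l : Y, ∃ ρ : ℝ, 0 < ρ ∧ ∀ s, ‖s‖ = 1 → ‖s - y‖ < ρ → ∀ t : ℝ, |t| < ρ →
      ‖s + t • v‖ = 1 ∧ f (s + t • v) = f s + t • l := by
  obtain ⟨ρ₀, hρ₀, hfl⟩ := hv
  set r₁ : ℝ := min (min r (ε / 2)) ρ₀ with hr₁
  have hr₁0 : 0 < r₁ := lt_min (lt_min hr (by positivity)) hρ₀
  have ha : r₁ ≤ r := (min_le_left _ _).trans (min_le_left _ _)
  have hb : r₁ ≤ ε / 2 := (min_le_left _ _).trans (min_le_right _ _)
  have hc : r₁ ≤ ρ₀ := min_le_right _ _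
  have hLA := h.la_of_good hy hb (fun s hs hsr => hG s hs (hsr.trans_le ha))
  have hmem : v ∈ kerX (KK f ε y r₁) := by
    rintro k ⟨u, hu, hur, rfl⟩
    show J u v = 0
    have h0 : |(0 : ℝ)| < ρ₀ := by rw [abs_zero]; exact hρ₀
    exact (smooth_flat hu.1 hu.2.1 hρ₀ (fun t ht => hfl u hu.1 (hur.trans_le hc) t ht) h0).1
  obtain ⟨L, hL⟩ := hLA.exists_L hr₁0
  have hvp : 0 < ‖v‖ + 1 := by positivity
  refine ⟨L ⟨v, hmem⟩, min (r₁ / 40) (r₁ / 10 / (‖v‖ + 1)), lt_min (by positivity) (by positivity),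
    ?_⟩
  intro s hs hsr t ht
  have h1 : ‖s - y‖ < r₁ / 40 := hsr.trans_le (min_le_left _ _)
  have h2 : |t| < r₁ / 10 / (‖v‖ + 1) := ht.trans_le (min_le_right _ _)
  have h3 : ‖(t • (⟨v, hmem⟩ : kerX (KK f ε y r₁)))‖ ≤ r₁ / 10 := by
    rw [norm_smul, Real.norm_eq_abs]
    have h4 : ‖(⟨v, hmem⟩ : kerX (KK f ε y r₁))‖ = ‖v‖ := rfl
    rw [h4]
    rw [lt_div_iff₀ hvp] at h2
    nlinarith [abs_nonneg t, norm_nonneg v]
  obtain ⟨h5, h6⟩ := hL s hs h1 _ h3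
  refine ⟨h5, ?_⟩
  rw [map_smul] at h6
  exact h6

end FlatVector

section Ends

variable {X : Type*} [NormedAddCommGroup X] [NormedSpace ℝ X]

/-- the bottom end of the chord of direction `u` with top end `y` -/
noncomputable def Eend (s₀ : ℝ) (y u : X) : X := top (-u) (y - s₀ • u)

theorem eend_uchord {s₀ : ℝ} (hs : 0 ≤ s₀) {y u : X} (hy : ‖y‖ = 1) (hu : ‖u‖ = 1)
    (hlt : ‖y - s₀ • u‖ < 1) : UChord u y (Eend s₀ y u) := by
  have h1 := uchord_top hu hlt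
  have h2 : y = top u (y - s₀ • u) := eq_top hlt hy hs (by abel)
  rw [← h2] at h1
  exact h1

theorem eend_eq {s₀ : ℝ} {y x : X} (hx : ‖x‖ = 1) (hlt : ‖y - s₀ • nu (y - x)‖ < 1)
    (hs : s₀ ≤ ‖y - x‖) (hne : y ≠ x) : Eend s₀ y (nu (y - x)) = x := by
  symm
  apply eq_top hlt hx (sub_nonneg.mpr hs)
  rw [smul_neg, sub_smul, tr_norm_smul_nu (sub_ne_zero.mpr hne)]
  abel

theorem continuousOn_eend (s₀ : ℝ) :
    ContinuousOn (fun q : X × X => Eend s₀ q.1 q.2) {q | ‖q.2‖ = 1 ∧ ‖q.1 - s₀ • q.2‖ < 1} := by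
  have h1 : ContinuousOn (fun q : X × X => ((-q.2, q.1 - s₀ • q.2) : X × X))
      {q | ‖q.2‖ = 1 ∧ ‖q.1 - s₀ • q.2‖ < 1} := by fun_prop
  exact (continuousOn_top (X := X)).comp h1 (fun q hq => ⟨by
    show ‖-q.2‖ = 1
    rw [norm_neg]; exact hq.1, hq.2⟩)

/-- numeric frame around a nondegenerate chord -/
theorem exists_frame {y₀ x₀ : X} (hlt : ‖y₀ + x₀‖ < 2) (hne : y₀ ≠ x₀) {ε : ℝ} (hε : 0 < ε) :
    ∃ δ : ℝ, 0 < δ ∧ ∀ y x : X, ‖y - y₀‖ < δ → ‖x - x₀‖ < δ →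
      ‖nu (y - x) - nu (y₀ - x₀)‖ < ε ∧ ‖y + x‖ < 2 ∧ y ≠ x ∧ ‖y₀ - x₀‖ / 2 ≤ ‖y - x‖ := by
  have hne' : y₀ - x₀ ≠ 0 := sub_ne_zero.mpr hne
  have hd : 0 < ‖y₀ - x₀‖ := norm_pos_iff.mpr hne'
  have hc := tr_continuousAt_nu hne'
  rw [Metric.continuousAt_iff] at hc
  obtain ⟨δ₁, hδ₁, h1⟩ := hc ε hε
  refine ⟨min (δ₁ / 2) (min (‖y₀ - x₀‖ / 4) ((2 - ‖y₀ + x₀‖) / 2)),
    lt_min (by positivity) (lt_min (by positivity) (by linarith)), ?_⟩
  intro y x hy hx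
  have hy1 : ‖y - y₀‖ < δ₁ / 2 := hy.trans_le (min_le_left _ _)
  have hx1 : ‖x - x₀‖ < δ₁ / 2 := hx.trans_le (min_le_left _ _)
  have hy2 : ‖y - y₀‖ < ‖y₀ - x₀‖ / 4 := hy.trans_le ((min_le_right _ _).trans (min_le_left _ _))
  have hx2 : ‖x - x₀‖ < ‖y₀ - x₀‖ / 4 := hx.trans_le ((min_le_right _ _).trans (min_le_left _ _))
  have hy3 : ‖y - y₀‖ < (2 - ‖y₀ + x₀‖) / 2 :=
    hy.trans_le ((min_le_right _ _).trans (min_le_right _ _))
  have hx3 : ‖x - x₀‖ < (2 - ‖y₀ + x₀‖) / 2 :=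
    hx.trans_le ((min_le_right _ _).trans (min_le_right _ _))
  have h2 : ‖y - x - (y₀ - x₀)‖ ≤ ‖y - y₀‖ + ‖x - x₀‖ := by
    have e : y - x - (y₀ - x₀) = (y - y₀) - (x - x₀) := by abel
    rw [e]; exact norm_sub_le _ _
  have h3 : ‖y₀ - x₀‖ / 2 < ‖y - x‖ := by
    have h4 : ‖y₀ - x₀‖ ≤ ‖y - x‖ + ‖y - x - (y₀ - x₀)‖ := by
      have e : y₀ - x₀ = (y - x) - (y - x - (y₀ - x₀)) := by abel
      conv_lhs => rw [e]
      exact norm_sub_le _ _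
    linarith
  refine ⟨?_, ?_, ?_, h3.le⟩
  · have h4 := h1 (x := y - x) (by rw [dist_eq_norm]; linarith)
    rwa [dist_eq_norm] at h4
  · have e : y + x = (y₀ + x₀) + ((y - y₀) + (x - x₀)) := by abel
    rw [e]
    have h4 := norm_add_le (y₀ + x₀) ((y - y₀) + (x - x₀))
    have h5 := norm_add_le (y - y₀) (x - x₀)
    linarith
  · rintro rfl
    rw [sub_self, norm_zero] at h3
    linarith

/-- the centre of the chord stays inside -/
theorem exists_frame' {y₀ x₀ : X} (hlt : ‖y₀ + x₀‖ < 2) (hne : y₀ ≠ x₀) :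
    ∃ δ : ℝ, 0 < δ ∧ ∀ y u : X, ‖y - y₀‖ < δ → ‖u - nu (y₀ - x₀)‖ < δ →
      ‖y - (‖y₀ - x₀‖ / 2) • u‖ < 1 := by
  have hne' : y₀ - x₀ ≠ 0 := sub_ne_zero.mpr hne
  have hc : ContinuousAt (fun q : X × X => ‖q.1 - (‖y₀ - x₀‖ / 2) • q.2‖) (y₀, nu (y₀ - x₀)) := by
    fun_prop
  have h0 : ‖y₀ - (‖y₀ - x₀‖ / 2) • nu (y₀ - x₀)‖ < 1 := by
    have e : (‖y₀ - x₀‖ / 2) • nu (y₀ - x₀) = (1 / 2 : ℝ) • (y₀ - x₀) := by
      have h1 : ‖y₀ - x₀‖ / 2 = (1 / 2) * ‖y₀ - x₀‖ := by ring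
      rw [h1, mul_smul, tr_norm_smul_nu hne']
    have e2 : y₀ - (1 / 2 : ℝ) • (y₀ - x₀) = (1 / 2 : ℝ) • (y₀ + x₀) := by module
    rw [e, e2, norm_smul, Real.norm_of_nonneg (by norm_num)]
    linarith
  obtain ⟨δ, hδ, h1⟩ := Metric.eventually_nhds_iff.mp (hc.eventually_lt_const h0)
  refine ⟨δ, hδ, fun y u hy hu => ?_⟩
  apply h1 (y := (y, u))
  rw [Prod.dist_eq, max_lt_iff, dist_eq_norm, dist_eq_norm]
  exact ⟨hy, hu⟩

end Ends

section ParallelDir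

variable {X Y : Type*} [NormedAddCommGroup X] [NormedSpace ℝ X] [NormedAddCommGroup Y]
  [NormedSpace ℝ Y] {f : X → Y} {g : Y → X}

/-- LEMMA P: parallel chords over a flat have images of the same direction. -/
theorem SI.parallel_dir [TopologicalSpace.SeparableSpace X] [TopologicalSpace.SeparableSpace Y]
    [CompleteSpace X] (h : SI f g) (ho : ∀ x, ‖x‖ = 1 → f (-x) = -f x)
    (hmf : ∀ x, ‖x‖ = 1 → Smooth x → MidAt f x) (hmg : ∀ y, ‖y‖ = 1 → Smooth y → MidAt g y)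
    {y₀ x₀ v : X} {l : Y} (hlt : ‖y₀ + x₀‖ < 2)
    (hne : y₀ ≠ x₀) {ρ : ℝ} (hρ : 0 < ρ)
    (hflat : ∀ s, ‖s‖ = 1 → ‖s - y₀‖ < ρ → ∀ t : ℝ, |t| < ρ →
      ‖s + t • v‖ = 1 ∧ f (s + t • v) = f s + t • l)
    {ρ' : ℝ} (hρ' : 0 < ρ')
    (hexp : ∀ᶠ u : sphere (0 : X) 1 in residual (sphere (0 : X) 1),
      ‖(u : X) - nu (y₀ - x₀)‖ < ρ' → Smooth (u : X) ∧ Expo (u : X)) :
    ∃ δ : ℝ, 0 < δ ∧ ∀ y x : X, ∀ t : ℝ, ‖y‖ = 1 → ‖x‖ = 1 → ‖y - y₀‖ < δ → ‖x - x₀‖ < δ →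
      |t| < δ →
      nu (f (y + t • v) - f (Eend (‖y₀ - x₀‖ / 2) (y + t • v) (nu (y - x)))) =
        nu (f y - f x) := by
  obtain ⟨δ₁, hδ₁, hin⟩ := exists_frame' hlt hne
  obtain ⟨δ₂, hδ₂, hfr⟩ := exists_frame hlt hne (lt_min hδ₁ hρ')
  set s₀ : ℝ := ‖y₀ - x₀‖ / 2 with hs₀def
  have hs₀ : 0 ≤ s₀ := by positivity
  have hvp : 0 < ‖v‖ + 1 := by positivity
  refine ⟨min (min δ₂ (ρ / 2)) (δ₁ / (‖v‖ + 1)), lt_min (lt_min hδ₂ (by positivity))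
    (by positivity), ?_⟩
  intro y x t hy hx hyy hxx ht
  have hδle1 : min (min δ₂ (ρ / 2)) (δ₁ / (‖v‖ + 1)) ≤ δ₂ := (min_le_left _ _).trans (min_le_left _ _)
  have hδle2 : min (min δ₂ (ρ / 2)) (δ₁ / (‖v‖ + 1)) ≤ ρ / 2 :=
    (min_le_left _ _).trans (min_le_right _ _)
  have hδle3 : min (min δ₂ (ρ / 2)) (δ₁ / (‖v‖ + 1)) ≤ δ₁ / (‖v‖ + 1) := min_le_right _ _
  set δ := min (min δ₂ (ρ / 2)) (δ₁ / (‖v‖ + 1)) with hδdef
  set S' : Set X := {y' | ‖y'‖ = 1 ∧ ‖y' - y₀‖ < δ} with hS'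
  -- basic facts for points of `S'`
  have B1 : ∀ y' ∈ S', ‖y' + t • v‖ = 1 ∧ f (y' + t • v) = f y' + t • l := by
    intro y' hy'
    exact hflat y' hy'.1 (by linarith [hy'.2]) t (by linarith)
  have B2 : ∀ y' ∈ S', ‖nu (y' - x) - nu (y₀ - x₀)‖ < min δ₁ ρ' ∧ ‖y' + x‖ < 2 ∧ y' ≠ x ∧
      s₀ ≤ ‖y' - x‖ := by
    intro y' hy'
    exact hfr y' x (hy'.2.trans_le hδle1) (hxx.trans_le hδle1)
  have B3 : ∀ y' ∈ S', ‖nu (y' - x)‖ = 1 := fun y' hy' => norm_nu (sub_ne_zero.mpr (B2 y' hy').2.2.1)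
  have B4 : ∀ y' ∈ S', ‖y' + t • v - s₀ • nu (y' - x)‖ < 1 := by
    intro y' hy'
    apply hin
    · have e : y' + t • v - y₀ = (y' - y₀) + t • v := by abel
      rw [e]
      refine (norm_add_le _ _).trans_lt ?_
      rw [norm_smul, Real.norm_eq_abs]
      have h1 : δ * (‖v‖ + 1) ≤ δ₁ := by rwa [le_div_iff₀ hvp] at hδle3
      have h2 := hy'.2
      have h3 : |t| * ‖v‖ ≤ δ * ‖v‖ := mul_le_mul_of_nonneg_right ht.le (norm_nonneg _)
      linarith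
    · exact (B2 y' hy').1.trans_le (min_le_left _ _)
  have B5 : ∀ y' ∈ S', UChord (nu (y' - x)) (y' + t • v) (Eend s₀ (y' + t • v) (nu (y' - x))) := by
    intro y' hy'
    exact eend_uchord hs₀ (B1 y' hy').1 (B3 y' hy') (B4 y' hy')
  -- continuity
  have hfc := h.continuousOn
  have cU : ContinuousOn (fun y' : X => nu (y' - x)) S' := by
    intro y' hy'
    have h2 : ContinuousAt (fun y : X => nu (y - x)) y' :=
      ContinuousAt.comp (g := (nu : X → X)) (f := fun y : X => y - x)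
        (tr_continuousAt_nu (sub_ne_zero.mpr (B2 y' hy').2.2.1)) (by fun_prop)
    exact h2.continuousWithinAt
  have cA : ContinuousOn (fun y' : X => f (y' + t • v)) S' := by
    refine hfc.comp (f := fun y' : X => y' + t • v) (by fun_prop) ?_
    intro y' hy'
    show y' + t • v ∈ sphere (0 : X) 1
    simpa using (B1 y' hy').1
  have cE : ContinuousOn (fun y' : X => Eend s₀ (y' + t • v) (nu (y' - x))) S' := by
    have h1 : ContinuousOn (fun y' : X => ((y' + t • v, nu (y' - x)) : X × X)) S' :=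
      ContinuousOn.prodMk (by fun_prop) cU
    exact (continuousOn_eend s₀).comp h1 (fun y' hy' => ⟨B3 y' hy', B4 y' hy'⟩)
  have cfE : ContinuousOn (fun y' : X => f (Eend s₀ (y' + t • v) (nu (y' - x)))) S' := by
    refine hfc.comp cE ?_
    intro y' hy'
    show Eend s₀ (y' + t • v) (nu (y' - x)) ∈ sphere (0 : X) 1
    simpa using (B5 y' hy').2.1
  have cP : ContinuousOn (fun y' : X =>
      nu (f (y' + t • v) - f (Eend s₀ (y' + t • v) (nu (y' - x))))) S' := by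
    intro y' hy'
    have h1 := (cA.sub cfE) y' hy'
    have h2 : f (y' + t • v) - f (Eend s₀ (y' + t • v) (nu (y' - x))) ≠ 0 := by
      intro h0
      exact (B5 y' hy').ne (h.inj (B1 y' hy').1 (B5 y' hy').2.1 (sub_eq_zero.mp h0))
    exact ContinuousAt.comp_continuousWithinAt (g := (nu : Y → Y))
      (f := fun y' : X => f (y' + t • v) - f (Eend s₀ (y' + t • v) (nu (y' - x))))
      (tr_continuousAt_nu h2) h1
  have cQ : ContinuousOn (fun y' : X => nu (f y' - f x)) S' := by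
    intro y' hy'
    have h0 : ContinuousOn (fun y' : X => f y' - f x) S' := by
      refine ContinuousOn.sub (hfc.mono ?_) continuousOn_const
      intro y' hy'
      simpa using hy'.1
    have h2 : f y' - f x ≠ 0 := by
      intro h0
      exact (B2 y' hy').2.2.1 (h.inj hy'.1 hx (sub_eq_zero.mp h0))
    exact ContinuousAt.comp_continuousWithinAt (g := (nu : Y → Y))
      (f := fun y' : X => f y' - f x) (tr_continuousAt_nu h2) (h0 y' hy')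
  have hyS : y ∈ S' := ⟨hy, hyy⟩
  by_contra hcon
  have hne2 : nu (f (y + t • v) - f (Eend s₀ (y + t • v) (nu (y - x)))) - nu (f y - f x) ≠ 0 :=
    sub_ne_zero.mpr hcon
  have hev := ((cP.sub cQ) y hyS).eventually_ne hne2
  rw [eventually_nhdsWithin_iff, Metric.eventually_nhds_iff] at hev
  obtain ⟨ε', hε', hev⟩ := hev
  obtain ⟨-, hyx2, hyx3, -⟩ := B2 y hyS
  obtain ⟨y', hy', hy'y, hlt', hne', hsy', hsfy', hR⟩ := h.exists_gen
    (R := {u | ‖u - nu (y₀ - x₀)‖ < ρ' → Smooth u ∧ Expo u}) hexp hx hy hyx2 hyx3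
    (ε := min ε' (δ - ‖y - y₀‖)) (lt_min hε' (by linarith))
  have hy'S : y' ∈ S' := by
    refine ⟨hy', ?_⟩
    have e : y' - y₀ = (y' - y) + (y - y₀) := by abel
    rw [e]
    have h1 : ‖y' - y‖ < δ - ‖y - y₀‖ := hy'y.trans_le (min_le_right _ _)
    have := norm_add_le (y' - y) (y - y₀)
    linarith
  apply hev (y := y') (by rw [dist_eq_norm]; exact hy'y.trans_le (min_le_left _ _)) hy'S
  show nu (f (y' + t • v) - f (Eend s₀ (y' + t • v) (nu (y' - x)))) - nu (f y' - f x) = 0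
  rw [sub_eq_zero]
  -- the generic point
  obtain ⟨hsu, heu⟩ := hR ((B2 y' hy'S).1.trans_le (min_le_right _ _))
  have hd0 : y' - x ≠ 0 := sub_ne_zero.mpr hne'
  have hdpos : 0 < ‖y' - x‖ := norm_pos_iff.mpr hd0
  have hu1 := B3 y' hy'S
  set u := nu (y' - x) with hu
  have hxu : y' - x = ‖y' - x‖ • u := (tr_norm_smul_nu hd0).symm
  have hsd : Smooth (y' - x) := by
    rw [hxu]; exact hsu.smul hdpos
  have hJd : J (y' - x) = J u := by
    rw [hxu]; exact hsu.J_smul hdpos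
  have hJuu : J u u = 1 := by rw [J_self, hu1]
  have hc1 : Chord (J u) y' x := by
    refine ⟨hy', hx, ?_, hlt'⟩
    rw [hxu, map_smul, hJuu, norm_smul, hu1, norm_norm, smul_eq_mul]
  obtain ⟨c1, c2, c3, r, hr, c4⟩ := B5 y' hy'S
  have hc2 : Chord (J u) (y' + t • v) (Eend s₀ (y' + t • v) u) := by
    refine ⟨c1, c2, ?_, c3⟩
    rw [c4, map_smul, hJuu, norm_smul, hu1, Real.norm_of_nonneg hr.le, smul_eq_mul]
  obtain ⟨q, hq, hq1, hq2⟩ := h.parallel_functional ho (J_norm_le u) (hmg _ (h.map _ hy') hsfy')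
    hsfy' hc1 (show 0 < ρ / 2 by positivity)
    (fun s hs hsy t' ht' => hflat s hs (by
      have e : s - y₀ = (s - y') + (y' - y₀) := by abel
      rw [e]
      refine (norm_add_le _ _).trans_lt ?_
      have := hy'S.2
      linarith) t' (by linarith)) (t := t) (by linarith) hc2
  have htr := h.exposed_transfer ho hmf hy' hx hlt' hne' hsy' hsd (by
    intro c hc hJc
    rw [hJd] at hJc
    rw [← hu]
    exact heu c hc hJc) hq hq1
  have hn2 : ‖f (y' + t • v) - f (Eend s₀ (y' + t • v) u)‖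
      = ‖y' + t • v - Eend s₀ (y' + t • v) u‖ := h.dist _ _ c1 c2
  have hpos2 : 0 < ‖y' + t • v - Eend s₀ (y' + t • v) u‖ := by
    rw [c4, norm_smul, hu1, Real.norm_of_nonneg hr.le, mul_one]; exact hr
  apply htr
  · apply norm_nu
    rw [← norm_pos_iff, hn2]; exact hpos2
  · rw [nu, map_smul, hq2, hn2, smul_eq_mul, inv_mul_cancel₀ hpos2.ne']

end ParallelDir

section Cover

variable {X : Type*} [NormedAddCommGroup X] [NormedSpace ℝ X]

/-- covering of a ball around `x₀` by the `v`-translates of the sphere, positive case -/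
theorem exists_cover_pos {x₀ v : X} (hx₀ : ‖x₀‖ = 1) (hs : Smooth x₀) (hJ : 0 < J x₀ v) {η : ℝ}
    (hη : 0 < η) : ∃ δ : ℝ, 0 < δ ∧ ∀ ξ : X, ‖ξ - x₀‖ < δ →
      ∃ (x : X) (t : ℝ), ‖x‖ = 1 ∧ ‖x - x₀‖ < η ∧ |t| < η ∧ ξ = x + t • v := by
  obtain ⟨δ, hδ, hd⟩ := hs.deriv v (half_pos hJ)
  have hvp : 0 < ‖v‖ + 1 := by positivity
  set η₁ : ℝ := min δ (min (η / 2) (η / 2 / (‖v‖ + 1))) with hη₁
  have hη₁0 : 0 < η₁ := lt_min hδ (lt_min (by positivity) (by positivity))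
  have ha : η₁ ≤ δ := min_le_left _ _
  have hb : η₁ ≤ η / 2 := (min_le_right _ _).trans (min_le_left _ _)
  have hc : η₁ ≤ η / 2 / (‖v‖ + 1) := (min_le_right _ _).trans (min_le_right _ _)
  have hc' : η₁ * (‖v‖ + 1) ≤ η / 2 := by rwa [le_div_iff₀ hvp] at hc
  have h1 := hd (-η₁) (by rw [abs_neg, abs_of_pos hη₁0]; exact ha)
  rw [abs_neg, abs_of_pos hη₁0, hx₀] at h1
  have h2 := J_le x₀ (x₀ + η₁ • v)
  rw [map_add, map_smul, J_self, hx₀, smul_eq_mul] at h2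
  have hpos : 0 < η₁ * J x₀ v := mul_pos hη₁0 hJ
  refine ⟨min (η₁ * J x₀ v / 2) (η / 2), lt_min (by positivity) (by positivity), ?_⟩
  intro ξ hξ
  have hξ1 : ‖ξ - x₀‖ < η₁ * J x₀ v / 2 := hξ.trans_le (min_le_left _ _)
  have hξ2 : ‖ξ - x₀‖ < η / 2 := hξ.trans_le (min_le_right _ _)
  have h3 : ‖ξ + (-η₁) • v‖ ≤ 1 := by
    have e : ξ + (-η₁) • v = (x₀ + (-η₁) • v) + (ξ - x₀) := by abel
    rw [e]
    have := norm_add_le (x₀ + (-η₁) • v) (ξ - x₀)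
    nlinarith
  have h4 : 1 ≤ ‖ξ + η₁ • v‖ := by
    have e : x₀ + η₁ • v = (ξ + η₁ • v) - (ξ - x₀) := by abel
    have := norm_sub_le (ξ + η₁ • v) (ξ - x₀)
    rw [← e] at this
    nlinarith
  have hcont : ContinuousOn (fun t : ℝ => ‖ξ + t • v‖) (Icc (-η₁) η₁) := by fun_prop
  obtain ⟨t, ht, hte⟩ := intermediate_value_Icc (show -η₁ ≤ η₁ by linarith) hcont
    (show (1 : ℝ) ∈ Icc (‖ξ + (-η₁) • v‖) (‖ξ + η₁ • v‖) from ⟨h3, h4⟩)
  have htabs : |t| ≤ η₁ := abs_le.mpr ⟨ht.1, ht.2⟩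
  refine ⟨ξ + t • v, -t, hte, ?_, ?_, ?_⟩
  · have e : ξ + t • v - x₀ = (ξ - x₀) + t • v := by abel
    rw [e]
    refine (norm_add_le _ _).trans_lt ?_
    rw [norm_smul, Real.norm_eq_abs]
    have := mul_le_mul_of_nonneg_right htabs (norm_nonneg v)
    nlinarith
  · rw [abs_neg]; linarith
  · rw [neg_smul]; abel

theorem exists_cover {x₀ v : X} (hx₀ : ‖x₀‖ = 1) (hs : Smooth x₀) (hJ : J x₀ v ≠ 0) {η : ℝ}
    (hη : 0 < η) : ∃ δ : ℝ, 0 < δ ∧ ∀ ξ : X, ‖ξ - x₀‖ < δ →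
      ∃ (x : X) (t : ℝ), ‖x‖ = 1 ∧ ‖x - x₀‖ < η ∧ |t| < η ∧ ξ = x + t • v := by
  rcases lt_or_gt_of_ne hJ with hJ' | hJ'
  · obtain ⟨δ, hδ, hd⟩ := exists_cover_pos (v := -v) hx₀ hs (by rw [map_neg]; linarith) hη
    refine ⟨δ, hδ, fun ξ hξ => ?_⟩
    obtain ⟨x, t, h1, h2, h3, h4⟩ := hd ξ hξ
    exact ⟨x, -t, h1, h2, by rwa [abs_neg], by rw [h4, smul_neg, neg_smul]⟩
  · exact exists_cover_pos hx₀ hs hJ' hη

/-- the top end of the chord of direction `nu w` through a point `ξ` near `x₀` -/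
theorem exists_topend {y₀ x₀ : X} (hy₀ : ‖y₀‖ = 1) (hlt : ‖y₀ + x₀‖ < 2) (hne : y₀ ≠ x₀) {ε : ℝ}
    (hε : 0 < ε) : ∃ δ : ℝ, 0 < δ ∧ ∀ ξ w : X, ‖ξ - x₀‖ < δ → ‖w - nu (y₀ - x₀)‖ < δ →
      w ≠ 0 ∧ ‖nu w‖ = 1 ∧ ∃ y : X, ‖y‖ = 1 ∧ ‖y - y₀‖ < ε ∧ ∃ c : ℝ, ‖y₀ - x₀‖ / 2 ≤ c ∧
        y - ξ = c • nu w := by
  have hne' : y₀ - x₀ ≠ 0 := sub_ne_zero.mpr hne
  have hd : 0 < ‖y₀ - x₀‖ := norm_pos_iff.mpr hne'
  set u₀ := nu (y₀ - x₀) with hu₀
  have hu₀n : ‖u₀‖ = 1 := norm_nu hne'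
  have hu₀0 : u₀ ≠ 0 := by
    intro h0; rw [h0, norm_zero] at hu₀n; norm_num at hu₀n
  set s₀ : ℝ := ‖y₀ - x₀‖ / 2 with hs₀
  have hs₀0 : 0 < s₀ := by positivity
  have hsu : s₀ • u₀ = (1 / 2 : ℝ) • (y₀ - x₀) := by
    have h1 : s₀ = (1 / 2) * ‖y₀ - x₀‖ := by rw [hs₀]; ring
    rw [h1, mul_smul, hu₀, tr_norm_smul_nu hne']
  have hm : ‖x₀ + s₀ • u₀‖ < 1 := by
    have e2 : x₀ + (1 / 2 : ℝ) • (y₀ - x₀) = (1 / 2 : ℝ) • (y₀ + x₀) := by module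
    rw [hsu, e2, norm_smul, Real.norm_of_nonneg (by norm_num)]
    linarith
  have htop : y₀ = top u₀ (x₀ + s₀ • u₀) := by
    apply eq_top hm hy₀ hs₀0.le
    rw [add_assoc, hsu]; module
  have hcnu : ContinuousAt (nu : X → X) u₀ := tr_continuousAt_nu hu₀0
  have hnu0 : nu u₀ = u₀ := nu_of_norm_one hu₀n
  -- continuity of the top end
  have hct : ContinuousWithinAt (fun q : X × X => top q.1 q.2) {q | ‖q.1‖ = 1 ∧ ‖q.2‖ < 1}
      (u₀, x₀ + s₀ • u₀) := (continuousOn_top (X := X)) _ ⟨hu₀n, hm⟩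
  have hcq : ContinuousAt (fun q : X × X => ((nu q.2, q.1 + s₀ • nu q.2) : X × X)) (x₀, u₀) := by
    have h1 : ContinuousAt (fun q : X × X => nu q.2) (x₀, u₀) :=
      ContinuousAt.comp (g := (nu : X → X)) (f := fun q : X × X => q.2) hcnu continuousAt_snd
    exact h1.prodMk (continuousAt_fst.add (h1.const_smul s₀))
  have hin : ∀ᶠ q : X × X in 𝓝 (x₀, u₀), ‖q.1 + s₀ • nu q.2‖ < 1 := by
    have h1 : ContinuousAt (fun q : X × X => ‖q.1 + s₀ • nu q.2‖) (x₀, u₀) :=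
      (ContinuousAt.comp (g := fun p : X × X => ‖p.2‖)
        (f := fun q : X × X => ((nu q.2, q.1 + s₀ • nu q.2) : X × X)) (by fun_prop) hcq)
    apply h1.eventually_lt_const
    show ‖x₀ + s₀ • nu u₀‖ < 1
    rw [hnu0]; exact hm
  have hw0 : ∀ᶠ q : X × X in 𝓝 (x₀, u₀), q.2 ≠ 0 := by
    have h1 : ContinuousAt (fun q : X × X => q.2) (x₀, u₀) := continuousAt_snd
    exact h1.eventually_ne hu₀0
  have hnear : ∀ᶠ q : X × X in 𝓝 (x₀, u₀), ‖nu q.2‖ = 1 → ‖q.1 + s₀ • nu q.2‖ < 1 →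
      ‖top (nu q.2) (q.1 + s₀ • nu q.2) - y₀‖ < ε := by
    rw [Metric.continuousWithinAt_iff] at hct
    obtain ⟨δ, hδ, h1⟩ := hct ε hε
    rw [Metric.continuousAt_iff] at hcq
    obtain ⟨δ', hδ', h2⟩ := hcq δ hδ
    rw [Metric.eventually_nhds_iff]
    refine ⟨δ', hδ', ?_⟩
    intro q hq hq1 hq2
    have h3 := h2 hq
    simp only [hnu0] at h3
    have h4 := h1 (x := (nu q.2, q.1 + s₀ • nu q.2)) ⟨hq1, hq2⟩ h3
    rw [dist_eq_norm] at h4
    simp only [← htop] at h4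
    exact h4
  obtain ⟨δ, hδ, hall⟩ := Metric.eventually_nhds_iff.mp ((hin.and hw0).and hnear)
  refine ⟨δ, hδ, ?_⟩
  intro ξ w hξ hw
  have hq : dist ((ξ, w) : X × X) (x₀, u₀) < δ := by
    rw [Prod.dist_eq, max_lt_iff, dist_eq_norm, dist_eq_norm]
    exact ⟨hξ, hw⟩
  obtain ⟨⟨h1, h2⟩, h3⟩ := hall hq
  have h1' : ‖ξ + s₀ • nu w‖ < 1 := h1
  have h2' : w ≠ 0 := h2
  have hwn : ‖nu w‖ = 1 := norm_nu h2'
  have h3' : ‖top (nu w) (ξ + s₀ • nu w) - y₀‖ < ε := h3 hwn h1'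
  refine ⟨h2', hwn, top (nu w) (ξ + s₀ • nu w), norm_top hwn h1', h3',
    s₀ + tau (nu w) (ξ + s₀ • nu w), ?_, ?_⟩
  · linarith [tau_pos hwn h1']
  · unfold top
    rw [add_smul]; abel

end Cover

section InitTwo

variable {X Y : Type*} [NormedAddCommGroup X] [NormedSpace ℝ X] [NormedAddCommGroup Y]
  [NormedSpace ℝ Y] {f : X → Y} {g : Y → X}

/-- the difference identity `f y - f x = T (y - x)` near `(y₀, x₀)` -/
theorem SI.init_two_aux [TopologicalSpace.SeparableSpace X] [TopologicalSpace.SeparableSpace Y]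
    [CompleteSpace X] (h : SI f g) (ho : ∀ x, ‖x‖ = 1 → f (-x) = -f x)
    (hmf : ∀ x, ‖x‖ = 1 → Smooth x → MidAt f x) (hmg : ∀ y, ‖y‖ = 1 → Smooth y → MidAt g y)
    {y₀ x₀ v : X} {l : Y} (hy₀ : ‖y₀‖ = 1) (hx₀ : ‖x₀‖ = 1) (hlt : ‖y₀ + x₀‖ < 2)
    (hne : y₀ ≠ x₀) (hsx₀ : Smooth x₀) (hJ : J x₀ v ≠ 0) {ρ : ℝ} (hρ : 0 < ρ)
    (hflat : ∀ s, ‖s‖ = 1 → ‖s - y₀‖ < ρ → ∀ t : ℝ, |t| < ρ →
      ‖s + t • v‖ = 1 ∧ f (s + t • v) = f s + t • l)
    {ρ' : ℝ} (hρ' : 0 < ρ')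
    (hexp : ∀ᶠ u : sphere (0 : X) 1 in residual (sphere (0 : X) 1),
      ‖(u : X) - nu (y₀ - x₀)‖ < ρ' → Smooth (u : X) ∧ Expo (u : X)) :
    ∃ T : X →L[ℝ] Y, ∃ δ : ℝ, 0 < δ ∧ ∀ y x : X, ‖y‖ = 1 → ‖x‖ = 1 → ‖y - y₀‖ < δ →
      ‖x - x₀‖ < δ → f y - f x = T (y - x) := by
  obtain ⟨δP, hδP, hP⟩ := h.parallel_dir ho hmf hmg hlt hne hρ hflat hρ' hexp
  set s₀ : ℝ := ‖y₀ - x₀‖ / 2 with hs₀def
  have hd : 0 < ‖y₀ - x₀‖ := norm_pos_iff.mpr (sub_ne_zero.mpr hne)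
  have hs₀ : 0 < s₀ := by positivity
  have hvp : 0 < ‖v‖ + 1 := by positivity
  obtain ⟨δ₁, hδ₁, hin⟩ := exists_frame' hlt hne
  obtain ⟨δ₂, hδ₂, hfr⟩ := exists_frame hlt hne hδ₁
  -- the local map
  set F : X → X → Y := fun y ξ => f y - ‖y - ξ‖ • nu (f y - f (Eend s₀ y (nu (y - ξ)))) with hF
  -- formula
  set δA : ℝ := min δP δ₂ with hδA
  have hδA0 : 0 < δA := lt_min hδP hδ₂
  set δF : ℝ := min (min (δA / (‖v‖ + 1) / 2) ρ) δA with hδF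
  have hδF0 : 0 < δF := lt_min (lt_min (by positivity) hρ) hδA0
  have a1 : δF ≤ δA / (‖v‖ + 1) / 2 := (min_le_left _ _).trans (min_le_left _ _)
  have a2 : δF ≤ ρ := (min_le_left _ _).trans (min_le_right _ _)
  have a3 : δF ≤ δA := min_le_right _ _
  have a3P : δA ≤ δP := min_le_left _ _
  have a32 : δA ≤ δ₂ := min_le_right _ _
  have a4 : δF * (‖v‖ + 1) ≤ δA / 2 := by
    have : δA / (‖v‖ + 1) / 2 = δA / 2 / (‖v‖ + 1) := by ring
    rwa [this, le_div_iff₀ hvp] at a1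
  have hFF : ∀ (y x : X) (t : ℝ), ‖y‖ = 1 → ‖x‖ = 1 → ‖y - y₀‖ < δF → ‖x - x₀‖ < δF → |t| < δF →
      F y (x + t • v) = f x + t • l := by
    intro y x t hy hx hyy hxx ht
    obtain ⟨b1, b2⟩ := hflat y hy (hyy.trans_le a2) (-t) (by rw [abs_neg]; linarith)
    set s : X := y + (-t) • v with hs
    have hsy : ‖s - y₀‖ < δA := by
      have e : s - y₀ = (y - y₀) + (-t) • v := by rw [hs]; abel
      rw [e]
      refine (norm_add_le _ _).trans_lt ?_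
      rw [norm_smul, Real.norm_eq_abs, abs_neg]
      have := mul_le_mul_of_nonneg_right ht.le (norm_nonneg v)
      nlinarith
    have h1 := hP s x t b1 hx (by linarith) (by linarith) (by linarith)
    have e1 : s + t • v = y := by rw [hs, neg_smul]; abel
    have e2 : y - (x + t • v) = s - x := by rw [hs, neg_smul]; abel
    rw [e1] at h1
    show f y - ‖y - (x + t • v)‖ • nu (f y - f (Eend s₀ y (nu (y - (x + t • v))))) = f x + t • l
    have hsx : s ≠ x := (hfr s x (by linarith) (by linarith)).2.2.1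
    rw [e2, h1]
    have h2 : ‖s - x‖ = ‖f s - f x‖ := (h.dist s x b1 hx).symm
    have h3 : f s - f x ≠ 0 := by
      intro h0
      exact hsx (h.inj b1 hx (sub_eq_zero.mp h0))
    rw [h2, tr_norm_smul_nu h3, b2, neg_smul]
    abel
  -- covering
  obtain ⟨δC, hδC, hC⟩ := exists_cover hx₀ hsx₀ hJ hδF0
  have hx₀₀ : ‖x₀ - x₀‖ < δF := by rw [sub_self, norm_zero]; exact hδF0
  have hy₀₀ : ‖y₀ - y₀‖ < δF := by rw [sub_self, norm_zero]; exact hδF0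
  -- independence of `y`
  have hind : ∀ y ξ : X, ‖y‖ = 1 → ‖y - y₀‖ < δF → ‖ξ - x₀‖ < δC → F y ξ = F y₀ ξ := by
    intro y ξ hy hyy hξ
    obtain ⟨x, t, h1, h2, h3, rfl⟩ := hC ξ hξ
    rw [hFF y x t hy h1 hyy h2 h3, hFF y₀ x t hy₀ h1 hy₀₀ h2 h3]
  have hval : ∀ x : X, ‖x‖ = 1 → ‖x - x₀‖ < δF → F y₀ x = f x := by
    intro x hx hxx
    have := hFF y₀ x 0 hy₀ hx hy₀₀ hxx (by rw [abs_zero]; exact hδF0)
    simpa using this
  -- continuity at `x₀`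
  have hcont : ContinuousAt (F y₀) x₀ := by
    rw [Metric.continuousAt_iff]
    intro e he
    have hlp : 0 < ‖l‖ + 1 := by positivity
    obtain ⟨δ', hδ', hC'⟩ := exists_cover hx₀ hsx₀ hJ (η := min δF (e / (2 * (‖l‖ + 1))))
      (lt_min hδF0 (by positivity))
    refine ⟨δ', hδ', ?_⟩
    intro ξ hξ
    rw [dist_eq_norm] at hξ
    obtain ⟨x, t, h1, h2, h3, rfl⟩ := hC' ξ hξ
    rw [hFF y₀ x t hy₀ h1 hy₀₀ (h2.trans_le (min_le_left _ _)) (h3.trans_le (min_le_left _ _)),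
      hval x₀ hx₀ hx₀₀, dist_eq_norm]
    have e1 : f x + t • l - f x₀ = (f x - f x₀) + t • l := by abel
    rw [e1]
    refine (norm_add_le _ _).trans_lt ?_
    rw [norm_smul, h.dist x x₀ h1 hx₀, Real.norm_eq_abs]
    have h4 : ‖x - x₀‖ < e / (2 * (‖l‖ + 1)) := h2.trans_le (min_le_right _ _)
    have h5 : |t| < e / (2 * (‖l‖ + 1)) := h3.trans_le (min_le_right _ _)
    have h6 : e / (2 * (‖l‖ + 1)) * (‖l‖ + 1) = e / 2 := by field_simp
    have h7 : |t| * ‖l‖ ≤ e / (2 * (‖l‖ + 1)) * ‖l‖ :=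
      mul_le_mul_of_nonneg_right h5.le (norm_nonneg _)
    have h8 : 0 < e / (2 * (‖l‖ + 1)) := by positivity
    nlinarith
  -- affine along lines
  obtain ⟨δE, hδE, hE⟩ := exists_topend hy₀ hlt hne hδF0
  set δL : ℝ := min (min δE δC) (s₀ / 2) with hδL
  have hδL0 : 0 < δL := lt_min (lt_min hδE hδC) (by positivity)
  have c1 : δL ≤ δE := (min_le_left _ _).trans (min_le_left _ _)
  have c2 : δL ≤ δC := (min_le_left _ _).trans (min_le_right _ _)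
  have c3 : δL ≤ s₀ / 2 := min_le_right _ _
  have hline : ∀ ξ ∈ ball x₀ δL, ∀ w ∈ ball (nu (y₀ - x₀)) δL, ∃ A : Y, ∀ τ : ℝ,
      ξ + τ • w ∈ ball x₀ δL → F y₀ (ξ + τ • w) = F y₀ ξ + τ • A := by
    intro ξ hξ w hw
    rw [mem_ball, dist_eq_norm] at hξ hw
    obtain ⟨hw0, hwn, y, hy, hyy, c, hc, hyξ⟩ := hE ξ w (hξ.trans_le c1) (hw.trans_le c1)
    refine ⟨‖w‖ • nu (f y - f (Eend s₀ y (nu w))), ?_⟩
    intro τ hτ
    rw [mem_ball, dist_eq_norm] at hτ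
    have hcpos : 0 < c := lt_of_lt_of_le hs₀ hc
    have hτw : |τ| * ‖w‖ < s₀ := by
      have h1 : ‖τ • w‖ ≤ ‖ξ + τ • w - x₀‖ + ‖ξ - x₀‖ := by
        have e : τ • w = (ξ + τ • w - x₀) - (ξ - x₀) := by abel
        conv_lhs => rw [e]
        exact norm_sub_le _ _
      rw [norm_smul, Real.norm_eq_abs] at h1
      linarith
    have hcτ : 0 < c - τ * ‖w‖ := by
      have : τ * ‖w‖ ≤ |τ| * ‖w‖ := mul_le_mul_of_nonneg_right (le_abs_self _) (norm_nonneg _)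
      linarith
    have e1 : y - (ξ + τ • w) = (c - τ * ‖w‖) • nu w := by
      have h1 : τ • w = (τ * ‖w‖) • nu w := by
        rw [mul_smul, tr_norm_smul_nu hw0]
      rw [sub_smul, ← h1, ← hyξ]; abel
    have n1 : nu (y - (ξ + τ • w)) = nu w := by
      rw [e1, tr_nu_smul hcτ, nu_of_norm_one hwn]
    have n2 : ‖y - (ξ + τ • w)‖ = c - τ * ‖w‖ := by
      rw [e1, norm_smul, hwn, mul_one, Real.norm_of_nonneg hcτ.le]
    have n3 : nu (y - ξ) = nu w := by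
      rw [hyξ, tr_nu_smul hcpos, nu_of_norm_one hwn]
    have n4 : ‖y - ξ‖ = c := by
      rw [hyξ, norm_smul, hwn, mul_one, Real.norm_of_nonneg hcpos.le]
    rw [← hind y _ hy hyy (hτ.trans_le c2), ← hind y _ hy hyy (hξ.trans_le c2)]
    show f y - ‖y - (ξ + τ • w)‖ • nu (f y - f (Eend s₀ y (nu (y - (ξ + τ • w)))))
      = f y - ‖y - ξ‖ • nu (f y - f (Eend s₀ y (nu (y - ξ)))) + τ • (‖w‖ • nu (f y - f (Eend s₀ y (nu w))))
    rw [n1, n2, n3, n4]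
    module
  obtain ⟨T, r, hr, hrδ, hT⟩ := affLoc hδL0 hδL0 hcont hline
  -- the difference identity
  set δZ : ℝ := min (min δF δ₂) (min (r / 2) δC) with hδZ
  have hδZ0 : 0 < δZ := lt_min (lt_min hδF0 hδ₂) (lt_min (by positivity) hδC)
  have d1 : δZ ≤ δF := (min_le_left _ _).trans (min_le_left _ _)
  have d2 : δZ ≤ δ₂ := (min_le_left _ _).trans (min_le_right _ _)
  have d3 : δZ ≤ r / 2 := (min_le_right _ _).trans (min_le_left _ _)
  have d4 : δZ ≤ δC := (min_le_right _ _).trans (min_le_right _ _)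
  refine ⟨T, min δZ δ₁, lt_min hδZ0 hδ₁, ?_⟩
  intro y x hy hx hyy hxx
  have hyy1 : ‖y - y₀‖ < δZ := hyy.trans_le (min_le_left _ _)
  have hxx1 : ‖x - x₀‖ < δZ := hxx.trans_le (min_le_left _ _)
  have hyy2 : ‖y - y₀‖ < δ₁ := hyy.trans_le (min_le_right _ _)
  obtain ⟨g1, g2, g3, g4⟩ := hfr y x (hyy1.trans_le d2) (hxx1.trans_le d2)
  have hyx0 : y - x ≠ 0 := sub_ne_zero.mpr g3
  have hyxpos : 0 < ‖y - x‖ := norm_pos_iff.mpr hyx0
  set u := nu (y - x) with hu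
  have hun : ‖u‖ = 1 := norm_nu hyx0
  have hEnd : Eend s₀ y u = x := eend_eq hx (hin y u hyy2 g1) g4 g3
  set τ : ℝ := min (r / 2) (min (δC - ‖x - x₀‖) ‖y - x‖) / 2 with hτ
  have hm0 : 0 < min (r / 2) (min (δC - ‖x - x₀‖) ‖y - x‖) :=
    lt_min (by positivity) (lt_min (by linarith) hyxpos)
  have hτ0 : 0 < τ := by positivity
  have t1 : τ < r / 2 := by
    have := min_le_left (r / 2) (min (δC - ‖x - x₀‖) ‖y - x‖)
    linarith
  have t2 : τ < δC - ‖x - x₀‖ := by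
    have := (min_le_right (r / 2) (min (δC - ‖x - x₀‖) ‖y - x‖)).trans (min_le_left _ _)
    linarith
  have t3 : τ < ‖y - x‖ := by
    have := (min_le_right (r / 2) (min (δC - ‖x - x₀‖) ‖y - x‖)).trans (min_le_right _ _)
    linarith
  have hnear : ‖x + τ • u - x₀‖ ≤ ‖x - x₀‖ + τ := by
    have e : x + τ • u - x₀ = (x - x₀) + τ • u := by abel
    rw [e]
    refine (norm_add_le _ _).trans ?_
    rw [norm_smul, hun, mul_one, Real.norm_of_nonneg hτ0.le]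
  have h1 := hT (x + τ • u) (by linarith)
  have h2 := hT x (by linarith)
  have h3 : F y₀ (x + τ • u) = F y₀ x + τ • T u := by
    rw [h1, h2]
    have e : x + τ • u - x₀ = (x - x₀) + τ • u := by abel
    rw [e, map_add, map_smul]; abel
  rw [hval x hx (by linarith), ← hind y _ hy (by linarith) (by linarith)] at h3
  have e1 : y - (x + τ • u) = (‖y - x‖ - τ) • u := by
    rw [sub_smul, hu, tr_norm_smul_nu hyx0]; abel
  have hpos : 0 < ‖y - x‖ - τ := by linarith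
  have n1 : nu (y - (x + τ • u)) = u := by
    rw [e1, tr_nu_smul hpos, nu_of_norm_one hun]
  have n2 : ‖y - (x + τ • u)‖ = ‖y - x‖ - τ := by
    rw [e1, norm_smul, hun, mul_one, Real.norm_of_nonneg hpos.le]
  have h4 : f y - ‖y - (x + τ • u)‖ • nu (f y - f (Eend s₀ y (nu (y - (x + τ • u)))))
      = f x + τ • T u := h3
  rw [n1, n2, hEnd] at h4
  have hfyx : f y - f x ≠ 0 := by
    intro h0
    exact g3 (h.inj hy hx (sub_eq_zero.mp h0))
  have h5 : f y - f x = ‖y - x‖ • nu (f y - f x) := by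
    rw [← h.dist y x hy hx, tr_norm_smul_nu hfyx]
  have h6 : τ • T u = τ • nu (f y - f x) := by
    have h7 : τ • T u = (f y - f x) - (‖y - x‖ - τ) • nu (f y - f x) := by
      have h8 : τ • T u = (f y - (‖y - x‖ - τ) • nu (f y - f x)) - f x := by
        rw [h4]; abel
      rw [h8]; abel
    have h9 : (f y - f x) - (‖y - x‖ - τ) • nu (f y - f x)
        = ‖y - x‖ • nu (f y - f x) - (‖y - x‖ - τ) • nu (f y - f x) := by
      congr 1
    rw [h7, h9, ← sub_smul, sub_sub_cancel]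
  have h7 : T u = nu (f y - f x) := smul_right_injective Y hτ0.ne' h6
  have h8 : T (y - x) = ‖y - x‖ • T u := by
    rw [hu, ← map_smul, tr_norm_smul_nu hyx0]
  rw [h8, h7, ← h5]

/-- PART 2 -/
theorem SI.init_two [TopologicalSpace.SeparableSpace X] [TopologicalSpace.SeparableSpace Y]
    [CompleteSpace X] (h : SI f g) (ho : ∀ x, ‖x‖ = 1 → f (-x) = -f x)
    (hmf : ∀ x, ‖x‖ = 1 → Smooth x → MidAt f x) (hmg : ∀ y, ‖y‖ = 1 → Smooth y → MidAt g y)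
    {y₀ x₀ v : X} {l : Y} (hy₀ : ‖y₀‖ = 1) (hx₀ : ‖x₀‖ = 1) (hlt : ‖y₀ + x₀‖ < 2)
    (hne : y₀ ≠ x₀) (hsx₀ : Smooth x₀) (hJ : J x₀ v ≠ 0) {ρ : ℝ} (hρ : 0 < ρ)
    (hflat : ∀ s, ‖s‖ = 1 → ‖s - y₀‖ < ρ → ∀ t : ℝ, |t| < ρ →
      ‖s + t • v‖ = 1 ∧ f (s + t • v) = f s + t • l)
    {ρ' : ℝ} (hρ' : 0 < ρ')
    (hexp : ∀ᶠ u : sphere (0 : X) 1 in residual (sphere (0 : X) 1),
      ‖(u : X) - nu (y₀ - x₀)‖ < ρ' → Smooth (u : X) ∧ Expo (u : X)) :
    ∃ (T : X →L[ℝ] Y) (τ : Y), Function.Surjective T ∧ AffAt f T τ y₀ ∧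
      ∃ ρ₁ : ℝ, 0 < ρ₁ ∧ ∀ ξ : X, ‖ξ - nu (y₀ - x₀)‖ < ρ₁ → ‖T ξ‖ = ‖ξ‖ := by
  obtain ⟨T, δ, hδ, hT⟩ := h.init_two_aux ho hmf hmg hy₀ hx₀ hlt hne hsx₀ hJ hρ hflat hρ' hexp
  have hne' : y₀ - x₀ ≠ 0 := sub_ne_zero.mpr hne
  have hx₀₀ : ‖x₀ - x₀‖ < δ := by rw [sub_self, norm_zero]; exact hδ
  -- directions
  have hdir : ∀ y : X, ‖y‖ = 1 → ‖y - y₀‖ < δ → f y = T y + (f x₀ - T x₀) := by
    intro y hy hyy
    have := hT y x₀ hy hx₀ hyy hx₀₀
    rw [map_sub, sub_eq_iff_eq_add] at this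
    rw [this]; abel
  refine ⟨T, f x₀ - T x₀, ?_, ?_, ?_⟩
  · -- surjectivity
    have hfy := h.map y₀ hy₀
    have hfx := h.map x₀ hx₀
    have hltf : ‖f y₀ + f x₀‖ < 2 := by rw [h.norm_add ho hy₀ hx₀]; exact hlt
    have hnef : f y₀ ≠ f x₀ := fun h0 => hne (h.inj hy₀ hx₀ h0)
    obtain ⟨δ₅, hδ₅, hE⟩ := exists_end_of_dir hfx hfy hltf hnef hδ
    set ω₀ := nu (f y₀ - f x₀) with hω₀
    have hω₀n : ‖ω₀‖ = 1 := norm_nu (sub_ne_zero.mpr hnef)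
    have hω₀0 : ω₀ ≠ 0 := by
      intro h0
      rw [h0, norm_zero] at hω₀n
      norm_num at hω₀n
    have hR : ∀ ω : Y, ‖ω‖ = 1 → ‖ω - ω₀‖ < δ₅ → ∃ ξ, T ξ = ω := by
      intro ω hω hωω
      obtain ⟨η', hη', c1, c2, c3, r, hr, c4⟩ := hE ω hω hωω
      have h1 := h.imap η' c1
      have h2 : ‖g η' - y₀‖ < δ := by
        have := h.symm.dist η' (f y₀) c1 hfy
        rw [h.left y₀ hy₀] at this
        rw [this]; exact hη'
      have h3 := hT (g η') x₀ h1 hx₀ h2 hx₀₀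
      rw [h.right η' c1, c4] at h3
      refine ⟨r⁻¹ • (g η' - x₀), ?_⟩
      rw [map_smul, ← h3, smul_smul, inv_mul_cancel₀ hr.ne', one_smul]
    intro z
    have hcont : ContinuousAt (fun t : ℝ => nu (ω₀ + t • z)) 0 := by
      have h1 : ContinuousAt (fun t : ℝ => ω₀ + t • z) 0 := by fun_prop
      have h2 : ContinuousAt (nu : Y → Y) (ω₀ + (0 : ℝ) • z) := by
        rw [zero_smul, add_zero]; exact tr_continuousAt_nu hω₀0
      exact ContinuousAt.comp (f := fun t : ℝ => ω₀ + t • z) h2 h1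
    have hcont2 : ContinuousAt (fun t : ℝ => ω₀ + t • z) 0 := by fun_prop
    have hev : ∀ᶠ t : ℝ in 𝓝 0, ω₀ + t • z ≠ 0 := by
      apply hcont2.eventually_ne
      rw [zero_smul, add_zero]; exact hω₀0
    rw [Metric.continuousAt_iff] at hcont
    obtain ⟨δ₆, hδ₆, h6⟩ := hcont δ₅ hδ₅
    obtain ⟨δ₇, hδ₇, h7⟩ := Metric.eventually_nhds_iff.mp hev
    set t : ℝ := min δ₆ δ₇ / 2 with ht
    have hm : 0 < min δ₆ δ₇ := lt_min hδ₆ hδ₇
    have ht0 : 0 < t := by positivity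
    have ht6 : Dist.dist t 0 < δ₆ := by
      rw [Real.dist_eq, sub_zero, abs_of_pos ht0]
      have := min_le_left δ₆ δ₇
      linarith
    have ht7 : Dist.dist t 0 < δ₇ := by
      rw [Real.dist_eq, sub_zero, abs_of_pos ht0]
      have := min_le_right δ₆ δ₇
      linarith
    have h8 := h6 ht6
    have h9 := h7 ht7
    simp only [zero_smul, add_zero, nu_of_norm_one hω₀n] at h8
    rw [dist_eq_norm] at h8
    obtain ⟨ξ₁, hξ₁⟩ := hR _ (norm_nu h9) h8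
    obtain ⟨ξ₀, hξ₀⟩ := hR ω₀ hω₀n (by rw [sub_self, norm_zero]; exact hδ₅)
    refine ⟨t⁻¹ • (‖ω₀ + t • z‖ • ξ₁ - ξ₀), ?_⟩
    rw [map_smul, map_sub, map_smul, hξ₁, hξ₀, tr_norm_smul_nu h9, add_sub_cancel_left, smul_smul,
      inv_mul_cancel₀ ht0.ne', one_smul]
  · -- affine near y₀
    obtain ⟨δ₂, hδ₂, hfr⟩ := exists_frame hlt hne one_pos
    refine ⟨min (δ / 2) δ₂, lt_min (by positivity) hδ₂, ?_⟩
    intro y hy hyy
    have hyy1 : ‖y - y₀‖ < δ / 2 := hyy.trans_le (min_le_left _ _)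
    refine ⟨hdir y hy (by linarith), fun hsy hsfy => ?_⟩
    have h1 := (hfr y x₀ (hyy.trans_le (min_le_right _ _))
      (by rw [sub_self, norm_zero]; exact hδ₂)).2.1
    refine h.orient_bot ho (τ := f x₀ - T x₀) hx₀ hy (by rwa [add_comm]) hsy (by abel)
      ⟨δ / 2, by positivity, ?_⟩
    intro y' hy' hy'y
    apply hdir y' hy'
    have e : y' - y₀ = (y' - y) + (y - y₀) := by abel
    rw [e]
    refine (norm_add_le _ _).trans_lt ?_
    linarith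
  · -- norm preserving
    obtain ⟨δ₃, hδ₃, hE⟩ := exists_end_of_dir hx₀ hy₀ hlt hne hδ
    have hunit : ∀ u : X, ‖u‖ = 1 → ‖u - nu (y₀ - x₀)‖ < δ₃ → ‖T u‖ = 1 := by
      intro u hu huu
      obtain ⟨y, hy, hc⟩ := hE u hu huu
      obtain ⟨c1, c2, c3, r, hr, c4⟩ := hc
      have h1 := hT y x₀ c1 hx₀ hy hx₀₀
      have h2 := h.dist y x₀ c1 hx₀
      rw [h1, c4, map_smul, norm_smul, norm_smul, hu] at h2
      rw [Real.norm_of_nonneg hr.le] at h2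
      exact mul_left_cancel₀ hr.ne' h2
    have hc : ContinuousAt (nu : X → X) (nu (y₀ - x₀)) := by
      apply tr_continuousAt_nu
      intro h0
      have := norm_nu hne'
      rw [h0, norm_zero] at this
      norm_num at this
    rw [Metric.continuousAt_iff] at hc
    obtain ⟨δ₄, hδ₄, h4⟩ := hc δ₃ hδ₃
    refine ⟨δ₄, hδ₄, fun ξ hξ => ?_⟩
    rcases eq_or_ne ξ 0 with rfl | hξ0
    · rw [map_zero, norm_zero, norm_zero]
    · have h5 := h4 (x := ξ) (by rw [dist_eq_norm]; exact hξ)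
      rw [nu_of_norm_one (norm_nu hne'), dist_eq_norm] at h5
      have h6 := hunit (nu ξ) (norm_nu hξ0) h5
      conv_lhs => rw [← tr_norm_smul_nu hξ0]
      rw [map_smul, norm_smul, norm_norm, h6, mul_one]

end InitTwo

end Crest.Agent.R074
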