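import Crest.Agent.R074.MixedDefs
import Crest.Agent.R074.Asm
import Crest.Agent.R074.Trans
import Crest.Agent.R074.Flat

/-!
Row 74 (S0099): mixed case, selection lemma. If the norm is flat in the direction `v` near some
point of the sphere and the good set is not dense, then there is a chord with direction outside the
closure of the good set, flat at its top end and not flat at its bottom end.
-/

set_option autoImplicit false

namespace Crest.Agent.R074

open Metric Set Filter Topology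

section MixedSel

variable {X : Type*} [NormedAddCommGroup X] [NormedSpace ℝ X]

theorem VFlat.neg {v s : X} (h : VFlat v s) : VFlat v (-s) := by
  obtain ⟨ρ, hρ, h1⟩ := h
  refine ⟨ρ, hρ, fun s' hs' hs t ht => ?_⟩
  have h2 : ‖-s' - s‖ < ρ := by
    have e : -s' - s = -(s' - -s) := by abel
    rw [e, norm_neg]; exact hs
  have h3 := h1 (-s') (by rwa [norm_neg]) h2 (-t) (by rwa [abs_neg])
  have e : -s' + (-t) • v = -(s' + t • v) := by rw [neg_smul]; abel
  rwa [e, norm_neg] at h3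

theorem VFlat.nhds {v s : X} (h : VFlat v s) :
    ∃ ε : ℝ, 0 < ε ∧ ∀ y, ‖y‖ = 1 → ‖y - s‖ < ε → VFlat v y := by
  obtain ⟨ρ, hρ, h1⟩ := h
  refine ⟨ρ / 2, half_pos hρ, fun y _ hys => ⟨ρ / 2, half_pos hρ, fun s' hs' hsy t ht => ?_⟩⟩
  apply h1 s' hs' _ t (by linarith)
  have := norm_add_le (s' - y) (y - s)
  rw [sub_add_sub_cancel] at this
  linarith

/-- at an exposed unit point the norm is flat in no nonzero direction -/
theorem Expo.not_vflat {u v : X} (hu : ‖u‖ = 1) (hE : Expo u) (hf : VFlat v u) : v = 0 := by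
  obtain ⟨ρ, hρ, h1⟩ := hf
  have h2 : ∀ t : ℝ, |t| < ρ → ‖u + t • v‖ = 1 := fun t ht => h1 u hu (by simpa using hρ) t ht
  have habs : |ρ / 2| < ρ := by rw [abs_of_pos (half_pos hρ)]; linarith
  have h3 := h2 (ρ / 2) habs
  have h4 := h2 (-(ρ / 2)) (by rwa [abs_neg])
  have h5 := J_le u (u + (ρ / 2) • v)
  have h6 := J_le u (u + (-(ρ / 2)) • v)
  rw [map_add, map_smul, J_self, hu, h3, smul_eq_mul] at h5
  rw [map_add, map_smul, J_self, hu, h4, smul_eq_mul] at h6
  have h7 : J u v = 0 := by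
    have : 0 < ρ / 2 := half_pos hρ
    apply le_antisymm
    · by_contra hc
      push Not at hc
      nlinarith
    · by_contra hc
      push Not at hc
      nlinarith
  have h8 := hE (u + (ρ / 2) • v) h3 (by rw [map_add, map_smul, J_self, hu, h7]; simp)
  have h9 : (ρ / 2) • v = 0 := by simpa using h8
  rcases smul_eq_zero.mp h9 with h10 | h10
  · linarith
  · exact h10

/-- selection of a chord with bad direction, flat at the top and not flat at the bottom -/
theorem exists_vflat_chord {Y : Type*} [NormedAddCommGroup Y] [NormedSpace ℝ Y]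
    [TopologicalSpace.SeparableSpace X] [CompleteSpace X] {f : X → Y} {ε : ℝ}
    {v s₀ : X} (hv : v ≠ 0) (hs₀ : ‖s₀‖ = 1) (hfl : VFlat v s₀)
    {p : X} (hp : ‖p‖ = 1) (hpG : p ∉ closure (GoodSet f ε)) (hgen : GenLTA f ε) :
    ∃ u x y : X, UChord u x y ∧ ‖u‖ = 1 ∧ u ∉ closure (GoodSet f ε) ∧ VFlat v x ∧
      ¬ VFlat v y := by
  by_contra hcon
  push Not at hcon
  set F : Set X := {x | VFlat v x} with hF
  set O : Set X := {u | ‖u‖ = 1 ∧ u ∉ closure (GoodSet f ε)} with hO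
  have hFo : ∀ x ∈ F, ‖x‖ = 1 → ∃ ε : ℝ, 0 < ε ∧ ∀ y, ‖y‖ = 1 → ‖y - x‖ < ε → y ∈ F :=
    fun x hx _ => VFlat.nhds hx
  have hOo : ∀ x ∈ O, ‖x‖ = 1 → ∃ ε : ℝ, 0 < ε ∧ ∀ y, ‖y‖ = 1 → ‖y - x‖ < ε → y ∈ O := by
    intro x hx _
    have h1 : (closure (GoodSet f ε))ᶜ ∈ 𝓝 x := isClosed_closure.isOpen_compl.mem_nhds hx.2
    obtain ⟨δ, hδ, h2⟩ := Metric.mem_nhds_iff.mp h1
    refine ⟨δ, hδ, fun y hy hyx => ⟨hy, ?_⟩⟩
    exact h2 (by rw [mem_ball, dist_eq_norm]; exact hyx)
  have hinv : ∀ u ∈ O, ∀ x y, UChord u x y → (x ∈ F ↔ y ∈ F) := by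
    intro u hu x y hc
    constructor
    · intro hx
      exact hcon u x y hc hu.1 hu.2 hx
    · intro hy
      have h1 := hcon u (-y) (-x) hc.neg hu.1 hu.2 (VFlat.neg hy)
      have h2 := h1.neg
      rwa [neg_neg] at h2
  obtain ⟨δ, hδ, hOδ⟩ := hOo p ⟨hp, hpG⟩ hp
  obtain ⟨y, hyF, hy, hyp⟩ := trans_dense hFo hOo hinv hs₀ hfl hp ⟨hp, hpG⟩ hp (half_pos hδ)
  obtain ⟨η, hη, hFη⟩ := hFo y hyF hy
  -- a generic point near `y`
  have : CompleteSpace (sphere (0 : X) 1) := isClosed_sphere.completeSpace_coe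
  have hdense := dense_of_mem_residual hgen
  have hm : 0 < min η (δ / 2) := lt_min hη (half_pos hδ)
  let U : Set (sphere (0 : X) 1) := {x | (x : X) ∈ ball y (min η (δ / 2))}
  have hU : IsOpen U := isOpen_ball.preimage continuous_subtype_val
  have hUne : U.Nonempty := ⟨⟨y, by simpa using hy⟩, by simpa [U] using ⟨hη, hδ⟩⟩
  obtain ⟨u, huU, hu⟩ := hdense.inter_open_nonempty U hU hUne
  have hu1 : ‖(u : X)‖ = 1 := by simpa using u.2
  have huy : ‖(u : X) - y‖ < min η (δ / 2) := by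
    have : (u : X) ∈ ball y (min η (δ / 2)) := huU
    rwa [mem_ball, dist_eq_norm] at this
  have huF : VFlat v (u : X) := hFη u hu1 (huy.trans_le (min_le_left _ _))
  have huO : (u : X) ∈ O := by
    apply hOδ u hu1
    have h1 := norm_add_le ((u : X) - y) (y - p)
    rw [sub_add_sub_cancel] at h1
    have h2 := huy.trans_le (min_le_right _ _)
    linarith
  rcases hu.2.2 with h1 | h1
  · exact hv (h1.not_vflat hu1 huF)
  · exact huO.2 (subset_closure (show (u : X) ∈ GoodSet f ε from ⟨hu1, hu.1, hu.2.1, h1⟩))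

/-- if `J s v = 0` for all smooth `s` near `y`, then the norm is flat at `y` in direction `v` -/
theorem vflat_of_smooth [TopologicalSpace.SeparableSpace X] [CompleteSpace X] {v y : X}
    (hy : ‖y‖ = 1) {δ : ℝ} (hδ : 0 < δ)
    (hJ : ∀ s : X, ‖s‖ = 1 → ‖s - y‖ < δ → Smooth s → J s v = 0) : VFlat v y := by
  have hid : SI (fun x : X => x) (fun x : X => x) :=
    ⟨fun _ h => h, fun _ h => h, fun _ _ => rfl, fun _ _ => rfl, fun _ _ _ _ => rfl⟩
  set K : Set ((X →L[ℝ] ℝ) × (X →L[ℝ] ℝ)) :=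
    {k | ∃ s : X, ‖s‖ = 1 ∧ ‖s - y‖ < δ ∧ Smooth s ∧ k = (J s, J s)} with hK
  have hLA : LA (fun x : X => x) (fun x : X => x) y δ K :=
    { si := hid
      hy := hy
      n1 := by rintro _ ⟨s, -, -, -, rfl⟩; exact J_norm_le s
      n2 := by rintro _ ⟨s, -, -, -, rfl⟩; exact J_norm_le s
      eq := by rintro _ ⟨s, -, -, -, rfl⟩ x _ _; rfl
      dense := by
        intro s hs hsy η hη
        have hm : 0 < min η (δ - ‖s - y‖) := lt_min hη (by linarith)
        obtain ⟨s₁, hs₁, hs₁s, hs₁S, -⟩ := hid.exists_joint hs hm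
        refine ⟨(J s₁, J s₁), ⟨s₁, hs₁, ?_, hs₁S, rfl⟩, ?_⟩
        · have h1 := norm_add_le (s₁ - s) (s - y)
          rw [sub_add_sub_cancel] at h1
          have h2 := hs₁s.trans_le (min_le_right _ _)
          linarith
        · have h1 := J_abs_le s₁ (s₁ - s)
          rw [map_sub, J_self, hs₁] at h1
          have h2 := hs₁s.trans_le (min_le_left _ _)
          have h3 := (abs_le.mp h1).2
          show 1 - η < J s₁ s
          linarith }
  have hvK : v ∈ kerX K := by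
    rintro _ ⟨s, hs, hsy, hsS, rfl⟩
    exact hJ s hs hsy hsS
  refine ⟨δ / (1 + 2 * ‖v‖ + 1), by positivity, fun s' hs' hsy t ht => ?_⟩
  apply hLA.norm_add hs' (Submodule.smul_mem _ t hvK)
  rw [norm_smul, Real.norm_eq_abs]
  have hpos : 0 < 1 + 2 * ‖v‖ + 1 := by positivity
  have h1 : |t| * (2 * ‖v‖) ≤ δ / (1 + 2 * ‖v‖ + 1) * (2 * ‖v‖) :=
    mul_le_mul_of_nonneg_right ht.le (by positivity)
  have h2 : δ / (1 + 2 * ‖v‖ + 1) * (1 + 2 * ‖v‖ + 1) = δ := div_mul_cancel₀ _ hpos.ne'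
  have h3 : 0 < δ / (1 + 2 * ‖v‖ + 1) := by positivity
  nlinarith

/-- the form used in the mixed case -/
theorem exists_smooth_J_ne [TopologicalSpace.SeparableSpace X] [CompleteSpace X] {v y : X}
    (hy : ‖y‖ = 1) (hnf : ¬ VFlat v y) {δ : ℝ} (hδ : 0 < δ) :
    ∃ s : X, ‖s‖ = 1 ∧ ‖s - y‖ < δ ∧ Smooth s ∧ J s v ≠ 0 := by
  by_contra hcon
  push Not at hcon
  exact hnf (vflat_of_smooth hy hδ hcon)

end MixedSel

end Crest.Agent.R074
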