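import Crest.Agent.R074.MixedDefs
import Crest.Agent.R074.MixedInitTwo
import Crest.Agent.R074.MixedInitOne
import Crest.Agent.R074.MixedEnd
import Crest.Agent.R074.MixedSel
import Crest.Agent.R074.Blowup

/-!
Row 74 (S0099), mixed case (C): final assembly.
-/

set_option autoImplicit false

universe u v

namespace Crest.Agent.R074

open Metric Set Filter Topology

section MixedCase

variable {X : Type u} {Y : Type v} [NormedAddCommGroup X] [NormedSpace ℝ X]
  [NormedAddCommGroup Y] [NormedSpace ℝ Y] {f : X → Y} {g : Y → X}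

/-- generic points near a point outside the closure of the good set are smooth and exposed -/
theorem GenLTA.expo_near {ε : ℝ} (hgen : GenLTA f ε) {u₀ : X} (hu₀ : u₀ ∉ closure (GoodSet f ε)) :
    ∃ ρ : ℝ, 0 < ρ ∧ (∀ w : X, ‖w - u₀‖ < ρ → w ∉ closure (GoodSet f ε)) ∧
      ∀ᶠ u : sphere (0 : X) 1 in residual (sphere (0 : X) 1),
        ‖(u : X) - u₀‖ < ρ → Smooth (u : X) ∧ Expo (u : X) := by
  have hopen : IsOpen (closure (GoodSet f ε))ᶜ := isClosed_closure.isOpen_compl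
  obtain ⟨ρ, hρ, hball⟩ := Metric.isOpen_iff.mp hopen u₀ hu₀
  have hout : ∀ w : X, ‖w - u₀‖ < ρ → w ∉ closure (GoodSet f ε) := by
    intro w hw
    exact hball (by rw [mem_ball, dist_eq_norm]; exact hw)
  refine ⟨ρ, hρ, hout, ?_⟩
  filter_upwards [hgen] with u hu hur
  have hu1 : ‖(u : X)‖ = 1 := by simp
  refine ⟨hu.1, ?_⟩
  rcases hu.2.2 with h1 | h1
  · exact h1
  · exact absurd (subset_closure (show (u : X) ∈ GoodSet f ε from ⟨hu1, hu.1, hu.2.1, h1⟩))
      (hout _ hur)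

/-- flat points are in the closure of the good set -/
theorem GenLTA.mem_of_vflat [CompleteSpace X] {ε : ℝ} (hgen : GenLTA f ε) {v s : X} (hv : v ≠ 0)
    (hs : ‖s‖ = 1) (hfl : VFlat v s) : s ∈ closure (GoodSet f ε) := by
  by_contra hcon
  obtain ⟨ρ, hρ, -, hex⟩ := hgen.expo_near hcon
  obtain ⟨η, hη, hnh⟩ := hfl.nhds
  have : CompleteSpace (sphere (0 : X) 1) := isClosed_sphere.completeSpace_coe
  have hdense := dense_of_mem_residual hex
  let U : Set (sphere (0 : X) 1) := {x | (x : X) ∈ ball s (min ρ η)}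
  have hU : IsOpen U := isOpen_ball.preimage continuous_subtype_val
  have hUne : U.Nonempty := ⟨⟨s, by simpa using hs⟩, mem_ball_self (lt_min hρ hη)⟩
  obtain ⟨u, huU, hu⟩ := hdense.inter_open_nonempty U hU hUne
  have hu1 : ‖(u : X)‖ = 1 := by simp
  have hus : ‖(u : X) - s‖ < min ρ η := by
    have := huU
    rwa [← dist_eq_norm]
  obtain ⟨-, h2⟩ := hu (hus.trans_le (min_le_left _ _))
  exact hv (h2.not_vflat hu1 (hnh u hu1 (hus.trans_le (min_le_right _ _))))

/-- case (ii): there is a flat direction somewhere -/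
theorem SI.caseC_flat [CompleteSpace X] [CompleteSpace Y] [TopologicalSpace.SeparableSpace X]
    [TopologicalSpace.SeparableSpace Y] (h : SI f g) (ho : ∀ x, ‖x‖ = 1 → f (-x) = -f x)
    {ε : ℝ} (hε : 0 < ε) (hgen : GenLTA f ε) {p : X} (hp : ‖p‖ = 1)
    (hpG : p ∉ closure (GoodSet f ε)) {v y : X} (hv : v ≠ 0) (hy : ‖y‖ = 1)
    (hfl : VFlat v y) : Ext f := by
  have hmf : ∀ x, ‖x‖ = 1 → Smooth x → MidAt f x := fun x hx hs => h.midAt ho hx hs
  have hmg : ∀ y, ‖y‖ = 1 → Smooth y → MidAt g y :=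
    fun y hy hs => h.symm.midAt (h.odd_symm ho) hy hs
  obtain ⟨u, x, y', hc, hu, huG, hflx, hnf⟩ := exists_vflat_chord hv hy hfl hp hpG hgen
  obtain ⟨ρ, hρ, hout, hex⟩ := hgen.expo_near huG
  have hx : ‖x‖ = 1 := hc.1
  have hy' : ‖y'‖ = 1 := hc.2.1
  -- move the bottom end to a smooth point
  obtain ⟨δ, hδ, hfr⟩ := exists_frame hc.2.2.1 hc.ne (show 0 < ρ / 2 by positivity)
  obtain ⟨s, hs, hsy', hss, hJs⟩ := exists_smooth_J_ne hy' hnf hδ
  obtain ⟨h1, h2, h3, -⟩ := hfr x s (by rw [sub_self, norm_zero]; exact hδ) hsy'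
  rw [hc.nu_eq hu] at h1
  -- near `x` the sphere is in the closure of the good set
  obtain ⟨η, hη, hnh⟩ := hflx.nhds
  obtain ⟨l, ρ₂, hρ₂, hl⟩ := h.exists_flat_vector hε hx hη
    (fun s' hs' hs'x => hgen.mem_of_vflat hv hs' (hnh s' hs' hs'x)) hflx
  have hex1 : ∀ᶠ w : sphere (0 : X) 1 in residual (sphere (0 : X) 1),
      ‖(w : X) - nu (x - s)‖ < ρ / 2 → Smooth (w : X) ∧ Expo (w : X) := by
    filter_upwards [hex] with w hw hwr
    apply hw
    have e : (w : X) - u = ((w : X) - nu (x - s)) + (nu (x - s) - u) := by abel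
    rw [e]
    refine (norm_add_le _ _).trans_lt ?_
    linarith
  obtain ⟨T, τ, hT, hA, ρ₁, hρ₁, hnorm⟩ := h.init_two ho hmf hmg hx hs h2 h3 hss hJs hρ₂ hl
    (show 0 < ρ / 2 by positivity) hex1
  refine h.mixed_end ho hmf hT hx hA (norm_nu (sub_ne_zero.mpr h3)) (ρ := min (ρ / 2) ρ₁)
    (lt_min (by positivity) hρ₁) (fun ξ hξ => hnorm ξ (hξ.trans_le (min_le_right _ _))) ?_
  filter_upwards [hex1] with w hw hwr
  exact hw (hwr.trans_le (min_le_left _ _))

/-- MIXED CASE -/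
theorem SI.caseC [CompleteSpace X] [CompleteSpace Y] [TopologicalSpace.SeparableSpace X]
    [TopologicalSpace.SeparableSpace Y] (h : SI f g) (ho : ∀ x, ‖x‖ = 1 → f (-x) = -f x)
    (hfd : ¬ FiniteDimensional ℝ X) {ε : ℝ} (hε : 0 < ε) (hgen : GenLTA f ε)
    (hin : ∃ y : X, ‖y‖ = 1 ∧ ∃ r : ℝ, 0 < r ∧
      ∀ s : X, ‖s‖ = 1 → ‖s - y‖ < r → s ∈ closure (GoodSet f ε))
    (hout : ∃ p : X, ‖p‖ = 1 ∧ p ∉ closure (GoodSet f ε)) : Ext f := by
  have hmf : ∀ x, ‖x‖ = 1 → Smooth x → MidAt f x := fun x hx hs => h.midAt ho hx hs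
  obtain ⟨p, hp, hpG⟩ := hout
  -- a boundary point
  have hrank : 1 < Module.rank ℝ X := by
    have h1 : Cardinal.aleph0 ≤ Module.rank ℝ X := by
      by_contra hcon
      push Not at hcon
      exact hfd (Module.rank_lt_aleph0_iff.mp hcon)
    exact lt_of_lt_of_le (by exact_mod_cast Cardinal.natCast_lt_aleph0 (n := 1)) h1
  have : PreconnectedSpace (sphere (0 : X) 1) :=
    isPreconnected_iff_preconnectedSpace.mp (isPreconnected_sphere hrank (0 : X) 1)
  set Cs : Set (sphere (0 : X) 1) := {x | (x : X) ∈ closure (GoodSet f ε)} with hCs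
  obtain ⟨y₁, hy₁, r₁, hr₁, hball₁⟩ := hin
  have hne : (interior Cs).Nonempty := by
    refine ⟨⟨y₁, by simpa using hy₁⟩, ?_⟩
    rw [mem_interior_iff_mem_nhds, Metric.mem_nhds_iff]
    refine ⟨r₁, hr₁, ?_⟩
    intro s hs
    rw [mem_ball, Subtype.dist_eq, dist_eq_norm] at hs
    exact hball₁ s (by simp) hs
  have hnu : interior Cs ≠ univ := by
    intro h0
    have h1 : (⟨p, by simpa using hp⟩ : sphere (0 : X) 1) ∈ interior Cs := by rw [h0]; trivial
    have h2 : (⟨p, by simpa using hp⟩ : sphere (0 : X) 1) ∈ Cs := interior_subset h1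
    exact hpG h2
  obtain ⟨b, hb⟩ := nonempty_frontier_iff.mpr ⟨hne, hnu⟩
  rw [frontier, interior_interior] at hb
  obtain ⟨hb1, hb2⟩ := hb
  have hε40 : 0 < ε / 40 := by positivity
  -- a point of the interior near `b`
  obtain ⟨y, hyI, hyb⟩ := Metric.mem_closure_iff.mp hb1 (ε / 40) hε40
  rw [Subtype.dist_eq, dist_eq_norm] at hyb
  -- a point outside near `b`
  have hex : ∃ q : sphere (0 : X) 1, ‖(q : X) - b‖ < ε / 40 ∧ q ∉ Cs := by
    by_contra hcon
    push Not at hcon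
    apply hb2
    rw [mem_interior_iff_mem_nhds, Metric.mem_nhds_iff]
    refine ⟨ε / 40, hε40, ?_⟩
    intro s hs
    rw [mem_ball, Subtype.dist_eq, dist_eq_norm] at hs
    exact hcon s hs
  obtain ⟨q, hqb, hqC⟩ := hex
  have hq1 : ‖(q : X)‖ = 1 := by simp
  have hy : ‖(y : X)‖ = 1 := by simp
  have hqy : ‖(q : X) - y‖ < ε / 10 := by
    have e : (q : X) - y = ((q : X) - b) + ((b : X) - y) := by abel
    rw [e]
    refine (norm_add_le _ _).trans_lt ?_
    linarith
  rw [mem_interior_iff_mem_nhds, Metric.mem_nhds_iff] at hyI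
  obtain ⟨r₂, hr₂, hball₂⟩ := hyI
  set r : ℝ := min r₂ (ε / 10) with hr
  have hr0 : 0 < r := lt_min hr₂ (by positivity)
  have hcl : ∀ s : X, ‖s‖ = 1 → ‖s - y‖ < r → s ∈ closure (GoodSet f ε) := by
    intro s hs hsy
    have h1 : (⟨s, by simpa using hs⟩ : sphere (0 : X) 1) ∈ ball y r₂ := by
      rw [mem_ball, Subtype.dist_eq, dist_eq_norm]
      exact hsy.trans_le (min_le_left _ _)
    exact hball₂ h1
  by_cases hN : ∀ v : X, (∀ u ∈ GoodSet f ε, ‖u - y‖ < r → J u v = 0) → v = 0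
  · -- case (i)
    obtain ⟨T, hT, hA, ρ, hρ, hnorm⟩ := h.init_one ho hε hy hr0 (min_le_right _ _) hcl hN hq1 hqy
    obtain ⟨ρ', hρ', -, hex⟩ := hgen.expo_near (u₀ := (q : X)) hqC
    refine h.mixed_end ho hmf hT (τ := 0) hy hA hq1 (ρ := min ρ ρ')
      (lt_min hρ hρ') (fun ξ hξ => hnorm ξ (hξ.trans_le (min_le_left _ _))) ?_
    filter_upwards [hex] with w hw hwr
    exact hw (hwr.trans_le (min_le_right _ _))
  · -- case (ii)
    push Not at hN
    obtain ⟨v, hv, hv0⟩ := hN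
    have hLA := h.la_of_good hy (show r ≤ ε / 2 from (min_le_right _ _).trans (by linarith)) hcl
    have hmem : v ∈ kerX (KK f ε y r) := by
      rintro k ⟨u, hu, hur, rfl⟩
      exact hv u hu hur
    have hvp : 0 < ‖v‖ + 1 := by positivity
    have hfl : VFlat v y := by
      refine ⟨min (r / 2) (r / 4 / (‖v‖ + 1)), lt_min (by positivity) (by positivity), ?_⟩
      intro s hs hsy t ht
      apply hLA.norm_add hs (Submodule.smul_mem _ t hmem)
      have h1 : ‖s - y‖ < r / 2 := hsy.trans_le (min_le_left _ _)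
      have h2 : |t| < r / 4 / (‖v‖ + 1) := ht.trans_le (min_le_right _ _)
      rw [lt_div_iff₀ hvp] at h2
      rw [norm_smul, Real.norm_eq_abs]
      nlinarith [abs_nonneg t, norm_nonneg v]
    exact h.caseC_flat ho hε hgen hp hpG hv0 hy hfl

end MixedCase

theorem caseCStatement : CaseCStatement.{u, v} := by
  intro X Y _ _ _ _ _ _ _ _ f g h ho hfd ε hε hgen hin hout
  exact h.caseC ho hfd hε hgen hin hout

end Crest.Agent.R074
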