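import Crest.Agent.R074.Asm
import Crest.Agent.R074.Gen

/-!
Row 74 (S0099), mixed case (C): common definitions.
-/

set_option autoImplicit false

namespace Crest.Agent.R074

variable {X Y : Type*} [NormedAddCommGroup X] [NormedSpace ℝ X] [NormedAddCommGroup Y]
  [NormedSpace ℝ Y]

/-- near `x` (on the sphere) `f = T + τ`, oriented -/
def AffAt (f : X → Y) (T : X →L[ℝ] Y) (τ : Y) (x : X) : Prop :=
  ∃ ε : ℝ, 0 < ε ∧ ∀ x' : X, ‖x'‖ = 1 → ‖x' - x‖ < ε →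
    f x' = T x' + τ ∧ (Smooth x' → Smooth (f x') → 0 < J (f x') (T x'))

/-- near `s` the sphere is flat in direction `v` -/
def VFlat (v s : X) : Prop :=
  ∃ ρ : ℝ, 0 < ρ ∧ ∀ s' : X, ‖s'‖ = 1 → ‖s' - s‖ < ρ → ∀ t : ℝ, |t| < ρ → ‖s' + t • v‖ = 1

end Crest.Agent.R074
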