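import Crest.Agent.R074.MixedGlue
import Crest.Agent.R074.MixedInitTwo

/-!
Row 74 (S0099): the mixed case, `caseCStatement`.
-/

set_option autoImplicit false

universe u v

namespace Crest.Agent.R074

open Metric Set Filter Topology

section MixedFinal

variable {X : Type u} {Y : Type v} [NormedAddCommGroup X] [NormedSpace ℝ X]
  [NormedAddCommGroup Y] [NormedSpace ℝ Y] {f : X → Y} {g : Y → X}

/-- near a flat point the good set is dense -/
theorem Glue.dense_good [CompleteSpace X] {ε : ℝ} (hgen : GenLTA f ε) {v x : X} (hv : v ≠ 0)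
    (hfl : VFlat v x) :
    ∃ r : ℝ, 0 < r ∧ ∀ s, ‖s‖ = 1 → ‖s - x‖ < r → s ∈ closure (GoodSet f ε) := by
  obtain ⟨r, hr, hnh⟩ := VFlat.nhds hfl
  refine ⟨r, hr, fun s hs hsx => ?_⟩
  rw [Metric.mem_closure_iff]
  intro δ hδ
  have : CompleteSpace (sphere (0 : X) 1) := isClosed_sphere.completeSpace_coe
  have hdense := dense_of_mem_residual hgen
  let U : Set (sphere (0 : X) 1) := {z | (z : X) ∈ ball s (min δ (r - ‖s - x‖))}
  have hU : IsOpen U := isOpen_ball.preimage continuous_subtype_val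
  have hUne : U.Nonempty := ⟨⟨s, by simpa using hs⟩, mem_ball_self (lt_min hδ (by linarith))⟩
  obtain ⟨z, hzU, hz⟩ := hdense.inter_open_nonempty U hU hUne
  have hz1 : ‖(z : X)‖ = 1 := by simp
  have hzs : ‖(z : X) - s‖ < min δ (r - ‖s - x‖) := by
    have : (z : X) ∈ ball s (min δ (r - ‖s - x‖)) := hzU
    rwa [mem_ball, dist_eq_norm] at this
  have hzx : ‖(z : X) - x‖ < r := by
    have e : (z : X) - x = ((z : X) - s) + (s - x) := by abel
    rw [e]
    have := hzs.trans_le (min_le_right _ _)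
    exact (norm_add_le _ _).trans_lt (by linarith)
  refine ⟨z, ⟨hz1, hz.1, hz.2.1, ?_⟩, ?_⟩
  · rcases hz.2.2 with h1 | h1
    · exact absurd (h1.not_vflat hz1 (hnh z hz1 hzx)) hv
    · exact h1
  · rw [dist_eq_norm, norm_sub_rev]
    exact hzs.trans_le (min_le_left _ _)

end MixedFinal

theorem caseCStatement : CaseCStatement.{u, v} := by
  intro X Y _ _ _ _ _ _ _ _ f g h ho hfd ε hε hgen hGi hO
  obtain ⟨y₀, hy₀, r₀, hr₀, hC⟩ := hGi
  obtain ⟨p, hp, hpC⟩ := hO
  have hX2 := two_lt_rank hfd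
  have hX : 1 < Module.rank ℝ X := lt_trans (by exact_mod_cast one_lt_two) hX2
  have hmf : ∀ x, ‖x‖ = 1 → Smooth x → MidAt f x := fun x hx hs => h.midAt ho hx hs
  have hmg : ∀ y, ‖y‖ = 1 → Smooth y → MidAt g y := fun y hy hs =>
    h.symm.midAt (h.odd_symm ho) hy hs
  obtain ⟨y, u₀, hy, hu₀, hu₀C, huy, r, hr, hcl⟩ :=
    Glue.near_pair hX hy₀ hr₀ hC hp hpC (show (0 : ℝ) < ε / 10 by positivity)
  set r' : ℝ := min r (ε / 10) with hr'
  have hr'0 : 0 < r' := lt_min hr (by positivity)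
  have hr'ε : r' ≤ ε / 10 := min_le_right _ _
  have hcl' : ∀ s, ‖s‖ = 1 → ‖s - y‖ < r' → s ∈ closure (GoodSet f ε) := fun s hs hsy =>
    hcl s hs (hsy.trans_le (min_le_left _ _))
  by_cases hN : ∀ v : X, (∀ u ∈ GoodSet f ε, ‖u - y‖ < r' → J u v = 0) → v = 0
  · obtain ⟨T, hT, hA, ρ, hρ, hnorm⟩ := h.init_one ho hε hy hr'0 hr'ε hcl' hN hu₀ huy
    obtain ⟨δ, hδ, hexp⟩ := Glue.hexp hgen hu₀C
    exact h.mixed_end ho hmf hT (τ := 0) hy hA hu₀ (lt_min hρ hδ)
      (fun ξ hξ => hnorm ξ (hξ.trans_le (min_le_left _ _))) (hexp _ (min_le_right _ _))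
  · push Not at hN
    obtain ⟨w, hw, hw0⟩ := hN
    have hLA := Glue.la (r := r') h hy (by linarith) hcl'
    have hvf : VFlat w y := by
      apply Glue.vflat hr'0 hLA
      rintro _ ⟨u, hu, hur, rfl⟩
      exact hw u hu hur
    obtain ⟨u, a, b, hc, hu, huG, hfl, hnf⟩ := exists_vflat_chord hw0 hy hvf hp hpC hgen
    obtain ⟨r₁, hr₁, hG₁⟩ := Glue.dense_good hgen hw0 hfl
    obtain ⟨ha, hb, hlt, t, ht, hab⟩ := hc
    obtain ⟨l, ρ₂, hρ₂, hflat⟩ := h.exists_flat_vector hε ha hr₁ hG₁ hfl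
    -- choose the bottom point
    have hab0 : a - b ≠ 0 := by
      rw [hab]
      intro h0
      rcases smul_eq_zero.mp h0 with h1 | h1
      · exact ht.ne' h1
      · rw [h1, norm_zero] at hu; norm_num at hu
    have hnu : nu (a - b) = u := by rw [hab]; exact EP.nu_smul ht hu
    have hcont : ContinuousAt (fun s : X => nu (a - s)) b := by
      have h1 : ContinuousAt (nu : X → X) (a - b) := tr_continuousAt_nu hab0
      exact ContinuousAt.comp (f := fun s : X => a - s) h1 (by fun_prop)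
    have hev1 : ∀ᶠ s in 𝓝 b, nu (a - s) ∈ (closure (GoodSet f ε))ᶜ := by
      apply hcont.eventually_mem
      rw [hnu]
      exact isClosed_closure.isOpen_compl.mem_nhds huG
    have hev2 : ∀ᶠ s in 𝓝 b, ‖a + s‖ < 2 := by
      have h1 : ContinuousAt (fun s : X => ‖a + s‖) b := by fun_prop
      exact h1.eventually (gt_mem_nhds hlt)
    have hev3 : ∀ᶠ s in 𝓝 b, a - s ≠ 0 := by
      have h1 : ContinuousAt (fun s : X => a - s) b := by fun_prop
      exact h1.eventually_ne hab0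
    obtain ⟨δ, hδ, hball⟩ := Metric.eventually_nhds_iff.mp (hev1.and (hev2.and hev3))
    obtain ⟨s, hs, hsb, hss, hsJ⟩ := exists_smooth_J_ne hb hnf hδ
    obtain ⟨hs1, hs2, hs3⟩ := hball (show dist s b < δ by rw [dist_eq_norm]; exact hsb)
    obtain ⟨δ', hδ', hexp⟩ := Glue.hexp hgen hs1
    obtain ⟨T, τ, hT, hA, ρ, hρ, hnorm⟩ := h.init_two ho hmf hmg ha hs hs2
      (sub_ne_zero.mp hs3) hss hsJ hρ₂ hflat hδ' (hexp _ le_rfl)
    exact h.mixed_end ho hmf hT ha hA (norm_nu hs3) (lt_min hρ hδ')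
      (fun ξ hξ => hnorm ξ (hξ.trans_le (min_le_left _ _))) (hexp _ (min_le_right _ _))

end Crest.Agent.R074
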