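import Crest.Agent.R074.MixedInitOne
import Crest.Agent.R074.MixedSel
import Crest.Agent.R074.MixedEnd
import Crest.Agent.R074.Blowup
import Crest.Agent.R074.CaseBFin

/-!
Row 74 (S0099): mixed case, final glue. `InitTwoStatement` (initial step (ii)) implies
`CaseCStatement`.
-/

set_option autoImplicit false

universe u v

namespace Crest.Agent.R074

open Metric Set Filter Topology

/-- the statement of the initial step (ii) -/
def InitTwoStatement : Prop :=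
  ∀ (X : Type u) (Y : Type v) [NormedAddCommGroup X] [NormedSpace ℝ X] [CompleteSpace X]
    [NormedAddCommGroup Y] [NormedSpace ℝ Y] [CompleteSpace Y]
    [TopologicalSpace.SeparableSpace X] [TopologicalSpace.SeparableSpace Y]
    (f : X → Y) (g : Y → X), SI f g → (∀ x, ‖x‖ = 1 → f (-x) = -f x) →
    ∀ ε : ℝ, 0 < ε → GenLTA f ε → ∀ v : X, v ≠ 0 → ∀ u x y : X, UChord u x y → ‖u‖ = 1 →
      u ∉ closure (GoodSet f ε) → VFlat v x → ¬ VFlat v y →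
      ∃ T : X →L[ℝ] Y, Function.Surjective T ∧ ∃ (τ : Y) (z : X), ‖z‖ = 1 ∧ AffAt f T τ z ∧
        ∃ ρ : ℝ, 0 < ρ ∧ ∀ ξ : X, ‖ξ - u‖ < ρ → ‖T ξ‖ = ‖ξ‖

section Glue

variable {X : Type u} {Y : Type v} [NormedAddCommGroup X] [NormedSpace ℝ X]
  [NormedAddCommGroup Y] [NormedSpace ℝ Y] {f : X → Y} {g : Y → X}

/-- a point of the relative interior of `C` close to a point outside `C`. -/
theorem Glue.near_pair (hX : 1 < Module.rank ℝ X) {C : Set X} {y₀ p : X} (hy₀ : ‖y₀‖ = 1)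
    {r₀ : ℝ} (hr₀ : 0 < r₀) (hC : ∀ s : X, ‖s‖ = 1 → ‖s - y₀‖ < r₀ → s ∈ C) (hp : ‖p‖ = 1)
    (hpC : p ∉ C) {d : ℝ} (hd : 0 < d) :
    ∃ y u₀ : X, ‖y‖ = 1 ∧ ‖u₀‖ = 1 ∧ u₀ ∉ C ∧ ‖u₀ - y‖ < d ∧
      ∃ r : ℝ, 0 < r ∧ ∀ s : X, ‖s‖ = 1 → ‖s - y‖ < r → s ∈ C := by
  by_contra hcon
  push Not at hcon
  set G : Set X := {y | ‖y‖ = 1 ∧ ∃ r : ℝ, 0 < r ∧ ∀ s : X, ‖s‖ = 1 → ‖s - y‖ < r → s ∈ C}
    with hG
  set O : Set X := {u | ‖u‖ = 1 ∧ u ∉ C} with hO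
  have hA : IsOpen (⋃ y ∈ G, ball y (d / 2)) := isOpen_biUnion fun _ _ => isOpen_ball
  have hB : IsOpen (⋃ y ∈ O, ball y (d / 2)) := isOpen_biUnion fun _ _ => isOpen_ball
  have hcov : sphere (0 : X) 1 ⊆ (⋃ y ∈ G, ball y (d / 2)) ∪ (⋃ y ∈ O, ball y (d / 2)) := by
    intro x hx
    have hx1 : ‖x‖ = 1 := by simpa using hx
    by_cases hxG : x ∈ G
    · left
      exact mem_biUnion hxG (mem_ball_self (by positivity))
    · right
      have h1 : ∃ s : X, ‖s‖ = 1 ∧ ‖s - x‖ < d / 2 ∧ s ∉ C := by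
        by_contra h2
        push Not at h2
        exact hxG ⟨hx1, d / 2, by positivity, h2⟩
      obtain ⟨s, hs, hsx, hsC⟩ := h1
      refine mem_biUnion (show s ∈ O from ⟨hs, hsC⟩) ?_
      rw [mem_ball, dist_eq_norm, norm_sub_rev]; exact hsx
  obtain ⟨z, -, hz1, hz2⟩ := isPreconnected_sphere hX (0 : X) 1 _ _ hA hB hcov
    ⟨y₀, by simpa using hy₀, mem_biUnion (show y₀ ∈ G from ⟨hy₀, r₀, hr₀, hC⟩)
      (mem_ball_self (by positivity))⟩
    ⟨p, by simpa using hp, mem_biUnion (show p ∈ O from ⟨hp, hpC⟩)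
      (mem_ball_self (by positivity))⟩
  simp only [mem_iUnion, exists_prop] at hz1 hz2
  obtain ⟨y, ⟨hy, r, hr, hry⟩, hzy⟩ := hz1
  obtain ⟨u, ⟨hu, huC⟩, hzu⟩ := hz2
  rw [mem_ball, dist_eq_norm] at hzy hzu
  have h1 : ‖u - y‖ < d := by
    have e : u - y = (z - y) - (z - u) := by abel
    rw [e]
    exact (norm_sub_le _ _).trans_lt (by linarith)
  obtain ⟨s, hs, hsy, hsC⟩ := hcon y u hy hu huC h1 r hr
  exact hsC (hry s hs hsy)

/-- the local family of good functionals -/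
theorem Glue.la (h : SI f g) {ε : ℝ} {y : X} (hy : ‖y‖ = 1) {r : ℝ} (hrε : r + r ≤ ε)
    (hcl : ∀ s, ‖s‖ = 1 → ‖s - y‖ < r → s ∈ closure (GoodSet f ε)) :
    LA f g y r {k | ∃ u ∈ GoodSet f ε, ‖u - y‖ < r ∧ k = (J u, J (f u))} := by
  refine ⟨h, hy, ?_, ?_, ?_, ?_⟩
  · rintro _ ⟨u, hu, hur, rfl⟩; exact J_norm_le _
  · rintro _ ⟨u, hu, hur, rfl⟩; exact J_norm_le _
  · rintro _ ⟨u, hu, hur, rfl⟩ x hx hxy
    apply hu.2.2.2 x hx
    have e : x - u = (x - y) - (u - y) := by abel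
    rw [e]
    exact (norm_sub_le _ _).trans_lt (by linarith)
  · intro s hs hsr δ hδ
    obtain ⟨u, hu, hus⟩ := Metric.mem_closure_iff.mp (hcl s hs hsr)
      (min δ (r - ‖s - y‖)) (lt_min hδ (by linarith))
    rw [dist_eq_norm] at hus
    have h1 : ‖u - y‖ < r := by
      have e : u - y = (s - y) - (s - u) := by abel
      rw [e]
      have := hus.trans_le (min_le_right _ _)
      exact (norm_sub_le _ _).trans_lt (by linarith)
    refine ⟨(J u, J (f u)), ⟨u, hu, h1, rfl⟩, ?_⟩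
    show 1 - δ < J u s
    have h2 := J_le u (u - s)
    rw [map_sub, J_self, hu.1, norm_sub_rev] at h2
    have := hus.trans_le (min_le_left _ _)
    linarith

theorem Glue.vflat {y : X} {r : ℝ} (hr : 0 < r) {K : Set ((X →L[ℝ] ℝ) × (Y →L[ℝ] ℝ))}
    (hLA : LA f g y r K) {v : X} (hv : v ∈ kerX K) : VFlat v y := by
  have hv1 : 0 < 4 * (‖v‖ + 1) := by positivity
  refine ⟨min (r / 2) (r / (4 * (‖v‖ + 1))), lt_min (by positivity) (by positivity), ?_⟩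
  intro s hs hsy t ht
  apply hLA.norm_add hs ((kerX K).smul_mem t hv)
  have h1 : ‖s - y‖ < r / 2 := hsy.trans_le (min_le_left _ _)
  have h2 : |t| < r / (4 * (‖v‖ + 1)) := ht.trans_le (min_le_right _ _)
  rw [lt_div_iff₀ hv1] at h2
  rw [norm_smul, Real.norm_eq_abs]
  have h3 := abs_nonneg t
  nlinarith [norm_nonneg v]

theorem Glue.hexp {ε : ℝ} (hgen : GenLTA f ε) {u₀ : X} (hu₀ : u₀ ∉ closure (GoodSet f ε)) :
    ∃ δ : ℝ, 0 < δ ∧ ∀ ρ : ℝ, ρ ≤ δ → ∀ᶠ u : sphere (0 : X) 1 in residual (sphere (0 : X) 1),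
      ‖(u : X) - u₀‖ < ρ → Smooth (u : X) ∧ Expo (u : X) := by
  rw [Metric.mem_closure_iff] at hu₀
  push Not at hu₀
  obtain ⟨δ, hδ, hG⟩ := hu₀
  refine ⟨δ, hδ, fun ρ hρ => ?_⟩
  filter_upwards [hgen] with u hu huρ
  refine ⟨hu.1, ?_⟩
  rcases hu.2.2 with h1 | h1
  · exact h1
  · exfalso
    have hu1 : ‖(u : X)‖ = 1 := by simp
    have h2 := hG u ⟨hu1, hu.1, hu.2.1, h1⟩
    rw [dist_eq_norm, norm_sub_rev] at h2
    linarith

end Glue

theorem caseC_of_init_two (hI2 : InitTwoStatement.{u, v}) : CaseCStatement.{u, v} := by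
  intro X Y _ _ _ _ _ _ _ _ f g h ho hfd ε hε hgen hGi hO
  obtain ⟨y₀, hy₀, r₀, hr₀, hC⟩ := hGi
  obtain ⟨p, hp, hpC⟩ := hO
  have hX2 := two_lt_rank hfd
  have hX : 1 < Module.rank ℝ X := lt_trans (by exact_mod_cast one_lt_two) hX2
  have hmf : ∀ x, ‖x‖ = 1 → Smooth x → MidAt f x := fun x hx hs => h.midAt ho hx hs
  obtain ⟨y, u₀, hy, hu₀, hu₀C, huy, r, hr, hcl⟩ :=
    Glue.near_pair hX hy₀ hr₀ hC hp hpC (show (0 : ℝ) < ε / 10 by positivity)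
  set r' : ℝ := min r (ε / 10) with hr'
  have hr'0 : 0 < r' := lt_min hr (by positivity)
  have hr'ε : r' ≤ ε / 10 := min_le_right _ _
  have hcl' : ∀ s, ‖s‖ = 1 → ‖s - y‖ < r' → s ∈ closure (GoodSet f ε) := fun s hs hsy =>
    hcl s hs (hsy.trans_le (min_le_left _ _))
  by_cases hN : ∀ v : X, (∀ u ∈ GoodSet f ε, ‖u - y‖ < r' → J u v = 0) → v = 0
  · obtain ⟨T, hT, hA, ρ, hρ, hnorm⟩ := h.init_one ho hε hy hr'0 hr'ε hcl' hN hu₀ huy
    obtain ⟨δ, hδ, hexp⟩ := Glue.hexp hgen hu₀C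
    exact h.mixed_end ho hmf hT (τ := 0) hy hA hu₀ (lt_min hρ hδ)
      (fun ξ hξ => hnorm ξ (hξ.trans_le (min_le_left _ _))) (hexp _ (min_le_right _ _))
  · push Not at hN
    obtain ⟨w, hw, hw0⟩ := hN
    have hLA := Glue.la (r := r') h hy (by linarith) hcl'
    have hvf : VFlat w y := by
      apply Glue.vflat hr'0 hLA
      rintro _ ⟨u, hu, hur, rfl⟩
      exact hw u hu hur
    obtain ⟨u, x, x', hc, hu, huG, hfl, hnf⟩ := exists_vflat_chord hw0 hy hvf hp hpC hgen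
    obtain ⟨T, hT, τ, z, hz, hA, ρ, hρ, hnorm⟩ :=
      hI2 X Y f g h ho ε hε hgen w hw0 u x x' hc hu huG hfl hnf
    obtain ⟨δ, hδ, hexp⟩ := Glue.hexp hgen huG
    exact h.mixed_end ho hmf hT hz hA hu (lt_min hρ hδ)
      (fun ξ hξ => hnorm ξ (hξ.trans_le (min_le_left _ _))) (hexp _ (min_le_right _ _))

end Crest.Agent.R074
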