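import Crest.Agent.R074.Base

/-!
Row 74 (S0099), separable reduction, part 1: the back-and-forth.
Every separable part of `X` lies in a closed separable subspace `X0` of `X` which together with a
closed separable subspace `Y0` of `Y` is respected by the sphere isometry, and the restriction is
again a surjective sphere isometry (`SI`).
-/

set_option autoImplicit false

namespace Crest.Agent.R074

open Metric Set Filter Topology TopologicalSpace

section

variable {X Y : Type*} [NormedAddCommGroup X] [NormedSpace ℝ X]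
  [NormedAddCommGroup Y] [NormedSpace ℝ Y] {f : X → Y} {g : Y → X}

omit [NormedSpace ℝ X] [NormedSpace ℝ Y] in
theorem SI.sep_continuousOn (h : SI f g) : ContinuousOn f {x : X | ‖x‖ = 1} := by
  rw [Metric.continuousOn_iff]
  intro b hb ε hε
  refine ⟨ε, hε, fun a ha hab => ?_⟩
  rw [dist_eq_norm] at hab ⊢
  rw [h.dist a b ha hb]
  exact hab

/-- one step of the back-and-forth -/
def sepStep (f : X → Y) (g : Y → X) (P : Submodule ℝ X × Submodule ℝ Y) :
    Submodule ℝ X × Submodule ℝ Y :=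
  (P.1 ⊔ Submodule.span ℝ (g '' {y : Y | y ∈ P.2 ∧ ‖y‖ = 1}),
   P.2 ⊔ Submodule.span ℝ (f '' {x : X | x ∈ P.1 ∧ ‖x‖ = 1}))

def sepSeq (f : X → Y) (g : Y → X) (A : Set X) : ℕ → Submodule ℝ X × Submodule ℝ Y
  | 0 => (Submodule.span ℝ A, ⊥)
  | n + 1 => sepStep f g (sepSeq f g A n)

theorem isSeparable_sup_span {Z : Type*} [NormedAddCommGroup Z] [NormedSpace ℝ Z]
    {P : Submodule ℝ Z} {s : Set Z} (hP : IsSeparable (P : Set Z)) (hs : IsSeparable s) :
    IsSeparable ((P ⊔ Submodule.span ℝ s : Submodule ℝ Z) : Set Z) := by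
  have h1 : P ⊔ Submodule.span ℝ s = Submodule.span ℝ ((P : Set Z) ∪ s) := by
    rw [Submodule.span_union, Submodule.span_eq]
  rw [h1]
  exact (hP.union hs).span

theorem sepSeq_isSeparable (h : SI f g) {A : Set X} (hA : IsSeparable A) (n : ℕ) :
    IsSeparable ((sepSeq f g A n).1 : Set X) ∧ IsSeparable ((sepSeq f g A n).2 : Set Y) := by
  induction n with
  | zero =>
    refine ⟨hA.span, ?_⟩
    show IsSeparable (((⊥ : Submodule ℝ Y)) : Set Y)
    rw [Submodule.bot_coe]
    exact (Set.countable_singleton (0 : Y)).isSeparable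
  | succ n ih =>
    constructor
    · refine isSeparable_sup_span ih.1 ?_
      have hc : ContinuousOn g {y : Y | y ∈ (sepSeq f g A n).2 ∧ ‖y‖ = 1} :=
        h.symm.sep_continuousOn.mono fun y hy => hy.2
      exact hc.isSeparable_image (ih.2.mono fun y hy => hy.1)
    · refine isSeparable_sup_span ih.2 ?_
      have hc : ContinuousOn f {x : X | x ∈ (sepSeq f g A n).1 ∧ ‖x‖ = 1} :=
        h.sep_continuousOn.mono fun y hy => hy.2
      exact hc.isSeparable_image (ih.1.mono fun y hy => hy.1)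

theorem sepSeq_mono (f : X → Y) (g : Y → X) (A : Set X) :
    Monotone (fun n => (sepSeq f g A n).1) ∧ Monotone (fun n => (sepSeq f g A n).2) :=
  ⟨monotone_nat_of_le_succ fun _ => le_sup_left, monotone_nat_of_le_succ fun _ => le_sup_left⟩

/-- radial approximation: a norm-one vector in the closure of a submodule is a limit of norm-one
vectors of the submodule -/
theorem exists_unit_approx {P : Submodule ℝ X} {x : X} (hx : x ∈ closure (P : Set X))
    (hx1 : ‖x‖ = 1) {ε : ℝ} (hε : 0 < ε) : ∃ a ∈ P, ‖a‖ = 1 ∧ ‖x - a‖ < ε := by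
  obtain ⟨b, hb, hxb⟩ := Metric.mem_closure_iff.mp hx (min (ε / 2) (1 / 2)) (by positivity)
  rw [dist_eq_norm] at hxb
  have h1 : ‖x - b‖ < ε / 2 := lt_of_lt_of_le hxb (min_le_left _ _)
  have h2 : ‖x - b‖ < 1 / 2 := lt_of_lt_of_le hxb (min_le_right _ _)
  have h3 : |‖x‖ - ‖b‖| ≤ ‖x - b‖ := abs_norm_sub_norm_le x b
  rw [hx1] at h3
  have h4 := abs_le.mp h3
  have hb0 : 0 < ‖b‖ := by linarith
  refine ⟨‖b‖⁻¹ • b, P.smul_mem _ hb, ?_, ?_⟩
  · rw [norm_smul, norm_inv, norm_norm, inv_mul_cancel₀ hb0.ne']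
  · have e1 : ‖b - ‖b‖⁻¹ • b‖ = |‖b‖ - 1| := by
      have : b - ‖b‖⁻¹ • b = (1 - ‖b‖⁻¹) • b := by rw [sub_smul, one_smul]
      have e3 : (1 - ‖b‖⁻¹) * ‖b‖ = ‖b‖ - 1 := by
        rw [sub_mul, inv_mul_cancel₀ hb0.ne', one_mul]
      rw [this, norm_smul, Real.norm_eq_abs, ← e3, abs_mul, abs_norm]
    have e2 : |‖b‖ - 1| ≤ ‖x - b‖ := by
      rw [abs_sub_comm]; exact h3
    calc ‖x - ‖b‖⁻¹ • b‖ = ‖(x - b) + (b - ‖b‖⁻¹ • b)‖ := by congr 1; abel
      _ ≤ ‖x - b‖ + ‖b - ‖b‖⁻¹ • b‖ := norm_add_le _ _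
      _ < ε := by rw [e1]; linarith

theorem SI.map_closure (h : SI f g) {P : Submodule ℝ X} {Q : Submodule ℝ Y}
    (hPQ : ∀ x ∈ P, ‖x‖ = 1 → f x ∈ Q) {x : X} (hx : x ∈ P.topologicalClosure) (hx1 : ‖x‖ = 1) :
    f x ∈ Q.topologicalClosure := by
  have hx' : x ∈ closure (P : Set X) := hx
  show f x ∈ closure (Q : Set Y)
  rw [Metric.mem_closure_iff]
  intro ε hε
  obtain ⟨a, ha, ha1, hxa⟩ := exists_unit_approx hx' hx1 hε
  refine ⟨f a, hPQ a ha ha1, ?_⟩
  rw [dist_eq_norm, h.dist x a hx1 ha1]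
  exact hxa

/-- THE BACK-AND-FORTH. Every separable subset `A` of `X` lies in a closed separable subspace `P`
such that for some closed separable subspace `Q` of `Y` the isometry maps the sphere of `P` onto the
sphere of `Q`. -/
theorem SI.exists_separable_pair (h : SI f g) {A : Set X} (hA : IsSeparable A) :
    ∃ (P : Submodule ℝ X) (Q : Submodule ℝ Y), A ⊆ P ∧ IsClosed (P : Set X) ∧
      IsClosed (Q : Set Y) ∧ IsSeparable (P : Set X) ∧ IsSeparable (Q : Set Y) ∧
      (∀ x ∈ P, ‖x‖ = 1 → f x ∈ Q) ∧ (∀ y ∈ Q, ‖y‖ = 1 → g y ∈ P) := by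
  set P0 : Submodule ℝ X := ⨆ n, (sepSeq f g A n).1 with hP0
  set Q0 : Submodule ℝ Y := ⨆ n, (sepSeq f g A n).2 with hQ0
  have hmono := sepSeq_mono f g A
  have hP0c : (P0 : Set X) = ⋃ n, ((sepSeq f g A n).1 : Set X) :=
    Submodule.coe_iSup_of_directed _ hmono.1.directed_le
  have hQ0c : (Q0 : Set Y) = ⋃ n, ((sepSeq f g A n).2 : Set Y) :=
    Submodule.coe_iSup_of_directed _ hmono.2.directed_le
  have hPs : IsSeparable (P0 : Set X) := by
    rw [hP0c]; exact IsSeparable.iUnion fun n => (sepSeq_isSeparable h hA n).1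
  have hQs : IsSeparable (Q0 : Set Y) := by
    rw [hQ0c]; exact IsSeparable.iUnion fun n => (sepSeq_isSeparable h hA n).2
  have hf : ∀ x ∈ P0, ‖x‖ = 1 → f x ∈ Q0 := by
    intro x hx hx1
    have hx' : x ∈ (P0 : Set X) := hx
    rw [hP0c] at hx'
    obtain ⟨n, hn⟩ := mem_iUnion.mp hx'
    have : f x ∈ (sepSeq f g A (n + 1)).2 :=
      Submodule.mem_sup_right (Submodule.subset_span ⟨x, ⟨hn, hx1⟩, rfl⟩)
    exact Submodule.mem_iSup_of_mem (n + 1) this
  have hg : ∀ y ∈ Q0, ‖y‖ = 1 → g y ∈ P0 := by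
    intro y hy hy1
    have hy' : y ∈ (Q0 : Set Y) := hy
    rw [hQ0c] at hy'
    obtain ⟨n, hn⟩ := mem_iUnion.mp hy'
    have : g y ∈ (sepSeq f g A (n + 1)).1 :=
      Submodule.mem_sup_right (Submodule.subset_span ⟨y, ⟨hn, hy1⟩, rfl⟩)
    exact Submodule.mem_iSup_of_mem (n + 1) this
  refine ⟨P0.topologicalClosure, Q0.topologicalClosure, ?_, P0.isClosed_topologicalClosure,
    Q0.isClosed_topologicalClosure, ?_, ?_, ?_, ?_⟩
  · intro a ha
    refine P0.le_topologicalClosure ?_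
    refine Submodule.mem_iSup_of_mem 0 ?_
    exact Submodule.subset_span ha
  · show IsSeparable (closure (P0 : Set X))
    exact hPs.closure
  · show IsSeparable (closure (Q0 : Set Y))
    exact hQs.closure
  · intro x hx hx1
    exact h.map_closure hf hx hx1
  · intro y hy hy1
    exact h.symm.map_closure hg hy hy1

open Classical in
/-- restriction of an ambient function to submodules, on norm-one vectors -/
noncomputable def restr (f : X → Y) (P : Submodule ℝ X) (Q : Submodule ℝ Y) (x : P) : Q :=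
  if h : f (x : X) ∈ Q then ⟨f (x : X), h⟩ else 0

theorem coe_restr {f : X → Y} {P : Submodule ℝ X} {Q : Submodule ℝ Y} {x : P}
    (hx : f (x : X) ∈ Q) : ((restr f P Q x : Q) : Y) = f (x : X) := by
  unfold restr
  rw [dif_pos hx]

/-- restriction of a sphere isometry to a compatible pair of subspaces -/
theorem SI.restr (h : SI f g) {P : Submodule ℝ X} {Q : Submodule ℝ Y}
    (hf : ∀ x ∈ P, ‖x‖ = 1 → f x ∈ Q) (hg : ∀ y ∈ Q, ‖y‖ = 1 → g y ∈ P) :
    SI (restr f P Q) (restr g Q P) ∧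
      (∀ x : P, ‖x‖ = 1 → ((R074.restr f P Q x : Q) : Y) = f (x : X)) ∧
      (∀ y : Q, ‖y‖ = 1 → ((R074.restr g Q P y : P) : X) = g (y : Y)) := by
  have cf : ∀ x : P, ‖x‖ = 1 → ((R074.restr f P Q x : Q) : Y) = f (x : X) := fun x hx =>
    coe_restr (hf x x.2 hx)
  have cg : ∀ y : Q, ‖y‖ = 1 → ((R074.restr g Q P y : P) : X) = g (y : Y) := fun y hy =>
    coe_restr (hg y y.2 hy)
  have mf : ∀ x : P, ‖x‖ = 1 → ‖R074.restr f P Q x‖ = 1 := fun x hx => by
    rw [Submodule.coe_norm, cf x hx]; exact h.map _ hx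
  have mg : ∀ y : Q, ‖y‖ = 1 → ‖R074.restr g Q P y‖ = 1 := fun y hy => by
    rw [Submodule.coe_norm, cg y hy]; exact h.imap _ hy
  refine ⟨⟨mf, mg, ?_, ?_, ?_⟩, cf, cg⟩
  · intro x hx
    apply Subtype.ext
    rw [cg _ (mf x hx), cf x hx]
    exact h.left _ hx
  · intro y hy
    apply Subtype.ext
    rw [cf _ (mg y hy), cg y hy]
    exact h.right _ hy
  · intro x x' hx hx'
    rw [Submodule.coe_norm, Submodule.coe_norm, Submodule.coe_sub, Submodule.coe_sub, cf x hx,
      cf x' hx']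
    exact h.dist _ _ hx hx'

/-- an infinite-dimensional space contains a countable set which does not lie in any
finite-dimensional subspace -/
theorem exists_countable_infdim (hX : ¬ FiniteDimensional ℝ X) :
    ∃ A : Set X, A.Countable ∧ ∀ P : Submodule ℝ X, A ⊆ P → ¬ FiniteDimensional ℝ P := by
  let b := Module.Basis.ofVectorSpace ℝ X
  have hinf : Infinite (Module.Basis.ofVectorSpaceIndex ℝ X) := by
    by_contra hcon
    rw [not_infinite_iff_finite] at hcon
    exact hX (Module.Finite.of_basis b)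
  let e := Infinite.natEmbedding (Module.Basis.ofVectorSpaceIndex ℝ X)
  have hli : LinearIndependent ℝ (fun n : ℕ => b (e n)) := b.linearIndependent.comp e e.injective
  refine ⟨Set.range fun n : ℕ => b (e n), Set.countable_range _, fun P hP hfd => ?_⟩
  have hli' : LinearIndependent ℝ (fun n : ℕ => (⟨b (e n), hP ⟨n, rfl⟩⟩ : P)) := by
    apply LinearIndependent.of_comp P.subtype
    exact hli
  have := hli'.finite
  exact not_finite ℕ

/-- complete package of the separable reduction for one separable set -/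
theorem SI.exists_separable_restr [CompleteSpace X] [CompleteSpace Y] (h : SI f g) {A : Set X}
    (hA : IsSeparable A) :
    ∃ (P : Submodule ℝ X) (Q : Submodule ℝ Y), A ⊆ P ∧ CompleteSpace P ∧ CompleteSpace Q ∧
      SeparableSpace P ∧ SeparableSpace Q ∧ SI (R074.restr f P Q) (R074.restr g Q P) ∧
      (∀ x : P, ‖x‖ = 1 → ((R074.restr f P Q x : Q) : Y) = f (x : X)) ∧
      (∀ y : Q, ‖y‖ = 1 → ((R074.restr g Q P y : P) : X) = g (y : Y)) := by
  obtain ⟨P, Q, hAP, hPc, hQc, hPs, hQs, hf, hg⟩ := h.exists_separable_pair hA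
  obtain ⟨h0, cf, cg⟩ := h.restr hf hg
  exact ⟨P, Q, hAP, hPc.completeSpace_coe, hQc.completeSpace_coe, hPs.separableSpace,
    hQs.separableSpace, h0, cf, cg⟩

end

end Crest.Agent.R074
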