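import Crest.Agent.R074.CanonSlice

/-!
Row 74 (S0099): coset functionals for arbitrary norm-attaining `p` over the closed span of a family
of face points (item (CC) of helper622's note).
-/

set_option autoImplicit false

namespace Crest.Agent.R074

open Metric Set Filter Topology

section Aux

variable {X : Type*} [NormedAddCommGroup X] [NormedSpace ℝ X]

/-- density of the sphere slice over a subspace in the slice over its closure -/
theorem exists_near_slice {W : Submodule ℝ X} {m x : X} (hm : ‖m‖ < 1) (hx : ‖x‖ = 1)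
    (hxm : x - m ∈ W.topologicalClosure) {ε : ℝ} (hε : 0 < ε) :
    ∃ x', ‖x'‖ = 1 ∧ x' - m ∈ W ∧ ‖x' - x‖ < ε := by
  have hv : x = m + (x - m) := by abel
  set v := x - m with hvdef
  -- choose the radial window
  set δ : ℝ := min (1 / 2) (ε / (2 * (‖v‖ + 1))) with hδ
  have hv1 : 0 < ‖v‖ + 1 := by positivity
  have hδ0 : 0 < δ := by rw [hδ]; positivity
  have hδ1 : δ ≤ 1 / 2 := min_le_left _ _
  have hδ2 : δ * (2 * (‖v‖ + 1)) ≤ ε := by
    have : δ ≤ ε / (2 * (‖v‖ + 1)) := min_le_right _ _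
    rwa [le_div_iff₀ (by positivity)] at this
  have hmv : ‖m + v‖ = 1 := by rw [← hv]; exact hx
  have hin : ‖m + (1 - δ) • v‖ < 1 := by
    have e : m + (1 - δ) • v = δ • m + (1 - δ) • (m + v) := by
      rw [smul_add, sub_smul, sub_smul, one_smul, one_smul]; abel
    rw [e]
    have h1 := norm_add_le (δ • m) ((1 - δ) • (m + v))
    rw [norm_smul, norm_smul, Real.norm_of_nonneg hδ0.le,
      Real.norm_of_nonneg (by linarith : (0 : ℝ) ≤ 1 - δ), hmv] at h1
    nlinarith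
  have hout : 1 < ‖m + (1 + δ) • v‖ := by
    have e : (1 + δ) • (m + v) = δ • m + (m + (1 + δ) • v) := by
      rw [smul_add, add_smul, add_smul, one_smul, one_smul]; abel
    have h1 := norm_add_le (δ • m) (m + (1 + δ) • v)
    rw [← e, norm_smul, norm_smul, Real.norm_of_nonneg hδ0.le,
      Real.norm_of_nonneg (by linarith : (0 : ℝ) ≤ 1 + δ), hmv] at h1
    nlinarith
  -- open conditions in `w`
  have hc1 : Continuous fun w : X => ‖m + (1 - δ) • w‖ := by fun_prop
  have hc2 : Continuous fun w : X => ‖m + (1 + δ) • w‖ := by fun_prop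
  have hc3 : Continuous fun w : X => ‖w - v‖ := by fun_prop
  have hopen : IsOpen {w : X | ‖m + (1 - δ) • w‖ < 1 ∧ 1 < ‖m + (1 + δ) • w‖ ∧
      ‖w - v‖ < min (1 / 2) (ε / 4)} :=
    (isOpen_lt hc1 continuous_const).inter
      ((isOpen_lt continuous_const hc2).inter (isOpen_lt hc3 continuous_const))
  have hvcl : v ∈ closure (W : Set X) := hxm
  obtain ⟨w, ⟨hw1, hw2, hw3⟩, hwW⟩ := mem_closure_iff.mp hvcl _ hopen
    ⟨hin, hout, by rw [sub_self, norm_zero]; positivity⟩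
  have hw4 : ‖w - v‖ < 1 / 2 := hw3.trans_le (min_le_left _ _)
  have hw5 : ‖w - v‖ < ε / 4 := hw3.trans_le (min_le_right _ _)
  have hct : ContinuousOn (fun t : ℝ => ‖m + t • w‖) (Icc (1 - δ) (1 + δ)) := by fun_prop
  obtain ⟨t, ht, htn⟩ := intermediate_value_Icc (by linarith : (1 : ℝ) - δ ≤ 1 + δ) hct
    ⟨hw1.le, hw2.le⟩
  refine ⟨m + t • w, htn, ?_, ?_⟩
  · rw [add_sub_cancel_left]
    exact W.smul_mem t hwW
  · have e : m + t • w - x = t • (w - v) + (t - 1) • v := by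
      rw [hv, smul_sub, sub_smul, one_smul]
      abel
    rw [e]
    have h1 := norm_add_le (t • (w - v)) ((t - 1) • v)
    have ht0 : 0 ≤ t := by linarith [ht.1]
    have ht1 : |t - 1| ≤ δ := by rw [_root_.abs_le]; constructor <;> linarith [ht.1, ht.2]
    rw [norm_smul, norm_smul, Real.norm_of_nonneg ht0, Real.norm_eq_abs] at h1
    have ht2 : t ≤ 3 / 2 := by linarith [ht.2]
    have h2 : t * ‖w - v‖ ≤ 3 / 2 * (ε / 4) :=
      mul_le_mul ht2 hw5.le (norm_nonneg _) (by norm_num)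
    have h3 : |t - 1| * ‖v‖ ≤ δ * (‖v‖ + 1) :=
      mul_le_mul ht1 (by linarith) (norm_nonneg _) hδ0.le
    nlinarith

/-- the face condition near the barycentre of finitely many face points -/
theorem exists_face_eps {p : X →L[ℝ] ℝ} (hp : ‖p‖ ≤ 1) {n : ℕ} (c : Fin (n + 1) → X)
    (hc : ∀ i, ‖c i‖ = 1) (hpc : ∀ i, p (c i) = 1) :
    ∃ c0 ∈ Submodule.span ℝ (range c), ‖c0‖ = 1 ∧ p c0 = 1 ∧ ∃ ε > 0,
      ∀ h ∈ Submodule.span ℝ (range c), ‖h‖ ≤ ε → p (c0 + h) = ‖c0 + h‖ := by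
  classical
  set V := Submodule.span ℝ (range c) with hV
  set A : (Fin (n + 1) → ℝ) →ₗ[ℝ] V :=
    { toFun := fun a => ⟨∑ i, a i • c i, Submodule.sum_mem _ fun i _ =>
        V.smul_mem _ (Submodule.subset_span ⟨i, rfl⟩)⟩
      map_add' := by
        intro a b
        ext
        simp only [Pi.add_apply, Submodule.coe_add, add_smul, Finset.sum_add_distrib]
      map_smul' := by
        intro r a
        ext
        simp only [Pi.smul_apply, smul_eq_mul, RingHom.id_apply, Submodule.coe_smul,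
          Finset.smul_sum, smul_smul] } with hA
  have hAcoe : ∀ a, ((A a : V) : X) = ∑ i, a i • c i := fun a => rfl
  have hAs : Function.Surjective A := by
    rintro ⟨x, hx⟩
    obtain ⟨a, ha⟩ := (Submodule.mem_span_range_iff_exists_fun ℝ).mp hx
    exact ⟨a, Subtype.ext ha⟩
  haveI : FiniteDimensional ℝ V := FiniteDimensional.span_of_finite ℝ (finite_range c)
  obtain ⟨R, hR⟩ := A.exists_rightInverse_of_surjective (LinearMap.range_eq_top.mpr hAs)
  set R' : V →L[ℝ] (Fin (n + 1) → ℝ) := LinearMap.toContinuousLinearMap R with hR'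
  have hR'R : ∀ v, R' v = R v := fun v => rfl
  set N : ℝ := (n : ℝ) + 1 with hN
  have hN0 : 0 < N := by positivity
  set c0 : X := ∑ i, (1 / N) • c i with hc0
  have hsum1 : ∑ _i : Fin (n + 1), (1 / N) = 1 := by
    rw [Finset.sum_const, Finset.card_univ, Fintype.card_fin, nsmul_eq_mul, hN]
    push_cast
    field_simp
  have hnorm_comb : ∀ b : Fin (n + 1) → ℝ, (∀ i, 0 ≤ b i) →
      p (∑ i, b i • c i) = ‖∑ i, b i • c i‖ ∧ ‖∑ i, b i • c i‖ = ∑ i, b i := by
    intro b hb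
    have h1 : p (∑ i, b i • c i) = ∑ i, b i := by
      rw [map_sum]
      refine Finset.sum_congr rfl fun i _ => ?_
      rw [map_smul, hpc, smul_eq_mul, mul_one]
    have h2 : ‖∑ i, b i • c i‖ ≤ ∑ i, b i := by
      refine (norm_sum_le _ _).trans (le_of_eq ?_)
      refine Finset.sum_congr rfl fun i _ => ?_
      rw [norm_smul, hc, mul_one, Real.norm_of_nonneg (hb i)]
    have h3 : p (∑ i, b i • c i) ≤ ‖∑ i, b i • c i‖ := apply_le_of_norm_le_one hp _
    constructor <;> linarith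
  have hc0n := hnorm_comb (fun _ => 1 / N) (fun _ => by positivity)
  refine ⟨c0, Submodule.sum_mem _ fun i _ => V.smul_mem _ (Submodule.subset_span ⟨i, rfl⟩),
    ?_, ?_, 1 / (N * (‖R'‖ + 1)), by positivity, ?_⟩
  · rw [hc0, hc0n.2, hsum1]
  · rw [hc0, hc0n.1, hc0n.2, hsum1]
  · intro h hh hhn
    have e : h = ∑ i, (R' ⟨h, hh⟩) i • c i := by
      rw [← hAcoe, hR'R, ← LinearMap.comp_apply, hR]
      rfl
    have e2 : c0 + h = ∑ i, (1 / N + (R' ⟨h, hh⟩) i) • c i := by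
      simp only [add_smul, Finset.sum_add_distrib]
      rw [← e, hc0]
    rw [e2]
    refine (hnorm_comb _ fun i => ?_).1
    have h1 : ‖(R' ⟨h, hh⟩) i‖ ≤ ‖R' ⟨h, hh⟩‖ := norm_le_pi_norm _ i
    have h2 : ‖R' ⟨h, hh⟩‖ ≤ ‖R'‖ * ‖h‖ := R'.le_opNorm _
    have h3 : ‖R'‖ * ‖h‖ ≤ (‖R'‖ + 1) * (1 / (N * (‖R'‖ + 1))) :=
      mul_le_mul (by linarith) hhn (norm_nonneg _) (by positivity)
    have h4 : (‖R'‖ + 1) * (1 / (N * (‖R'‖ + 1))) = 1 / N := by
      have : ‖R'‖ + 1 ≠ 0 := by positivity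
      field_simp
    rw [Real.norm_eq_abs] at h1
    have h5 := neg_le_of_abs_le (h1.trans (h2.trans (h3.trans h4.le)))
    linarith

end Aux

variable {X Y : Type*} [NormedAddCommGroup X] [NormedSpace ℝ X] [NormedAddCommGroup Y]
  [NormedSpace ℝ Y] {f : X → Y} {g : Y → X}

/-- passage to the closure of the subspace -/
theorem CosetFun.closure (h : SI f g) {p : X →L[ℝ] ℝ} {W : Submodule ℝ X} {m : X}
    (hm : ‖m‖ < 1) {q : Y →L[ℝ] ℝ} {s : ℝ} (hq : CosetFun f p W m q s) :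
    CosetFun f p W.topologicalClosure m q s := by
  refine ⟨hq.norm_le, fun x hx hxm => ?_⟩
  have key : ∀ ε : ℝ, 0 < ε → |p x - q (f x) - s| ≤ (‖p‖ + 1) * ε := by
    intro ε hε
    obtain ⟨x', hx', hx'm, hxx⟩ := exists_near_slice hm hx hxm hε
    have h1 := hq.rel x' hx' hx'm
    have e : p x - q (f x) - s = p (x - x') - q (f x - f x') := by
      rw [map_sub, map_sub, ← h1]; ring
    rw [e]
    have h2 : |p (x - x')| ≤ ‖p‖ * ‖x - x'‖ := p.le_opNorm _
    have h3 : |q (f x - f x')| ≤ ‖x - x'‖ := by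
      rw [← h.dist x x' hx hx']
      exact abs_apply_le_of_norm_le_one hq.norm_le _
    have h4 : |p (x - x') - q (f x - f x')| ≤ |p (x - x')| + |q (f x - f x')| := abs_sub _ _
    rw [norm_sub_rev] at hxx
    nlinarith [norm_nonneg p, norm_nonneg (x - x')]
  have h0 : |p x - q (f x) - s| ≤ 0 := by
    refine le_of_forall_pos_le_add fun ε hε => ?_
    rw [zero_add]
    have := key (ε / (‖p‖ + 1)) (by positivity)
    rwa [mul_div_cancel₀ _ (by positivity)] at this
  have := abs_nonpos_iff.mp h0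
  linarith

/-- limit of coset functionals along an increasing sequence of subspaces -/
theorem exists_cosetFun_iSup {p : X →L[ℝ] ℝ} {V : ℕ → Submodule ℝ X} (hV : Monotone V) {m x0 : X}
    (hx0 : ‖x0‖ = 1) (hx0m : x0 - m ∈ V 0) (hq : ∀ n, ∃ q s, CosetFun f p (V n) m q s) :
    ∃ q s, CosetFun f p (⨆ n, V n) m q s := by
  choose q s hqs using hq
  obtain ⟨q0, hq0, hlim⟩ := exists_ultra_limit (hyperfilter ℕ) q (fun n => (hqs n).norm_le)
  refine ⟨q0, p x0 - q0 (f x0), hq0, fun x hx hxm => ?_⟩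
  rw [Submodule.mem_iSup_of_directed _ hV.directed_le] at hxm
  obtain ⟨N, hN⟩ := hxm
  have hev : ∀ᶠ n in (hyperfilter ℕ : Filter ℕ), p x - q n (f x) = p x0 - q n (f x0) := by
    have hge : ∀ᶠ n in (hyperfilter ℕ : Filter ℕ), N ≤ n := by
      have h1 : (hyperfilter ℕ : Filter ℕ) ≤ atTop := by
        rw [← Nat.cofinite_eq_atTop]; exact hyperfilter_le_cofinite
      exact h1 (eventually_ge_atTop N)
    filter_upwards [hge] with n hn
    rw [(hqs n).rel x hx (hV hn hN), (hqs n).rel x0 hx0 (hV (Nat.zero_le n) hx0m)]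
  have h1 : Tendsto (fun n => p x - q n (f x)) (hyperfilter ℕ) (𝓝 (p x - q0 (f x))) :=
    tendsto_const_nhds.sub (hlim _)
  have h2 : Tendsto (fun n => p x0 - q n (f x0)) (hyperfilter ℕ) (𝓝 (p x0 - q0 (f x0))) :=
    tendsto_const_nhds.sub (hlim _)
  exact tendsto_nhds_unique (h1.congr' hev) h2

/-- (CC): coset functionals over the closed span of any nonempty set of face points. -/
theorem SI.cosetFun_face [TopologicalSpace.SeparableSpace X] [TopologicalSpace.SeparableSpace Y]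
    [CompleteSpace X] (h : SI f g) {p : X →L[ℝ] ℝ} (hp : ‖p‖ ≤ 1) (hcan : CanonAt f p)
    {C : Set X} (hC : ∀ c ∈ C, ‖c‖ = 1 ∧ p c = 1) (hne : C.Nonempty) {m : X} (hm : ‖m‖ < 1) :
    ∃ q s, CosetFun f p (Submodule.span ℝ C).topologicalClosure m q s := by
  obtain ⟨D, hDC, hDc, hDd⟩ :=
    (TopologicalSpace.IsSeparable.of_separableSpace C).exists_countable_dense_subset
  have hDne : D.Nonempty := by
    by_contra hD
    rw [not_nonempty_iff_eq_empty] at hD
    rw [hD, closure_empty] at hDd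
    obtain ⟨c, hc⟩ := hne
    exact hDd hc
  obtain ⟨c, hc⟩ := hDc.exists_eq_range hDne
  have hcn : ∀ i, ‖c i‖ = 1 ∧ p (c i) = 1 := fun i => hC _ (hDC (by rw [hc]; exact ⟨i, rfl⟩))
  set V : ℕ → Submodule ℝ X := fun n => Submodule.span ℝ (range fun i : Fin (n + 1) => c i)
    with hV
  have hVm : Monotone V := by
    intro a b hab
    rw [hV]
    refine Submodule.span_mono ?_
    rintro _ ⟨i, rfl⟩
    exact ⟨⟨i, by omega⟩, rfl⟩
  -- a point of the slice over `V 0`
  have hc0 : ‖c 0‖ = 1 := (hcn 0).1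
  obtain ⟨x0, hx0, hx0m⟩ : ∃ x0, ‖x0‖ = 1 ∧ x0 - m ∈ V 0 := by
    have hct : ContinuousOn (fun t : ℝ => ‖m + t • c 0‖) (Icc 0 2) := by fun_prop
    have h2 : (1 : ℝ) ≤ ‖m + (2 : ℝ) • c 0‖ := by
      have h3 : ‖(2 : ℝ) • c 0‖ ≤ ‖m + (2 : ℝ) • c 0‖ + ‖m‖ := by
        have : (2 : ℝ) • c 0 = (m + (2 : ℝ) • c 0) - m := by abel
        calc ‖(2 : ℝ) • c 0‖ = ‖(m + (2 : ℝ) • c 0) - m‖ := by rw [← this]
          _ ≤ _ := norm_sub_le _ _
      rw [norm_smul, hc0, Real.norm_of_nonneg (by norm_num)] at h3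
      linarith
    obtain ⟨t, _, ht⟩ := intermediate_value_Icc (by norm_num : (0 : ℝ) ≤ 2) hct
      (show (1 : ℝ) ∈ Icc ‖m + (0 : ℝ) • c 0‖ ‖m + (2 : ℝ) • c 0‖ from
        ⟨by rw [zero_smul, add_zero]; exact hm.le, h2⟩)
    refine ⟨m + t • c 0, ht, ?_⟩
    rw [add_sub_cancel_left]
    exact (V 0).smul_mem _ (Submodule.subset_span ⟨0, rfl⟩)
  have hstep : ∀ n, ∃ q s, CosetFun f p (V n) m q s := by
    intro n
    obtain ⟨b, hbV, hb1, _, ε, hε, HF⟩ := exists_face_eps hp (fun i : Fin (n + 1) => c i)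
      (fun i => (hcn i).1) (fun i => (hcn i).2)
    exact Crest.Agent.R074.slice h hp hbV hb1 hε HF hcan m hm
  obtain ⟨q, s, hqs⟩ := exists_cosetFun_iSup hVm hx0 hx0m hstep
  have hcl := hqs.closure h hm
  refine ⟨q, s, hcl.norm_le, fun x hx hxm => hcl.rel x hx ?_⟩
  have hle : (Submodule.span ℝ C).topologicalClosure ≤ (⨆ n, V n).topologicalClosure := by
    refine Submodule.topologicalClosure_minimal _ ?_ (Submodule.isClosed_topologicalClosure _)
    rw [Submodule.span_le]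
    intro y hy
    have hy1 : y ∈ closure D := hDd hy
    have hsub : D ⊆ ((⨆ n, V n : Submodule ℝ X) : Set X) := by
      rw [hc]
      rintro _ ⟨i, rfl⟩
      exact (le_iSup V i) (Submodule.subset_span ⟨⟨i, by omega⟩, rfl⟩)
    exact closure_mono hsub hy1
  exact hle hxm

/-- (CC) with the M2 hypothesis on the inverse. -/
theorem SI.coset_cc [TopologicalSpace.SeparableSpace X] [TopologicalSpace.SeparableSpace Y]
    [CompleteSpace X] (h : SI f g) (ho : ∀ x, ‖x‖ = 1 → f (-x) = -f x)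
    (hmid : ∀ y, ‖y‖ = 1 → Smooth y → MidAt g y) {p : X →L[ℝ] ℝ} (hp : ‖p‖ ≤ 1)
    {C : Set X} (hC : ∀ c ∈ C, ‖c‖ = 1 ∧ p c = 1) (hne : C.Nonempty) {m : X} (hm : ‖m‖ < 1) :
    ∃ q s, CosetFun f p (Submodule.span ℝ C).topologicalClosure m q s :=
  h.cosetFun_face hp (h.canonAt ho hp hmid) hC hne hm

end Crest.Agent.R074
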