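import Crest.Agent.R074.SliceCC
import Crest.Agent.R074.Blowup

/-!
Row 74 (S0099): unconditional forms of the canonical functionals (F1), the slice lemma (F2) and the
coset functionals over faces (CC).
-/

set_option autoImplicit false

namespace Crest.Agent.R074

open Metric Set Filter Topology

variable {X Y : Type*} [NormedAddCommGroup X] [NormedSpace ℝ X] [NormedAddCommGroup Y]
  [NormedSpace ℝ Y] {f : X → Y} {g : Y → X}

/-- M2 for the inverse -/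
theorem SI.hmid (h : SI f g) (ho : ∀ x, ‖x‖ = 1 → f (-x) = -f x) :
    ∀ y, ‖y‖ = 1 → Smooth y → MidAt g y :=
  fun _ hy hs => h.symm.midAt (h.odd_symm ho) hy hs

/-- F1 for every functional of norm at most one. -/
theorem SI.canonAt_all (h : SI f g) (ho : ∀ x, ‖x‖ = 1 → f (-x) = -f x) {p : X →L[ℝ] ℝ}
    (hp : ‖p‖ ≤ 1) : CanonAt f p := h.canonAt ho hp (h.hmid ho)

/-- SLICE LEMMA (F2), unconditional. -/
theorem SI.slice_fin [TopologicalSpace.SeparableSpace X] [TopologicalSpace.SeparableSpace Y]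
    [CompleteSpace X] (h : SI f g) (ho : ∀ x, ‖x‖ = 1 → f (-x) = -f x)
    {p : X →L[ℝ] ℝ} (hp : ‖p‖ ≤ 1)
    {V : Submodule ℝ X} {c : X} (hcV : c ∈ V) (hc : ‖c‖ = 1) {ε : ℝ} (hε : 0 < ε)
    (HF : ∀ h ∈ V, ‖h‖ ≤ ε → p (c + h) = ‖c + h‖) :
    ∀ m : X, ‖m‖ < 1 → ∃ q s, CosetFun f p V m q s :=
  h.slice ho (h.hmid ho) hp hcV hc hε HF

/-- (CC), unconditional. -/
theorem SI.coset_fin [TopologicalSpace.SeparableSpace X] [TopologicalSpace.SeparableSpace Y]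
    [CompleteSpace X] (h : SI f g) (ho : ∀ x, ‖x‖ = 1 → f (-x) = -f x)
    {p : X →L[ℝ] ℝ} (hp : ‖p‖ ≤ 1)
    {C : Set X} (hC : ∀ c ∈ C, ‖c‖ = 1 ∧ p c = 1) (hne : C.Nonempty) {m : X} (hm : ‖m‖ < 1) :
    ∃ q s, CosetFun f p (Submodule.span ℝ C).topologicalClosure m q s :=
  h.coset_cc ho (h.hmid ho) hp hC hne hm

end Crest.Agent.R074
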